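import Claimed.Agent.R252.S5.CluDefs

/-!
# Row 252, Sec. 5, Lemma 5.1: the finite quotient of the measure data (05 l.56-60).   CONTRACT.      (sub-architect helper183; prefix `k5a_`)   Leaf L-252-S5A-QUOT.

CONSTRUCTION.  `n = ⌈1/p⌉₊`.   good lines `Λg = {l | 1/(2K²) ≤ vol.real (k5_fib E l)}` (measurable: `measurable_measure_prodMk_left`).   `Tb l = {k < n | 0 < vol (k5_fib E l ∩ [kp, (k+1)p))}` (measurable in `l` for each `k`).
`I = (Fin 3 → Icc (-N) N) × Finset (Fin n)` (or any Fintype coding), `N = ⌈K/p⌉ + 1`;  `w (β, τ) = ν.real {l ∈ Λg | ⌊a l/p⌋ = β ∧ Tb l = τ}` if `1/(2K²p) ≤ #τ`, the other classes are EMPTY (see `long`) and can be dropped or given weight `0`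
with a dummy `τ`: simplest is `I` = the subtype of the pairs with `1/(2K² p) ≤ #τ`.
FIELDS.  `mass`: lines outside `Λg` carry `(ν ⊗ dt)(E) ≤ ν(univ)/(2K²) ≤ 1/(2K)`; fibres have length `≤ 1`: `ν(Λg) ≥ 1/(2K)`; finite measurable partition.   `long`: `vol(fib) ≤ #Tb · p`.   `bd`: `|p ⌊a/p⌋| ≤ K + p`.   `tb`: `k p < 1` since a labelled `t < 1` lies in the bin.
`vis`: `k ∈ Tb l` gives `t ∈ fib`, `⌊t/p⌋ = k`, `m = ⌊x_l(t)/p⌋`, `(k,m) ∈ Z`;  `|k5a_x p β (kp) - x_l(t)| ≤ 3p + 3(K+1)p`.   (a class of positive weight is nonempty; classes of weight `0`: drop them from `I`, or note that `vis` must hold for ALL `i`: take `I` = classes that are NONEMPTY.)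
`cap`: `∑_{|pβ - b| ≤ r} w ≤ ν {‖a l - b‖ ≤ r + p} ≤ K (2r)^d ≤ 2K r^d`.      LAST CLAIM: sum over `τ` of disjoint measurable classes.
-/

set_option autoImplicit false

namespace Claimed.Agent.R252

open MeasureTheory Set

/-! ### definitions of the quotient -/

/-- labelled length of the time bin `k` on the line `l` -/
noncomputable def k5aQlen {Λ : Type} (E : Set (Λ × ℝ)) (p : ℝ) (k : ℕ) (l : Λ) : ENNReal :=
  volume (k5_fib E l ∩ Set.Ico ((k : ℝ) * p) (((k : ℝ) + 1) * p))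

/-- the classification map: (coefficient bin, indicator of the time bins of positive labelled length) -/
noncomputable def k5aQG {Λ : Type} (a : Λ → Fin 3 → ℝ) (E : Set (Λ × ℝ)) (p : ℝ) (n : ℕ) (l : Λ) : (Fin 3 → ℤ) × (Fin n → Prop) :=
  (fun i => ⌊a l i / p⌋, fun k => 0 < k5aQlen E p k l)

/-- the good lines -/
def k5aQgood {Λ : Type} (E : Set (Λ × ℝ)) (K : ℝ) : Set Λ := {l | 1 / (2 * K ^ 2) ≤ volume.real (k5_fib E l)}

theorem k5a_q_defs_eqns_cite : True := by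
  have := @k5aQlen.eq_1
  have := @k5aQG.eq_1
  have := @k5aQgood.eq_1
  trivial

/-! ### abstract finite measurable partition -/

theorem k5a_q_sum {Λ X : Type} [MeasurableSpace Λ] [MeasurableSpace X] [MeasurableSingletonClass X] (ν : Measure Λ) [IsFiniteMeasure ν]
    (G : Λ → X) (hG : Measurable G) (A : Set Λ) (Cl : Finset X) (s : Finset {x // x ∈ Cl}) :
    ∑ i ∈ s, ν.real (G ⁻¹' {(i : X)} ∩ A) = ν.real {l | l ∈ A ∧ ∃ i ∈ s, (i : X) = G l} := by
  have key := sum_measure_preimage_singleton (μ := ν.restrict A) (s.map (Function.Embedding.subtype _)) (f := G)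
    (fun y _ => hG (measurableSet_singleton y))
  rw [Finset.sum_map, Measure.restrict_apply (hG (Finset.measurableSet _))] at key
  have e : G ⁻¹' ((s.map (Function.Embedding.subtype _) : Finset X) : Set X) ∩ A = {l | l ∈ A ∧ ∃ i ∈ s, (i : X) = G l} := by
    ext l
    simp only [mem_inter_iff, mem_preimage, Finset.mem_coe, Finset.mem_map, Function.Embedding.coe_subtype, mem_ofPred_eq]
    exact and_comm
  rw [e] at key
  simp only [measureReal_def]
  rw [← key, ENNReal.toReal_sum (fun x _ => measure_ne_top _ _)]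
  refine Finset.sum_congr rfl fun x _ => ?_
  rw [Measure.restrict_apply (hG (measurableSet_singleton _))]
  rfl

section meas

variable {Λ : Type} [MeasurableSpace Λ] {ν : Measure Λ} [IsFiniteMeasure ν] {a : Λ → Fin 3 → ℝ} {E : Set (Λ × ℝ)} {K p : ℝ}

omit [IsFiniteMeasure ν] in
theorem k5a_q_fib_meas (hE : MeasurableSet E) : Measurable fun l : Λ => volume (k5_fib E l) :=
  measurable_measure_prodMk_left hE

theorem k5a_q_len_meas (hE : MeasurableSet E) (p : ℝ) (k : ℕ) : Measurable (k5aQlen E p k) := by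
  have hs : MeasurableSet (E ∩ (Set.univ ×ˢ Set.Ico ((k : ℝ) * p) (((k : ℝ) + 1) * p))) :=
    hE.inter (MeasurableSet.univ.prod measurableSet_Ico)
  have key := measurable_measure_prodMk_left (ν := (volume : Measure ℝ)) hs
  have e : (fun l : Λ => (volume : Measure ℝ) (Prod.mk l ⁻¹' (E ∩ (Set.univ ×ˢ Set.Ico ((k : ℝ) * p) (((k : ℝ) + 1) * p))))) = k5aQlen E p k := by
    funext l
    unfold k5aQlen
    congr 1
    ext t
    simp [k5_fib]
  rw [← e]
  exact key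

theorem k5a_q_G_meas (ha : Measurable a) (hE : MeasurableSet E) (p : ℝ) (n : ℕ) : Measurable (k5aQG a E p n) := by
  refine Measurable.prodMk (measurable_pi_lambda _ fun i => ?_) (measurable_pi_lambda _ fun k => ?_)
  · exact (((measurable_pi_apply i).comp ha).div_const p).floor
  · exact measurableSet_setOfPred.1 (measurableSet_lt measurable_const (k5a_q_len_meas hE p k))

theorem k5a_q_good_meas (hE : MeasurableSet E) (K : ℝ) : MeasurableSet (k5aQgood E K) :=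
  measurableSet_le measurable_const (k5a_q_fib_meas hE).ennreal_toReal

omit [MeasurableSpace Λ] in
theorem k5a_q_fib_le (hE01 : ∀ l t, (l, t) ∈ E → 0 ≤ t ∧ t < 1) (l : Λ) : volume (k5_fib E l) ≤ 1 := by
  have hsub : k5_fib E l ⊆ Set.Ico (0 : ℝ) 1 := fun t ht => hE01 l t ht
  refine (measure_mono hsub).trans ?_
  rw [Real.volume_Ico]
  simp

theorem k5a_q_mass (hE : MeasurableSet E) (hK : 1 ≤ K) (hν : ν.real univ ≤ K) (hE01 : ∀ l t, (l, t) ∈ E → 0 ≤ t ∧ t < 1)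
    (hm : 1 / K ≤ k5_mass ν E) : 1 / (2 * K) ≤ ν.real (k5aQgood E K) := by
  have hK0 : 0 < K := by linarith
  have hG := k5a_q_good_meas (Λ := Λ) hE K
  have e1 : (ν.prod volume) E = ∫⁻ l, volume (k5_fib E l) ∂ν := Measure.prod_apply hE
  have e2 : ∫⁻ l, volume (k5_fib E l) ∂ν = ∫⁻ l in k5aQgood E K, volume (k5_fib E l) ∂ν + ∫⁻ l in (k5aQgood E K)ᶜ, volume (k5_fib E l) ∂ν :=
    (lintegral_add_compl _ hG).symm
  have b1 : ∫⁻ l in k5aQgood E K, volume (k5_fib E l) ∂ν ≤ ν (k5aQgood E K) := by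
    calc ∫⁻ l in k5aQgood E K, volume (k5_fib E l) ∂ν ≤ ∫⁻ _l in k5aQgood E K, 1 ∂ν := lintegral_mono fun l => k5a_q_fib_le hE01 l
      _ = ν (k5aQgood E K) := setLIntegral_one _
  have b2 : ∫⁻ l in (k5aQgood E K)ᶜ, volume (k5_fib E l) ∂ν ≤ ENNReal.ofReal (1 / (2 * K ^ 2)) * ν univ := by
    calc ∫⁻ l in (k5aQgood E K)ᶜ, volume (k5_fib E l) ∂ν ≤ ∫⁻ _l in (k5aQgood E K)ᶜ, ENNReal.ofReal (1 / (2 * K ^ 2)) ∂ν := by
          refine setLIntegral_mono' hG.compl fun l hl => ?_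
          have hl' : volume.real (k5_fib E l) < 1 / (2 * K ^ 2) := not_le.1 hl
          have hfin : volume (k5_fib E l) ≠ ⊤ := ne_top_of_le_ne_top ENNReal.one_ne_top (k5a_q_fib_le hE01 l)
          rw [← ENNReal.ofReal_toReal hfin]
          exact ENNReal.ofReal_le_ofReal hl'.le
      _ = ENNReal.ofReal (1 / (2 * K ^ 2)) * ν (k5aQgood E K)ᶜ := setLIntegral_const _ _
      _ ≤ ENNReal.ofReal (1 / (2 * K ^ 2)) * ν univ := mul_le_mul_right (measure_mono (subset_univ _)) _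
  have b3 : (ν.prod volume) E ≤ ν (k5aQgood E K) + ENNReal.ofReal (1 / (2 * K ^ 2)) * ν univ := by
    rw [e1, e2]
    exact add_le_add b1 b2
  have b4 : k5_mass ν E ≤ ν.real (k5aQgood E K) + 1 / (2 * K ^ 2) * ν.real univ := by
    unfold k5_mass
    simp only [measureReal_def]
    have := ENNReal.toReal_mono (ENNReal.add_ne_top.2 ⟨measure_ne_top _ _, ENNReal.mul_ne_top ENNReal.ofReal_ne_top (measure_ne_top _ _)⟩) b3
    rw [ENNReal.toReal_add (measure_ne_top _ _) (ENNReal.mul_ne_top ENNReal.ofReal_ne_top (measure_ne_top _ _)), ENNReal.toReal_mul,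
      ENNReal.toReal_ofReal (by positivity)] at this
    exact this
  have b5 : 1 / (2 * K ^ 2) * ν.real univ ≤ 1 / (2 * K) := by
    calc 1 / (2 * K ^ 2) * ν.real univ ≤ 1 / (2 * K ^ 2) * K := mul_le_mul_of_nonneg_left hν (by positivity)
      _ = 1 / (2 * K) := by field_simp
  have e3 : 1 / K = 1 / (2 * K) + 1 / (2 * K) := by
    field_simp
    norm_num
  linarith

omit [MeasurableSpace Λ] in
theorem k5a_q_long (hp : 0 < p) (hE01 : ∀ l t, (l, t) ∈ E → 0 ≤ t ∧ t < 1) (n : ℕ) (hn : 1 ≤ (n : ℝ) * p) (l : Λ)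
    (q : Fin n → Prop) [DecidablePred q] (hq : ∀ k : Fin n, q k ↔ 0 < k5aQlen E p k l) :
    volume.real (k5_fib E l) ≤ ((Finset.univ.filter q).card : ℝ) * p := by
  have hcov : k5_fib E l ⊆ ⋃ k : Fin n, k5_fib E l ∩ Set.Ico (((k : ℕ) : ℝ) * p) ((((k : ℕ) : ℝ) + 1) * p) := by
    intro t ht
    obtain ⟨t0, t1⟩ := hE01 l t ht
    have h0 : 0 ≤ t / p := div_nonneg t0 hp.le
    have h1 : (⌊t / p⌋₊ : ℝ) ≤ t / p := Nat.floor_le h0
    have h2 : t / p < (⌊t / p⌋₊ : ℝ) + 1 := Nat.lt_floor_add_one _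
    have h3 : ⌊t / p⌋₊ < n := by
      have : (⌊t / p⌋₊ : ℝ) < n := by
        refine lt_of_le_of_lt h1 ?_
        rw [div_lt_iff₀ hp]
        linarith
      exact_mod_cast this
    rw [mem_iUnion]
    refine ⟨⟨⌊t / p⌋₊, h3⟩, ht, ?_, ?_⟩
    · exact (le_div_iff₀ hp).1 h1
    · exact (div_lt_iff₀ hp).1 h2
  have b1 : volume (k5_fib E l) ≤ ∑ k : Fin n, k5aQlen E p k l :=
    (measure_mono hcov).trans (measure_iUnion_fintype_le _ _)
  have b2 : ∑ k : Fin n, k5aQlen E p k l = ∑ k with q k, k5aQlen E p k l :=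
    (Finset.sum_filter_of_ne fun k _ h => (hq k).2 (pos_iff_ne_zero.2 h)).symm
  have b3 : ∑ k with q k, k5aQlen E p k l ≤ (Finset.univ.filter q).card • ENNReal.ofReal p := by
    refine Finset.sum_le_card_nsmul _ _ _ fun k _ => ?_
    unfold k5aQlen
    refine (measure_mono inter_subset_right).trans ?_
    rw [Real.volume_Ico]
    apply ENNReal.ofReal_le_ofReal
    linarith
  have b4 := b1.trans (b2.le.trans b3)
  rw [nsmul_eq_mul] at b4
  have b5 := ENNReal.toReal_mono (ENNReal.mul_ne_top (ENNReal.natCast_ne_top _) ENNReal.ofReal_ne_top) b4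
  rw [ENNReal.toReal_mul, ENNReal.toReal_natCast, ENNReal.toReal_ofReal hp.le] at b5
  exact b5

omit [MeasurableSpace Λ] in
theorem k5a_q_bin_pt {k : ℕ} {l : Λ} (h : 0 < k5aQlen E p k l) : ∃ t, (l, t) ∈ E ∧ (k : ℝ) * p ≤ t ∧ t < ((k : ℝ) + 1) * p := by
  obtain ⟨t, ht, h1, h2⟩ := nonempty_of_measure_ne_zero h.ne'
  exact ⟨t, ht, h1, h2⟩

end meas

/-! ### real arithmetic -/

theorem k5a_q_floor (p c : ℝ) (hp : 0 < p) : p * (⌊c / p⌋ : ℝ) ≤ c ∧ c < p * (⌊c / p⌋ : ℝ) + p := by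
  have h1 := Int.floor_le (c / p)
  have h2 := Int.lt_floor_add_one (c / p)
  rw [le_div_iff₀ hp] at h1
  rw [div_lt_iff₀ hp] at h2
  constructor <;> nlinarith

theorem k5a_q_mem_Icc (x : ℝ) (n : ℤ) (hn : |(n : ℝ)| ≤ x + 1) : n ∈ Set.Icc (-(⌈x⌉ + 1)) (⌈x⌉ + 1) := by
  have hc := Int.le_ceil x
  rw [abs_le] at hn
  constructor
  · have : ((-(⌈x⌉ + 1) : ℤ) : ℝ) ≤ n := by
      push_cast
      linarith
    exact_mod_cast this
  · have : (n : ℝ) ≤ ((⌈x⌉ + 1 : ℤ) : ℝ) := by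
      push_cast
      linarith
    exact_mod_cast this

theorem k5a_q_vis {K p : ℝ} (hK : 1 ≤ K) (hp : 0 < p) (c : Fin 3 → ℝ) (hc : ∀ i, |c i| ≤ K) (k : ℕ) (t : ℝ)
    (h0 : (k : ℝ) * p ≤ t) (h1 : t < ((k : ℝ) + 1) * p) (ht1 : t < 1) :
    ⌊t / p⌋ = (k : ℤ) ∧
      |k5a_x p (fun i => ⌊c i / p⌋) ((k : ℝ) * p) - (⌊(c 0 + t * c 1 + t ^ 2 * c 2) / p⌋ : ℝ) * p| ≤ 7 * K * p := by
  constructor
  · rw [Int.floor_eq_iff]
    constructor
    · rw [le_div_iff₀ hp]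
      exact_mod_cast h0
    · rw [div_lt_iff₀ hp]
      exact_mod_cast h1
  · obtain ⟨a0, a0'⟩ := k5a_q_floor p (c 0) hp
    obtain ⟨a1, a1'⟩ := k5a_q_floor p (c 1) hp
    obtain ⟨a2, a2'⟩ := k5a_q_floor p (c 2) hp
    obtain ⟨m0, m0'⟩ := k5a_q_floor p (c 0 + t * c 1 + t ^ 2 * c 2) hp
    unfold k5a_x
    obtain ⟨s, hs⟩ : ∃ s : ℝ, s = (k : ℝ) * p := ⟨_, rfl⟩
    rw [← hs] at h0 ⊢
    have hs0 : 0 ≤ s := by
      rw [hs]
      positivity
    have hs1 : s ≤ 1 := by linarith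
    have hu : t - s < p := by
      rw [hs]
      linarith
    obtain ⟨e0, he0⟩ : ∃ e : ℝ, e = p * (⌊c 0 / p⌋ : ℝ) - c 0 := ⟨_, rfl⟩
    obtain ⟨e1, he1⟩ : ∃ e : ℝ, e = p * (⌊c 1 / p⌋ : ℝ) - c 1 := ⟨_, rfl⟩
    obtain ⟨e2, he2⟩ : ∃ e : ℝ, e = p * (⌊c 2 / p⌋ : ℝ) - c 2 := ⟨_, rfl⟩
    obtain ⟨f, hf⟩ : ∃ f : ℝ, f = c 0 + t * c 1 + t ^ 2 * c 2 - p * (⌊(c 0 + t * c 1 + t ^ 2 * c 2) / p⌋ : ℝ) := ⟨_, rfl⟩
    have key : p * (⌊c 0 / p⌋ : ℝ) + s * (p * (⌊c 1 / p⌋ : ℝ)) + s ^ 2 * (p * (⌊c 2 / p⌋ : ℝ)) -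
        (⌊(c 0 + t * c 1 + t ^ 2 * c 2) / p⌋ : ℝ) * p = e0 + s * e1 + s ^ 2 * e2 - (t - s) * c 1 - (t - s) * ((s + t) * c 2) + f := by
      rw [he0, he1, he2, hf]
      ring
    rw [key]
    have q0 : |e0| ≤ p := by
      rw [abs_le]
      constructor <;> linarith
    have q1 : |e1| ≤ p := by
      rw [abs_le]
      constructor <;> linarith
    have q2 : |e2| ≤ p := by
      rw [abs_le]
      constructor <;> linarith
    have qf : |f| ≤ p := by
      rw [abs_le]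
      constructor <;> linarith
    have r1 : |s * e1| ≤ p := by
      rw [abs_mul, abs_of_nonneg hs0]
      calc s * |e1| ≤ 1 * p := mul_le_mul hs1 q1 (abs_nonneg _) zero_le_one
        _ = p := one_mul _
    have r2 : |s ^ 2 * e2| ≤ p := by
      rw [abs_mul, abs_of_nonneg (by positivity)]
      have : s ^ 2 ≤ 1 := by nlinarith
      calc s ^ 2 * |e2| ≤ 1 * p := mul_le_mul this q2 (abs_nonneg _) zero_le_one
        _ = p := one_mul _
    have r3 : |(t - s) * c 1| ≤ p * K := by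
      rw [abs_mul, abs_of_nonneg (by linarith)]
      exact mul_le_mul hu.le (hc 1) (abs_nonneg _) hp.le
    have r4 : |(t - s) * ((s + t) * c 2)| ≤ p * (2 * K) := by
      rw [abs_mul, abs_of_nonneg (by linarith), abs_mul, abs_of_nonneg (by linarith)]
      refine mul_le_mul hu.le ?_ (mul_nonneg (by linarith) (abs_nonneg _)) hp.le
      exact mul_le_mul (by linarith) (hc 2) (abs_nonneg _) (by norm_num)
    have tri : |e0 + s * e1 + s ^ 2 * e2 - (t - s) * c 1 - (t - s) * ((s + t) * c 2) + f| ≤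
        |e0| + |s * e1| + |s ^ 2 * e2| + |(t - s) * c 1| + |(t - s) * ((s + t) * c 2)| + |f| := by
      refine (abs_add_le _ _).trans (add_le_add_left ?_ _)
      refine (abs_sub _ _).trans (add_le_add_left ?_ _)
      refine (abs_sub _ _).trans (add_le_add_left ?_ _)
      refine (abs_add_le _ _).trans (add_le_add_left ?_ _)
      exact abs_add_le _ _
    have : p ≤ K * p := by nlinarith
    nlinarith

theorem k5a_q_abs_floor (x : ℝ) : |((⌊x⌋ : ℤ) : ℝ)| ≤ |x| + 1 := by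
  have h1 := Int.floor_le x
  have h2 := Int.lt_floor_add_one x
  rw [abs_le]
  constructor
  · have := neg_abs_le x
    linarith
  · have := le_abs_self x
    linarith

theorem k5a_quot : ∃ C : ℝ, 1 ≤ C ∧ ∀ (d : ℝ) (Λ : Type) [MeasurableSpace Λ] (ν : Measure Λ) [IsFiniteMeasure ν] (a : Λ → Fin 3 → ℝ)
      (E : Set (Λ × ℝ)) (K p : ℝ) (Z : Finset (ℤ × ℤ)), 0 ≤ d → d < 1 → Measurable a → MeasurableSet E → 1 ≤ K → 0 < p → p ≤ 1 → ν.real univ ≤ K →
      (∀ l, ‖a l‖ ≤ K) → (∀ l t, (l, t) ∈ E → 0 ≤ t ∧ t < 1) → 1 / K ≤ k5_mass ν E →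
      (Z.card : ℝ) ≤ K * p ^ (-1 - d) →
      (∀ l t, (l, t) ∈ E → (⌊t / p⌋, ⌊(a l 0 + t * a l 1 + t ^ 2 * a l 2) / p⌋) ∈ Z) →
      (∀ (r : ℝ) (b : Fin 3 → ℝ), p ≤ r → ν.real {l | ‖a l - b‖ ≤ r} ≤ K * r ^ d) →
      ∃ (I : Type) (_ : Fintype I) (w : I → ℝ) (β : I → Fin 3 → ℤ) (τ : I → Finset ℕ), k5a_Fin d (C * K ^ C) p w β τ Z ∧
        ∀ B : Fin 3 → ℤ, ∑ i with β i = B, w i
          ≤ ν.real {l | (∀ i, ⌊a l i / p⌋ = B i) ∧ 1 / (2 * K ^ 2) ≤ volume.real (k5_fib E l)} := by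
  refine ⟨7, by norm_num, ?_⟩
  intro d Λ _ ν _ a E K p Z hd0 hd1 ha hE hK hp hp1 hν hab hE01 hm hZ hvis hcap
  classical
  have hK0 : 0 < K := by linarith
  obtain ⟨Kc, hKc⟩ : ∃ Kc : ℝ, Kc = (7 : ℝ) * K ^ (7 : ℝ) := ⟨_, rfl⟩
  rw [← hKc]
  have hKc' : Kc = 7 * K ^ 7 := by rw [hKc, Real.rpow_ofNat]
  have c1 : 7 * K ≤ Kc := by
    rw [hKc']
    have : K ^ 1 ≤ K ^ 7 := pow_le_pow_right₀ hK (by norm_num)
    linarith
  have c2 : 7 * K ^ 2 ≤ Kc := by
    rw [hKc']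
    have : K ^ 2 ≤ K ^ 7 := pow_le_pow_right₀ hK (by norm_num)
    linarith
  have hKc0 : 0 < Kc := by linarith
  obtain ⟨n, hn⟩ : ∃ n : ℕ, 1 ≤ (n : ℝ) * p := ⟨⌈1 / p⌉₊, by
    have := Nat.le_ceil (1 / p)
    rwa [div_le_iff₀ hp] at this⟩
  have hG := k5a_q_G_meas ha hE p n
  have hac : ∀ l i, |a l i| ≤ K := fun l i => (norm_le_pi_norm (a l) i).trans (hab l)
  have hfin : {x | ∃ l ∈ k5aQgood E K, k5aQG a E p n l = x}.Finite := by
    refine Set.Finite.subset (Set.Finite.prod (Set.Finite.pi fun _ : Fin 3 => Set.finite_Icc (-(⌈K / p⌉ + 1)) (⌈K / p⌉ + 1))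
      (Set.finite_univ (α := Fin n → Prop))) ?_
    rintro x ⟨l, -, rfl⟩
    refine ⟨fun i _ => k5a_q_mem_Icc _ _ ?_, mem_univ _⟩
    refine (k5a_q_abs_floor _).trans ?_
    rw [abs_div, abs_of_pos hp]
    have := div_le_div_of_nonneg_right (hac l i) hp.le
    linarith
  obtain ⟨Cl, hCl⟩ : ∃ Cl : Finset ((Fin 3 → ℤ) × (Fin n → Prop)), ∀ x, x ∈ Cl ↔ ∃ l ∈ k5aQgood E K, k5aQG a E p n l = x :=
    ⟨hfin.toFinset, fun x => by rw [Set.Finite.mem_toFinset]; rfl⟩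
  have rep : ∀ i : {x // x ∈ Cl}, ∃ l ∈ k5aQgood E K, (i.1.1 = fun j => ⌊a l j / p⌋) ∧
      ∀ k : Fin n, i.1.2 k ↔ 0 < k5aQlen E p k l := by
    intro i
    obtain ⟨l, hl, hGl⟩ := (hCl _).1 i.2
    refine ⟨l, hl, ?_, fun k => ?_⟩
    · rw [← hGl]
      rfl
    · rw [← hGl]
      rfl
  refine ⟨{x // x ∈ Cl}, Finset.Subtype.fintype Cl, fun i => ν.real (k5aQG a E p n ⁻¹' {i.1} ∩ k5aQgood E K), fun i => i.1.1,
    fun i => (Finset.univ.filter fun k : Fin n => i.1.2 k).map Fin.valEmbedding, ?_, ?_⟩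
  · refine ⟨fun i => measureReal_nonneg, ?_, ?_, ?_, ?_, ?_, ?_, ?_⟩
    · -- mass
      rw [k5a_q_sum ν _ hG (k5aQgood E K) Cl Finset.univ]
      have e : {l | l ∈ k5aQgood E K ∧ ∃ i ∈ (Finset.univ : Finset {x // x ∈ Cl}), (i : (Fin 3 → ℤ) × (Fin n → Prop)) = k5aQG a E p n l} =
          k5aQgood E K := by
        ext l
        constructor
        · exact fun h => h.1
        · intro hl
          exact ⟨hl, ⟨k5aQG a E p n l, (hCl _).2 ⟨l, hl, rfl⟩⟩, Finset.mem_univ _, rfl⟩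
      rw [e]
      refine le_trans ?_ (k5a_q_mass hE hK hν hE01 hm)
      exact one_div_le_one_div_of_le (by positivity) (by linarith)
    · -- bd
      intro i k
      obtain ⟨l, -, h1, -⟩ := rep i
      show |p * ((i.1.1 k : ℤ) : ℝ)| ≤ Kc
      rw [h1]
      obtain ⟨f1, f2⟩ := k5a_q_floor p (a l k) hp
      have := abs_le.1 (hac l k)
      rw [abs_le]
      constructor <;> linarith [this.1, this.2]
    · -- tb
      intro i k hk
      obtain ⟨l, -, -, h2⟩ := rep i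
      obtain ⟨k', hk', rfl⟩ := Finset.mem_map.1 hk
      obtain ⟨t, ht, t0, -⟩ := k5a_q_bin_pt ((h2 k').1 (Finset.mem_filter.1 hk').2)
      have := (hE01 l t ht).2
      show ((k' : ℕ) : ℝ) * p ≤ 1
      linarith
    · -- long
      intro i
      obtain ⟨l, hl, -, h2⟩ := rep i
      show 1 / (Kc * p) ≤ (((Finset.univ.filter fun k : Fin n => i.1.2 k).map Fin.valEmbedding).card : ℝ)
      rw [Finset.card_map]
      have h3 := k5a_q_long hp hE01 n hn l (fun k => i.1.2 k) h2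
      have h4 : 1 / (2 * K ^ 2) ≤ ((Finset.univ.filter fun k : Fin n => i.1.2 k).card : ℝ) * p := le_trans hl h3
      rw [div_le_iff₀ (by positivity)] at h4 ⊢
      have h5 : 0 ≤ ((Finset.univ.filter fun k : Fin n => i.1.2 k).card : ℝ) * p := by positivity
      nlinarith
    · -- cnt
      exact hZ.trans (mul_le_mul_of_nonneg_right (by linarith) (Real.rpow_nonneg hp.le _))
    · -- vis
      intro i k hk
      obtain ⟨l, -, h1, h2⟩ := rep i
      obtain ⟨k', hk', rfl⟩ := Finset.mem_map.1 hk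
      obtain ⟨t, ht, t0, t1⟩ := k5a_q_bin_pt ((h2 k').1 (Finset.mem_filter.1 hk').2)
      obtain ⟨f1, f2⟩ := k5a_q_vis hK hp (a l) (hac l) k' t t0 t1 (hE01 l t ht).2
      have hz := hvis l t ht
      rw [f1] at hz
      refine ⟨_, hz, ?_⟩
      show |k5a_x p i.1.1 (((k' : ℕ) : ℝ) * p) - _| ≤ _
      rw [h1]
      exact f2.trans (mul_le_mul_of_nonneg_right c1 hp.le)
    · -- cap
      intro r b hr
      have hr0 : 0 < r := lt_of_lt_of_le hp hr
      rw [k5a_q_sum ν _ hG (k5aQgood E K) Cl]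
      refine (measureReal_mono ?_).trans ((hcap (r + p) b (by linarith)).trans ?_)
      · rintro l ⟨-, i, hi, hil⟩
        have hb : ∀ k, |p * ((i.1.1 k : ℤ) : ℝ) - b k| ≤ r := (Finset.mem_filter.1 hi).2
        show ‖a l - b‖ ≤ r + p
        rw [pi_norm_le_iff_of_nonneg (by linarith)]
        intro k
        rw [Real.norm_eq_abs, Pi.sub_apply]
        have hk := hb k
        rw [hil] at hk
        have hk' : |p * ((⌊a l k / p⌋ : ℤ) : ℝ) - b k| ≤ r := hk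
        obtain ⟨f1, f2⟩ := k5a_q_floor p (a l k) hp
        rw [abs_le] at hk' ⊢
        constructor <;> linarith [hk'.1, hk'.2]
      · have e1 : (r + p) ^ d ≤ (2 * r) ^ d := Real.rpow_le_rpow (by linarith) (by linarith) hd0
        have e2 : (2 * r) ^ d = 2 ^ d * r ^ d := Real.mul_rpow (by norm_num) hr0.le
        have e3 : (2 : ℝ) ^ d ≤ 2 := by
          calc (2 : ℝ) ^ d ≤ 2 ^ (1 : ℝ) := Real.rpow_le_rpow_of_exponent_le (by norm_num) hd1.le
            _ = 2 := Real.rpow_one _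
        have e4 : 0 ≤ r ^ d := Real.rpow_nonneg hr0.le _
        calc K * (r + p) ^ d ≤ K * (2 * r ^ d) := by
              refine mul_le_mul_of_nonneg_left ?_ hK0.le
              rw [e2] at e1
              exact e1.trans (mul_le_mul_of_nonneg_right e3 e4)
          _ = 2 * K * r ^ d := by ring
          _ ≤ Kc * r ^ d := mul_le_mul_of_nonneg_right (by linarith) e4
  · intro B
    rw [k5a_q_sum ν _ hG (k5aQgood E K) Cl]
    refine measureReal_mono ?_
    rintro l ⟨hl, i, hi, hil⟩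
    refine ⟨fun j => ?_, hl⟩
    have hB : i.1.1 = B := (Finset.mem_filter.1 hi).2
    rw [← hB, hil]
    rfl

end Claimed.Agent.R252
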