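import Claimed.Agent.R252.S5.CluFin
import Claimed.Agent.R252.S5.CluQuot

/-!
# Row 252, Sec. 5: Lemma 5.1, exit of the interior.   CONTRACT (glue).      (sub-architect helper183; prefix `k5a_`)   Leaf L-252-S5A-CLU.
`k5a_cluster_pf` = the statement of `k5_cluster` (`S5/Contract.lean`) verbatim.   From `k5a_quot` and `k5a_fin d ε` (compose the constants: `K₁ = C₁ K^C₁`, `C₂ K₁^C₂ ≤ C K^C`, real powers).
-/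

set_option autoImplicit false

namespace Claimed.Agent.R252

open MeasureTheory Set

theorem k5a_cluster_pf (d ε : ℝ) (hd0 : 0 ≤ d) (hd : d < 1) (hε : 0 < ε) :
    ∃ C : ℝ, 1 ≤ C ∧ ∀ (Λ : Type) [MeasurableSpace Λ] (ν : Measure Λ) [IsFiniteMeasure ν] (a : Λ → Fin 3 → ℝ)
      (E : Set (Λ × ℝ)) (K p : ℝ), Measurable a → MeasurableSet E → 1 ≤ K → 0 < p → p ≤ 1 → ν.real univ ≤ K →
      (∀ l, ‖a l‖ ≤ K) → (∀ l t, (l, t) ∈ E → 0 ≤ t ∧ t < 1) → 1 / K ≤ k5_mass ν E →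
      (∃ Z : Finset (ℤ × ℤ), (Z.card : ℝ) ≤ K * p ^ (-1 - d) ∧
        ∀ l t, (l, t) ∈ E → (⌊t / p⌋, ⌊(a l 0 + t * a l 1 + t ^ 2 * a l 2) / p⌋) ∈ Z) →
      (∀ (r : ℝ) (b : Fin 3 → ℝ), p ≤ r → ν.real {l | ‖a l - b‖ ≤ r} ≤ K * r ^ d) →
      ∃ B : Fin 3 → ℤ, p ^ (d + ε) / (C * K ^ C)
        ≤ ν.real {l | (∀ i, ⌊a l i / p⌋ = B i) ∧ 1 / (2 * K ^ 2) ≤ volume.real (k5_fib E l)} := by
  obtain ⟨C₁, hC₁, H₁⟩ := k5a_quot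
  obtain ⟨C₂, hC₂, H₂⟩ := k5a_fin d ε hd0 hd hε
  have hC₁0 : 0 < C₁ := by linarith
  have hC₂0 : 0 < C₂ := by linarith
  have hpw : 1 ≤ C₁ ^ C₂ := Real.one_le_rpow hC₁ hC₂0.le
  refine ⟨C₂ * C₁ ^ C₂ + C₁ * C₂, by nlinarith, ?_⟩
  intro Λ _ ν _ a E K p ha hE hK hp hp1 hν hab hEt hmass hZ hcap
  obtain ⟨Z, hZc, hZm⟩ := hZ
  obtain ⟨I, instI, w, β, τ, hFin, hsum⟩ := H₁ d Λ ν a E K p Z hd0 hd ha hE hK hp hp1 hν hab hEt hmass hZc hZm hcap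
  have hK0 : 0 < K := by linarith
  have hKC₁ : 1 ≤ K ^ C₁ := Real.one_le_rpow hK hC₁0.le
  have hK₁ : 1 ≤ C₁ * K ^ C₁ := by nlinarith
  obtain ⟨B, hB⟩ := H₂ I (C₁ * K ^ C₁) p w β τ Z hK₁ hp hp1 hFin
  refine ⟨B, le_trans ?_ (hB.trans (hsum B))⟩
  have e1 : C₂ * (C₁ * K ^ C₁) ^ C₂ = C₂ * C₁ ^ C₂ * K ^ (C₁ * C₂) := by
    rw [Real.mul_rpow hC₁0.le (by positivity), ← Real.rpow_mul hK0.le]
    ring
  have hle : C₂ * (C₁ * K ^ C₁) ^ C₂ ≤ (C₂ * C₁ ^ C₂ + C₁ * C₂) * K ^ (C₂ * C₁ ^ C₂ + C₁ * C₂) := by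
    rw [e1]
    have h1 : K ^ (C₁ * C₂) ≤ K ^ (C₂ * C₁ ^ C₂ + C₁ * C₂) :=
      Real.rpow_le_rpow_of_exponent_le hK (by nlinarith)
    exact mul_le_mul (by nlinarith) h1 (by positivity) (by positivity)
  have hpos : 0 < C₂ * (C₁ * K ^ C₁) ^ C₂ := by positivity
  exact div_le_div_of_nonneg_left (by positivity) hpos hle

end Claimed.Agent.R252
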