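import Claimed.Agent.R255.Ent.Basic

/-!
# Row 252 (Kakeya in R^4), Sec. 5 (scalar concentration and polynomial fitting): DEFINITIONS      (architect helper55; prefix `k5_`)

MODEL.  Trajectories `l : Λ` (any measurable space, prior `ν`), coefficients `c l : k5_Co j` (`x_l` quadratic, `y_l` affine in `ℝ^j`), time = Lebesgue measure on `[0,1)`,
labels = ONE measurable set `E ⊆ Λ × ℝ` (`(l,t) ∈ E` iff `t ∈ E_l`), row `F : ℝ → Fin j → ℝ` acting by `⬝ᵥ`.   Norms = sup norms.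
ONE scale, explicit slack `K ≥ 1`, floor `ζ`.

KEY REFORMULATION (differs from the paper, simpler): all entropy arguments are run at a FIXED tuple of times.  At fixed times the only random object is the trajectory,
so the paper's `H(· | T, ·)` on a dense event of the tuple experiment becomes `H(· | ·)` under `ν(· | A)`, `A` = a set of trajectories labelled at the tested times, and `o_*` becomes
`C (1 + log K) + log (1/ν(A))`.  A finite quotient of `(Λ, ν)` (file `Quot`) reduces this to `R255.FLaw` on a `Fintype`.   The time tree is replaced by ONE offset `θ_k ∈ [0,1)` per level: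
the partner of `t` at the level `k` is `w_k t = H_k ⌊t / H_k⌋ + θ_k H_k`, so all rows are functions of the root time.

`k5_Tm` = the hypotheses of Definition 5.2 that live at ONE time `t` (support count, absolute cap, bin cap), stated for an abstract mass function `m : Set Λ → ℝ`
(`m = ν.real` in the measure model, `m = k5_pm P` in the finite model).
-/

set_option autoImplicit false

namespace Claimed.Agent.R252

open MeasureTheory Set
open Claimed.Agent.R255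
open scoped BigOperators

/-- coefficients of one trajectory: `x = c.1 0 + t c.1 1 + t² c.1 2`, `y = c.2 0 + t c.2 1` -/
abbrev k5_Co (j : ℕ) : Type := (Fin 3 → ℝ) × (Fin 2 → Fin j → ℝ)

variable {j : ℕ}

/-- the quadratic signal -/
def k5_x (c : k5_Co j) (t : ℝ) : ℝ := c.1 0 + t * c.1 1 + t ^ 2 * c.1 2

/-- the `i`-th derivative of the quadratic signal -/
def k5_xD (i : ℕ) (c : k5_Co j) (t : ℝ) : ℝ :=
  match i with
  | 0 => k5_x c t
  | 1 => c.1 1 + 2 * t * c.1 2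
  | 2 => 2 * c.1 2
  | _ => 0

/-- the affine tangential signal -/
def k5_y (c : k5_Co j) (t : ℝ) : Fin j → ℝ := fun a => c.2 0 a + t * c.2 1 a

/-- its velocity -/
def k5_yd (c : k5_Co j) : Fin j → ℝ := c.2 1

/-- the residual scalar `S = x(t) - f y(t)` (`f` = the VALUE of the row at `t`) -/
def k5_S (f : Fin j → ℝ) (c : k5_Co j) (t : ℝ) : ℝ := k5_x c t - f ⬝ᵥ k5_y c t

/-- the residual slope `R = x'(t) - f y'` -/
def k5_R (f : Fin j → ℝ) (c : k5_Co j) (t : ℝ) : ℝ := k5_xD 1 c t - f ⬝ᵥ k5_yd c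

/-- the jet of order `i` : `J_i = x^(i)(t) - g y(t) - i f y'`  (`g = F_i(t)`, `f = F_(i-1)(t)`) -/
def k5_J (i : ℕ) (g f : Fin j → ℝ) (c : k5_Co j) (t : ℝ) : ℝ :=
  k5_xD i c t - g ⬝ᵥ k5_y c t - (i : ℝ) * (f ⬝ᵥ k5_yd c)

/-- the cell of the mesh `q` -/
noncomputable def k5_bin (q s : ℝ) : ℤ := ⌊s / q⌋

/-- the cell of a vector -/
noncomputable def k5_vbin (q : ℝ) (v : Fin j → ℝ) : Fin j → ℤ := fun a => ⌊v a / q⌋

/-- the coefficient bin `l_r` -/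
noncomputable def k5_cbin (r : ℝ) (c : k5_Co j) : (Fin 3 → ℤ) × (Fin 2 → Fin j → ℤ) :=
  (fun i => ⌊c.1 i / r⌋, fun i a => ⌊c.2 i a / r⌋)

/-- the position `(x(t), y(t))` lies in the closed cube of side `q` with lower corner `(a, e)` -/
def k5_InQ (q a : ℝ) (e : Fin j → ℝ) (c : k5_Co j) (t : ℝ) : Prop :=
  a ≤ k5_x c t ∧ k5_x c t ≤ a + q ∧ ∀ b, e b ≤ k5_y c t b ∧ k5_y c t b ≤ e b + q

/-- dyadic scales above the floor -/
def k5_Dy (ζ : ℝ) : Set ℝ := {r | ζ ≤ r ∧ ∃ i : ℕ, r = (1 / 2 : ℝ) ^ i}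

/-- **the hypotheses of Definition 5.2 at ONE time** `t`, row value `f`, labelled set `G`, mass function `m`;  the bin cap is assumed at the scales `r ∈ Rs` -/
structure k5_Tm {Λ : Type} (j : ℕ) (d K ζ : ℝ) (Rs : Set ℝ) (m : Set Λ → ℝ) (c : Λ → k5_Co j) (t : ℝ)
    (f : Fin j → ℝ) (G : Set Λ) : Prop where
  z0 : 0 < ζ
  t0 : 0 ≤ t
  t1 : t ≤ 1
  fb : ‖f‖ ≤ K
  supp : ∀ q r a : ℝ, ζ ≤ q → q ≤ r → r ≤ 1 → ∃ Z : Finset ℤ, (Z.card : ℝ) ≤ K * (r / q) ^ d ∧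
    ∀ l ∈ G, a ≤ k5_S f (c l) t → k5_S f (c l) t ≤ a + r → k5_bin q (k5_S f (c l) t) ∈ Z
  cap : ∀ (q a : ℝ) (e : Fin j → ℝ), ζ ≤ q → q ≤ 1 → m {l | l ∈ G ∧ k5_InQ q a e (c l) t} ≤ K * q ^ ((j : ℝ) + d)
  bcap : ∀ r ∈ Rs, ∀ (q a : ℝ) (e : Fin j → ℝ) (B : (Fin 3 → ℤ) × (Fin 2 → Fin j → ℤ)), ζ ≤ q → q ≤ r →
    m {l | l ∈ G ∧ k5_cbin r (c l) = B ∧ k5_InQ q a e (c l) t}
      ≤ K * (q / r) ^ ((j : ℝ) + d) * m {l | k5_cbin r (c l) = B}

/-- the labelled trajectories at the time `t` -/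
def k5_sec {Λ : Type} (E : Set (Λ × ℝ)) (t : ℝ) : Set Λ := {l | (l, t) ∈ E}

/-- the labelled times of the trajectory `l` -/
def k5_fib {Λ : Type} (E : Set (Λ × ℝ)) (l : Λ) : Set ℝ := {t | (l, t) ∈ E}

/-- incidence mass `(ν ⊗ dt)(E)` -/
noncomputable def k5_mass {Λ : Type} [MeasurableSpace Λ] (ν : Measure Λ) (E : Set (Λ × ℝ)) : ℝ :=
  (ν.prod volume).real E

/-- restriction of the labels to a set of times -/
def k5_rt {Λ : Type} (E : Set (Λ × ℝ)) (W : Set ℝ) : Set (Λ × ℝ) := {x | x ∈ E ∧ x.2 ∈ W}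

/-- **Definition 5.2 (scalar-normal data)** at one scale: slack `K`, floor `ζ`; bin cap on the dyadic coefficient grids.   The density of the labels is a separate hypothesis `δ ≤ k5_mass ν E`. -/
structure k5_Snd {Λ : Type} [MeasurableSpace Λ] (j : ℕ) (d K ζ : ℝ) (ν : Measure Λ) (c : Λ → k5_Co j)
    (E : Set (Λ × ℝ)) (F : ℝ → Fin j → ℝ) : Prop where
  prob : IsProbabilityMeasure ν
  mc : Measurable c
  mE : MeasurableSet E
  mF : Measurable F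
  tI : ∀ l t, (l, t) ∈ E → 0 ≤ t ∧ t < 1
  cb : ∀ l, ‖c l‖ ≤ K
  tm : ∀ t, 0 ≤ t → t < 1 → k5_Tm j d K ζ (k5_Dy ζ) (fun A => ν.real A) c t (F t) (k5_sec E t)
  rowc : ∀ l t l' u, (l, t) ∈ E → (l', u) ∈ E → ‖F t - F u‖ ≤ K * (|t - u| + ζ)
  resc : ∀ l t l' u, (l, t) ∈ E → (l', u) ∈ E →
    |k5_R (F t) (c l) t - k5_R (F u) (c l') u|
      ≤ K * (|t - u| + |k5_x (c l) t - k5_x (c l') u| + ‖k5_y (c l) t - k5_y (c l') u‖ + ζ)

/-- the mass function of a finite law -/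
noncomputable def k5_pm {Λ : Type} [Fintype Λ] (P : FLaw Λ) : Set Λ → ℝ := fun A => P.pr (fun l => l ∈ A)

/-- **node of the time tree at fixed times** (finite model): root time `t`, rows `Φ 0 = F(t), …, Φ m`, labelled set `G`;  all rows `≤ K`;
the jets `J_1 … J_m` have small entropy given the scalar, at every reading `r ∈ Rs`, `ρ ≤ r ≤ 1`, on EVERY event `A ⊆ G` (5.hereditary-jets) -/
structure k5_Node {Λ : Type} [Fintype Λ] (P : FLaw Λ) (c : Λ → k5_Co j) (d K ζ : ℝ) (Rs : Set ℝ) (t : ℝ) (m : ℕ)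
    (Φ : ℕ → Fin j → ℝ) (G : Set Λ) (ρ cst : ℝ) : Prop where
  tm : k5_Tm j d K ζ Rs (k5_pm P) c t (Φ 0) G
  rb : ∀ i ≤ m, ‖Φ i‖ ≤ K
  her : ∀ A : Λ → Prop, (∀ l, A l → l ∈ G) → 0 < P.pr A → ∀ i, 1 ≤ i → i ≤ m → ∀ r ∈ Rs, ρ ≤ r → r ≤ 1 →
    (P.cnd A).entC (fun l => k5_bin r (k5_J i (Φ i) (Φ (i - 1)) (c l) t)) (fun l => k5_bin r (k5_S (Φ 0) (c l) t))
      ≤ cst * (1 + Real.log K + Real.log (1 / P.pr A))

/-! ### the deterministic time tree -/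

/-- the partner of `t` : offset `θ` in the `H`-block of `t` -/
noncomputable def k5_w (H θ t : ℝ) : ℝ := H * ⌊t / H⌋ + θ * H

/-- the rows: `row 0 = F`, `row 1 = A`, `row (k+2) t = (row (k+1) (w t) - row (k+1) t) / (w t - t)`, `w = k5_w (Hs (k+1)) (θs (k+1))` -/
noncomputable def k5_row (F A : ℝ → Fin j → ℝ) (Hs θs : ℕ → ℝ) : ℕ → ℝ → Fin j → ℝ
  | 0 => F
  | 1 => A
  | (k + 2) => fun t => (k5_w (Hs (k + 1)) (θs (k + 1)) t - t)⁻¹ •
      (k5_row F A Hs θs (k + 1) (k5_w (Hs (k + 1)) (θs (k + 1)) t) - k5_row F A Hs θs (k + 1) t)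

/-- the labels of the tree of height `k` : all `2^k` times are labelled and all pair gaps are `≥ Hs i / Kg` -/
noncomputable def k5_lab {Λ : Type} (E : Set (Λ × ℝ)) (Hs θs : ℕ → ℝ) (Kg : ℝ) : ℕ → Set (Λ × ℝ)
  | 0 => E
  | (k + 1) => {x | x ∈ k5_lab E Hs θs Kg k ∧ (x.1, k5_w (Hs (k + 1)) (θs (k + 1)) x.2) ∈ k5_lab E Hs θs Kg k ∧
      Hs (k + 1) / Kg ≤ |k5_w (Hs (k + 1)) (θs (k + 1)) x.2 - x.2|}

/-- the times of the tree of height `k` rooted at `t` -/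
noncomputable def k5_tt (Hs θs : ℕ → ℝ) : ℕ → ℝ → Set ℝ
  | 0 => fun t => {t}
  | (k + 1) => fun t => k5_tt Hs θs k t ∪ k5_tt Hs θs k (k5_w (Hs (k + 1)) (θs (k + 1)) t)

/-- **first-jet package** = the conclusion of Proposition 5.4 for the labels `E`, in deterministic form:  row `A`, Taylor estimate with gain `κ` at the block lengths `(1/2)^k`, `k ∈ ks`,
and the interval cover of `J_1` over the `Hs`-bins of the scalar (`≤ K` intervals of half-width `wd`) -/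
structure k5_Fj {Λ : Type} (j : ℕ) (K κ : ℝ) (c : Λ → k5_Co j) (E : Set (Λ × ℝ)) (F A : ℝ → Fin j → ℝ) (ks : Finset ℕ)
    (Hst wd : ℝ) : Prop where
  mA : Measurable A
  Ab : ∀ t, ‖A t‖ ≤ K
  taylor : ∀ k ∈ ks, ∀ l u l' v, (l, u) ∈ E → (l', v) ∈ E → ⌊u * 2 ^ k⌋ = ⌊v * 2 ^ k⌋ →
    ‖F v - F u - (v - u) • A u‖ ≤ K * ((1 / 2 : ℝ) ^ k) ^ (1 + κ)
  cover : ∀ (t : ℝ) (z : ℤ), ∃ Z : Finset ℝ, (Z.card : ℝ) ≤ K ∧ ∀ l, (l, t) ∈ E → k5_bin Hst (k5_S (F t) (c l) t) = z →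
    ∃ b ∈ Z, |k5_J 1 (A t) (F t) (c l) t - b| ≤ wd

/-- **FJ(d, θ)** = the first-jet fit (replaces Theorem 5.5 = Wang-Zahl sticky Thm 5.2 AND the collision argument 05 l.546-634);  data of 05 l.518-545 (sliced group):
`L_l(u) = z_l + u g_l - φ(u) v_l + O(K p)`, `φ` and `v ↦ g` Lipschitz above the scale `p`, local upper `d`-count of the values, cap at the scale `p`.
Unit FIT (BP-252-T1-FIT) proves `∀ d ∈ [0,1), ∃ θ > 0, k5_FJ d θ`;  Sec. 5 takes it as a hypothesis. -/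
def k5_FJ (d θ : ℝ) : Prop :=
  ∀ ε : ℝ, 0 < ε → ∃ η p₀ : ℝ, 0 < η ∧ 0 < p₀ ∧ ∀ p K : ℝ, 0 < p → p < p₀ → 1 ≤ K → K ≤ p ^ (-η) →
    ∀ (Λ : Type) [MeasurableSpace Λ] (ν : Measure Λ) [IsFiniteMeasure ν] (z v g : Λ → ℝ) (U : Set (Λ × ℝ)) (φ : ℝ → ℝ)
      (L : Λ × ℝ → ℝ),
      Measurable z → Measurable v → Measurable g → MeasurableSet U → Measurable φ → Measurable L →
      (∀ l u, (l, u) ∈ U → 0 ≤ u ∧ u ≤ 1 ∧ |z l| ≤ K ∧ |v l| ≤ K ∧ |g l| ≤ K ∧ |φ u| ≤ K) →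
      (∀ l u, (l, u) ∈ U → |L (l, u) - (z l + u * g l - φ u * v l)| ≤ K * p) →
      (∀ l u l' u', (l, u) ∈ U → (l', u') ∈ U → |φ u - φ u'| ≤ K * (|u - u'| + p)) →
      (∀ l u l' u', (l, u) ∈ U → (l', u') ∈ U → |g l - g l'| ≤ K * (|v l - v l'| + p)) →
      ν.real univ ≤ K → 1 / K ≤ k5_mass ν U →
      (∀ u q r a : ℝ, p ≤ q → q ≤ r → r ≤ 1 → ∃ Z : Finset ℤ, (Z.card : ℝ) ≤ K * (r / q) ^ d ∧
        ∀ l, (l, u) ∈ U → a ≤ L (l, u) → L (l, u) ≤ a + r → k5_bin q (L (l, u)) ∈ Z) →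
      (∀ u a b : ℝ, ν.real {l | (l, u) ∈ U ∧ a ≤ v l ∧ v l ≤ a + p ∧ b ≤ L (l, u) ∧ L (l, u) ≤ b + p} ≤ K * p ^ (1 + d)) →
      ∃ c0 c1 : ℝ, |c0| ≤ p ^ (-ε) ∧
        p ^ ε ≤ volume.real {u | 0 < ν.real (k5_sec U u) ∧ |φ u - (c0 * u + c1)| ≤ p ^ θ}

theorem k5_defs_eqns_cite : True := by
  have := @k5_x.eq_1
  have := @k5_xD.eq_1
  have := @k5_y.eq_1
  have := @k5_yd.eq_1
  have := @k5_S.eq_1
  have := @k5_R.eq_1
  have := @k5_J.eq_1
  have := @k5_bin.eq_1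
  have := @k5_vbin.eq_1
  have := @k5_cbin.eq_1
  have := @k5_InQ.eq_1
  have := @k5_Dy.eq_1
  have := @k5_sec.eq_1
  have := @k5_fib.eq_1
  have := @k5_mass.eq_1
  have := @k5_rt.eq_1
  have := @k5_pm.eq_1
  have := @k5_w.eq_1
  have := @k5_row.eq_1
  have := @k5_lab.eq_1
  have := @k5_tt.eq_1
  have := @k5_FJ.eq_1
  trivial

end Claimed.Agent.R252
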