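-- KEEP
import Claimed.Agent.R252.S5.Defs
import Claimed.Agent.R252.Plank.Exit

/-!
# Row 252, Sec. 5, Lemma 5.1 (scalar coefficient clustering): DEFINITIONS of the interior.      (sub-architect helper183; chief helper55; prefix `k5a_`)
Interface file: do not change.

PLAN of `k5_cluster` (05 l.38-127).   (M) `CluQuot`: finite quotient of the measure data: classes `i` = (coefficient `p`-bin `β i`, set `τ i` of the time bins of positive labelled length), weight `w i`, only good lines.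
(P) `CluPlank`: lift `z(t) = (x₀ + t (x₁ - D), D + t x₂)` with the dummy `D = δ p`; marks, count of the visited cells, `pk4_heavy`: a heavy plank.   (G) `CluGeo`: a plank confines the coefficients to a ball of radius `64 P`
and, for fixed coefficients, the dummy to an interval of length `6 Q`.   (F) `CluFin`: numerology.   `Clu`: the exit `k5a_cluster_pf` = `k5_cluster` verbatim.
-/

set_option autoImplicit false

namespace Claimed.Agent.R252

open Finset

/-- the representative quadratic of the coefficient bin `β` at the mesh `p` -/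
def k5a_x (p : ℝ) (β : Fin 3 → ℤ) (t : ℝ) : ℝ := p * β 0 + t * (p * β 1) + t ^ 2 * (p * β 2)

/-- the lifted planar motion: starting point -/
def k5a_A (p : ℝ) (β : Fin 3 → ℤ) (δ : ℕ) : ℝ × ℝ := (p * β 0, p * δ)

/-- the lifted planar motion: velocity -/
def k5a_V (p : ℝ) (β : Fin 3 → ℤ) (δ : ℕ) : ℝ × ℝ := (p * β 1 - p * δ, p * β 2)

/-- finite data of Lemma 5.1 at the mesh `p` with slack `K` -/
structure k5a_Fin {I : Type} [Fintype I] (d K p : ℝ) (w : I → ℝ) (β : I → Fin 3 → ℤ) (τ : I → Finset ℕ) (Z : Finset (ℤ × ℤ)) : Prop where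
  w0 : ∀ i, 0 ≤ w i
  mass : 1 / K ≤ ∑ i, w i
  bd : ∀ i k, |p * (β i k : ℝ)| ≤ K
  tb : ∀ i, ∀ k ∈ τ i, (k : ℝ) * p ≤ 1
  long : ∀ i, 1 / (K * p) ≤ (#(τ i) : ℝ)
  cnt : (#Z : ℝ) ≤ K * p ^ (-1 - d)
  vis : ∀ i, ∀ k ∈ τ i, ∃ m : ℤ, ((k : ℤ), m) ∈ Z ∧ |k5a_x p (β i) (k * p) - m * p| ≤ K * p
  cap : ∀ (r : ℝ) (b : Fin 3 → ℝ), p ≤ r → ∑ i with (∀ k, |p * (β i k : ℝ) - b k| ≤ r), w i ≤ K * r ^ d

theorem k5a_defs_eqns_cite : True := by
  have := @k5a_x.eq_1
  have := @k5a_A.eq_1
  have := @k5a_V.eq_1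
  trivial

end Claimed.Agent.R252
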