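import Claimed.Agent.R252.S5.CluDefs

/-!
# Row 252, Sec. 5, Lemma 5.1: the heavy plank (05 l.60-99).   CONTRACT.      (sub-architect helper183; prefix `k5a_`)   Leaf L-252-S5A-PLANK.

FAMILY.  `ι = I × Fin nD`, `nD = ⌈1/p⌉₊`, weight `ω (i, δ) = w i * p`, trace `(k5a_A p (β i) δ, k5a_V p (β i) δ)`; `D = 1/p`.   IDENTITY: `z₁(t) + t z₂(t) = k5a_x p β t`.
MARKS.  cell of `(i, δ)` at `k ∈ τ i`: `(k, ⌊z₁(kp)/p⌋, ⌊z₂(kp)/p⌋)`;  `J` = the finset of all these cells (as a subtype), `tc j = j.1 p`, `xc j = (j.2.1 p, j.2.2 p)`, `inc (i,δ)` = the cells of `(i,δ)`; `#inc = #τ i` (first component injective).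
`pk4Marks (1/p) (K+3)`: chart `|A|, |V| ≤ K + 2` (`δ p ≤ 1 + p ≤ 2`); time `0 ≤ k p ≤ 1`; vis `≤ p`; mult `≤ 1` (`kp ∈ [s, s+p)`); long `1/(K p)`.
COUNT.  `(k, j₁, j₂) ∈ J`: by `vis` there is `m`, `(k,m) ∈ Z`, `|x(kp) - m p| ≤ K p`.   `|z₂| ≤ K + 2`: `j₂` takes `≤ 2(K+2)/p + 1` values; given `(k, m, j₂)`, `z₁ = x - kp z₂` lies in an interval of length `(2K+1) p`: `j₁` takes `≤ 2K+3` values.
So `#J ≤ 35 K³ p^(-2-d)`.      TOTAL.  `∑ ω #inc ≥ (∑ w) (nD p) /(K p) ≥ 1/(K² p)`.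
`pk4_heavy e` with `μ = p^(1+d+e)/(C K^C)` chosen so that `C₀ (K+3)^10 μ p^(-e) 35 K³ p^(-2-d) < 1/(K² p)`.
-/

set_option autoImplicit false

namespace Claimed.Agent.R252

open Finset
open Classical

/-- integers in a floor window -/
theorem k5a_pl_Icc_card (x y : ℝ) (hxy : x ≤ y) : (#(Finset.Icc ⌊x⌋ ⌊y⌋) : ℝ) ≤ y - x + 2 := by
  rw [Int.card_Icc]
  have h2 : ((⌊y⌋ + 1 - ⌊x⌋).toNat : ℝ) = (((⌊y⌋ + 1 - ⌊x⌋).toNat : ℤ) : ℝ) := (Int.cast_natCast _).symm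
  rw [h2, Int.toNat_eq_max, Int.cast_max]
  refine max_le ?_ (by simp only [Int.cast_zero]; linarith)
  push_cast
  linarith [Int.floor_le y, Int.lt_floor_add_one x]

/-- the cell of the lifted motion `(β, δ)` at the time bin `k` -/
noncomputable def k5a_plCell (p : ℝ) (β : Fin 3 → ℤ) (δ k : ℕ) : ℕ × ℤ × ℤ :=
  (k, ⌊(p * β 0 + (k * p) * (p * β 1 - p * δ)) / p⌋, ⌊(p * δ + (k * p) * (p * β 2)) / p⌋)

theorem k5a_plCell_eqns_cite : True := by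
  have := @k5a_plCell.eq_1
  trivial

theorem k5a_pl_frac {p : ℝ} (hp : 0 < p) (z : ℝ) : 0 ≤ z - (⌊z / p⌋ : ℝ) * p ∧ z - (⌊z / p⌋ : ℝ) * p < p := by
  have h1 := (le_div_iff₀ hp).1 (Int.floor_le (z / p))
  have h2 := (div_lt_iff₀ hp).1 (Int.lt_floor_add_one (z / p))
  constructor <;> linarith

theorem k5a_pl_cell_mem {K p : ℝ} (hK : 1 ≤ K) (hp : 0 < p) (β : Fin 3 → ℤ) (δ k : ℕ) (m : ℤ)
    (hβ : ∀ j, |p * (β j : ℝ)| ≤ K) (hδ : p * (δ : ℝ) ≤ 1) (hk : (k : ℝ) * p ≤ 1)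
    (hm : |k5a_x p β (k * p) - m * p| ≤ K * p) :
    (k5a_plCell p β δ k).2.2 ∈ Finset.Icc ⌊-(K + 1) / p⌋ ⌊(K + 1) / p⌋ ∧
    (k5a_plCell p β δ k).2.1 ∈ Finset.Icc ⌊(m : ℝ) - (k * p) * ((k5a_plCell p β δ k).2.2 : ℝ) - K - 1⌋
      ⌊(m : ℝ) - (k * p) * ((k5a_plCell p β δ k).2.2 : ℝ) + K⌋ := by
  obtain ⟨t, ht⟩ : ∃ t : ℝ, t = (k : ℝ) * p := ⟨_, rfl⟩
  have ht0 : 0 ≤ t := by rw [ht]; positivity
  have ht1 : t ≤ 1 := by rw [ht]; exact hk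
  obtain ⟨z1, hz1⟩ : ∃ z : ℝ, z = p * β 0 + t * (p * β 1 - p * δ) := ⟨_, rfl⟩
  obtain ⟨z2, hz2⟩ : ∃ z : ℝ, z = p * δ + t * (p * β 2) := ⟨_, rfl⟩
  have hx : k5a_x p β t = z1 + t * z2 := by
    rw [hz1, hz2]; unfold k5a_x; ring
  have e1 : (k5a_plCell p β δ k).2.1 = ⌊z1 / p⌋ := by rw [hz1, ht]; rfl
  have e2 : (k5a_plCell p β δ k).2.2 = ⌊z2 / p⌋ := by rw [hz2, ht]; rfl
  rw [e1, e2, ← ht]
  rw [← ht, hx] at hm
  have hδ0 : 0 ≤ p * (δ : ℝ) := by positivity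
  have hb2 := abs_le.1 (hβ 2)
  have hz2b : -(K + 1) ≤ z2 ∧ z2 ≤ K + 1 := by
    rw [hz2]
    constructor <;> nlinarith [hb2.1, hb2.2]
  have hf := k5a_pl_frac hp z2
  have hm' := abs_le.1 hm
  obtain ⟨j2, hj2⟩ : ∃ j : ℝ, j = (⌊z2 / p⌋ : ℝ) := ⟨_, rfl⟩
  rw [← hj2] at hf ⊢
  refine ⟨Finset.mem_Icc.2 ⟨Int.floor_le_floor ?_, Int.floor_le_floor ?_⟩, Finset.mem_Icc.2 ⟨Int.floor_le_floor ?_, Int.floor_le_floor ?_⟩⟩
  · exact div_le_div_of_nonneg_right hz2b.1 hp.le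
  · exact div_le_div_of_nonneg_right hz2b.2 hp.le
  · rw [le_div_iff₀ hp]
    nlinarith [hm'.1, hf.1, hf.2, mul_le_mul_of_nonneg_left hf.2.le ht0]
  · rw [div_le_iff₀ hp]
    nlinarith [hm'.2, hf.1, hf.2, mul_nonneg ht0 hf.1]

theorem k5a_pl_delta {p : ℝ} (hp : 0 < p) (δ : Fin ⌈1 / p⌉₊) : p * ((δ : ℕ) : ℝ) ≤ 1 := by
  have h1 : ((δ : ℕ) : ℝ) < 1 / p := Nat.lt_ceil.1 δ.2
  have h2 := (lt_div_iff₀ hp).1 h1
  linarith

theorem k5a_pl_count {I : Type} [Fintype I] (d K p : ℝ) (w : I → ℝ) (β : I → Fin 3 → ℤ) (τ : I → Finset ℕ) (Z : Finset (ℤ × ℤ))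
    (hK : 1 ≤ K) (hp : 0 < p) (hp1 : p ≤ 1) (H : k5a_Fin d K p w β τ Z) :
    (#(univ.biUnion fun x : I × Fin ⌈1 / p⌉₊ => (τ x.1).image (k5a_plCell p (β x.1) x.2)) : ℝ) ≤ 35 * K ^ 3 * p ^ (-2 - d) := by
  have hsub : (univ.biUnion fun x : I × Fin ⌈1 / p⌉₊ => (τ x.1).image (k5a_plCell p (β x.1) x.2))
      ⊆ Z.biUnion fun q => (Finset.Icc ⌊-(K + 1) / p⌋ ⌊(K + 1) / p⌋).biUnion fun j2 =>
        (Finset.Icc ⌊(q.2 : ℝ) - ((q.1.toNat : ℝ) * p) * (j2 : ℝ) - K - 1⌋ ⌊(q.2 : ℝ) - ((q.1.toNat : ℝ) * p) * (j2 : ℝ) + K⌋).image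
          fun j1 => (q.1.toNat, j1, j2) := by
    intro c hc
    obtain ⟨x, -, hx⟩ := Finset.mem_biUnion.1 hc
    obtain ⟨k, hk, rfl⟩ := Finset.mem_image.1 hx
    obtain ⟨m, hmZ, hm⟩ := H.vis x.1 k hk
    obtain ⟨g2, g1⟩ := k5a_pl_cell_mem hK hp (β x.1) x.2 k m (H.bd x.1) (k5a_pl_delta hp x.2) (H.tb x.1 k hk) hm
    refine Finset.mem_biUnion.2 ⟨((k : ℤ), m), hmZ, Finset.mem_biUnion.2 ⟨_, g2, Finset.mem_image.2 ⟨(k5a_plCell p (β x.1) x.2 k).2.1, ?_, ?_⟩⟩⟩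
    · simpa only [Int.toNat_natCast] using g1
    · simp only [Int.toNat_natCast]
      rfl
  have h1 : (#(Z.biUnion fun q => (Finset.Icc ⌊-(K + 1) / p⌋ ⌊(K + 1) / p⌋).biUnion fun j2 =>
        (Finset.Icc ⌊(q.2 : ℝ) - ((q.1.toNat : ℝ) * p) * (j2 : ℝ) - K - 1⌋ ⌊(q.2 : ℝ) - ((q.1.toNat : ℝ) * p) * (j2 : ℝ) + K⌋).image
          fun j1 => (q.1.toNat, j1, j2)) : ℝ) ≤ (#Z : ℝ) * ((#(Finset.Icc ⌊-(K + 1) / p⌋ ⌊(K + 1) / p⌋) : ℝ) * (2 * K + 3)) := by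
    have a1 : ∀ (q : ℤ × ℤ) (j2 : ℤ), (#((Finset.Icc ⌊(q.2 : ℝ) - ((q.1.toNat : ℝ) * p) * (j2 : ℝ) - K - 1⌋ ⌊(q.2 : ℝ) - ((q.1.toNat : ℝ) * p) * (j2 : ℝ) + K⌋).image
          fun j1 => (q.1.toNat, j1, j2)) : ℝ) ≤ 2 * K + 3 := by
      intro q j2
      have b1 : (#((Finset.Icc ⌊(q.2 : ℝ) - ((q.1.toNat : ℝ) * p) * (j2 : ℝ) - K - 1⌋ ⌊(q.2 : ℝ) - ((q.1.toNat : ℝ) * p) * (j2 : ℝ) + K⌋).image
          fun j1 => (q.1.toNat, j1, j2)) : ℝ) ≤ (#(Finset.Icc ⌊(q.2 : ℝ) - ((q.1.toNat : ℝ) * p) * (j2 : ℝ) - K - 1⌋ ⌊(q.2 : ℝ) - ((q.1.toNat : ℝ) * p) * (j2 : ℝ) + K⌋) : ℝ) := by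
        exact_mod_cast Finset.card_image_le
      have b2 := k5a_pl_Icc_card ((q.2 : ℝ) - ((q.1.toNat : ℝ) * p) * (j2 : ℝ) - K - 1) ((q.2 : ℝ) - ((q.1.toNat : ℝ) * p) * (j2 : ℝ) + K) (by linarith)
      linarith
    have a2 : ∀ q : ℤ × ℤ, (#((Finset.Icc ⌊-(K + 1) / p⌋ ⌊(K + 1) / p⌋).biUnion fun j2 =>
        (Finset.Icc ⌊(q.2 : ℝ) - ((q.1.toNat : ℝ) * p) * (j2 : ℝ) - K - 1⌋ ⌊(q.2 : ℝ) - ((q.1.toNat : ℝ) * p) * (j2 : ℝ) + K⌋).image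
          fun j1 => (q.1.toNat, j1, j2)) : ℝ) ≤ (#(Finset.Icc ⌊-(K + 1) / p⌋ ⌊(K + 1) / p⌋) : ℝ) * (2 * K + 3) := by
      intro q
      refine (Nat.cast_le.2 Finset.card_biUnion_le).trans ?_
      push_cast
      refine (Finset.sum_le_sum fun j2 _ => a1 q j2).trans ?_
      rw [Finset.sum_const, nsmul_eq_mul]
    refine (Nat.cast_le.2 Finset.card_biUnion_le).trans ?_
    push_cast
    refine (Finset.sum_le_sum fun q _ => a2 q).trans ?_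
    rw [Finset.sum_const, nsmul_eq_mul]
  have h2 : (#(Finset.Icc ⌊-(K + 1) / p⌋ ⌊(K + 1) / p⌋) : ℝ) ≤ 6 * K / p := by
    have b2 := k5a_pl_Icc_card (-(K + 1) / p) ((K + 1) / p) (div_le_div_of_nonneg_right (by linarith) hp.le)
    have b3 : (K + 1) / p - -(K + 1) / p + 2 ≤ 6 * K / p := by
      rw [← sub_div, div_add' _ _ _ hp.ne', div_le_div_iff_of_pos_right hp]
      nlinarith
    linarith
  have h3 : (#(univ.biUnion fun x : I × Fin ⌈1 / p⌉₊ => (τ x.1).image (k5a_plCell p (β x.1) x.2)) : ℝ)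
      ≤ (#Z : ℝ) * ((#(Finset.Icc ⌊-(K + 1) / p⌋ ⌊(K + 1) / p⌋) : ℝ) * (2 * K + 3)) :=
    le_trans (by exact_mod_cast Finset.card_le_card hsub) h1
  have hE : p ^ (-2 - d) = p ^ (-1 - d) / p := by
    have : (-2 - d : ℝ) = (-1 - d) - 1 := by ring
    rw [this, Real.rpow_sub hp, Real.rpow_one]
  have hE0 : 0 < p ^ (-1 - d) := Real.rpow_pos_of_pos hp _
  calc (#(univ.biUnion fun x : I × Fin ⌈1 / p⌉₊ => (τ x.1).image (k5a_plCell p (β x.1) x.2)) : ℝ)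
      ≤ (#Z : ℝ) * ((#(Finset.Icc ⌊-(K + 1) / p⌋ ⌊(K + 1) / p⌋) : ℝ) * (2 * K + 3)) := h3
    _ ≤ (K * p ^ (-1 - d)) * ((6 * K / p) * (5 * K)) := by
        refine mul_le_mul H.cnt (mul_le_mul h2 (by linarith) (by linarith) (by positivity)) (by positivity) (by positivity)
    _ = 30 * K ^ 3 * p ^ (-2 - d) := by rw [hE]; ring
    _ ≤ 35 * K ^ 3 * p ^ (-2 - d) := by
        have : 0 ≤ K ^ 3 * p ^ (-2 - d) := by rw [hE]; positivity
        nlinarith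

theorem k5a_plank (d e : ℝ) (hd0 : 0 ≤ d) (he : 0 < e) :
    ∃ C : ℝ, 1 ≤ C ∧ ∀ (I : Type) [Fintype I] (K p : ℝ) (w : I → ℝ) (β : I → Fin 3 → ℤ) (τ : I → Finset ℕ) (Z : Finset (ℤ × ℤ)),
      1 ≤ K → 0 < p → p ≤ 1 → k5a_Fin d K p w β τ Z →
      ∃ (a b th : ℝ) (c v : ℝ × ℝ), 1 ≤ a ∧ a ≤ b ∧ b ≤ 1 / p ∧
        p ^ (1 + d + e) / (C * K ^ C) * a * b <
          ∑ x : I × Fin ⌈1 / p⌉₊ with pk4In (b * p) (a * p) th c v (k5a_A p (β x.1) x.2) (k5a_V p (β x.1) x.2), w x.1 * p := by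
  obtain ⟨C0, hC0, H0⟩ := pk4_heavy e he
  refine ⟨36700160 * C0 + 15, by linarith, ?_⟩
  intro I _ K p w β τ Z hK hp hp1 H
  have hK0 : 0 < K := by linarith
  obtain ⟨C, hC⟩ : ∃ C : ℝ, C = 36700160 * C0 + 15 := ⟨_, rfl⟩
  rw [← hC]
  obtain ⟨Js, hJs⟩ : ∃ Js : Finset (ℕ × ℤ × ℤ), Js = univ.biUnion fun x : I × Fin ⌈1 / p⌉₊ => (τ x.1).image (k5a_plCell p (β x.1) x.2) := ⟨_, rfl⟩
  obtain ⟨inc, hinc⟩ : ∃ inc : I × Fin ⌈1 / p⌉₊ → Finset ↥Js, inc = fun x => ((τ x.1).image (k5a_plCell p (β x.1) x.2)).subtype (· ∈ Js) := ⟨_, rfl⟩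
  have hmem : ∀ x (j : ↥Js), j ∈ inc x ↔ ∃ k ∈ τ x.1, k5a_plCell p (β x.1) x.2 k = j.1 := by
    intro x j
    rw [hinc, Finset.mem_subtype, Finset.mem_image]
  have hcard : ∀ x, (inc x).card = (τ x.1).card := by
    intro x
    rw [hinc, Finset.card_subtype, Finset.filter_true_of_mem, Finset.card_image_of_injective]
    · intro k k' h
      exact congrArg Prod.fst h
    · intro c hc
      rw [hJs, Finset.mem_biUnion]
      exact ⟨x, Finset.mem_univ _, hc⟩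
  have hD : (1 : ℝ) ≤ 1 / p := by rw [le_div_iff₀ hp]; linarith
  have hM : pk4Marks (1 / p) (K + 3) (fun x : I × Fin ⌈1 / p⌉₊ => k5a_V p (β x.1) x.2) (fun x => k5a_A p (β x.1) x.2)
      (fun j : ↥Js => (j.1.1 : ℝ) * p) (fun j => ((j.1.2.1 : ℝ) * p, (j.1.2.2 : ℝ) * p)) inc := by
    refine ⟨fun x => ?_, fun x j hj => ?_, fun x j hj => ?_, fun x s => ?_, fun x => ?_⟩
    · have hδ := k5a_pl_delta hp x.2
      have hδ0 : 0 ≤ p * (((x.2 : Fin ⌈1 / p⌉₊) : ℕ) : ℝ) := by positivity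
      have b0 := abs_le.1 (H.bd x.1 0)
      have b1 := abs_le.1 (H.bd x.1 1)
      have b2 := abs_le.1 (H.bd x.1 2)
      simp only [k5a_V, k5a_A]
      refine ⟨abs_le.2 ⟨by linarith [b1.1], by linarith [b1.2]⟩, abs_le.2 ⟨by linarith [b2.1], by linarith [b2.2]⟩,
        abs_le.2 ⟨by linarith [b0.1], by linarith [b0.2]⟩, abs_le.2 ⟨by linarith, by linarith⟩⟩
    · obtain ⟨k, hk, hkj⟩ := (hmem x j).1 hj
      have e1 : j.1.1 = k := by rw [← hkj]; rfl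
      simp only [e1]
      exact ⟨by positivity, H.tb x.1 k hk⟩
    · obtain ⟨k, hk, hkj⟩ := (hmem x j).1 hj
      have e1 : j.1.1 = k := by rw [← hkj]; rfl
      have e2 : j.1.2.1 = ⌊(p * β x.1 0 + (k * p) * (p * β x.1 1 - p * ((x.2 : ℕ) : ℝ))) / p⌋ := by rw [← hkj]; rfl
      have e3 : j.1.2.2 = ⌊(p * ((x.2 : ℕ) : ℝ) + (k * p) * (p * β x.1 2)) / p⌋ := by rw [← hkj]; rfl
      have f1 := k5a_pl_frac hp (p * β x.1 0 + (k * p) * (p * β x.1 1 - p * ((x.2 : ℕ) : ℝ)))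
      have f2 := k5a_pl_frac hp (p * ((x.2 : ℕ) : ℝ) + (k * p) * (p * β x.1 2))
      have hKp : p ≤ (K + 3) / (1 / p) := by
        rw [div_div_eq_mul_div, div_one]
        nlinarith
      simp only [e1, e2, e3, k5a_V, k5a_A, Prod.fst_sub, Prod.snd_sub, Prod.fst_add, Prod.snd_add, Prod.smul_fst, Prod.smul_snd, smul_eq_mul]
      exact ⟨abs_le.2 ⟨by linarith [f1.1], by linarith [f1.2]⟩, abs_le.2 ⟨by linarith [f2.1], by linarith [f2.2]⟩⟩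
    · have h1 : ((inc x).filter fun j : ↥Js => s ≤ (j.1.1 : ℝ) * p ∧ (j.1.1 : ℝ) * p < s + 1 / (1 / p)).card ≤ 1 := by
        rw [Finset.card_le_one]
        intro j hj j' hj'
        obtain ⟨hj1, hj2, hj3⟩ := Finset.mem_filter.1 hj
        obtain ⟨hj1', hj2', hj3'⟩ := Finset.mem_filter.1 hj'
        rw [one_div_one_div] at hj3 hj3'
        obtain ⟨k, hk, hkj⟩ := (hmem x j).1 hj1
        obtain ⟨k', hk', hkj'⟩ := (hmem x j').1 hj1'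
        have e1 : j.1.1 = k := by rw [← hkj]; rfl
        have e1' : j'.1.1 = k' := by rw [← hkj']; rfl
        rw [e1] at hj2 hj3
        rw [e1'] at hj2' hj3'
        have hkk : k = k' := by
          have a1 : (k : ℝ) < (k' : ℝ) + 1 := by
            by_contra hcon
            have := mul_le_mul_of_nonneg_right (not_lt.1 hcon) hp.le
            nlinarith
          have a2 : (k' : ℝ) < (k : ℝ) + 1 := by
            by_contra hcon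
            have := mul_le_mul_of_nonneg_right (not_lt.1 hcon) hp.le
            nlinarith
          have a1' : k < k' + 1 := by exact_mod_cast a1
          have a2' : k' < k + 1 := by exact_mod_cast a2
          omega
        apply Subtype.ext
        rw [← hkj, ← hkj', hkk]
      have h2 : (((inc x).filter fun j : ↥Js => s ≤ (j.1.1 : ℝ) * p ∧ (j.1.1 : ℝ) * p < s + 1 / (1 / p)).card : ℝ) ≤ 1 := by
        exact_mod_cast h1
      linarith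
    · rw [hcard]
      refine le_trans ?_ (H.long x.1)
      rw [div_div]
      exact one_div_le_one_div_of_le (by positivity) (by nlinarith)
  -- the total
  have htot : 1 / (K ^ 2 * p) ≤ ∑ x : I × Fin ⌈1 / p⌉₊, (w x.1 * p) * ((inc x).card : ℝ) := by
    rw [Fintype.sum_prod_type]
    have hn : 1 ≤ (⌈1 / p⌉₊ : ℝ) * p := by
      have := Nat.le_ceil (1 / p)
      rw [div_le_iff₀ hp] at this
      exact this
    have h1 : ∀ i : I, w i * (1 / (K * p)) ≤ ∑ δ : Fin ⌈1 / p⌉₊, (w i * p) * ((inc (i, δ)).card : ℝ) := by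
      intro i
      simp only [hcard]
      rw [Finset.sum_const, Finset.card_univ, Fintype.card_fin, nsmul_eq_mul]
      have hw := H.w0 i
      have hl := H.long i
      have hl0 : 0 ≤ 1 / (K * p) := by positivity
      calc w i * (1 / (K * p)) ≤ w i * ((#(τ i) : ℝ)) := mul_le_mul_of_nonneg_left hl hw
        _ = 1 * (w i * (#(τ i) : ℝ)) := by ring
        _ ≤ ((⌈1 / p⌉₊ : ℝ) * p) * (w i * (#(τ i) : ℝ)) := mul_le_mul_of_nonneg_right hn (by positivity)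
        _ = (⌈1 / p⌉₊ : ℝ) * (w i * p * (#(τ i) : ℝ)) := by ring
    refine le_trans ?_ (Finset.sum_le_sum fun i _ => h1 i)
    rw [← Finset.sum_mul]
    calc 1 / (K ^ 2 * p) = (1 / K) * (1 / (K * p)) := by field_simp
      _ ≤ (∑ i, w i) * (1 / (K * p)) := mul_le_mul_of_nonneg_right H.mass (by positivity)
  -- the count
  have hcnt : (Fintype.card ↥Js : ℝ) ≤ 35 * K ^ 3 * p ^ (-2 - d) := by
    rw [Fintype.card_coe, hJs]
    exact k5a_pl_count d K p w β τ Z hK hp hp1 H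
  have hKC : K ^ (15 : ℕ) ≤ K ^ C := by
    rw [← Real.rpow_natCast]
    exact Real.rpow_le_rpow_of_exponent_le hK (by rw [hC]; push_cast; linarith)
  have hKC0 : 0 < K ^ C := Real.rpow_pos_of_pos hK0 _
  have hC1 : 0 < C := by rw [hC]; linarith
  have hE : p ^ (1 + d + e) * (1 / p) ^ e * p ^ (-2 - d) = 1 / p := by
    rw [one_div, Real.inv_rpow hp.le, ← Real.rpow_neg hp.le, ← Real.rpow_add hp, ← Real.rpow_add hp]
    have : (1 + d + e + -e + (-2 - d) : ℝ) = -1 := by ring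
    rw [this, Real.rpow_neg_one]
  have hbig : C0 * (K + 3) ^ 10 * (p ^ (1 + d + e) / (C * K ^ C)) * (1 / p) ^ e * (Fintype.card ↥Js : ℝ)
      < ∑ x : I × Fin ⌈1 / p⌉₊, (w x.1 * p) * ((inc x).card : ℝ) := by
    refine lt_of_lt_of_le ?_ htot
    have hE1 : 0 < p ^ (1 + d + e) := Real.rpow_pos_of_pos hp _
    have hE2 : 0 < (1 / p) ^ e := Real.rpow_pos_of_pos (by positivity) _
    have hK3 : (K + 3) ^ 10 ≤ (4 * K) ^ 10 := pow_le_pow_left₀ (by linarith) (by linarith) 10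
    calc C0 * (K + 3) ^ 10 * (p ^ (1 + d + e) / (C * K ^ C)) * (1 / p) ^ e * (Fintype.card ↥Js : ℝ)
        ≤ C0 * (4 * K) ^ 10 * (p ^ (1 + d + e) / (C * K ^ C)) * (1 / p) ^ e * (35 * K ^ 3 * p ^ (-2 - d)) := by
          refine mul_le_mul ?_ hcnt (Nat.cast_nonneg _) (by positivity)
          refine mul_le_mul_of_nonneg_right ?_ hE2.le
          refine mul_le_mul_of_nonneg_right ?_ (by positivity)
          exact mul_le_mul_of_nonneg_left hK3 (by linarith)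
      _ = 36700160 * C0 * K ^ 13 / (C * K ^ C) * (p ^ (1 + d + e) * (1 / p) ^ e * p ^ (-2 - d)) := by
          field_simp
          ring
      _ = 36700160 * C0 * K ^ 13 / (C * K ^ C) * (1 / p) := by rw [hE]
      _ < 1 / (K ^ 2 * p) := by
          rw [div_mul_div_comm, mul_one, div_lt_div_iff₀ (by positivity) (by positivity)]
          have h1 : 36700160 * C0 * K ^ 15 < C * K ^ C := by
            have a1 : 36700160 * C0 * K ^ 15 < C * K ^ 15 := by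
              refine mul_lt_mul_of_pos_right ?_ (by positivity)
              rw [hC]; linarith
            exact a1.trans_le (mul_le_mul_of_nonneg_left hKC hC1.le)
          calc 36700160 * C0 * K ^ 13 * (K ^ 2 * p) = (36700160 * C0 * K ^ 15) * p := by ring
            _ < (C * K ^ C) * p := mul_lt_mul_of_pos_right h1 hp
            _ = 1 * (C * K ^ C * p) := by ring
  obtain ⟨a, b, th, c, v, ha, hab, hb, hlt⟩ := H0 (1 / p) (K + 3) hD (by linarith) (I × Fin ⌈1 / p⌉₊) ↥Js (fun x => w x.1 * p) _ _ _ _ inc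
    (p ^ (1 + d + e) / (C * K ^ C)) (fun x => mul_nonneg (H.w0 x.1) hp.le) hM hbig
  refine ⟨a, b, th, c, v, ha, hab, hb, ?_⟩
  have eb : b / (1 / p) = b * p := by rw [div_div_eq_mul_div, div_one]
  have ea : a / (1 / p) = a * p := by rw [div_div_eq_mul_div, div_one]
  rw [eb, ea] at hlt
  exact hlt

end Claimed.Agent.R252
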