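import Claimed.Agent.R252.S5.CluGeo
import Claimed.Agent.R252.S5.CluPlank

/-!
# Row 252, Sec. 5, Lemma 5.1: the finite core (05 l.100-127).   CONTRACT.      (sub-architect helper183; prefix `k5a_`)   Leaf L-252-S5A-FIN.

`e = ε (1-d) / 3`.   `k5a_plank d e`: `a, b`, `P = b p ≥ Q = a p ≥ p`, `Sp` = the pairs `(i, δ)` in the plank, weight `> μ₀ a b`, `μ₀ = p^(1+d+e)/(C K^C)`; `Sp ≠ ∅`: fix `(i₀, δ₀) ∈ Sp`.
* `k5a_geo_coef`: `(i,δ) ∈ Sp ⟹ |pβ_i - pβ_i₀| ≤ 64 P`;   `k5a_geo_dummy`: for fixed `β` the `δ`'s of `Sp` lie in an interval of length `6Q/p`: `≤ 7a` values (NOTE: classes `i ≠ i'` may share `β`; count per `i`).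
* weight `≤ 7 Q Wt`, `Wt = ∑_{|pβ_i - pβ_i₀| ≤ 64P} w i ≤ K (64 P)^d` (`cap`).   So `Wt > μ₀ P/(7 p²)` and `P^(1-d) < 7·64 C K^(C+1) p^(1-d-e)`.
* the ball contains `≤ (129 P/p)³` bins `B`: one has `∑_{β i = B} w i ≥ Wt (p/(129P))³ > p^(d+2+e)/(C' K^C P²) ≥ p^(d + e + 2e/(1-d))/(C'' K^C'')`, and `e + 2e/(1-d) ≤ ε`.
-/

set_option autoImplicit false

namespace Claimed.Agent.R252

open Finset

/-- integers in a symmetric window -/
theorem k5a_fn_win_card (z : ℤ) (r : ℝ) (hr : 0 ≤ r) : (#(Finset.Icc (z - ⌊r⌋) (z + ⌊r⌋)) : ℝ) ≤ 2 * r + 1 := by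
  rw [Int.card_Icc]
  have h2 : ((z + ⌊r⌋ + 1 - (z - ⌊r⌋)).toNat : ℝ) = (((z + ⌊r⌋ + 1 - (z - ⌊r⌋)).toNat : ℤ) : ℝ) := (Int.cast_natCast _).symm
  rw [h2, Int.toNat_eq_max, Int.cast_max]
  refine max_le ?_ (by simp only [Int.cast_zero]; linarith)
  push_cast
  linarith [Int.floor_le r]

theorem k5a_fn_win_mem {p : ℝ} (hp : 0 < p) (z z' : ℤ) (r : ℝ) (h : |p * (z' : ℝ) - p * (z : ℝ)| ≤ r * p) :
    z' ∈ Finset.Icc (z - ⌊r⌋) (z + ⌊r⌋) := by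
  have h' := abs_le.1 h
  have h1 : (z' : ℝ) - z ≤ r := by
    have : ((z' : ℝ) - z) * p ≤ r * p := by linarith [h'.2]
    exact le_of_mul_le_mul_right this hp
  have h2 : (z : ℝ) - z' ≤ r := by
    have : ((z : ℝ) - z') * p ≤ r * p := by linarith [h'.1]
    exact le_of_mul_le_mul_right this hp
  have g1 : z' - z ≤ ⌊r⌋ := Int.le_floor.2 (by push_cast; exact h1)
  have g2 : z - z' ≤ ⌊r⌋ := Int.le_floor.2 (by push_cast; exact h2)
  exact Finset.mem_Icc.2 ⟨by linarith, by linarith⟩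

/-- the combinatorial part: fibre count and pigeonhole -/
theorem k5a_fn_comb {I : Type} [Fintype I] (n : ℕ) (w : I → ℝ) (β : I → Fin 3 → ℤ) (p a b : ℝ) (Sp : Finset (I × Fin n)) (Bl : Finset I)
    (B₀ : Fin 3 → ℤ) (hw : ∀ i, 0 ≤ w i) (hp : 0 < p) (ha : 1 ≤ a) (hb : 1 ≤ b)
    (h1 : ∀ x ∈ Sp, x.1 ∈ Bl)
    (h2 : ∀ x ∈ Sp, ∀ y ∈ Sp, x.1 = y.1 → |p * ((x.2 : ℕ) : ℝ) - p * ((y.2 : ℕ) : ℝ)| ≤ 6 * (a * p))
    (h3 : ∀ i ∈ Bl, ∀ k, |p * (β i k : ℝ) - p * (B₀ k : ℝ)| ≤ 64 * (b * p)) :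
    (∑ x ∈ Sp, w x.1 * p ≤ 13 * a * p * ∑ i ∈ Bl, w i) ∧ ∃ B, ∑ i ∈ Bl, w i ≤ (129 * b) ^ 3 * ∑ i with β i = B, w i := by
  classical
  constructor
  · rw [← Finset.sum_fiberwise_of_maps_to (g := Prod.fst) h1, Finset.mul_sum]
    refine Finset.sum_le_sum fun i _ => ?_
    have e1 : ∑ x ∈ Sp with x.1 = i, w x.1 * p = (#(Sp.filter fun x => x.1 = i) : ℝ) * (w i * p) := by
      rw [Finset.sum_congr rfl (fun x hx => by rw [(Finset.mem_filter.1 hx).2]), Finset.sum_const, nsmul_eq_mul]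
    have e2 : (#(Sp.filter fun x => x.1 = i) : ℝ) ≤ 13 * a := by
      rcases (Sp.filter fun x => x.1 = i).eq_empty_or_nonempty with h0 | ⟨x₁, hx₁⟩
      · rw [h0]; simp only [Finset.card_empty, Nat.cast_zero]; linarith
      · have hx₁' := Finset.mem_filter.1 hx₁
        have c1 : #(Sp.filter fun x => x.1 = i) ≤ #(Finset.Icc (((x₁.2 : ℕ) : ℤ) - ⌊6 * a⌋) (((x₁.2 : ℕ) : ℤ) + ⌊6 * a⌋)) := by
          refine Finset.card_le_card_of_injOn (fun x => ((x.2 : ℕ) : ℤ)) ?_ ?_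
          · intro x hx
            have hx' := Finset.mem_filter.1 (Finset.mem_coe.1 hx)
            refine Finset.mem_coe.2 (k5a_fn_win_mem hp _ _ _ ?_)
            have := h2 x hx'.1 x₁ hx₁'.1 (hx'.2.trans hx₁'.2.symm)
            push_cast
            linarith
          · intro x hx y hy hxy
            have hx' := Finset.mem_filter.1 (Finset.mem_coe.1 hx)
            have hy' := Finset.mem_filter.1 (Finset.mem_coe.1 hy)
            have hxy' : (((x.2 : ℕ) : ℤ)) = (((y.2 : ℕ) : ℤ)) := hxy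
            have : (x.2 : ℕ) = (y.2 : ℕ) := by exact_mod_cast hxy'
            exact Prod.ext (hx'.2.trans hy'.2.symm) (Fin.ext this)
        have c2 := k5a_fn_win_card ((x₁.2 : ℕ) : ℤ) (6 * a) (by linarith)
        have c3 : (#(Sp.filter fun x => x.1 = i) : ℝ) ≤ (#(Finset.Icc (((x₁.2 : ℕ) : ℤ) - ⌊6 * a⌋) (((x₁.2 : ℕ) : ℤ) + ⌊6 * a⌋)) : ℝ) :=
          Nat.cast_le.2 c1
        linarith
    rw [e1]
    have : 0 ≤ w i * p := mul_nonneg (hw i) hp.le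
    nlinarith
  · have hT : ∀ i ∈ Bl, β i ∈ Fintype.piFinset (fun k : Fin 3 => Finset.Icc (B₀ k - ⌊64 * b⌋) (B₀ k + ⌊64 * b⌋)) := by
      intro i hi
      refine Fintype.mem_piFinset.2 fun k => k5a_fn_win_mem hp _ _ _ ?_
      have := h3 i hi k
      linarith
    have hne : (Fintype.piFinset (fun k : Fin 3 => Finset.Icc (B₀ k - ⌊64 * b⌋) (B₀ k + ⌊64 * b⌋))).Nonempty := by
      refine ⟨B₀, Fintype.mem_piFinset.2 fun k => k5a_fn_win_mem hp _ _ _ ?_⟩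
      rw [sub_self, abs_zero]
      positivity
    have hcard : (#(Fintype.piFinset (fun k : Fin 3 => Finset.Icc (B₀ k - ⌊64 * b⌋) (B₀ k + ⌊64 * b⌋))) : ℝ) ≤ (129 * b) ^ 3 := by
      rw [Fintype.card_piFinset]
      push_cast
      calc ∏ k : Fin 3, (#(Finset.Icc (B₀ k - ⌊64 * b⌋) (B₀ k + ⌊64 * b⌋)) : ℝ) ≤ ∏ _k : Fin 3, (129 * b) := by
            refine Finset.prod_le_prod (fun _ _ => Nat.cast_nonneg _) fun k _ => ?_
            have := k5a_fn_win_card (B₀ k) (64 * b) (by linarith)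
            linarith
        _ = (129 * b) ^ 3 := by rw [Finset.prod_const, Finset.card_univ, Fintype.card_fin]
    obtain ⟨B, -, hB⟩ := Finset.exists_max_image _ (fun B => ∑ i with β i = B, w i) hne
    refine ⟨B, ?_⟩
    have hB0 : 0 ≤ ∑ i with β i = B, w i := Finset.sum_nonneg fun i _ => hw i
    calc ∑ i ∈ Bl, w i = ∑ B' ∈ Fintype.piFinset (fun k : Fin 3 => Finset.Icc (B₀ k - ⌊64 * b⌋) (B₀ k + ⌊64 * b⌋)), ∑ i ∈ Bl with β i = B', w i :=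
          (Finset.sum_fiberwise_of_maps_to hT _).symm
      _ ≤ ∑ _B' ∈ Fintype.piFinset (fun k : Fin 3 => Finset.Icc (B₀ k - ⌊64 * b⌋) (B₀ k + ⌊64 * b⌋)), ∑ i with β i = B, w i := by
          refine Finset.sum_le_sum fun B' hB' => le_trans ?_ (hB B' hB')
          exact Finset.sum_le_sum_of_subset_of_nonneg (Finset.filter_subset_filter _ (Finset.subset_univ _)) fun i _ _ => hw i
      _ = (#(Fintype.piFinset (fun k : Fin 3 => Finset.Icc (B₀ k - ⌊64 * b⌋) (B₀ k + ⌊64 * b⌋))) : ℝ) * ∑ i with β i = B, w i := by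
          rw [Finset.sum_const, nsmul_eq_mul]
      _ ≤ (129 * b) ^ 3 * ∑ i with β i = B, w i := mul_le_mul_of_nonneg_right hcard hB0

/-- the numerology -/
theorem k5a_fn_num (d ε C₁ K p b Wt S : ℝ) (hd0 : 0 ≤ d) (hd : d < 1) (hε : 0 < ε) (hC₁ : 1 ≤ C₁) (hK : 1 ≤ K) (hp : 0 < p) (hp1 : p ≤ 1)
    (hb : 1 ≤ b)
    (h1 : p ^ (1 + d + ε * (1 - d) / 3) / (C₁ * K ^ C₁) * b < 13 * p * Wt) (h2 : Wt ≤ K * (64 * (b * p)) ^ d)
    (h3 : Wt ≤ (129 * b) ^ 3 * S) :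
    p ^ (d + ε) / ((13 * 129 ^ 3 * C₁ * (832 * C₁) ^ (2 / (1 - d)) + (C₁ + (C₁ + 1) * (2 / (1 - d)))) *
      K ^ (13 * 129 ^ 3 * C₁ * (832 * C₁) ^ (2 / (1 - d)) + (C₁ + (C₁ + 1) * (2 / (1 - d))))) ≤ S := by
  have hd1 : 0 < 1 - d := by linarith
  obtain ⟨e, he⟩ : ∃ e : ℝ, e = ε * (1 - d) / 3 := ⟨_, rfl⟩
  obtain ⟨s, hs⟩ : ∃ s : ℝ, s = 2 / (1 - d) := ⟨_, rfl⟩
  rw [← he] at h1
  rw [← hs]
  have hs0 : 0 < s := by rw [hs]; positivity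
  have hds : (1 - d) * s = 2 := by rw [hs]; field_simp
  have hes : e * s = 2 * ε / 3 := by rw [he, hs]; field_simp
  have hee : e ≤ ε / 3 := by rw [he]; nlinarith
  have hb0 : 0 < b := by linarith
  have hK0 : 0 < K := by linarith
  have hC0 : 0 < C₁ := by linarith
  have hpd : 0 < p ^ d := Real.rpow_pos_of_pos hp _
  have hpe : 0 < p ^ e := Real.rpow_pos_of_pos hp _
  have hpes : 0 < p ^ (e * s) := Real.rpow_pos_of_pos hp _
  have hbd : 0 < b ^ d := Real.rpow_pos_of_pos hb0 _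
  have hKC : 0 < K ^ C₁ := Real.rpow_pos_of_pos hK0 _
  have hM : 0 < C₁ * K ^ C₁ := by positivity
  have hsplit : p ^ (1 + d + e) = p * p ^ d * p ^ e := by
    rw [Real.rpow_add hp, Real.rpow_add hp, Real.rpow_one]
  have h64 : (64 * (b * p)) ^ d ≤ 64 * (b ^ d * p ^ d) := by
    rw [Real.mul_rpow (by norm_num) (by positivity), Real.mul_rpow hb0.le hp.le]
    refine mul_le_mul_of_nonneg_right ?_ (by positivity)
    calc (64 : ℝ) ^ d ≤ (64 : ℝ) ^ (1 : ℝ) := Real.rpow_le_rpow_of_exponent_le (by norm_num) hd.le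
      _ = 64 := Real.rpow_one _
  rw [hsplit, div_mul_eq_mul_div, div_lt_iff₀ hM] at h1
  -- h1 : p * p^d * p^e * b < 13 * p * Wt * (C₁ * K^C₁)
  have hby : b = b ^ (1 - d) * b ^ d := by
    rw [← Real.rpow_add hb0]; simp
  have hy0 : 0 < b ^ (1 - d) := Real.rpow_pos_of_pos hb0 _
  -- first consequence
  have k1 : b ^ (1 - d) * p ^ e < 832 * C₁ * K ^ (C₁ + 1) := by
    have a1 : p * p ^ d * p ^ e * b < 13 * p * (K * (64 * (b ^ d * p ^ d))) * (C₁ * K ^ C₁) := by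
      refine h1.trans_le ?_
      refine mul_le_mul_of_nonneg_right ?_ hM.le
      refine mul_le_mul_of_nonneg_left (h2.trans (mul_le_mul_of_nonneg_left h64 hK0.le)) (by positivity)
    have a2 : K ^ (C₁ + 1) = K ^ C₁ * K := by rw [Real.rpow_add hK0, Real.rpow_one]
    rw [a2]
    have a3 : (p * p ^ d * b ^ d) * (b ^ (1 - d) * p ^ e) < (p * p ^ d * b ^ d) * (832 * C₁ * (K ^ C₁ * K)) := by
      calc (p * p ^ d * b ^ d) * (b ^ (1 - d) * p ^ e) = p * p ^ d * p ^ e * (b ^ (1 - d) * b ^ d) := by ring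
        _ = p * p ^ d * p ^ e * b := by rw [← hby]
        _ < 13 * p * (K * (64 * (b ^ d * p ^ d))) * (C₁ * K ^ C₁) := a1
        _ = (p * p ^ d * b ^ d) * (832 * C₁ * (K ^ C₁ * K)) := by ring
    exact lt_of_mul_lt_mul_left a3 (by positivity)
  have k2 : b ^ 2 * p ^ (e * s) ≤ (832 * C₁) ^ s * K ^ ((C₁ + 1) * s) := by
    have a1 := Real.rpow_le_rpow (by positivity) k1.le hs0.le
    rw [Real.mul_rpow hy0.le hpe.le, ← Real.rpow_mul hb0.le, ← Real.rpow_mul hp.le, hds,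
      Real.mul_rpow (by positivity) (Real.rpow_pos_of_pos hK0 _).le, ← Real.rpow_mul hK0.le] at a1
    have a2 : b ^ (2 : ℝ) = b ^ 2 := by
      rw [← Real.rpow_natCast]; norm_num
    rwa [a2] at a1
  -- second consequence
  have k3 : p ^ d * p ^ e < 13 * 129 ^ 3 * (C₁ * K ^ C₁) * b ^ 2 * S := by
    have a1 : p * p ^ d * p ^ e * b < 13 * p * ((129 * b) ^ 3 * S) * (C₁ * K ^ C₁) := by
      refine h1.trans_le ?_
      refine mul_le_mul_of_nonneg_right ?_ hM.le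
      exact mul_le_mul_of_nonneg_left h3 (by positivity)
    have a3 : (p * b) * (p ^ d * p ^ e) < (p * b) * (13 * 129 ^ 3 * (C₁ * K ^ C₁) * b ^ 2 * S) := by
      calc (p * b) * (p ^ d * p ^ e) = p * p ^ d * p ^ e * b := by ring
        _ < 13 * p * ((129 * b) ^ 3 * S) * (C₁ * K ^ C₁) := a1
        _ = (p * b) * (13 * 129 ^ 3 * (C₁ * K ^ C₁) * b ^ 2 * S) := by ring
    exact lt_of_mul_lt_mul_left a3 (by positivity)
  have hS : 0 < S := by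
    have a1 : 0 < 13 * 129 ^ 3 * (C₁ * K ^ C₁) * b ^ 2 * S := lt_trans (by positivity) k3
    by_contra hS
    have hS' : S ≤ 0 := not_lt.1 hS
    have : 13 * 129 ^ 3 * (C₁ * K ^ C₁) * b ^ 2 * S ≤ 0 := mul_nonpos_of_nonneg_of_nonpos (by positivity) hS'
    linarith
  have hA0 : 0 < 13 * 129 ^ 3 * C₁ * (832 * C₁) ^ s := by positivity
  have hA1 : 0 ≤ C₁ + (C₁ + 1) * s := by positivity
  have k4 : p ^ (d + ε) ≤ p ^ d * p ^ e * p ^ (e * s) := by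
    rw [← Real.rpow_add hp, ← Real.rpow_add hp]
    refine Real.rpow_le_rpow_of_exponent_ge hp hp1 ?_
    rw [hes]; linarith
  have k5 : p ^ d * p ^ e * p ^ (e * s) ≤ (13 * 129 ^ 3 * C₁ * (832 * C₁) ^ s) * K ^ (C₁ + (C₁ + 1) * s) * S := by
    calc p ^ d * p ^ e * p ^ (e * s) ≤ (13 * 129 ^ 3 * (C₁ * K ^ C₁) * b ^ 2 * S) * p ^ (e * s) :=
          mul_le_mul_of_nonneg_right k3.le hpes.le
      _ = (13 * 129 ^ 3 * (C₁ * K ^ C₁) * S) * (b ^ 2 * p ^ (e * s)) := by ring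
      _ ≤ (13 * 129 ^ 3 * (C₁ * K ^ C₁) * S) * ((832 * C₁) ^ s * K ^ ((C₁ + 1) * s)) :=
          mul_le_mul_of_nonneg_left k2 (by positivity)
      _ = (13 * 129 ^ 3 * C₁ * (832 * C₁) ^ s) * K ^ (C₁ + (C₁ + 1) * s) * S := by
          rw [Real.rpow_add hK0]; ring
  have k6 : (13 * 129 ^ 3 * C₁ * (832 * C₁) ^ s) * K ^ (C₁ + (C₁ + 1) * s) ≤
      (13 * 129 ^ 3 * C₁ * (832 * C₁) ^ s + (C₁ + (C₁ + 1) * s)) * K ^ (13 * 129 ^ 3 * C₁ * (832 * C₁) ^ s + (C₁ + (C₁ + 1) * s)) := by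
    refine mul_le_mul (by linarith) (Real.rpow_le_rpow_of_exponent_le hK (by linarith)) (Real.rpow_pos_of_pos hK0 _).le (by linarith)
  rw [div_le_iff₀ (mul_pos (by linarith) (Real.rpow_pos_of_pos hK0 _))]
  calc p ^ (d + ε) ≤ (13 * 129 ^ 3 * C₁ * (832 * C₁) ^ s) * K ^ (C₁ + (C₁ + 1) * s) * S := k4.trans k5
    _ ≤ (13 * 129 ^ 3 * C₁ * (832 * C₁) ^ s + (C₁ + (C₁ + 1) * s)) * K ^ (13 * 129 ^ 3 * C₁ * (832 * C₁) ^ s + (C₁ + (C₁ + 1) * s)) * S :=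
        mul_le_mul_of_nonneg_right k6 hS.le
    _ = S * ((13 * 129 ^ 3 * C₁ * (832 * C₁) ^ s + (C₁ + (C₁ + 1) * s)) * K ^ (13 * 129 ^ 3 * C₁ * (832 * C₁) ^ s + (C₁ + (C₁ + 1) * s))) := by ring

theorem k5a_fin (d ε : ℝ) (hd0 : 0 ≤ d) (hd : d < 1) (hε : 0 < ε) :
    ∃ C : ℝ, 1 ≤ C ∧ ∀ (I : Type) [Fintype I] (K p : ℝ) (w : I → ℝ) (β : I → Fin 3 → ℤ) (τ : I → Finset ℕ) (Z : Finset (ℤ × ℤ)),
      1 ≤ K → 0 < p → p ≤ 1 → k5a_Fin d K p w β τ Z →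
      ∃ B : Fin 3 → ℤ, p ^ (d + ε) / (C * K ^ C) ≤ ∑ i with β i = B, w i := by
  have hd1 : 0 < 1 - d := by linarith
  have he : 0 < ε * (1 - d) / 3 := by positivity
  obtain ⟨C₁, hC₁, H⟩ := k5a_plank d (ε * (1 - d) / 3) hd0 he
  refine ⟨13 * 129 ^ 3 * C₁ * (832 * C₁) ^ (2 / (1 - d)) + (C₁ + (C₁ + 1) * (2 / (1 - d))), ?_, ?_⟩
  · have g1 : 0 ≤ 13 * 129 ^ 3 * C₁ * (832 * C₁) ^ (2 / (1 - d)) := by positivity
    have g2 : 0 ≤ (C₁ + 1) * (2 / (1 - d)) := by positivity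
    linarith
  intro I _ K p w β τ Z hK hp hp1 hF
  obtain ⟨a, b, th, c, v, ha, hab, hb, hlt⟩ := H I K p w β τ Z hK hp hp1 hF
  have hb1 : 1 ≤ b := ha.trans hab
  have hK0 : 0 < K := by linarith
  have hμ : 0 < p ^ (1 + d + ε * (1 - d) / 3) / (C₁ * K ^ C₁) :=
    div_pos (Real.rpow_pos_of_pos hp _) (mul_pos (by linarith) (Real.rpow_pos_of_pos hK0 _))
  obtain ⟨Sp, hSp, hlt'⟩ : ∃ Sp : Finset (I × Fin ⌈1 / p⌉₊),
      (∀ x, x ∈ Sp ↔ pk4In (b * p) (a * p) th c v (k5a_A p (β x.1) x.2) (k5a_V p (β x.1) x.2)) ∧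
      p ^ (1 + d + ε * (1 - d) / 3) / (C₁ * K ^ C₁) * a * b < ∑ x ∈ Sp, w x.1 * p :=
    ⟨_, fun x => by simp only [Finset.mem_filter, Finset.mem_univ, true_and], hlt⟩
  have hne : Sp.Nonempty := by
    rcases Sp.eq_empty_or_nonempty with h0 | h0
    · rw [h0, Finset.sum_empty] at hlt'
      have : 0 < p ^ (1 + d + ε * (1 - d) / 3) / (C₁ * K ^ C₁) * a * b := by positivity
      linarith
    · exact h0
  obtain ⟨x₀, hx₀⟩ := hne
  have hr : p ≤ 64 * (b * p) := by nlinarith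
  obtain ⟨Bl, hBl, hcap⟩ : ∃ Bl : Finset I, (∀ i, i ∈ Bl ↔ ∀ k, |p * (β i k : ℝ) - p * (β x₀.1 k : ℝ)| ≤ 64 * (b * p)) ∧
      ∑ i ∈ Bl, w i ≤ K * (64 * (b * p)) ^ d :=
    ⟨_, fun i => by simp only [Finset.mem_filter, Finset.mem_univ, true_and], hF.cap (64 * (b * p)) (fun k => p * (β x₀.1 k : ℝ)) hr⟩
  obtain ⟨hA, B, hB⟩ := k5a_fn_comb ⌈1 / p⌉₊ w β p a b Sp Bl (β x₀.1) hF.w0 hp ha hb1
    (fun x hx => (hBl x.1).2 fun k => k5a_geo_coef p (b * p) (a * p) th c v (β x.1) (β x₀.1) x.2 x₀.2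
      (mul_le_mul_of_nonneg_right hab hp.le) ((hSp x).1 hx) ((hSp x₀).1 hx₀) k)
    (fun x hx y hy hxy => by
      have hy' := (hSp y).1 hy
      rw [← hxy] at hy'
      exact k5a_geo_dummy p (b * p) (a * p) th c v (β x.1) x.2 y.2 ((hSp x).1 hx) hy')
    (fun i hi => (hBl i).1 hi)
  refine ⟨B, k5a_fn_num d ε C₁ K p b (∑ i ∈ Bl, w i) _ hd0 hd hε hC₁ hK hp hp1 hb1 ?_ hcap hB⟩
  have ha0 : 0 < a := by linarith
  have g : a * (p ^ (1 + d + ε * (1 - d) / 3) / (C₁ * K ^ C₁) * b) < a * (13 * p * ∑ i ∈ Bl, w i) := by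
    calc a * (p ^ (1 + d + ε * (1 - d) / 3) / (C₁ * K ^ C₁) * b) = p ^ (1 + d + ε * (1 - d) / 3) / (C₁ * K ^ C₁) * a * b := by ring
      _ < ∑ x ∈ Sp, w x.1 * p := hlt'
      _ ≤ 13 * a * p * ∑ i ∈ Bl, w i := hA
      _ = a * (13 * p * ∑ i ∈ Bl, w i) := by ring
  exact lt_of_mul_lt_mul_left g ha0.le

end Claimed.Agent.R252
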