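import Claimed.Agent.R252.S5.CluDefs

/-!
# Row 252, Sec. 5, Lemma 5.1: geometry of a plank of lifted motions (05 l.100-113).   CONTRACT.      (sub-architect helper183; prefix `k5a_`)   Leaf L-252-S5A-GEO.

`pk4In P Q th c v A V` : `∀ t ∈ [0,1]`, `|ip (A + t V - (c + t v)) (tang th)| ≤ P` and `|ip (…) (nrm th)| ≤ Q`;  `ip u v = u.1 v.1 + u.2 v.2`, `tang th = (cos, sin)`, `nrm th = (-sin, cos)`.
COEF.  `Δz(t)` = difference of the two motions: `|ip Δz tang| ≤ 2P`, `|ip Δz nrm| ≤ 2Q ≤ 2P`, `Δz = (ip Δz tang) tang + (ip Δz nrm) nrm`: each coordinate `≤ 4P`.   `Δx(t) = Δz₁(t) + t Δz₂(t)` (the dummy cancels), `|Δx(t)| ≤ 8P`.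
`Δa₀ = Δx(0)`, `Δa₂ = 2Δx(1) - 4Δx(1/2) + 2Δx(0)`, `Δa₁ = -Δx(1) + 4Δx(1/2) - 3Δx(0)`: all `≤ 64 P`.
DUMMY.  same `β`: `Δz(t) = p (δ - δ') (-t, 1)`, `ip Δz nrm = p(δ-δ') (t sin th + cos th)`; `t = 0, 1`: `|p(δ-δ')| max(|cos|, |sin + cos|) ≤ 2Q`, and `max(|cos|, |sin + cos|) ≥ 1/3` (`sin² + cos² = 1`).
-/

set_option autoImplicit false

namespace Claimed.Agent.R252

open Finset

/-- two points of one rectangle -/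
theorem k5a_geo_aux (c s z1 z2 w1 w2 P Q : ℝ) (hcs : c ^ 2 + s ^ 2 = 1) (hQP : Q ≤ P) (h1 : |z1 * c + z2 * s| ≤ P) (h2 : |z1 * -s + z2 * c| ≤ Q)
    (k1 : |w1 * c + w2 * s| ≤ P) (k2 : |w1 * -s + w2 * c| ≤ Q) : |z1 - w1| ≤ 4 * P ∧ |z2 - w2| ≤ 4 * P := by
  have hc : |c| ≤ 1 := abs_le_one_iff_mul_self_le_one.2 (by nlinarith)
  have hs : |s| ≤ 1 := abs_le_one_iff_mul_self_le_one.2 (by nlinarith)
  have hP : 0 ≤ P := le_trans (abs_nonneg _) h1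
  obtain ⟨a, ha⟩ : ∃ a, a = (z1 - w1) * c + (z2 - w2) * s := ⟨_, rfl⟩
  obtain ⟨b, hb⟩ : ∃ b, b = (z1 - w1) * -s + (z2 - w2) * c := ⟨_, rfl⟩
  have ha2 : |a| ≤ 2 * P := by
    have : a = (z1 * c + z2 * s) - (w1 * c + w2 * s) := by rw [ha]; ring
    rw [this]
    exact (abs_sub _ _).trans (by linarith)
  have hb2 : |b| ≤ 2 * P := by
    have : b = (z1 * -s + z2 * c) - (w1 * -s + w2 * c) := by rw [hb]; ring
    rw [this]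
    exact (abs_sub _ _).trans (by linarith)
  have m : ∀ x y : ℝ, |x| ≤ 2 * P → |y| ≤ 1 → |x * y| ≤ 2 * P := by
    intro x y hx hy
    rw [abs_mul]
    calc |x| * |y| ≤ 2 * P * 1 := mul_le_mul hx hy (abs_nonneg _) (by positivity)
      _ = 2 * P := by ring
  constructor
  · have e : z1 - w1 = a * c - b * s := by rw [ha, hb]; linear_combination (-(z1 - w1)) * hcs
    rw [e]
    exact (abs_sub _ _).trans (by linarith [m a c ha2 hc, m b s hb2 hs])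
  · have e : z2 - w2 = a * s + b * c := by rw [ha, hb]; linear_combination (-(z2 - w2)) * hcs
    rw [e]
    exact (abs_add_le _ _).trans (by linarith [m a s ha2 hs, m b c hb2 hc])

/-- the difference of the two quadratics -/
theorem k5a_geo_x (p P Q th : ℝ) (c v : ℝ × ℝ) (β β' : Fin 3 → ℤ) (δ δ' : ℕ) (hQP : Q ≤ P)
    (h : pk4In P Q th c v (k5a_A p β δ) (k5a_V p β δ)) (h' : pk4In P Q th c v (k5a_A p β' δ') (k5a_V p β' δ')) (t : ℝ) (ht0 : 0 ≤ t) (ht1 : t ≤ 1) :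
    |(p * (β 0 : ℝ) - p * (β' 0 : ℝ)) + t * (p * (β 1 : ℝ) - p * (β' 1 : ℝ)) + t ^ 2 * (p * (β 2 : ℝ) - p * (β' 2 : ℝ))| ≤ 8 * P := by
  obtain ⟨a1, a2⟩ := h t ht0 ht1
  obtain ⟨b1, b2⟩ := h' t ht0 ht1
  simp only [Claimed.Agent.R255.ip, Claimed.Agent.R255.tang, Claimed.Agent.R255.nrm, k5a_A, k5a_V, Prod.fst_add, Prod.snd_add,
    Prod.fst_sub, Prod.snd_sub, Prod.smul_fst, Prod.smul_snd, smul_eq_mul] at a1 a2 b1 b2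
  obtain ⟨g1, g2⟩ := k5a_geo_aux _ _ _ _ _ _ P Q (Real.cos_sq_add_sin_sq th) hQP a1 a2 b1 b2
  have hP : 0 ≤ P := le_trans (abs_nonneg _) a1
  have e : (p * (β 0 : ℝ) - p * (β' 0 : ℝ)) + t * (p * (β 1 : ℝ) - p * (β' 1 : ℝ)) + t ^ 2 * (p * (β 2 : ℝ) - p * (β' 2 : ℝ))
      = (p * (β 0 : ℝ) + t * (p * (β 1 : ℝ) - p * (δ : ℝ)) - (c.1 + t * v.1) - (p * (β' 0 : ℝ) + t * (p * (β' 1 : ℝ) - p * (δ' : ℝ)) - (c.1 + t * v.1)))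
        + t * (p * (δ : ℝ) + t * (p * (β 2 : ℝ)) - (c.2 + t * v.2) - (p * (δ' : ℝ) + t * (p * (β' 2 : ℝ)) - (c.2 + t * v.2))) := by ring
  rw [e]
  refine (abs_add_le _ _).trans ?_
  rw [abs_mul, abs_of_nonneg ht0]
  have : t * |p * (δ : ℝ) + t * (p * (β 2 : ℝ)) - (c.2 + t * v.2) - (p * (δ' : ℝ) + t * (p * (β' 2 : ℝ)) - (c.2 + t * v.2))| ≤ 1 * (4 * P) :=
    mul_le_mul ht1 g2 (abs_nonneg _) (by norm_num)
  linarith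

theorem k5a_geo_coef (p P Q th : ℝ) (c v : ℝ × ℝ) (β β' : Fin 3 → ℤ) (δ δ' : ℕ) (hQP : Q ≤ P)
    (h : pk4In P Q th c v (k5a_A p β δ) (k5a_V p β δ)) (h' : pk4In P Q th c v (k5a_A p β' δ') (k5a_V p β' δ')) (k : Fin 3) :
    |p * (β k : ℝ) - p * (β' k : ℝ)| ≤ 64 * P := by
  have x0 := k5a_geo_x p P Q th c v β β' δ δ' hQP h h' 0 le_rfl zero_le_one
  have x1 := k5a_geo_x p P Q th c v β β' δ δ' hQP h h' 1 zero_le_one le_rfl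
  have xh := k5a_geo_x p P Q th c v β β' δ δ' hQP h h' (1 / 2) (by norm_num) (by norm_num)
  obtain ⟨u0, hu0⟩ : ∃ u, u = p * (β 0 : ℝ) - p * (β' 0 : ℝ) := ⟨_, rfl⟩
  obtain ⟨u1, hu1⟩ : ∃ u, u = p * (β 1 : ℝ) - p * (β' 1 : ℝ) := ⟨_, rfl⟩
  obtain ⟨u2, hu2⟩ : ∃ u, u = p * (β 2 : ℝ) - p * (β' 2 : ℝ) := ⟨_, rfl⟩
  rw [← hu0, ← hu1, ← hu2] at x0 x1 xh
  rw [abs_le] at x0 x1 xh
  obtain ⟨p0, q0⟩ := x0
  obtain ⟨p1, q1⟩ := x1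
  obtain ⟨ph, qh⟩ := xh
  fin_cases k
  · show |p * (β 0 : ℝ) - p * (β' 0 : ℝ)| ≤ 64 * P
    rw [← hu0, abs_le]
    constructor <;> linarith
  · show |p * (β 1 : ℝ) - p * (β' 1 : ℝ)| ≤ 64 * P
    rw [← hu1, abs_le]
    constructor <;> linarith
  · show |p * (β 2 : ℝ) - p * (β' 2 : ℝ)| ≤ 64 * P
    rw [← hu2, abs_le]
    constructor <;> linarith

theorem k5a_geo_dummy (p P Q th : ℝ) (c v : ℝ × ℝ) (β : Fin 3 → ℤ) (δ δ' : ℕ)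
    (h : pk4In P Q th c v (k5a_A p β δ) (k5a_V p β δ)) (h' : pk4In P Q th c v (k5a_A p β δ') (k5a_V p β δ')) :
    |p * (δ : ℝ) - p * (δ' : ℝ)| ≤ 6 * Q := by
  obtain ⟨-, a0⟩ := h 0 le_rfl zero_le_one
  obtain ⟨-, b0⟩ := h' 0 le_rfl zero_le_one
  obtain ⟨-, a1⟩ := h 1 zero_le_one le_rfl
  obtain ⟨-, b1⟩ := h' 1 zero_le_one le_rfl
  simp only [Claimed.Agent.R255.ip, Claimed.Agent.R255.nrm, k5a_A, k5a_V, Prod.fst_add, Prod.snd_add,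
    Prod.fst_sub, Prod.snd_sub, Prod.smul_fst, Prod.smul_snd, smul_eq_mul] at a0 b0 a1 b1
  obtain ⟨D, hD⟩ : ∃ D, D = p * (δ : ℝ) - p * (δ' : ℝ) := ⟨_, rfl⟩
  rw [← hD]
  obtain ⟨cs, hcs⟩ : ∃ x, x = Real.cos th := ⟨_, rfl⟩
  obtain ⟨sn, hsn⟩ : ∃ x, x = Real.sin th := ⟨_, rfl⟩
  have hone : cs ^ 2 + sn ^ 2 = 1 := by rw [hcs, hsn]; exact Real.cos_sq_add_sin_sq th
  rw [← hcs, ← hsn] at a0 b0 a1 b1
  have e0 : |D * cs| ≤ 2 * Q := by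
    have := abs_sub ((p * (β 0 : ℝ) + 0 * (p * (β 1 : ℝ) - p * (δ : ℝ)) - (c.1 + 0 * v.1)) * -sn + (p * (δ : ℝ) + 0 * (p * (β 2 : ℝ)) - (c.2 + 0 * v.2)) * cs)
      ((p * (β 0 : ℝ) + 0 * (p * (β 1 : ℝ) - p * (δ' : ℝ)) - (c.1 + 0 * v.1)) * -sn + (p * (δ' : ℝ) + 0 * (p * (β 2 : ℝ)) - (c.2 + 0 * v.2)) * cs)
    have e : D * cs = ((p * (β 0 : ℝ) + 0 * (p * (β 1 : ℝ) - p * (δ : ℝ)) - (c.1 + 0 * v.1)) * -sn + (p * (δ : ℝ) + 0 * (p * (β 2 : ℝ)) - (c.2 + 0 * v.2)) * cs)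
      - ((p * (β 0 : ℝ) + 0 * (p * (β 1 : ℝ) - p * (δ' : ℝ)) - (c.1 + 0 * v.1)) * -sn + (p * (δ' : ℝ) + 0 * (p * (β 2 : ℝ)) - (c.2 + 0 * v.2)) * cs) := by
      rw [hD]; ring
    rw [e]
    linarith
  have e1 : |D * (sn + cs)| ≤ 2 * Q := by
    have := abs_sub ((p * (β 0 : ℝ) + 1 * (p * (β 1 : ℝ) - p * (δ : ℝ)) - (c.1 + 1 * v.1)) * -sn + (p * (δ : ℝ) + 1 * (p * (β 2 : ℝ)) - (c.2 + 1 * v.2)) * cs)
      ((p * (β 0 : ℝ) + 1 * (p * (β 1 : ℝ) - p * (δ' : ℝ)) - (c.1 + 1 * v.1)) * -sn + (p * (δ' : ℝ) + 1 * (p * (β 2 : ℝ)) - (c.2 + 1 * v.2)) * cs)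
    have e : D * (sn + cs) = ((p * (β 0 : ℝ) + 1 * (p * (β 1 : ℝ) - p * (δ : ℝ)) - (c.1 + 1 * v.1)) * -sn + (p * (δ : ℝ) + 1 * (p * (β 2 : ℝ)) - (c.2 + 1 * v.2)) * cs)
      - ((p * (β 0 : ℝ) + 1 * (p * (β 1 : ℝ) - p * (δ' : ℝ)) - (c.1 + 1 * v.1)) * -sn + (p * (δ' : ℝ) + 1 * (p * (β 2 : ℝ)) - (c.2 + 1 * v.2)) * cs) := by
      rw [hD]; ring
    rw [e]
    linarith
  rw [abs_mul] at e0 e1
  have hD0 := abs_nonneg D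
  have hor : 1 / 3 ≤ |cs| ∨ 1 / 3 ≤ |sn + cs| := by
    by_contra hcon
    rw [not_or, not_le, not_le] at hcon
    obtain ⟨c1, c2⟩ := hcon
    have c3 : |sn| < 2 / 3 := by
      have : |sn| ≤ |sn + cs| + |cs| := by
        calc |sn| = |(sn + cs) - cs| := by rw [add_sub_cancel_right]
          _ ≤ _ := abs_sub _ _
      linarith
    have c4 : cs ^ 2 < 1 / 9 := by
      rw [← sq_abs]; nlinarith [abs_nonneg cs]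
    have c5 : sn ^ 2 < 4 / 9 := by
      rw [← sq_abs]; nlinarith [abs_nonneg sn]
    linarith
  rcases hor with h3 | h3
  · have := mul_le_mul_of_nonneg_left h3 hD0
    linarith
  · have := mul_le_mul_of_nonneg_left h3 hD0
    linarith

end Claimed.Agent.R252
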