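import Claimed.Agent.R252.S5.CoverContract

/-!
# Row 252, Sec. 5, THE FIRST JET (Proposition 5.4): CONTRACT      (architect helper55; prefix `k5_`)

Measure model (`Defs.lean`).   `θ` = the exponent of the first-jet fit `k5_FJ d θ` (hypothesis; unit FIT).   We use `p = H` in the local normalisation (the paper: `p = H^(1/4)`), so the fit error is `H^(1+θ)`,
adjacent hierarchy lengths satisfy `H' ≥ H^(1+θ/8)/2`, the Taylor gain is `κ = θ/2`, `p₀ = H^(θ/2)`, `γ = (1-d)/4`, cover width `≈ H^(θ(1-d)/8)`.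

Chain:  `k5_local_fit` (one block, one component; local normalisation + `k5_FJ`)  →  `k5_fit_round` (preparation + recovery (5.fit-mass-recovery))  →  `k5_fit_stage` (all lengths, all components)
  →  `k5_taylor` (comparison across lengths)  →  `k5_slope_conc` (one group)  →  `k5_slope_cover`  →  `k5_first_jet`.
All restrictions up to `k5_taylor` are restrictions of the set of TIMES (`k5_rt E W`).
(`k5_local_fit`: `LocalContract.lean`; `k5_slope_conc`: `SlopeContract.lean`; `k5_slope_cover`: `CoverContract.lean`.)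
RULE: statements are frozen; prove IN PLACE; helper lemmas (prefix `k5_`) directly above the theorem that needs them; earlier statements (also of the imported files) may be used as black boxes.
-/

set_option autoImplicit false

namespace Claimed.Agent.R252

open MeasureTheory Set
open scoped BigOperators

variable {j : ℕ}

/-- the component `a` of the row is fitted on the times `W` by one affine function per block of length `(1/2)^k`, slopes `≤ Ks`, error `er` -/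
def k5_FitOn (F : ℝ → Fin j → ℝ) (W : Set ℝ) (k : ℕ) (a : Fin j) (Ks er : ℝ) : Prop :=
  ∀ b : ℤ, ∃ c0 c1 : ℝ, |c0| ≤ Ks ∧ ∀ t ∈ W, ⌊t * 2 ^ k⌋ = b → |F t a - (c0 * t + c1)| ≤ er

/-- negative powers of a small number beat constants -/
theorem k5_fr_small (s M : ℝ) (hs : 0 < s) (hM : 1 ≤ M) : ∃ x₀ : ℝ, 0 < x₀ ∧ ∀ H : ℝ, 0 < H → H < x₀ → M ≤ H ^ (-s) := by
  have hM0 : 0 < M := lt_of_lt_of_le one_pos hM
  refine ⟨M ^ (-(1 / s)), Real.rpow_pos_of_pos hM0 _, fun H hH hlt => ?_⟩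
  have h1 : (M ^ (-(1 / s))) ^ (-s) ≤ H ^ (-s) := Real.rpow_le_rpow_of_nonpos hH hlt.le (by linarith)
  have h2 : (M ^ (-(1 / s))) ^ (-s) = M := by
    rw [← Real.rpow_mul hM0.le]
    have : -(1 / s) * -s = 1 := by field_simp
    rw [this, Real.rpow_one]
  linarith

/-- the dyadic block of a time -/
theorem k5_fr_block (k : ℕ) (H : ℝ) (hH : H = (1 / 2 : ℝ) ^ k) (n : ℕ) (t : ℝ) :
    t ∈ Ico ((n : ℝ) * H) ((n : ℝ) * H + H) ↔ ⌊t * 2 ^ k⌋ = (n : ℤ) := by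
  have h2 : (0 : ℝ) < 2 ^ k := by positivity
  have e : H * 2 ^ k = 1 := by
    rw [hH, ← mul_pow]
    norm_num
  have hH0 : 0 < H := by rw [hH]; positivity
  rw [Int.floor_eq_iff, mem_Ico]
  push_cast
  constructor
  · rintro ⟨h1, h3⟩
    constructor
    · calc (n : ℝ) = (n : ℝ) * H * 2 ^ k := by rw [mul_assoc, e, mul_one]
        _ ≤ t * 2 ^ k := by gcongr
    · calc t * 2 ^ k < ((n : ℝ) * H + H) * 2 ^ k := by gcongr
        _ = (n : ℝ) + 1 := by rw [add_mul, mul_assoc, e, mul_one]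
  · rintro ⟨h1, h3⟩
    constructor
    · calc (n : ℝ) * H ≤ t * 2 ^ k * H := by gcongr
        _ = t := by rw [mul_assoc, mul_comm _ H, e, mul_one]
    · calc t = t * 2 ^ k * H := by rw [mul_assoc, mul_comm _ H, e, mul_one]
        _ < ((n : ℝ) + 1) * H := by gcongr
        _ = _ := by ring

/-- the arithmetic of the recovery -/
theorem k5_fr_num (H K ε N : ℝ) (hH0 : 0 < H) (hK : 1 ≤ K) (h8 : 8 * K ^ 2 ≤ H ^ (-(ε / 2))) (hN : 1 / (2 * K) ≤ N * H) :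
    H ^ ε ≤ 1 / (4 * K) * (N * H ^ (1 + ε / 2)) := by
  have hK0 : 0 < K := lt_of_lt_of_le one_pos hK
  have hp : 0 < H ^ (ε / 2) := Real.rpow_pos_of_pos hH0 _
  have e1 : H ^ (1 + ε / 2) = H * H ^ (ε / 2) := by rw [Real.rpow_add hH0, Real.rpow_one]
  have e2 : H ^ ε = H ^ (ε / 2) * H ^ (ε / 2) := by
    rw [← Real.rpow_add hH0]
    congr 1
    ring
  have e3 : H ^ (-(ε / 2)) = (H ^ (ε / 2))⁻¹ := Real.rpow_neg hH0.le _
  have h1 : H ^ (ε / 2) * (8 * K ^ 2) ≤ 1 := by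
    calc H ^ (ε / 2) * (8 * K ^ 2) ≤ H ^ (ε / 2) * (H ^ (ε / 2))⁻¹ := by rw [← e3]; gcongr
      _ = 1 := mul_inv_cancel₀ hp.ne'
  have h2 : H ^ (ε / 2) ≤ 1 / (4 * K) * (1 / (2 * K)) := by
    have : 1 / (4 * K) * (1 / (2 * K)) = 1 / (8 * K ^ 2) := by
      field_simp
      ring
    rw [this, le_div_iff₀ (by positivity)]
    exact h1
  rw [e1, e2]
  calc H ^ (ε / 2) * H ^ (ε / 2) ≤ 1 / (4 * K) * (1 / (2 * K)) * H ^ (ε / 2) := by gcongr
    _ ≤ 1 / (4 * K) * (N * H) * H ^ (ε / 2) := by gcongr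
    _ = _ := by ring

/-- **L-252-S5-R1**  **one round** (05 l.416-436 preparation, l.636-647 recovery): one length `H = (1/2)^k`, one component.
PROOF.  `(η₁, H₀)` from `k5_local_fit` at `ε/2`;  `η := min (η₁/2) (ε/8)`, `k₀` so large that `H < H₀`, `4 ≤ H^(-η₁/2)`, `32 ≤ H^(-ε/4)`.   `δ := mass E ≥ 1/K`, `τ := 1/(4K)`, `m t := ν.real (k5_sec E t)` (measurable: `k5_measurable_sec`).
PREPARATION.  `T₁ := {t | τ ≤ m t}`, `E₁ := k5_rt E T₁` : loss `≤ τ` (`k5_mass_le_sec` on `[0,1)`).   Blocks `I_b`, `0 ≤ b < 2^k`; `𝔅 := {b | τ H ≤ mass (rt E₁ I_b)}`; the other blocks carry `< 2^k τ H = τ`.   `E₂ := rt E₁ (⋃_{b ∈ 𝔅} I_b)`, `mass E₂ ≥ δ - 2 τ ≥ 1/(2K)`;  each block has mass `≤ H`, so `#𝔅 ≥ 1/(2 K H)`.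
LOCAL FIT in each `b ∈ 𝔅` for the labels `E₂` (`k5_snd_mono`), slack `4K ≤ H^(-η₁)`, `tI := b H` (`mass (rt E₂ I_b) = mass (rt E₁ I_b) ≥ H/(4K)`): `c0 b, c1 b`, `T_b := {t ∈ I_b | 0 < ν.real (sec E₂ t) ∧ |F t a - (c0 b t + c1 b)| ≤ H^(1+θ)}`, `|T_b| ≥ H^(1+ε/2)`.
`W := ⋃_{b ∈ 𝔅} T_b` (measurable).   RECOVERY: `t ∈ T_b ⟹ sec E₂ t ≠ ∅ ⟹ t ∈ T₁ ⟹ m t ≥ τ`;  `mass (rt E W) = ∫_W m ≥ τ |W| = τ ∑_b |T_b| ≥ τ (1/(2KH)) H^(1+ε/2) = H^(ε/2)/(8K²) ≥ H^ε`.   `k5_FitOn` : for `b ∈ 𝔅` the pair `(c0 b, c1 b)`, otherwise `(0,0)` (no `t ∈ W` in that block).   ~400 l. -/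
theorem k5_fit_round (j : ℕ) (d θ ε : ℝ) (hd0 : 0 ≤ d) (hd : d < 1) (hθ : 0 < θ) (hFJ : k5_FJ d θ) (hε : 0 < ε) :
    ∃ (η : ℝ) (k₀ : ℕ), 0 < η ∧ ∀ (k : ℕ) (K ζ : ℝ), k₀ ≤ k → 1 ≤ K → K ≤ ((1 / 2 : ℝ) ^ k) ^ (-η) →
      ζ ≤ ((1 / 2 : ℝ) ^ k) ^ 3 →
      ∀ (Λ : Type) [MeasurableSpace Λ] (ν : Measure Λ) (c : Λ → k5_Co j) (E : Set (Λ × ℝ)) (F : ℝ → Fin j → ℝ),
      k5_Snd j d K ζ ν c E F → 1 / K ≤ k5_mass ν E → ∀ a : Fin j,
      ∃ W : Set ℝ, MeasurableSet W ∧ ((1 / 2 : ℝ) ^ k) ^ ε ≤ k5_mass ν (k5_rt E W) ∧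
        k5_FitOn F W k a (((1 / 2 : ℝ) ^ k) ^ (-ε)) (((1 / 2 : ℝ) ^ k) ^ (1 + θ)) := by
  obtain ⟨η₁, H₀, hη₁, hH₀, hLF⟩ := k5_local_fit j d θ (ε / 2) hd0 hd hθ hFJ (by positivity)
  obtain ⟨x₁, hx₁, hs₁⟩ := k5_fr_small (η₁ / 2) 4 (by positivity) (by norm_num)
  obtain ⟨x₂, hx₂, hs₂⟩ := k5_fr_small (ε / 4) 8 (by positivity) (by norm_num)
  obtain ⟨k₀, hk₀⟩ := exists_pow_lt_of_lt_one (lt_min hH₀ (lt_min hx₁ hx₂)) (by norm_num : (1 / 2 : ℝ) < 1)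
  refine ⟨min (η₁ / 2) (ε / 8), k₀, lt_min (by positivity) (by positivity), ?_⟩
  intro k K ζ hk hK hKη hζ Λ _ ν c E F hS hmass a
  classical
  obtain ⟨H, hHdef⟩ : ∃ H : ℝ, H = (1 / 2 : ℝ) ^ k := ⟨_, rfl⟩
  rw [← hHdef] at hKη hζ ⊢
  have := hS.prob
  have hH0 : 0 < H := by rw [hHdef]; positivity
  have hH1 : H ≤ 1 := by rw [hHdef]; exact pow_le_one₀ (by norm_num) (by norm_num)
  have hHlt : H < min H₀ (min x₁ x₂) :=
    lt_of_le_of_lt (by rw [hHdef]; exact pow_le_pow_of_le_one (by norm_num) (by norm_num) hk) hk₀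
  have hHH₀ : H < H₀ := lt_of_lt_of_le hHlt (min_le_left _ _)
  have h4 : 4 ≤ H ^ (-(η₁ / 2)) := hs₁ H hH0 (lt_of_lt_of_le hHlt ((min_le_right _ _).trans (min_le_left _ _)))
  have h8 : 8 ≤ H ^ (-(ε / 4)) := hs₂ H hH0 (lt_of_lt_of_le hHlt ((min_le_right _ _).trans (min_le_right _ _)))
  have hK0 : 0 < K := lt_of_lt_of_le one_pos hK
  have hKa : K ≤ H ^ (-(η₁ / 2)) :=
    hKη.trans (Real.rpow_le_rpow_of_exponent_ge hH0 hH1 (neg_le_neg (min_le_left _ _)))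
  have hKb : K ≤ H ^ (-(ε / 8)) :=
    hKη.trans (Real.rpow_le_rpow_of_exponent_ge hH0 hH1 (neg_le_neg (min_le_right _ _)))
  have h4K : 4 * K ≤ H ^ (-η₁) := by
    have e : H ^ (-η₁) = H ^ (-(η₁ / 2)) * H ^ (-(η₁ / 2)) := by
      rw [← Real.rpow_add hH0]
      congr 1
      ring
    rw [e]
    gcongr
  have h8K : 8 * K ^ 2 ≤ H ^ (-(ε / 2)) := by
    have e : H ^ (-(ε / 2)) = H ^ (-(ε / 4)) * (H ^ (-(ε / 8))) ^ 2 := by
      rw [sq, ← Real.rpow_add hH0, ← Real.rpow_add hH0]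
      congr 1
      ring
    rw [e]
    gcongr
  have e2k : (2 : ℝ) ^ k * H = 1 := by
    rw [hHdef, ← mul_pow]
    norm_num
  -- preparation: heavy times
  obtain ⟨τ, hτdef⟩ : ∃ τ : ℝ, τ = 1 / (4 * K) := ⟨_, rfl⟩
  have hτ : 0 < τ := by rw [hτdef]; positivity
  have hmm : Measurable fun t => ν.real (k5_sec E t) := k5_measurable_sec hS.mE
  obtain ⟨T₁, hT₁def⟩ : ∃ T₁ : Set ℝ, T₁ = {t | τ ≤ ν.real (k5_sec E t)} := ⟨_, rfl⟩
  have hT₁ : MeasurableSet T₁ := by rw [hT₁def]; exact measurableSet_le measurable_const hmm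
  have hE₁ : MeasurableSet (k5_rt E T₁) := k5_meas_rt hS.mE hT₁
  have hIn : k5_In E (Ico 0 1) := fun l t h => hS.tI l t h
  have hIn₁ : k5_In (k5_rt E T₁) (Ico 0 1) := fun l t h => hS.tI l t h.1
  have hv01 : volume (Ico (0 : ℝ) 1) ≠ ⊤ := by simp
  have hloss : k5_mass ν E ≤ k5_mass ν (k5_rt E T₁) + τ := by
    have hSm : MeasurableSet {x : Λ × ℝ | x.2 ∈ T₁} := measurable_snd hT₁
    rw [k5_mass_split hS.mE hv01 hIn hSm]
    refine add_le_add le_rfl ?_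
    have h1 := k5_mass_le_sec (ν := ν) (E := E \ {x : Λ × ℝ | x.2 ∈ T₁}) (hS.mE.diff hSm) measurableSet_Ico hv01
      (fun l t h => hIn l t h.1) (a := τ) (fun t _ => by
        by_cases ht : t ∈ T₁
        · have : k5_sec (E \ {x : Λ × ℝ | x.2 ∈ T₁}) t = ∅ := by
            ext l
            simp only [k5_sec, mem_ofPred_eq, mem_sdiff, mem_empty_iff_false, iff_false, not_and, not_not]
            exact fun _ => ht
          rw [this]
          simpa using hτ.le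
        · have h2 : ν.real (k5_sec E t) < τ := by
            rw [hT₁def] at ht
            exact not_le.1 ht
          exact (measureReal_mono (fun l hl => hl.1)).trans h2.le)
    simpa using h1
  -- blocks
  obtain ⟨Ib, hIb⟩ : ∃ Ib : ℕ → Set ℝ, Ib = fun n : ℕ => Ico ((n : ℝ) * H) ((n : ℝ) * H + H) := ⟨_, rfl⟩
  have hIbm : ∀ n, MeasurableSet (Ib n) := fun n => by rw [hIb]; exact measurableSet_Ico
  have hIbf : ∀ n t, t ∈ Ib n ↔ ⌊t * 2 ^ k⌋ = (n : ℤ) := fun n t => by rw [hIb]; exact k5_fr_block k H hHdef n t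
  have hIbv : ∀ n, volume.real (Ib n) = H := fun n => by
    rw [hIb]
    simp only [Real.volume_real_Ico]
    rw [add_sub_cancel_left, max_eq_left hH0.le]
  have hIbt : ∀ n, volume (Ib n) ≠ ⊤ := fun n => by rw [hIb]; simp
  have hsum : k5_mass ν (k5_rt E T₁) = ∑ n ∈ Finset.range (2 ^ k), k5_mass ν (k5_rt (k5_rt E T₁) (Ib n)) := by
    refine k5_mass_sum hv01 hIn₁ (Finset.range (2 ^ k)) (fun n => {x : Λ × ℝ | x.2 ∈ Ib n}) (fun n _ => measurable_snd (hIbm n)) ?_ ?_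
    · intro n _ n' _ hne
      refine Set.disjoint_left.2 fun x hx hx' => hne ?_
      have h1 := (hIbf n x.2).1 hx
      have h2 := (hIbf n' x.2).1 hx'
      exact_mod_cast h1.symm.trans h2
    · intro x hx
      obtain ⟨h0, h1⟩ := hIn₁ x.1 x.2 hx
      have hfl0 : 0 ≤ ⌊x.2 * 2 ^ k⌋ := Int.floor_nonneg.2 (by positivity)
      obtain ⟨n, hn⟩ := Int.eq_ofNat_of_zero_le hfl0
      have hlt : ⌊x.2 * 2 ^ k⌋ < (2 ^ k : ℕ) := by
        rw [Int.floor_lt]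
        push_cast
        calc x.2 * 2 ^ k < 1 * 2 ^ k := by gcongr
          _ = _ := one_mul _
      refine mem_iUnion₂.2 ⟨n, Finset.mem_range.2 (by rw [hn] at hlt; exact_mod_cast hlt), (hIbf n x.2).2 hn⟩
  obtain ⟨𝔅, h𝔅⟩ : ∃ 𝔅 : Finset ℕ, 𝔅 = (Finset.range (2 ^ k)).filter fun n => τ * H ≤ k5_mass ν (k5_rt (k5_rt E T₁) (Ib n)) := ⟨_, rfl⟩
  have hblk : ∀ n, k5_mass ν (k5_rt (k5_rt E T₁) (Ib n)) ≤ H := fun n => by
    have h1 := k5_mass_le (ν := ν) (E := k5_rt (k5_rt E T₁) (Ib n)) (hIbt n) (fun l t h => h.2)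
    rw [hIbv n] at h1
    simpa using h1
  have hcard : 1 / (2 * K) ≤ (𝔅.card : ℝ) * H := by
    have h1 : ∑ n ∈ 𝔅, k5_mass ν (k5_rt (k5_rt E T₁) (Ib n)) ≤ (𝔅.card : ℝ) * H := by
      have := Finset.sum_le_card_nsmul 𝔅 (fun n => k5_mass ν (k5_rt (k5_rt E T₁) (Ib n))) H (fun n _ => hblk n)
      simpa using this
    have h2 : ∑ n ∈ (Finset.range (2 ^ k)).filter (fun n => ¬ τ * H ≤ k5_mass ν (k5_rt (k5_rt E T₁) (Ib n))),
        k5_mass ν (k5_rt (k5_rt E T₁) (Ib n)) ≤ τ := by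
      have h3 := Finset.sum_le_card_nsmul ((Finset.range (2 ^ k)).filter (fun n => ¬ τ * H ≤ k5_mass ν (k5_rt (k5_rt E T₁) (Ib n))))
        (fun n => k5_mass ν (k5_rt (k5_rt E T₁) (Ib n))) (τ * H) (fun n hn => (not_le.1 (Finset.mem_filter.1 hn).2).le)
      refine h3.trans ?_
      rw [nsmul_eq_mul]
      have h4 : (((Finset.range (2 ^ k)).filter (fun n => ¬ τ * H ≤ k5_mass ν (k5_rt (k5_rt E T₁) (Ib n)))).card : ℝ) ≤ 2 ^ k := by
        have := Finset.card_filter_le (Finset.range (2 ^ k)) (fun n => ¬ τ * H ≤ k5_mass ν (k5_rt (k5_rt E T₁) (Ib n)))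
        rw [Finset.card_range] at this
        exact_mod_cast this
      calc _ ≤ (2 : ℝ) ^ k * (τ * H) := by gcongr
        _ = τ * (2 ^ k * H) := by ring
        _ = τ := by rw [e2k, mul_one]
    have h5 := Finset.sum_filter_add_sum_filter_not (Finset.range (2 ^ k)) (fun n => τ * H ≤ k5_mass ν (k5_rt (k5_rt E T₁) (Ib n)))
      (fun n => k5_mass ν (k5_rt (k5_rt E T₁) (Ib n)))
    rw [← h𝔅, ← hsum] at h5
    have h6 : 1 / (2 * K) = 1 / K - 2 * τ := by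
      rw [hτdef]
      field_simp
      ring
    rw [h6]
    linarith
  -- the local fits
  have hS₁ : k5_Snd j d (4 * K) ζ ν c (k5_rt E T₁) F :=
    k5_snd_mono_K (k5_snd_mono hS hE₁ fun x hx => hx.1) hK0.le (by linarith)
  have hfit : ∀ n ∈ 𝔅, ∃ c0 c1 : ℝ, |c0| ≤ H ^ (-(ε / 2)) ∧ H ^ (1 + ε / 2) ≤ volume.real
      {t | t ∈ Ico ((n : ℝ) * H) ((n : ℝ) * H + H) ∧ 0 < ν.real (k5_sec (k5_rt E T₁) t) ∧ |F t a - (c0 * t + c1)| ≤ H ^ (1 + θ)} := by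
    intro n hn
    refine hLF H (4 * K) ζ hH0 hHH₀ (by linarith) h4K hζ Λ ν c (k5_rt E T₁) F hS₁ ((n : ℝ) * H) a ?_
    rw [h𝔅] at hn
    have h1 := (Finset.mem_filter.1 hn).2
    rw [hIb] at h1
    refine le_trans (le_of_eq ?_) h1
    rw [hτdef]
    field_simp
  choose! c0 c1 hc using hfit
  obtain ⟨Tb, hTb⟩ : ∃ Tb : ℕ → Set ℝ, Tb = fun n : ℕ => {t | t ∈ Ico ((n : ℝ) * H) ((n : ℝ) * H + H) ∧ 0 < ν.real (k5_sec (k5_rt E T₁) t) ∧
      |F t a - (c0 n * t + c1 n)| ≤ H ^ (1 + θ)} := ⟨_, rfl⟩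
  have hTbm : ∀ n, MeasurableSet (Tb n) := fun n => by
    rw [hTb]
    have hFa : Measurable fun t => F t a := (measurable_pi_apply a).comp hS.mF
    have h1 : MeasurableSet {t : ℝ | 0 < ν.real (k5_sec (k5_rt E T₁) t)} := measurableSet_lt measurable_const (k5_measurable_sec hE₁)
    have h2 : MeasurableSet {t : ℝ | |F t a - (c0 n * t + c1 n)| ≤ H ^ (1 + θ)} :=
      measurableSet_le (hFa.sub ((measurable_id.const_mul (c0 n)).add_const (c1 n))).abs measurable_const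
    exact measurableSet_Ico.inter (h1.inter h2)
  have hTbI : ∀ n t, t ∈ Tb n → t ∈ Ib n := fun n t ht => by
    rw [hTb] at ht
    rw [hIb]
    exact ht.1
  have hTbT : ∀ n t, t ∈ Tb n → t ∈ T₁ ∧ t ∈ Ico (0 : ℝ) 1 := fun n t ht => by
    rw [hTb] at ht
    have hpos := ht.2.1
    by_contra hcon
    have : k5_sec (k5_rt E T₁) t = ∅ := by
      refine eq_empty_iff_forall_notMem.2 fun l hl => hcon ⟨hl.2, hS.tI l t hl.1⟩
    rw [this] at hpos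
    simp at hpos
  refine ⟨⋃ n ∈ 𝔅, Tb n, Finset.measurableSet_biUnion _ fun n _ => hTbm n, ?_, ?_⟩
  · have hWm : MeasurableSet (⋃ n ∈ 𝔅, Tb n) := Finset.measurableSet_biUnion _ fun n _ => hTbm n
    have hWsub : (⋃ n ∈ 𝔅, Tb n) ⊆ Ico (0 : ℝ) 1 := fun t ht => by
      obtain ⟨n, _, htn⟩ := mem_iUnion₂.1 ht
      exact (hTbT n t htn).2
    have hWfin : volume (⋃ n ∈ 𝔅, Tb n) ≠ ⊤ := ne_top_of_le_ne_top hv01 (measure_mono hWsub)
    have hvolW : (𝔅.card : ℝ) * H ^ (1 + ε / 2) ≤ volume.real (⋃ n ∈ 𝔅, Tb n) := by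
      rw [measureReal_biUnion_finset (fun n _ n' _ hne => Set.disjoint_left.2 fun t ht ht' => hne (by
          have h1 := (hIbf n t).1 (hTbI n t ht)
          have h2 := (hIbf n' t).1 (hTbI n' t ht')
          exact_mod_cast h1.symm.trans h2)) (fun n _ => hTbm n)
        (fun n _ => ne_top_of_le_ne_top (hIbt n) (measure_mono (hTbI n)))]
      have := Finset.card_nsmul_le_sum 𝔅 (fun n => volume.real (Tb n)) (H ^ (1 + ε / 2)) (fun n hn => by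
        have := (hc n hn).2
        rw [hTb]
        exact this)
      simpa using this
    have hrec : τ * volume.real (⋃ n ∈ 𝔅, Tb n) ≤ k5_mass ν (k5_rt E (⋃ n ∈ 𝔅, Tb n)) := by
      rw [k5_mass_eq_sec (k5_meas_rt hS.mE hWm) hWm hWfin (fun l t h => h.2)]
      have h1 : ∫ _ in (⋃ n ∈ 𝔅, Tb n), τ ≤ ∫ t in (⋃ n ∈ 𝔅, Tb n), ν.real (k5_sec (k5_rt E (⋃ n ∈ 𝔅, Tb n)) t) := by
        refine setIntegral_mono_on (integrableOn_const hWfin) (k5_sec_integrableOn (k5_meas_rt hS.mE hWm) hWfin) hWm fun t ht => ?_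
        obtain ⟨n, _, htn⟩ := mem_iUnion₂.1 ht
        have h2 : t ∈ T₁ := (hTbT n t htn).1
        rw [hT₁def] at h2
        have h3 : k5_sec (k5_rt E (⋃ n ∈ 𝔅, Tb n)) t = k5_sec E t := by
          ext l
          exact ⟨fun h => h.1, fun h => ⟨h, ht⟩⟩
        rw [h3]
        exact h2
      rw [setIntegral_const, smul_eq_mul, mul_comm] at h1
      exact h1
    refine le_trans ?_ hrec
    refine (k5_fr_num H K ε 𝔅.card hH0 hK h8K hcard).trans ?_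
    rw [← hτdef]
    gcongr
  · intro b
    by_cases hb : ∃ n ∈ 𝔅, (n : ℤ) = b
    · obtain ⟨n, hn, rfl⟩ := hb
      refine ⟨c0 n, c1 n, (hc n hn).1.trans (Real.rpow_le_rpow_of_exponent_ge hH0 hH1 (by linarith)), fun t ht hfl => ?_⟩
      obtain ⟨n', _, htn'⟩ := mem_iUnion₂.1 ht
      have h1 := (hIbf n' t).1 (hTbI n' t htn')
      have h2 : n' = n := by exact_mod_cast h1.symm.trans hfl
      subst h2
      rw [hTb] at htn'
      exact htn'.2.2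
    · refine ⟨0, 0, by rw [abs_zero]; positivity, fun t ht hfl => absurd ?_ hb⟩
      obtain ⟨n', hn', htn'⟩ := mem_iUnion₂.1 ht
      exact ⟨n', hn', ((hIbf n' t).1 (hTbI n' t htn')).symm.trans hfl⟩

theorem k5_stage_inv {h K e : ℝ} (hh : 0 < h) (hK : 0 < K) (hKe : K ≤ h ^ (-e)) : h ^ e ≤ 1 / K := by
  have h1 : 1 / h ^ (-e) ≤ 1 / K := one_div_le_one_div_of_le hK hKe
  rwa [Real.rpow_neg hh.le, one_div, inv_inv] at h1

theorem k5_stage_pow {h : ℝ} (hh : 0 ≤ h) (R : ℕ) (e : ℝ) : (h ^ R) ^ e = h ^ ((R : ℝ) * e) := by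
  rw [← Real.rpow_natCast, ← Real.rpow_mul hh]

theorem k5_fiton_mono {F : ℝ → Fin j → ℝ} {W W' : Set ℝ} {k : ℕ} {a : Fin j} {Ks Ks' er : ℝ} (h : k5_FitOn F W k a Ks er)
    (hW : W' ⊆ W) (hK : Ks ≤ Ks') : k5_FitOn F W' k a Ks' er := by
  intro b
  obtain ⟨c0, c1, h0, h1⟩ := h b
  exact ⟨c0, c1, h0.trans hK, fun t ht => h1 t (hW ht)⟩

/-- **L-252-S5-R2**  **all rounds**: a list of `≤ n` pairs (length exponent, component), all exponents in `[k1, R k1]`;  everything is measured in powers of `H1 = (1/2)^k1`.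
PROOF.  Induction on `n` (for all `ε`).   `n = 0` : `L = []`, `W := univ`, `mass (rt E univ) = mass E ≥ 1/K ≥ H1^η`, `η := ε`.   Step `n + 1` : `L = x :: L'` (or `L` shorter).   `(η_R, k_R)` from `k5_fit_round` at `ε_R := ε/(R+1)`;  `(η', k')` from the induction hypothesis at `ε' := min η_R ε`;  `η := min η' η_R`.
First the induction hypothesis on `L'` : `W'`, `mass (rt E W') ≥ H1^ε'`.   Then `k5_fit_round` for the labels `rt E W'` (`k5_snd_mono`, `k5_meas_rt`), slack `K₂ := max K (H1^(-ε'))` (`k5_snd_mono_K`), `K₂ ≤ H1^(-η_R) ≤ H^(-η_R)` with `H := (1/2)^(x.1) ≤ H1`;  `ζ ≤ ((1/2)^(R k1))³ ≤ H³`.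
Output `W''`; `W := W' ∩ W''`, `rt (rt E W') W'' = rt E W`, mass `≥ H^(ε_R) ≥ H1^(R ε_R) ≥ H1^ε` (`x.1 ≤ R k1`), slope bound `H^(-ε_R) ≤ H1^(-ε)`.   `k5_FitOn` is monotone in `W` and in the slope bound.   ~300 l. -/
theorem k5_fit_stage (j : ℕ) (d θ : ℝ) (hd0 : 0 ≤ d) (hd : d < 1) (hθ : 0 < θ) (hFJ : k5_FJ d θ) (R n : ℕ) (ε : ℝ)
    (hε : 0 < ε) :
    ∃ (η : ℝ) (k₀ : ℕ), 0 < η ∧ ∀ (k1 : ℕ) (L : List (ℕ × Fin j)) (K ζ : ℝ), k₀ ≤ k1 → L.length ≤ n →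
      (∀ x ∈ L, k1 ≤ x.1 ∧ x.1 ≤ R * k1) → 1 ≤ K → K ≤ ((1 / 2 : ℝ) ^ k1) ^ (-η) → ζ ≤ ((1 / 2 : ℝ) ^ (R * k1)) ^ 3 →
      ∀ (Λ : Type) [MeasurableSpace Λ] (ν : Measure Λ) (c : Λ → k5_Co j) (E : Set (Λ × ℝ)) (F : ℝ → Fin j → ℝ),
      k5_Snd j d K ζ ν c E F → 1 / K ≤ k5_mass ν E →
      ∃ W : Set ℝ, MeasurableSet W ∧ ((1 / 2 : ℝ) ^ k1) ^ ε ≤ k5_mass ν (k5_rt E W) ∧
        ∀ x ∈ L, k5_FitOn F W x.1 x.2 (((1 / 2 : ℝ) ^ k1) ^ (-ε)) (((1 / 2 : ℝ) ^ x.1) ^ (1 + θ)) := by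
  induction n generalizing ε with
  | zero =>
    refine ⟨ε, 0, hε, ?_⟩
    intro k1 L K ζ _ hL _ hK1 hK _ Λ _ ν c E F hS hm
    have hL0 : L = [] := List.length_eq_zero_iff.1 (Nat.le_zero.1 hL)
    subst hL0
    have hh : (0 : ℝ) < (1 / 2 : ℝ) ^ k1 := by positivity
    refine ⟨univ, MeasurableSet.univ, ?_, fun x hx => absurd hx List.not_mem_nil⟩
    have e : k5_rt E univ = E := by
      ext x
      simp [k5_rt]
    rw [e]
    exact (k5_stage_inv hh (by linarith) hK).trans hm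
  | succ n ih =>
    obtain ⟨ηR, kR, hηR, hround⟩ := k5_fit_round j d θ (ε / (R + 1)) hd0 hd hθ hFJ (by positivity)
    obtain ⟨η', k', hη', hih⟩ := ih (min ηR ε) (lt_min hηR hε)
    refine ⟨min η' ηR, max k' kR, lt_min hη' hηR, ?_⟩
    intro k1 L K ζ hk1 hL hLx hK1 hK hζ Λ _ ν c E F hS hm
    obtain ⟨h1, hh1⟩ : ∃ h1 : ℝ, h1 = (1 / 2 : ℝ) ^ k1 := ⟨_, rfl⟩
    have hih' := hih k1
    rw [← hh1] at hK hih' ⊢
    have hpos : 0 < h1 := by
      rw [hh1]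
      positivity
    have hle1 : h1 ≤ 1 := by
      rw [hh1]
      exact pow_le_one₀ (by norm_num) (by norm_num)
    have hK' : K ≤ h1 ^ (-η') :=
      hK.trans (Real.rpow_le_rpow_of_exponent_ge hpos hle1 (by linarith [min_le_left η' ηR]))
    have hKR : K ≤ h1 ^ (-ηR) :=
      hK.trans (Real.rpow_le_rpow_of_exponent_ge hpos hle1 (by linarith [min_le_right η' ηR]))
    cases L with
    | nil =>
      obtain ⟨W, hW, hmW, _⟩ := hih' [] K ζ (le_trans (le_max_left _ _) hk1) (Nat.zero_le _) (by simp) hK1 hK' hζ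
        Λ ν c E F hS hm
      exact ⟨W, hW, le_trans (Real.rpow_le_rpow_of_exponent_ge hpos hle1 (min_le_right _ _)) hmW, by simp⟩
    | cons x L' =>
      have hL' : L'.length ≤ n := by simpa using hL
      obtain ⟨W', hW', hmW', hfit'⟩ := hih' L' K ζ (le_trans (le_max_left _ _) hk1) hL'
        (fun y hy => hLx y (List.mem_cons_of_mem _ hy)) hK1 hK' hζ Λ ν c E F hS hm
      obtain ⟨hx1, hx2⟩ := hLx x List.mem_cons_self
      have hround' := hround x.1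
      obtain ⟨H, hH⟩ : ∃ H : ℝ, H = (1 / 2 : ℝ) ^ x.1 := ⟨_, rfl⟩
      rw [← hH] at hround'
      have hHpos : 0 < H := by
        rw [hH]
        positivity
      have hHle : H ≤ h1 := by
        rw [hH, hh1]
        exact pow_le_pow_of_le_one (by norm_num) (by norm_num) hx1
      have hHge : h1 ^ R ≤ H := by
        rw [hH, hh1, ← pow_mul, mul_comm]
        exact pow_le_pow_of_le_one (by norm_num) (by norm_num) hx2
      have hRpos : 0 < h1 ^ R := pow_pos hpos R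
      have hRε : (R : ℝ) * (ε / (R + 1)) ≤ ε := by
        rw [← mul_div_assoc, div_le_iff₀ (by positivity)]
        nlinarith
      have hεR : 0 < ε / ((R : ℝ) + 1) := by positivity
      have hK2 : max K (h1 ^ (-(min ηR ε))) ≤ H ^ (-ηR) := by
        have hb : h1 ^ (-ηR) ≤ H ^ (-ηR) := Real.rpow_le_rpow_of_nonpos hHpos hHle (by linarith)
        refine max_le (hKR.trans hb) (le_trans ?_ hb)
        exact Real.rpow_le_rpow_of_exponent_ge hpos hle1 (by linarith [min_le_left ηR ε])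
      have hζ2 : ζ ≤ H ^ 3 := by
        refine hζ.trans (pow_le_pow_left₀ (by positivity) ?_ 3)
        rw [hH]
        exact pow_le_pow_of_le_one (by norm_num) (by norm_num) hx2
      have hS2 : k5_Snd j d (max K (h1 ^ (-(min ηR ε)))) ζ ν c (k5_rt E W') F :=
        k5_snd_mono_K (k5_snd_mono hS (k5_meas_rt hS.mE hW') (fun y hy => hy.1)) (by linarith) (le_max_left _ _)
      have hm2 : 1 / max K (h1 ^ (-(min ηR ε))) ≤ k5_mass ν (k5_rt E W') := by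
        refine le_trans ?_ hmW'
        have h4 : h1 ^ (min ηR ε) = 1 / h1 ^ (-(min ηR ε)) := by
          rw [Real.rpow_neg hpos.le, one_div, inv_inv]
        rw [h4]
        exact one_div_le_one_div_of_le (Real.rpow_pos_of_pos hpos _) (le_max_right _ _)
      obtain ⟨W'', hW'', hmW'', hfit''⟩ := hround' (max K (h1 ^ (-(min ηR ε)))) ζ
        (le_trans (le_trans (le_max_right _ _) hk1) hx1) (le_trans hK1 (le_max_left _ _)) hK2 hζ2
        Λ ν c (k5_rt E W') F hS2 hm2 x.2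
      have ert : k5_rt (k5_rt E W') W'' = k5_rt E (W' ∩ W'') := by
        ext y
        simp only [k5_rt, mem_ofPred_eq, mem_inter_iff]
        tauto
      refine ⟨W' ∩ W'', hW'.inter hW'', ?_, ?_⟩
      · rw [← ert]
        refine le_trans ?_ hmW''
        calc h1 ^ ε ≤ h1 ^ ((R : ℝ) * (ε / (R + 1))) := Real.rpow_le_rpow_of_exponent_ge hpos hle1 hRε
          _ = (h1 ^ R) ^ (ε / ((R : ℝ) + 1)) := (k5_stage_pow hpos.le R _).symm
          _ ≤ H ^ (ε / ((R : ℝ) + 1)) := Real.rpow_le_rpow hRpos.le hHge hεR.le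
      · intro y hy
        rcases List.mem_cons.1 hy with hyx | hy
        · subst hyx
          rw [← hH]
          refine k5_fiton_mono hfit'' inter_subset_right ?_
          calc H ^ (-(ε / ((R : ℝ) + 1))) ≤ (h1 ^ R) ^ (-(ε / ((R : ℝ) + 1))) :=
                Real.rpow_le_rpow_of_nonpos hRpos hHge (by linarith)
            _ = h1 ^ ((R : ℝ) * (-(ε / ((R : ℝ) + 1)))) := k5_stage_pow hpos.le R _
            _ ≤ h1 ^ (-ε) := Real.rpow_le_rpow_of_exponent_ge hpos hle1 (by linarith)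
        · exact k5_fiton_mono (hfit' y hy) inter_subset_left
            (Real.rpow_le_rpow_of_exponent_ge hpos hle1 (by linarith [min_le_right ηR ε]))

theorem k5_tyb_sub (W : Set ℝ) (k : ℕ) (b : ℤ) :
    {v : ℝ | v ∈ W ∧ ⌊v * 2 ^ k⌋ = b} ⊆ Ico ((b : ℝ) / 2 ^ k) (((b : ℝ) + 1) / 2 ^ k) := by
  rintro v ⟨-, hv⟩
  have h2 : (0 : ℝ) < 2 ^ k := by positivity
  rw [Int.floor_eq_iff] at hv
  constructor
  · rw [div_le_iff₀ h2]; exact hv.1
  · rw [lt_div_iff₀ h2]; exact hv.2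

theorem k5_tyb_fin (W : Set ℝ) (k : ℕ) (b : ℤ) : volume {v : ℝ | v ∈ W ∧ ⌊v * 2 ^ k⌋ = b} ≠ ⊤ :=
  ne_top_of_le_ne_top (by simp) (measure_mono (k5_tyb_sub W k b))

/-- **L-252-S5-Y1**  deletion of the light blocks at all lengths (05 l.674-681).
PROOF.  `n := ks.card`.   For `k ∈ ks`, `0 ≤ b < 2^k` call `(k, b)` light if `mass (rt E (W ∩ I_{k,b})) < (1/2)^k δ/(2n)`.   `W' := W \ ⋃ light I_{k,b}` (finite union of intervals).   Removed mass `≤ ∑_k 2^k (1/2)^k δ/(2n) = δ/2` (`k5_mass_split`/subadditivity).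
If `t ∈ W'` … careful: `t` may lie outside `[0,1)`; then intersect `W'` with `Ico 0 1` first (this does not change `rt E W'`).   For `t ∈ W' ∩ [0,1)`, `k ∈ ks` the block of `t` is not light and `mass (rt E (W ∩ I)) ≤ |W ∩ I|` (`k5_mass_le_sec`, sections `≤ 1`).   ~250 l. -/
theorem k5_taylor_prune {Λ : Type} [MeasurableSpace Λ] (ν : Measure Λ) [IsProbabilityMeasure ν] (E : Set (Λ × ℝ))
    (hE : MeasurableSet E) (hI : ∀ l t, (l, t) ∈ E → 0 ≤ t ∧ t < 1) (W : Set ℝ) (hW : MeasurableSet W) (δ : ℝ)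
    (hδ : 0 < δ) (hm : δ ≤ k5_mass ν (k5_rt E W)) (ks : Finset ℕ) (hks : ks.Nonempty) :
    ∃ W' : Set ℝ, MeasurableSet W' ∧ W' ⊆ W ∧ δ / 2 ≤ k5_mass ν (k5_rt E W') ∧
      ∀ t ∈ W', ∀ k ∈ ks, (1 / 2 : ℝ) ^ k * δ / (2 * ks.card) ≤ volume.real {v | v ∈ W ∧ ⌊v * 2 ^ k⌋ = ⌊t * 2 ^ k⌋} := by
  classical
  obtain ⟨n, hn⟩ : ∃ n : ℝ, n = (ks.card : ℝ) := ⟨_, rfl⟩
  have hn0 : 0 < n := by rw [hn]; exact_mod_cast hks.card_pos
  rw [← hn]
  let g : ℕ → ℤ → ℝ := fun k b => volume.real {v : ℝ | v ∈ W ∧ ⌊v * 2 ^ k⌋ = b}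
  let W' : Set ℝ := {t | t ∈ W ∧ ∀ k ∈ ks, (1 / 2 : ℝ) ^ k * δ / (2 * n) ≤ g k ⌊t * 2 ^ k⌋}
  have hmeasW' : MeasurableSet W' := by
    have : W' = W ∩ ⋂ k ∈ ks, (fun t : ℝ => ⌊t * 2 ^ k⌋) ⁻¹' {b | (1 / 2 : ℝ) ^ k * δ / (2 * n) ≤ g k b} := by
      ext t; simp [W']
    rw [this]
    refine hW.inter (Finset.measurableSet_biInter _ fun k _ => ?_)
    exact (Int.measurable_floor.comp (measurable_id.mul_const _)) (MeasurableSet.of_discrete)
  refine ⟨W', hmeasW', fun t ht => ht.1, ?_, fun t ht k hk => ht.2 k hk⟩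
  let P : ℕ → ℕ → Set (Λ × ℝ) := fun k b =>
    if g k (b : ℤ) < (1 / 2 : ℝ) ^ k * δ / (2 * n) then k5_rt E {v : ℝ | v ∈ W ∧ ⌊v * 2 ^ k⌋ = (b : ℤ)} else ∅
  have hPE : ∀ k b, P k b ⊆ E := by
    intro k b
    by_cases h : g k (b : ℤ) < (1 / 2 : ℝ) ^ k * δ / (2 * n)
    · simp only [P, if_pos h]; exact fun x hx => hx.1
    · simp only [P, if_neg h]; exact empty_subset _
  have hP : ∀ k b, k5_mass ν (P k b) ≤ (1 / 2 : ℝ) ^ k * δ / (2 * n) := by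
    intro k b
    by_cases h : g k (b : ℤ) < (1 / 2 : ℝ) ^ k * δ / (2 * n)
    · simp only [P, if_pos h]
      have h1 := k5_mass_le (ν := ν) (E := k5_rt E {v : ℝ | v ∈ W ∧ ⌊v * 2 ^ k⌋ = (b : ℤ)}) (k5_tyb_fin W k b)
        (fun l t ht => ht.2)
      rw [probReal_univ, one_mul] at h1
      exact h1.trans h.le
    · simp only [P, if_neg h]
      simp only [k5_mass, measureReal_empty]
      positivity
  have hsub : k5_rt E W ⊆ k5_rt E W' ∪ ⋃ k ∈ ks, ⋃ b ∈ Finset.range (2 ^ k), P k b := by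
    rintro ⟨l, t⟩ ⟨hlt, htW⟩
    by_cases ht : t ∈ W'
    · exact Or.inl ⟨hlt, ht⟩
    · right
      have : ∃ k ∈ ks, g k ⌊t * 2 ^ k⌋ < (1 / 2 : ℝ) ^ k * δ / (2 * n) := by
        by_contra hcon
        push Not at hcon
        exact ht ⟨htW, hcon⟩
      obtain ⟨k, hk, hlight⟩ := this
      obtain ⟨h0, h1⟩ := hI l t hlt
      have h2 : (0 : ℝ) < 2 ^ k := by positivity
      have hfl0 : 0 ≤ ⌊t * 2 ^ k⌋ := Int.floor_nonneg.2 (by positivity)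
      have hfl1 : ⌊t * 2 ^ k⌋ < 2 ^ k := by
        rw [Int.floor_lt]; push_cast; nlinarith
      obtain ⟨b, hb⟩ := Int.eq_ofNat_of_zero_le hfl0
      simp only [mem_iUnion]
      refine ⟨k, hk, b, ?_, ?_⟩
      · rw [Finset.mem_range]; rw [hb] at hfl1; exact_mod_cast hfl1
      · simp only [P]; rw [← hb, if_pos hlight]; exact ⟨hlt, htW, rfl⟩
  have hfinE : ∀ S : Set (Λ × ℝ), S ⊆ E → (ν.prod volume) S ≠ ⊤ := fun S hS =>
    k5_mass_ne_top (T := Ico 0 1) (by simp) (fun l t h => hI l t (hS h))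
  have hbig : (k5_rt E W' ∪ ⋃ k ∈ ks, ⋃ b ∈ Finset.range (2 ^ k), P k b) ⊆ E := by
    refine union_subset (fun x hx => hx.1) ?_
    exact iUnion₂_subset fun k _ => iUnion₂_subset fun b _ => hPE k b
  have h1 : k5_mass ν (k5_rt E W) ≤ k5_mass ν (k5_rt E W') + ∑ k ∈ ks, ∑ b ∈ Finset.range (2 ^ k), k5_mass ν (P k b) := by
    unfold k5_mass
    calc (ν.prod volume).real (k5_rt E W)
        ≤ (ν.prod volume).real (k5_rt E W' ∪ ⋃ k ∈ ks, ⋃ b ∈ Finset.range (2 ^ k), P k b) :=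
          measureReal_mono hsub (hfinE _ hbig)
      _ ≤ (ν.prod volume).real (k5_rt E W') + (ν.prod volume).real (⋃ k ∈ ks, ⋃ b ∈ Finset.range (2 ^ k), P k b) :=
          measureReal_union_le _ _
      _ ≤ (ν.prod volume).real (k5_rt E W') + ∑ k ∈ ks, (ν.prod volume).real (⋃ b ∈ Finset.range (2 ^ k), P k b) := by
          gcongr
          exact measureReal_biUnion_finset_le _ _
      _ ≤ _ := by
          gcongr with k hk
          exact measureReal_biUnion_finset_le _ _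
  have h2 : ∑ k ∈ ks, ∑ b ∈ Finset.range (2 ^ k), k5_mass ν (P k b) ≤ δ / 2 := by
    calc ∑ k ∈ ks, ∑ b ∈ Finset.range (2 ^ k), k5_mass ν (P k b)
        ≤ ∑ k ∈ ks, δ / (2 * n) := by
          refine Finset.sum_le_sum fun k _ => ?_
          calc ∑ b ∈ Finset.range (2 ^ k), k5_mass ν (P k b)
              ≤ ∑ b ∈ Finset.range (2 ^ k), (1 / 2 : ℝ) ^ k * δ / (2 * n) := Finset.sum_le_sum fun b _ => hP k b
            _ = δ / (2 * n) := by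
                rw [Finset.sum_const, Finset.card_range, nsmul_eq_mul]
                push_cast
                rw [one_div, inv_pow]
                field_simp
      _ = δ / 2 := by
          rw [Finset.sum_const, nsmul_eq_mul, ← hn]
          field_simp
  linarith

/-- dyadic nesting of the blocks -/
theorem k5_tyb_nest {k k' : ℕ} (hk : k ≤ k') {u v : ℝ} (h : ⌊v * 2 ^ k'⌋ = ⌊u * 2 ^ k'⌋) :
    ⌊v * 2 ^ k⌋ = ⌊u * 2 ^ k⌋ := by
  obtain ⟨i, rfl⟩ := Nat.exists_eq_add_of_le hk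
  have key : ∀ w : ℝ, ⌊w * 2 ^ k⌋ = ⌊w * 2 ^ (k + i)⌋ / ((2 ^ i : ℕ) : ℤ) := by
    intro w
    rw [← Int.floor_div_natCast]
    congr 1
    push_cast
    rw [pow_add]
    field_simp
  rw [key v, key u, h]

/-- two affine fits on a set of positive measure have comparable slopes -/
theorem k5_tyb_step (f : ℝ → ℝ) (S : Set ℝ) (L e e' p q p' q' : ℝ) (hL : 0 < L) (hfin : volume S ≠ ⊤)
    (hS : L ≤ volume.real S) (h1 : ∀ t ∈ S, |f t - (p * t + q)| ≤ e) (h2 : ∀ t ∈ S, |f t - (p' * t + q')| ≤ e') :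
    |p' - p| * (L / 2) ≤ 2 * e + 2 * e' := by
  obtain ⟨s, hs, t, ht, hst⟩ := k5_two_points S L hL hfin hS
  have a1 := abs_le.1 (h1 s hs)
  have a2 := abs_le.1 (h1 t ht)
  have a3 := abs_le.1 (h2 s hs)
  have a4 := abs_le.1 (h2 t ht)
  have h3 : |p' - p| * (t - s) ≤ 2 * e + 2 * e' := by
    rw [← abs_of_nonneg (show 0 ≤ t - s by linarith), ← abs_mul, abs_le]
    have : (p' - p) * (t - s) = p' * t - p' * s - p * t + p * s := by ring
    rw [this]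
    constructor <;> linarith [a1.1, a1.2, a2.1, a2.2, a3.1, a3.2, a4.1, a4.2]
  calc |p' - p| * (L / 2) ≤ |p' - p| * (t - s) := by gcongr
    _ ≤ _ := h3

theorem k5_tyb_succ {k k' : ℕ} {θ : ℝ} (hle : (k' : ℝ) ≤ (1 + θ / 8) * k + 1) :
    ((1 / 2 : ℝ) ^ k) ^ (1 + θ / 8) / 2 ≤ (1 / 2 : ℝ) ^ k' := by
  rw [← Real.rpow_natCast (1 / 2) k, ← Real.rpow_natCast (1 / 2) k', ← Real.rpow_mul (by norm_num)]
  have : (1 / 2 : ℝ) ^ ((k : ℝ) * (1 + θ / 8)) / 2 = (1 / 2 : ℝ) ^ ((1 + θ / 8) * k + 1) := by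
    rw [Real.rpow_add (by norm_num), Real.rpow_one, mul_comm (k : ℝ)]; ring
  rw [this]
  exact Real.rpow_le_rpow_of_exponent_ge (by norm_num) (by norm_num) hle

theorem k5_tyb_step2 {k k' : ℕ} {θ δ n D : ℝ} (hθ : 0 < θ) (hδ : 0 < δ) (hn : 0 < n) (hlt : k ≤ k')
    (hle : (k' : ℝ) ≤ (1 + θ / 8) * k + 1) (hD0 : 0 ≤ D)
    (h : D * ((1 / 2 : ℝ) ^ k' * δ / (2 * n) / 2)
      ≤ 2 * ((1 / 2 : ℝ) ^ k) ^ (1 + θ) + 2 * ((1 / 2 : ℝ) ^ k') ^ (1 + θ)) :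
    D ≤ 32 * n / δ * ((1 / 2 : ℝ) ^ k) ^ (7 * θ / 8) := by
  have hs := k5_tyb_succ hle
  have hH : (0 : ℝ) < (1 / 2 : ℝ) ^ k := by positivity
  have hH' : (0 : ℝ) < (1 / 2 : ℝ) ^ k' := by positivity
  have hHH : (1 / 2 : ℝ) ^ k' ≤ (1 / 2 : ℝ) ^ k := pow_le_pow_of_le_one (by norm_num) (by norm_num) hlt
  have h1 : ((1 / 2 : ℝ) ^ k') ^ (1 + θ) ≤ ((1 / 2 : ℝ) ^ k) ^ (1 + θ) :=
    Real.rpow_le_rpow hH'.le hHH (by linarith)
  have h2 : ((1 / 2 : ℝ) ^ k) ^ (1 + θ) = ((1 / 2 : ℝ) ^ k) ^ (1 + θ / 8) * ((1 / 2 : ℝ) ^ k) ^ (7 * θ / 8) := by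
    rw [← Real.rpow_add hH]; congr 1; ring
  obtain ⟨X, hX⟩ : ∃ X, X = ((1 / 2 : ℝ) ^ k) ^ (1 + θ / 8) := ⟨_, rfl⟩
  obtain ⟨Y, hY⟩ : ∃ Y, Y = ((1 / 2 : ℝ) ^ k) ^ (7 * θ / 8) := ⟨_, rfl⟩
  have hX0 : 0 < X := by rw [hX]; positivity
  rw [← hX, ← hY] at h2
  rw [← hX] at hs
  rw [← hY]
  have hc : 0 < X * δ / (8 * n) := by positivity
  refine le_of_mul_le_mul_right ?_ hc
  have h3 : 32 * n / δ * Y * (X * δ / (8 * n)) = 4 * (X * Y) := by field_simp; ring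
  rw [h3]
  have h4 : D * (X * δ / (8 * n)) ≤ D * ((1 / 2 : ℝ) ^ k' * δ / (2 * n) / 2) := by
    refine mul_le_mul_of_nonneg_left ?_ hD0
    have : X * δ / (8 * n) = X / 2 * (δ / (4 * n)) := by field_simp; ring
    rw [this]
    have : (1 / 2 : ℝ) ^ k' * δ / (2 * n) / 2 = (1 / 2 : ℝ) ^ k' * (δ / (4 * n)) := by field_simp; ring
    rw [this]
    exact mul_le_mul_of_nonneg_right hs (by positivity)
  linarith

theorem k5_tyb_chain (ks : Finset ℕ) (kst : ℕ) (hmax : ∀ k ∈ ks, k ≤ kst) (p B : ℕ → ℝ) (hB0 : ∀ k, 0 ≤ B k)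
    (hBm : ∀ k k', k ≤ k' → B k' ≤ B k)
    (hstep : ∀ k ∈ ks, k ≠ kst → ∃ k' ∈ ks, k < k' ∧ |p k' - p k| ≤ B k) :
    ∀ k ∈ ks, |p kst - p k| ≤ ks.card * B k := by
  have main : ∀ m : ℕ, ∀ k ∈ ks, kst - k ≤ m → |p kst - p k| ≤ ((ks.filter (fun x => k ≤ x)).card : ℝ) * B k := by
    intro m
    induction m with
    | zero =>
      intro k hk hm
      have : k = kst := le_antisymm (hmax k hk) (by omega)
      subst this
      simp only [sub_self, abs_zero]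
      exact mul_nonneg (Nat.cast_nonneg _) (hB0 _)
    | succ m ih =>
      intro k hk hm
      by_cases hkk : k = kst
      · subst hkk
        simp only [sub_self, abs_zero]
        exact mul_nonneg (Nat.cast_nonneg _) (hB0 _)
      · obtain ⟨k', hk', hlt, hle⟩ := hstep k hk hkk
        have h1 := ih k' hk' (by omega)
        have hcard : (ks.filter (fun x => k' ≤ x)).card + 1 ≤ (ks.filter (fun x => k ≤ x)).card := by
          apply Finset.card_lt_card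
          refine Finset.ssubset_iff_of_subset ?_ |>.2 ⟨k, ?_, ?_⟩
          · intro x hx
            rw [Finset.mem_filter] at hx ⊢
            exact ⟨hx.1, by omega⟩
          · rw [Finset.mem_filter]; exact ⟨hk, le_rfl⟩
          · rw [Finset.mem_filter]; intro hx; omega
        have hcard' : ((ks.filter (fun x => k' ≤ x)).card : ℝ) + 1 ≤ ((ks.filter (fun x => k ≤ x)).card : ℝ) := by
          exact_mod_cast hcard
        have h2 : |p kst - p k| ≤ |p kst - p k'| + |p k' - p k| := by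
          have : p kst - p k = (p kst - p k') + (p k' - p k) := by ring
          rw [this]; exact abs_add_le _ _
        have h3 : ((ks.filter (fun x => k' ≤ x)).card : ℝ) * B k' ≤ ((ks.filter (fun x => k' ≤ x)).card : ℝ) * B k :=
          mul_le_mul_of_nonneg_left (hBm k k' hlt.le) (Nat.cast_nonneg _)
        have h4 : (((ks.filter (fun x => k' ≤ x)).card : ℝ) + 1) * B k ≤ ((ks.filter (fun x => k ≤ x)).card : ℝ) * B k :=
          mul_le_mul_of_nonneg_right hcard' (hB0 k)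
        linarith
  intro k hk
  refine (main (kst - k) k hk le_rfl).trans ?_
  refine mul_le_mul_of_nonneg_right ?_ (hB0 k)
  exact_mod_cast Finset.card_filter_le _ _


/-- **L-252-S5-Y2**  **comparison across lengths** (05 l.672-699).   `ks` = the hierarchy (with the inserted lengths): every `k ∈ ks` except the largest `kst` has a successor `k' ≤ (1+θ/8) k + 1`.
Output: times `W' ⊆ W` keeping half of the mass, the row `A` = slope of the finest fit (constant on the finest blocks), Taylor estimate with gain `θ/2`.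
PROOF.  `choose` the fits: `c0 k a b`, `c1 k a b` from `hfit`.   `W'` from `k5_taylor_prune`.   `a0 b := fun a => c0 kst a b`, `c1 b := fun a => c1 kst a b`; sup norm = max of the components (`pi_norm_le_iff_of_nonneg`).   `n := ks.card`, `H_k := (1/2)^k`.
ONE STEP: `k < k'` in `ks`, `k' ≤ (1+θ/8) k + 1`, `u ∈ W'` : the `k'`-block `I'` of `u` is contained in its `k`-block `I` (dyadic nesting: `⌊v 2^k'⌋ = ⌊u 2^k'⌋ ⟹ ⌊v 2^k⌋ = ⌊u 2^k⌋`), `|W ∩ I'| ≥ H_k' δ/(2n)`, so `k5_two_points` gives `s, t ∈ W ∩ I'` with `t - s ≥ H_k' δ/(4n)`; both fits hold at `s, t`: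
`|c0 k' - c0 k| (t - s) ≤ 2 H_k^(1+θ) + 2 H_k'^(1+θ) ≤ 4 H_k^(1+θ)`, so `|c0 k' - c0 k| ≤ 16 n H_k^(1+θ)/(δ H_k') ≤ 32 n H_k^(7θ/8)/δ` (`H_k' ≥ H_k^(1+θ/8)/2`).
CHAIN: strong induction on `kst - k` along `hadj` : `|c0 kst - c0 k| ≤ #{k'' ∈ ks | k ≤ k''} · 32 n H_k^(7θ/8)/δ ≤ 32 n² H_k^(7θ/8)/δ` (`H_k'' ≤ H_k`).
TAYLOR: `u, v ∈ W'` in the same `k`-block: `|F v - F u - (v - u) a0| ≤ 2 H_k^(1+θ) + |v - u| |c0 k - c0 kst| ≤ 2 H_k^(1+θ) + 32 n² H_k^(1+7θ/8)/δ` (`|v - u| ≤ H_k`), `δ ≤ 1`.   ~400 l. -/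
theorem k5_taylor {Λ : Type} [MeasurableSpace Λ] (ν : Measure Λ) [IsProbabilityMeasure ν] (E : Set (Λ × ℝ))
    (hE : MeasurableSet E) (hI : ∀ l t, (l, t) ∈ E → 0 ≤ t ∧ t < 1) (F : ℝ → Fin j → ℝ) (W : Set ℝ)
    (hW : MeasurableSet W) (θ δ Ks : ℝ) (hθ : 0 < θ) (hθ1 : θ ≤ 1) (hδ : 0 < δ) (hm : δ ≤ k5_mass ν (k5_rt E W))
    (hKs : 1 ≤ Ks) (ks : Finset ℕ) (kst : ℕ) (hkst : kst ∈ ks) (hmax : ∀ k ∈ ks, k ≤ kst)
    (hadj : ∀ k ∈ ks, k ≠ kst → ∃ k' ∈ ks, k < k' ∧ (k' : ℝ) ≤ (1 + θ / 8) * k + 1)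
    (hfit : ∀ k ∈ ks, ∀ a, k5_FitOn F W k a Ks (((1 / 2 : ℝ) ^ k) ^ (1 + θ))) :
    ∃ (W' : Set ℝ) (a0 c1 : ℤ → Fin j → ℝ), MeasurableSet W' ∧ W' ⊆ W ∧ δ / 2 ≤ k5_mass ν (k5_rt E W') ∧
      (∀ b, ‖a0 b‖ ≤ Ks) ∧
      (∀ t ∈ W', ‖F t - (t • a0 ⌊t * 2 ^ kst⌋ + c1 ⌊t * 2 ^ kst⌋)‖ ≤ ((1 / 2 : ℝ) ^ kst) ^ (1 + θ)) ∧
      ∀ k ∈ ks, ∀ u ∈ W', ∀ v ∈ W', ⌊u * 2 ^ k⌋ = ⌊v * 2 ^ k⌋ →
        ‖F v - F u - (v - u) • a0 ⌊u * 2 ^ kst⌋‖ ≤ (100 * (ks.card : ℝ) ^ 2 / δ) * ((1 / 2 : ℝ) ^ k) ^ (1 + θ / 2) := by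
  classical
  simp only [k5_FitOn] at hfit
  choose! c0 c1 hc using hfit
  obtain ⟨W', hW'm, hW'W, hW'mass, hW'blk⟩ := k5_taylor_prune ν E hE hI W hW δ hδ hm ks ⟨kst, hkst⟩
  obtain ⟨n, hn⟩ : ∃ n : ℝ, n = (ks.card : ℝ) := ⟨_, rfl⟩
  have hn1 : 1 ≤ n := by
    rw [hn]; exact_mod_cast (Finset.card_pos.2 ⟨kst, hkst⟩)
  have hn0 : 0 < n := by linarith
  rw [← hn] at hW'blk ⊢
  have hδ1 : δ ≤ 1 := by
    have h1 := k5_mass_le (ν := ν) (E := k5_rt E W) (T := Ico 0 1) (by simp) (fun l t ht => hI l t ht.1)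
    rw [probReal_univ, one_mul] at h1
    have h2 : volume.real (Ico (0 : ℝ) 1) = 1 := by simp [measureReal_def]
    linarith
  -- the chain of slopes
  have hchain : ∀ u ∈ W', ∀ a : Fin j, ∀ k ∈ ks,
      |c0 kst a ⌊u * 2 ^ kst⌋ - c0 k a ⌊u * 2 ^ k⌋| ≤ n * (32 * n / δ * ((1 / 2 : ℝ) ^ k) ^ (7 * θ / 8)) := by
    intro u hu a
    rw [hn]
    refine k5_tyb_chain ks kst hmax (fun k => c0 k a ⌊u * 2 ^ k⌋)
      (fun k => 32 * (ks.card : ℝ) / δ * ((1 / 2 : ℝ) ^ k) ^ (7 * θ / 8)) (fun k => by positivity) ?_ ?_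
    · intro k k' hkk
      refine mul_le_mul_of_nonneg_left ?_ (by positivity)
      exact Real.rpow_le_rpow (by positivity) (pow_le_pow_of_le_one (by norm_num) (by norm_num) hkk) (by positivity)
    · intro k hk hkk
      obtain ⟨k', hk', hlt, hle⟩ := hadj k hk hkk
      refine ⟨k', hk', hlt, ?_⟩
      rw [← hn]
      refine k5_tyb_step2 hθ hδ hn0 hlt.le hle (abs_nonneg _) ?_
      refine k5_tyb_step (fun t => F t a) {v | v ∈ W ∧ ⌊v * 2 ^ k'⌋ = ⌊u * 2 ^ k'⌋} _ _ _ _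
        (c1 k a ⌊u * 2 ^ k⌋) _ (c1 k' a ⌊u * 2 ^ k'⌋) (by positivity) (k5_tyb_fin W k' _) (hW'blk u hu k' hk') ?_ ?_
      · intro t ht
        exact (hc k hk a ⌊u * 2 ^ k⌋).2 t ht.1 (k5_tyb_nest hlt.le ht.2)
      · intro t ht
        exact (hc k' hk' a ⌊u * 2 ^ k'⌋).2 t ht.1 ht.2
  refine ⟨W', fun b a => c0 kst a b, fun b a => c1 kst a b, hW'm, hW'W, hW'mass, ?_, ?_, ?_⟩
  · intro b
    rw [pi_norm_le_iff_of_nonneg (by linarith)]
    intro a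
    rw [Real.norm_eq_abs]
    exact (hc kst hkst a b).1
  · intro t ht
    rw [pi_norm_le_iff_of_nonneg (by positivity)]
    intro a
    rw [Real.norm_eq_abs]
    have := (hc kst hkst a ⌊t * 2 ^ kst⌋).2 t (hW'W ht) rfl
    simp only [Pi.sub_apply, Pi.add_apply, Pi.smul_apply, smul_eq_mul]
    rw [mul_comm t]
    exact this
  · intro k hk u hu v hv huv
    rw [pi_norm_le_iff_of_nonneg (by positivity)]
    intro a
    rw [Real.norm_eq_abs]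
    simp only [Pi.sub_apply, Pi.smul_apply, smul_eq_mul]
    have hH : (0 : ℝ) < (1 / 2 : ℝ) ^ k := by positivity
    have hH1 : (1 / 2 : ℝ) ^ k ≤ 1 := pow_le_one₀ (by norm_num) (by norm_num)
    have f1 := (hc k hk a ⌊u * 2 ^ k⌋).2 u (hW'W hu) rfl
    have f2 := (hc k hk a ⌊u * 2 ^ k⌋).2 v (hW'W hv) huv.symm
    have f3 := hchain u hu a k hk
    have hvu : |v - u| ≤ (1 / 2 : ℝ) ^ k := by
      have h1 := Int.abs_sub_lt_one_of_floor_eq_floor huv.symm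
      have h2 : v * 2 ^ k - u * 2 ^ k = (v - u) * 2 ^ k := by ring
      rw [h2, abs_mul, abs_of_pos (show (0 : ℝ) < 2 ^ k by positivity)] at h1
      rw [one_div, inv_pow, ← one_div, le_div_iff₀ (by positivity)]
      exact h1.le
    obtain ⟨H, hHd⟩ : ∃ H : ℝ, H = (1 / 2 : ℝ) ^ k := ⟨_, rfl⟩
    rw [← hHd] at hH hH1 f1 f2 f3 hvu ⊢
    obtain ⟨p, hp⟩ : ∃ p, p = c0 k a ⌊u * 2 ^ k⌋ := ⟨_, rfl⟩
    obtain ⟨q, hq⟩ : ∃ q, q = c1 k a ⌊u * 2 ^ k⌋ := ⟨_, rfl⟩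
    obtain ⟨ps, hps⟩ : ∃ ps, ps = c0 kst a ⌊u * 2 ^ kst⌋ := ⟨_, rfl⟩
    rw [← hp, ← hq] at f1 f2
    rw [← hp, ← hps] at f3
    rw [← hps]
    have e1 : H ^ (1 + θ) ≤ H ^ (1 + θ / 2) := Real.rpow_le_rpow_of_exponent_ge hH hH1 (by linarith)
    have e2 : H * H ^ (7 * θ / 8) ≤ H ^ (1 + θ / 2) := by
      have : H * H ^ (7 * θ / 8) = H ^ (1 + 7 * θ / 8) := by rw [Real.rpow_add hH, Real.rpow_one]
      rw [this]
      exact Real.rpow_le_rpow_of_exponent_ge hH hH1 (by linarith)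
    obtain ⟨Z, hZ⟩ : ∃ Z, Z = H ^ (1 + θ / 2) := ⟨_, rfl⟩
    obtain ⟨Y, hY⟩ : ∃ Y, Y = H ^ (7 * θ / 8) := ⟨_, rfl⟩
    obtain ⟨X, hX⟩ : ∃ X, X = H ^ (1 + θ) := ⟨_, rfl⟩
    have hZ0 : 0 < Z := by rw [hZ]; positivity
    have hY0 : 0 < Y := by rw [hY]; positivity
    rw [← hZ, ← hX] at e1
    rw [← hZ, ← hY] at e2
    rw [← hX] at f1 f2
    rw [← hY] at f3
    rw [← hZ]
    have g1 : |F v a - F u a - (v - u) * ps| ≤ 2 * X + |v - u| * |ps - p| := by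
      have : F v a - F u a - (v - u) * ps = (F v a - (p * v + q)) - (F u a - (p * u + q)) - (v - u) * (ps - p) := by ring
      rw [this]
      calc |(F v a - (p * v + q)) - (F u a - (p * u + q)) - (v - u) * (ps - p)|
          ≤ |(F v a - (p * v + q)) - (F u a - (p * u + q))| + |(v - u) * (ps - p)| := abs_sub _ _
        _ ≤ (|F v a - (p * v + q)| + |F u a - (p * u + q)|) + |(v - u) * (ps - p)| := by
            gcongr; exact abs_sub _ _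
        _ ≤ _ := by rw [abs_mul]; linarith
    have g2 : |v - u| * |ps - p| ≤ H * (n * (32 * n / δ * Y)) :=
      mul_le_mul hvu f3 (abs_nonneg _) hH.le
    have g3 : H * (n * (32 * n / δ * Y)) = 32 * n ^ 2 / δ * (H * Y) := by ring
    have g4 : 32 * n ^ 2 / δ * (H * Y) ≤ 32 * n ^ 2 / δ * Z := mul_le_mul_of_nonneg_left e2 (by positivity)
    have g5 : 2 * X ≤ 2 * n ^ 2 / δ * Z := by
      have : (1 : ℝ) ≤ n ^ 2 / δ := by
        rw [le_div_iff₀ hδ]; nlinarith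
      calc 2 * X ≤ 2 * Z := by linarith
        _ = 2 * 1 * Z := by ring
        _ ≤ 2 * (n ^ 2 / δ) * Z := by gcongr
        _ = 2 * n ^ 2 / δ * Z := by ring
    have g6 : 2 * n ^ 2 / δ * Z + 32 * n ^ 2 / δ * Z ≤ 100 * n ^ 2 / δ * Z := by
      have : 0 ≤ n ^ 2 / δ * Z := by positivity
      have e : 100 * n ^ 2 / δ * Z - (2 * n ^ 2 / δ * Z + 32 * n ^ 2 / δ * Z) = 66 * (n ^ 2 / δ * Z) := by ring
      linarith
    linarith

theorem k5_fj_large (B e : ℝ) (he : 0 < e) : ∃ k₀ : ℕ, ∀ k, k₀ ≤ k → B ≤ ((1 / 2 : ℝ) ^ k) ^ (-e) := by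
  have h1 : (1 : ℝ) < 2 ^ e := Real.one_lt_rpow (by norm_num) he
  have h2 := (tendsto_pow_atTop_atTop_of_one_lt h1).eventually_ge_atTop B
  obtain ⟨k₀, hk⟩ := Filter.eventually_atTop.1 h2
  refine ⟨k₀, fun k hk' => (hk k hk').trans (le_of_eq ?_)⟩
  rw [← Real.rpow_natCast (1 / 2 : ℝ) k, ← Real.rpow_mul (by norm_num), ← Real.rpow_natCast (2 ^ e) k,
    ← Real.rpow_mul (by norm_num), one_div, Real.inv_rpow (by norm_num), ← Real.rpow_neg (by norm_num)]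
  congr 1
  ring

/-- **L-252-S5-J1**  **Proposition 5.4** (deterministic form).   `ks` = hierarchy of dyadic length exponents WITH the inserted lengths (successor `≤ (1+θ/8) k + 1`), `k1 = min`, `kst = max ≤ R k1`, `#ks ≤ n`.
For every `ε` there is `η`: slack `K ≤ H1^(-η)`, density `≥ 1/K`, floor `ζ ≤ Hst^3`  ⟹  labels `E' ⊆ E` of density `≥ H1^ε` with a first-jet package with constant `H1^(-ε)`, Taylor gain `θ/2`,
cover over the `Hst`-bins of the scalar by intervals of half-width `Hst^(θ(1-d)/16)`.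
PROOF (glue).  `C_v` from `k5_slope_cover`.   Choose `ε₁ := ε/(4 (C_v + 1) …)` small, `(η, k₀)` from `k5_fit_stage` with `n j` pairs (`L := (ks.toList ×ˢ all components)`, `List.product`/`List.flatMap`) at `ε₁`.   `H1 := (1/2)^k1`, `Hst := (1/2)^kst`.
1. `k5_fit_stage` : `W`, `mass (rt E W) ≥ H1^ε₁ =: δ`, slopes `≤ Ks := H1^(-ε₁)`.   2. `k5_taylor` : `W'`, `a0`, `c1`, mass `≥ δ/2`, Taylor constant `100 n²/δ`.   `A t := a0 ⌊t 2^kst⌋` (measurable: `Measurable.of_discrete`/`measurable_from_top` composed with the measurable floor).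
3. `k5_slope_cover` for the labels `rt E W'` with slack `K₂ := max K (max Ks (200 n²/δ))` `≤ H1^(-3 ε₁)` for `k1` large;  smallness `C_v K₂^(C_v) Hst^(θ(1-d)/16) ≤ 1` since `Hst ≤ H1`.   Output `E'`, mass `≥ 1/(C_v K₂^(C_v)) ≥ H1^ε`.
4. `k5_Fj` : `Ab`, `taylor` (labelled times of `E' ⊆ rt E W'` lie in `W'`; `H^(1+θ/2)`), `cover` : width `C_v K₂^(C_v) Hst^(θ(1-d)/8) ≤ Hst^(θ(1-d)/16)`, cardinality `≤ C_v K₂^(C_v) ≤ H1^(-ε)`.   ~350 l. -/
theorem k5_first_jet (j : ℕ) (d θ : ℝ) (hd0 : 0 ≤ d) (hd : d < 1) (hθ : 0 < θ) (hθ1 : θ ≤ 1) (hFJ : k5_FJ d θ)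
    (R n : ℕ) (ε : ℝ) (hε : 0 < ε) :
    ∃ (η : ℝ) (k₀ : ℕ), 0 < η ∧ ∀ (ks : Finset ℕ) (k1 kst : ℕ) (K ζ : ℝ), k₀ ≤ k1 → ks.card ≤ n → k1 ∈ ks → kst ∈ ks →
      (∀ k ∈ ks, k1 ≤ k ∧ k ≤ kst) → kst ≤ R * k1 →
      (∀ k ∈ ks, k ≠ kst → ∃ k' ∈ ks, k < k' ∧ (k' : ℝ) ≤ (1 + θ / 8) * k + 1) →
      1 ≤ K → K ≤ ((1 / 2 : ℝ) ^ k1) ^ (-η) → ζ ≤ ((1 / 2 : ℝ) ^ (R * k1)) ^ 3 →
      ∀ (Λ : Type) [MeasurableSpace Λ] (ν : Measure Λ) (c : Λ → k5_Co j) (E : Set (Λ × ℝ)) (F : ℝ → Fin j → ℝ),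
      k5_Snd j d K ζ ν c E F → 1 / K ≤ k5_mass ν E →
      ∃ (E' : Set (Λ × ℝ)) (A : ℝ → Fin j → ℝ), MeasurableSet E' ∧ E' ⊆ E ∧ ((1 / 2 : ℝ) ^ k1) ^ ε ≤ k5_mass ν E' ∧
        k5_Fj j (((1 / 2 : ℝ) ^ k1) ^ (-ε)) (θ / 2) c E' F A ks ((1 / 2 : ℝ) ^ kst)
          (((1 / 2 : ℝ) ^ kst) ^ (θ * (1 - d) / 16)) := by
  obtain ⟨C, hC1, hcov⟩ := k5_slope_cover j d θ hd0 hd hθ hθ1
  obtain ⟨γ, hγ⟩ : ∃ γ : ℝ, γ = θ * (1 - d) / 16 := ⟨_, rfl⟩
  have hγ0 : 0 < γ := by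
    rw [hγ]
    have : 0 < 1 - d := by linarith
    positivity
  have hγ2 : θ * (1 - d) / 8 = γ + γ := by
    rw [hγ]
    ring
  obtain ⟨m, hm⟩ : ∃ m : ℝ, m = min ε γ := ⟨_, rfl⟩
  have hm0 : 0 < m := by
    rw [hm]
    exact lt_min hε hγ0
  have hmε : m ≤ ε := hm ▸ min_le_left _ _
  have hmγ : m ≤ γ := hm ▸ min_le_right _ _
  have hC0 : 0 < C := by linarith
  obtain ⟨ε₁, hε₁⟩ : ∃ ε₁ : ℝ, ε₁ = m / (6 * C) := ⟨_, rfl⟩
  have hε₁0 : 0 < ε₁ := by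
    rw [hε₁]
    positivity
  have h3C : 3 * ε₁ * C = m / 2 := by
    rw [hε₁]
    field_simp
    ring
  have h3 : 3 * ε₁ ≤ m / 2 := by
    rw [← h3C]
    nlinarith
  obtain ⟨η₁, k₁, hη₁, hstage⟩ := k5_fit_stage j d θ hd0 hd hθ hFJ R (n * j) ε₁ hε₁0
  obtain ⟨k₂, hk₂⟩ := k5_fj_large (100 * (n : ℝ) ^ 2 + 2) (2 * ε₁) (by positivity)
  obtain ⟨k₃, hk₃⟩ := k5_fj_large C (m / 2) (by positivity)
  refine ⟨min η₁ ε₁, max k₁ (max k₂ k₃), lt_min hη₁ hε₁0, ?_⟩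
  intro ks k1 kst K ζ hk1 hcard hk1m hkstm hrange hkstR hadj hK1 hK hζ Λ _ ν c E F hS hmass
  have hprob := hS.prob
  have hstage' := hstage k1
  have hN1 := hk₂ k1 (le_trans (le_trans (le_max_left _ _) (le_max_right _ _)) hk1)
  have hN2 := hk₃ k1 (le_trans (le_trans (le_max_right _ _) (le_max_right _ _)) hk1)
  have hcov' := hcov Λ ν c (F := F) (ζ := ζ) (k := kst)
  obtain ⟨h, hh⟩ : ∃ h : ℝ, h = (1 / 2 : ℝ) ^ k1 := ⟨_, rfl⟩
  obtain ⟨Hs, hHs⟩ : ∃ Hs : ℝ, Hs = (1 / 2 : ℝ) ^ kst := ⟨_, rfl⟩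
  rw [← hh] at hstage' hN1 hN2 hK ⊢
  rw [← hHs, ← hγ]
  rw [← hHs, ← hγ, hγ2] at hcov'
  have hpos : 0 < h := by
    rw [hh]
    positivity
  have hle1 : h ≤ 1 := by
    rw [hh]
    exact pow_le_one₀ (by norm_num) (by norm_num)
  have hHpos : 0 < Hs := by
    rw [hHs]
    positivity
  have hHle : Hs ≤ h := by
    rw [hHs, hh]
    exact pow_le_pow_of_le_one (by norm_num) (by norm_num) (hrange kst hkstm).1
  have hanti : ∀ {a b : ℝ}, a ≤ b → h ^ b ≤ h ^ a := fun hab => Real.rpow_le_rpow_of_exponent_ge hpos hle1 hab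
  -- step 1: all fits
  have hLlen : ((ks ×ˢ (Finset.univ : Finset (Fin j))).toList).length ≤ n * j := by
    rw [Finset.length_toList, Finset.card_product, Finset.card_univ, Fintype.card_fin]
    exact Nat.mul_le_mul_right _ hcard
  obtain ⟨W, hW, hmW, hfitW⟩ := hstage' ((ks ×ˢ (Finset.univ : Finset (Fin j))).toList) K ζ
    (le_trans (le_max_left _ _) hk1) hLlen
    (fun x hx => by
      have hx1 : x.1 ∈ ks := (Finset.mem_product.1 (Finset.mem_toList.1 hx)).1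
      exact ⟨(hrange x.1 hx1).1, (hrange x.1 hx1).2.trans hkstR⟩)
    hK1 (hK.trans (hanti (by linarith [min_le_left η₁ ε₁]))) hζ Λ ν c E F hS hmass
  have hδ0 : 0 < h ^ ε₁ := Real.rpow_pos_of_pos hpos _
  have hKs1 : 1 ≤ h ^ (-ε₁) := Real.one_le_rpow_of_pos_of_le_one_of_nonpos hpos hle1 (by linarith)
  -- step 2: Taylor
  obtain ⟨W', a0, c1, hW', hW'W, hmW', ha0, hfin, htay⟩ := k5_taylor ν E hS.mE hS.tI F W hW θ (h ^ ε₁) (h ^ (-ε₁)) hθ hθ1 hδ0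
    hmW hKs1 ks kst hkstm (fun k hk => (hrange k hk).2) hadj
    (fun k hk a => hfitW (k, a) (Finset.mem_toList.2 (Finset.mem_product.2 ⟨hk, Finset.mem_univ _⟩)))
  rw [← hHs] at hfin
  -- the slack of the cover
  have hdiv : ∀ X : ℝ, X ≤ h ^ (-(2 * ε₁)) → X / h ^ ε₁ ≤ h ^ (-(3 * ε₁)) := by
    intro X hX
    rw [div_le_iff₀ hδ0]
    calc X ≤ h ^ (-(2 * ε₁)) := hX
      _ = h ^ (-(3 * ε₁)) * h ^ ε₁ := by
          rw [← Real.rpow_add hpos]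
          congr 1
          ring
  have hn0 : (0 : ℝ) ≤ 100 * (n : ℝ) ^ 2 := by positivity
  have hK21 : 1 ≤ h ^ (-(3 * ε₁)) := Real.one_le_rpow_of_pos_of_le_one_of_nonpos hpos hle1 (by linarith)
  have hKK2 : K ≤ h ^ (-(3 * ε₁)) := hK.trans (hanti (by linarith [min_le_right η₁ ε₁]))
  have hKsK2 : h ^ (-ε₁) ≤ h ^ (-(3 * ε₁)) := hanti (by linarith)
  have hK2C : (h ^ (-(3 * ε₁))) ^ C = h ^ (-(m / 2)) := by
    rw [← Real.rpow_mul hpos.le]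
    congr 1
    rw [← h3C]
    ring
  have hCK : C * (h ^ (-(3 * ε₁))) ^ C ≤ h ^ (-m) := by
    rw [hK2C]
    calc C * h ^ (-(m / 2)) ≤ h ^ (-(m / 2)) * h ^ (-(m / 2)) :=
          mul_le_mul_of_nonneg_right hN2 (Real.rpow_nonneg hpos.le _)
      _ = h ^ (-m) := by
          rw [← Real.rpow_add hpos]
          congr 1
          ring
  have hCKpos : 0 < C * (h ^ (-(3 * ε₁))) ^ C := mul_pos hC0 (Real.rpow_pos_of_pos (Real.rpow_pos_of_pos hpos _) _)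
  have hsmall : C * (h ^ (-(3 * ε₁))) ^ C * Hs ^ γ ≤ 1 := by
    calc C * (h ^ (-(3 * ε₁))) ^ C * Hs ^ γ ≤ h ^ (-m) * h ^ γ :=
          mul_le_mul hCK (Real.rpow_le_rpow hHpos.le hHle hγ0.le) (Real.rpow_nonneg hHpos.le _) (Real.rpow_nonneg hpos.le _)
      _ = h ^ (γ - m) := by
          rw [← Real.rpow_add hpos]
          congr 1
          ring
      _ ≤ 1 := Real.rpow_le_one hpos.le hle1 (by linarith)
  have hS2 : k5_Snd j d (h ^ (-(3 * ε₁))) ζ ν c (k5_rt E W') F :=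
    k5_snd_mono_K (k5_snd_mono hS (k5_meas_rt hS.mE hW') (fun y hy => hy.1)) (by linarith) hKK2
  have hm2 : 1 / h ^ (-(3 * ε₁)) ≤ k5_mass ν (k5_rt E W') := by
    refine le_trans ?_ hmW'
    have h5 : 2 / h ^ ε₁ ≤ h ^ (-(3 * ε₁)) := hdiv 2 (by linarith)
    rw [div_le_iff₀ (by linarith)]
    rw [div_le_iff₀ hδ0] at h5
    linarith
  have hζ2 : ζ ≤ Hs ^ 3 := by
    refine hζ.trans (pow_le_pow_left₀ (by positivity) ?_ 3)
    rw [hHs]
    exact pow_le_pow_of_le_one (by norm_num) (by norm_num) hkstR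
  -- step 3: the cover
  obtain ⟨E', hE'm, hE'sub, hE'mass, hcover⟩ := hcov' (k5_rt E W') (h ^ (-(3 * ε₁))) a0 c1 hK21 hS2 hm2 hζ2
    (fun b => (ha0 b).trans hKsK2)
    (fun l t hl => (hfin t hl.2).trans (le_mul_of_one_le_left (Real.rpow_nonneg hHpos.le _) hK21)) hsmall
  have hmε' : h ^ (-m) ≤ h ^ (-ε) := hanti (by linarith)
  refine ⟨E', fun t => a0 ⌊t * 2 ^ kst⌋, hE'm, fun x hx => (hE'sub hx).1, ?_, ?_⟩
  · refine le_trans ?_ hE'mass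
    rw [le_div_iff₀ hCKpos]
    calc h ^ ε * (C * (h ^ (-(3 * ε₁))) ^ C) ≤ h ^ ε * h ^ (-ε) :=
          mul_le_mul_of_nonneg_left (hCK.trans hmε') (Real.rpow_nonneg hpos.le _)
      _ = 1 := by
          rw [← Real.rpow_add hpos, add_neg_cancel, Real.rpow_zero]
  · exact
    { mA := (measurable_from_top (f := a0)).comp ((measurable_id.mul_const _).floor)
      Ab := fun t => (ha0 _).trans (hanti (by linarith))
      taylor := fun k hk l u l' v hu hv hb => by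
        refine (htay k hk u (hE'sub hu).2 v (hE'sub hv).2 hb).trans
          (mul_le_mul_of_nonneg_right ?_ (Real.rpow_nonneg (by positivity) _))
        have hc : (ks.card : ℝ) ≤ n := by exact_mod_cast hcard
        have hc2 : 100 * (ks.card : ℝ) ^ 2 ≤ 100 * (n : ℝ) ^ 2 := by
          have := pow_le_pow_left₀ (Nat.cast_nonneg ks.card) hc 2
          linarith
        calc 100 * (ks.card : ℝ) ^ 2 / h ^ ε₁ ≤ h ^ (-(3 * ε₁)) := hdiv _ (by linarith)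
          _ ≤ h ^ (-ε) := hanti (by linarith)
      cover := fun t z => by
        obtain ⟨Z, hZ, hZc⟩ := hcover t z
        refine ⟨Z, hZ.trans (hCK.trans hmε'), fun l hl hz => ?_⟩
        obtain ⟨b, hb, hbb⟩ := hZc l hl hz
        refine ⟨b, hb, hbb.trans ?_⟩
        rw [Real.rpow_add hHpos, ← mul_assoc]
        exact mul_le_of_le_one_left (Real.rpow_nonneg hHpos.le _) hsmall }

theorem k5_fit_eqns_cite : True := by
  have := @k5_FitOn.eq_1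
  trivial

end Claimed.Agent.R252
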