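import Claimed.Agent.R252.S5.JetContract

/-!
# Row 252, Sec. 5: Proposition 5.4, LIST FORM (exit `k5_first_jet_lists`, used 08 l.695-697).   CONTRACT      (owner helper183; chief helper55; prefix `k5l_`)

CLAIM.  After a restriction of the labels keeping a quarter of the mass, at every time and over every `w`-bin of the scalar `S` only `C (K/δ)^C` `w`-bins of `J_1` occur.
NOTATION at a time `t`: `G_t = k5_sec E t`, `Sb l = k5_bin w (S_l(t))`, `Jb l = k5_bin w (J_1,l(t))`, `a(t,z,y) = ν{l ∈ G_t : Sb = z, Jb = y}` (`k5l_a`), `b(t,z) = ν{l ∈ G_t : Sb = z}` (`k5l_b`).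
KEPT LABELS (intrinsic): `k5l_E θ s = {(l,t) ∈ E : ν(G_t) ≥ s, a(t, Sb l, Jb l) > 0, a(t, Sb l, Jb l) ≥ θ b(t, Sb l)}`.
PLAN.  (Q) `k5l_quot`: finite quotient keeping a finite-range map, from `k5_quot` as a black box.   (M) `k5l_markov`: finite model, small conditional entropy ⟹ half of the mass has conditional atom `≥ e^(-2L)`.
(T) `k5l_time`: at a fixed time with `ν(G_t) ≥ s` the kept labels have mass `≥ ν(G_t)/2`, `θ = 1/(C (K/s)^C)`  [(Q) + `k5_node_leaf` + (M)].   (C) `k5l_count`: `≤ 1/θ` values of `Jb` over a value of `Sb`.   (μ) `k5l_meas`: measurability.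
(X) `k5l_lists_pf` = the statement of `k5_first_jet_lists` verbatim: `s = δ/2`; times with `ν(G_t) < δ/2` carry mass `≤ δ/2`.
RULE: statements frozen; prove IN PLACE; helpers (prefix `k5l_`) directly above; other statements = black boxes.
-/

set_option autoImplicit false

namespace Claimed.Agent.R252

open MeasureTheory Set
open Claimed.Agent.R255
open scoped BigOperators

variable {j : ℕ}

/-- `a(t,z,y)` -/
noncomputable def k5l_a {Λ : Type} [MeasurableSpace Λ] (ν : Measure Λ) (c : Λ → k5_Co j) (E : Set (Λ × ℝ)) (F A : ℝ → Fin j → ℝ) (w t : ℝ)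
    (z y : ℤ) : ℝ :=
  ν.real {l | (l, t) ∈ E ∧ k5_bin w (k5_S (F t) (c l) t) = z ∧ k5_bin w (k5_J 1 (A t) (F t) (c l) t) = y}

/-- `b(t,z)` -/
noncomputable def k5l_b {Λ : Type} [MeasurableSpace Λ] (ν : Measure Λ) (c : Λ → k5_Co j) (E : Set (Λ × ℝ)) (F : ℝ → Fin j → ℝ) (w t : ℝ)
    (z : ℤ) : ℝ :=
  ν.real {l | (l, t) ∈ E ∧ k5_bin w (k5_S (F t) (c l) t) = z}

/-- the kept labels -/
def k5l_E {Λ : Type} [MeasurableSpace Λ] (ν : Measure Λ) (c : Λ → k5_Co j) (E : Set (Λ × ℝ)) (F A : ℝ → Fin j → ℝ) (w θ s : ℝ) :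
    Set (Λ × ℝ) :=
  {x | x ∈ E ∧ s ≤ ν.real (k5_sec E x.2) ∧
    0 < k5l_a ν c E F A w x.2 (k5_bin w (k5_S (F x.2) (c x.1) x.2)) (k5_bin w (k5_J 1 (A x.2) (F x.2) (c x.1) x.2)) ∧
    θ * k5l_b ν c E F w x.2 (k5_bin w (k5_S (F x.2) (c x.1) x.2))
      ≤ k5l_a ν c E F A w x.2 (k5_bin w (k5_S (F x.2) (c x.1) x.2)) (k5_bin w (k5_J 1 (A x.2) (F x.2) (c x.1) x.2))}

theorem k5l_eqns_cite : True := by
  have := @k5l_a.eq_1
  have := @k5l_b.eq_1
  have := @k5l_E.eq_1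
  trivial

/-- the one-time hypotheses pass to a subset of the labels (measure model) -/
theorem k5l_tm_sub {Λ : Type} [MeasurableSpace Λ] (ν : Measure Λ) [IsFiniteMeasure ν] {c : Λ → k5_Co j} {d K ζ : ℝ}
    {Rs : Set ℝ} {t : ℝ} {f : Fin j → ℝ} {G G' : Set Λ} (h : k5_Tm j d K ζ Rs (fun A => ν.real A) c t f G)
    (hG : G' ⊆ G) : k5_Tm j d K ζ Rs (fun A => ν.real A) c t f G' := by
  refine ⟨h.z0, h.t0, h.t1, h.fb, fun q r a hq hqr hr1 => ?_, fun q a e hq hq1 => ?_, fun r hr q a e B hq hqr => ?_⟩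
  · obtain ⟨Z, hZ, hZ2⟩ := h.supp q r a hq hqr hr1
    exact ⟨Z, hZ, fun l hl => hZ2 l (hG hl)⟩
  · refine le_trans (measureReal_mono ?_) (h.cap q a e hq hq1)
    exact fun l hl => ⟨hG hl.1, hl.2⟩
  · refine le_trans (measureReal_mono ?_) (h.bcap r hr q a e B hq hqr)
    exact fun l hl => ⟨hG hl.1, hl.2⟩

/-- **L-252-S5L-Q**  finite quotient at ONE time keeping a finite-range measurable map `D'`.
PROOF.  Enumerate `range D'` as `x : Fin n → X`.   Apply `k5_quot` with `n + 1` label sets at the same time `t` and row `f`: `G 0 = G`, `G (i+1) = G ∩ D' ⁻¹' {x i}` (measurable; `k5_Tm` passes to a SUBSET of the labels: `supp` same `Z`, `cap`/`bcap`: `measureReal_mono`).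
First claim: index `0`.   Second claim: `I = {i+1}` gives `P.pr (ρ l' ∈ G ∧ D' (ρ l') = x i) = ν.real (G ∩ D' ⁻¹' {x i})`; sum over the `i` with `Q (x i)` (`ent_pr_sum_values` on the left, `k5_measure_sum`/`measureReal_biUnion_finset` on the right).   ~150 l. -/
theorem k5l_quot {Λ X : Type} [MeasurableSpace Λ] (ν : Measure Λ) [IsProbabilityMeasure ν] (c : Λ → k5_Co j)
    (hc : Measurable c) (d K ζ : ℝ) (hK : 1 ≤ K) (hd0 : 0 ≤ d) (hcb : ∀ l, ‖c l‖ ≤ K) (Rs : Set ℝ) (hRs : Rs.Finite)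
    (t : ℝ) (f : Fin j → ℝ) (G : Set Λ) (hG : MeasurableSet G) (hT : k5_Tm j d K ζ Rs (fun A => ν.real A) c t f G)
    (D' : Λ → X) (hfin : (range D').Finite) (hm : ∀ x, MeasurableSet (D' ⁻¹' {x})) :
    ∃ (Λ' : Type) (_ : Fintype Λ') (P : FLaw Λ') (ρ : Λ' → Λ),
      k5_Tm j d (3 ^ (j + 1) * K) ζ Rs (k5_pm P) (fun l' => c (ρ l')) t f (ρ ⁻¹' G) ∧
      ∀ Q : X → Prop, P.pr (fun l' => ρ l' ∈ G ∧ Q (D' (ρ l'))) = ν.real {l | l ∈ G ∧ Q (D' l)} := by
  classical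
  set R : Finset X := hfin.toFinset with hR
  have hmemR : ∀ l, D' l ∈ R := fun l => by rw [hR, Set.Finite.mem_toFinset]; exact mem_range_self l
  set n : ℕ := R.card with hn
  set xs : Fin n → X := fun i => (R.equivFin.symm i).1 with hxs
  set G' : Fin (n + 1) → Set Λ := Fin.cons G (fun i => G ∩ D' ⁻¹' {xs i}) with hG'
  have hG'm : ∀ i, MeasurableSet (G' i) := by
    intro i
    refine Fin.cases ?_ (fun i => ?_) i
    · simpa [hG'] using hG
    · simpa [hG'] using hG.inter (hm (xs i))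
  have hT' : ∀ i, k5_Tm j d K ζ Rs (fun A => ν.real A) c t f (G' i) := by
    intro i
    refine Fin.cases ?_ (fun i => ?_) i
    · simpa [hG'] using hT
    · have : G' i.succ = G ∩ D' ⁻¹' {xs i} := by simp [hG']
      rw [this]
      exact k5l_tm_sub ν hT inter_subset_left
  obtain ⟨Λ', iF, P, ρ, h1, h2⟩ := k5_quot ν c hc d K ζ hK hd0 hcb Rs hRs (n + 1) (fun _ => t) (fun _ => f) G' hG'm hT'
  refine ⟨Λ', iF, P, ρ, ?_, fun Q => ?_⟩
  · have := h1 0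
    simpa [hG'] using this
  · -- the atoms
    have hatom : ∀ x ∈ R, P.pr (fun l' => ρ l' ∈ G ∧ D' (ρ l') = x) = ν.real (G ∩ D' ⁻¹' {x}) := by
      intro x hx
      have h3 := h2 {(R.equivFin ⟨x, hx⟩).succ}
      have e1 : G' (R.equivFin ⟨x, hx⟩).succ = G ∩ D' ⁻¹' {x} := by simp [hG', hxs]
      simp only [Finset.mem_singleton, forall_eq, iInter_iInter_eq_left, e1] at h3
      rw [← h3]
      rfl
    have hP : P.pr (fun l' => ρ l' ∈ G ∧ Q (D' (ρ l'))) = ∑ x ∈ R, if Q x then ν.real (G ∩ D' ⁻¹' {x}) else 0 := by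
      rw [ent_pr_sum_values P _ (fun l' => D' (ρ l')) R (fun l' _ _ => hmemR _)]
      refine Finset.sum_congr rfl fun x hx => ?_
      split_ifs with hQ
      · rw [← hatom x hx]
        refine ent_pr_congr P fun l' _ => ?_
        constructor
        · rintro ⟨⟨a, -⟩, b⟩
          exact ⟨a, b⟩
        · rintro ⟨a, b⟩
          exact ⟨⟨a, b ▸ hQ⟩, b⟩
      · refine ent_pr_eq_zero P fun l' _ => ?_
        rintro ⟨⟨-, a⟩, b⟩
        exact hQ (b ▸ a)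
    have hν : ν.real {l | l ∈ G ∧ Q (D' l)} = ∑ x ∈ R, if Q x then ν.real (G ∩ D' ⁻¹' {x}) else 0 := by
      have e2 : {l | l ∈ G ∧ Q (D' l)} = ⋃ x ∈ R.filter Q, G ∩ D' ⁻¹' {x} := by
        ext l
        simp only [mem_ofPred_eq, mem_iUnion, Finset.mem_filter, mem_inter_iff, mem_preimage, mem_singleton_iff,
          exists_prop]
        constructor
        · rintro ⟨a, b⟩
          exact ⟨D' l, ⟨hmemR l, b⟩, a, rfl⟩
        · rintro ⟨x, ⟨-, b⟩, a, rfl⟩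
          exact ⟨a, b⟩
      rw [e2, measureReal_biUnion_finset ?_ (fun x _ => hG.inter (hm x)), Finset.sum_filter]
      intro x _ y _ hxy
      refine Set.disjoint_left.2 ?_
      rintro l ⟨-, a⟩ ⟨-, b⟩
      exact hxy (a.symm.trans b)
    rw [hP, hν]

/-- **L-252-S5L-M**  Markov for the conditional surprisal (finite model).
PROOF.  `Q = P.cnd G`.   `Q.entC Jb Sb = Q.ev (Q.surC Jb Sb)` (`ent_entC_eq_ev`), `surC ≥ 0` on the support (`ent_surC_nonneg`), `ent_markov` with `t = 2L`: `Q(surC ≥ 2L) ≤ 1/2`.   Off that event `exp(-surC) > exp(-2L)`, and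
`exp (-surC) = Q(Sb = ·, Jb = ·)/Q(Sb = ·)` (`ent_exp_neg_surC`, `ent_fib_pair`), `Q.pr B = P.pr (G ∧ B)/P.pr G` (`ent_cond_p`, `ent_cnd_eq`).   A point of the support of `Q` has positive atom.   `P.pr (G ∧ good) = P.pr G · Q.pr good ≥ P.pr G / 2`.   ~200 l. -/
theorem k5l_markov {Λ α β : Type} [Fintype Λ] (P : FLaw Λ) (G : Λ → Prop) (hG : 0 < P.pr G) (Jb : Λ → α) (Sb : Λ → β) (L : ℝ)
    (hL : 0 < L) (h : (P.cnd G).entC Jb Sb ≤ L) :
    P.pr G / 2 ≤ P.pr (fun l => G l ∧ 0 < P.pr (fun l' => G l' ∧ Sb l' = Sb l ∧ Jb l' = Jb l) ∧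
      Real.exp (-(2 * L)) * P.pr (fun l' => G l' ∧ Sb l' = Sb l) ≤ P.pr (fun l' => G l' ∧ Sb l' = Sb l ∧ Jb l' = Jb l)) := by
  have h2L : 0 < 2 * L := by linarith
  rw [ent_entC_eq_ev] at h
  have hmk := ent_markov (P.cnd G) (f := (P.cnd G).surC Jb Sb) (fun ω hω => ent_surC_nonneg _ Jb Sb hω) h2L
  have hhalf : (P.cnd G).pr (fun ω => 2 * L ≤ (P.cnd G).surC Jb Sb ω) ≤ 1 / 2 := by
    refine hmk.trans ?_
    rw [div_le_iff₀ h2L]
    linarith
  have hnot := ent_pr_not (P.cnd G) (fun ω => 2 * L ≤ (P.cnd G).surC Jb Sb ω)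
  rw [ent_cnd_pr P G hG] at hnot
  have h1 : P.pr G / 2 ≤ P.pr (fun ω => G ω ∧ ¬ 2 * L ≤ (P.cnd G).surC Jb Sb ω) := by
    have h3 : (1 : ℝ) / 2 ≤ P.pr (fun ω => G ω ∧ ¬ 2 * L ≤ (P.cnd G).surC Jb Sb ω) / P.pr G := by
      rw [hnot]; linarith
    rw [le_div_iff₀ hG] at h3
    linarith
  refine h1.trans (ent_pr_mono P (fun ω hω hGω => ?_))
  obtain ⟨hg, hs⟩ := hGω
  have hQ : (P.cnd G).p ω ≠ 0 := (ent_cnd_supp P G hG).mpr ⟨hg, hω⟩
  have hexp := ent_exp_neg_surC (P.cnd G) Jb Sb hQ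
  have hpa : 0 < (P.cnd G).fib (FLaw.pair Jb Sb) ω := ent_fib_pos _ _ hQ
  have hpb : 0 < (P.cnd G).fib Sb ω := ent_fib_pos _ _ hQ
  have ea : (P.cnd G).fib (FLaw.pair Jb Sb) ω = P.pr (fun l' => G l' ∧ Sb l' = Sb ω ∧ Jb l' = Jb ω) / P.pr G := by
    rw [ent_fib_pair, ent_cnd_pr P G hG]
    congr 1
    exact ent_pr_congr P (fun ω' _ => ⟨fun ⟨a, b, c⟩ => ⟨a, c, b⟩, fun ⟨a, b, c⟩ => ⟨a, c, b⟩⟩)
  have eb : (P.cnd G).fib Sb ω = P.pr (fun l' => G l' ∧ Sb l' = Sb ω) / P.pr G := by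
    unfold FLaw.fib
    rw [ent_cnd_pr P G hG]
  have hlt : Real.exp (-(2 * L)) ≤ Real.exp (-(P.cnd G).surC Jb Sb ω) := by
    apply Real.exp_le_exp.mpr
    push Not at hs
    linarith
  rw [hexp, le_div_iff₀ hpb, ea, eb] at hlt
  rw [ea] at hpa
  refine ⟨hg, ?_, ?_⟩
  · by_contra hcon
    have h0 : P.pr (fun l' => G l' ∧ Sb l' = Sb ω ∧ Jb l' = Jb ω) ≤ 0 := not_lt.mp hcon
    have : P.pr (fun l' => G l' ∧ Sb l' = Sb ω ∧ Jb l' = Jb ω) / P.pr G ≤ 0 := div_nonpos_of_nonpos_of_nonneg h0 hG.le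
    linarith
  · rw [← mul_div_assoc, div_le_div_iff_of_pos_right hG] at hlt
    exact hlt

/-- joint measurability of the scalar -/
theorem k5l_meas_S {Λ : Type} [MeasurableSpace Λ] (c : Λ → k5_Co j) (F : ℝ → Fin j → ℝ) (hc : Measurable c)
    (hF : Measurable F) : Measurable (fun x : Λ × ℝ => k5_S (F x.2) (c x.1) x.2) := by
  have h1 : ∀ i, Measurable (fun x : Λ × ℝ => (c x.1).1 i) := fun i =>
    (measurable_pi_apply i).comp (measurable_fst.comp (hc.comp measurable_fst))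
  have h2 : ∀ i a, Measurable (fun x : Λ × ℝ => (c x.1).2 i a) := fun i a =>
    (measurable_pi_apply a).comp ((measurable_pi_apply i).comp (measurable_snd.comp (hc.comp measurable_fst)))
  have h3 : ∀ a, Measurable (fun x : Λ × ℝ => F x.2 a) := fun a =>
    (measurable_pi_apply a).comp (hF.comp measurable_snd)
  have ht : Measurable (fun x : Λ × ℝ => x.2) := measurable_snd
  unfold k5_S k5_x k5_y dotProduct
  refine Measurable.sub (((h1 0).add (ht.mul (h1 1))).add ((ht.pow_const 2).mul (h1 2))) ?_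
  exact Finset.measurable_sum _ fun a _ => (h3 a).mul ((h2 0 a).add (ht.mul (h2 1 a)))

/-- joint measurability of the first jet -/
theorem k5l_meas_J {Λ : Type} [MeasurableSpace Λ] (c : Λ → k5_Co j) (F A : ℝ → Fin j → ℝ) (hc : Measurable c)
    (hF : Measurable F) (hA : Measurable A) : Measurable (fun x : Λ × ℝ => k5_J 1 (A x.2) (F x.2) (c x.1) x.2) := by
  have h1 : ∀ i, Measurable (fun x : Λ × ℝ => (c x.1).1 i) := fun i =>
    (measurable_pi_apply i).comp (measurable_fst.comp (hc.comp measurable_fst))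
  have h2 : ∀ i a, Measurable (fun x : Λ × ℝ => (c x.1).2 i a) := fun i a =>
    (measurable_pi_apply a).comp ((measurable_pi_apply i).comp (measurable_snd.comp (hc.comp measurable_fst)))
  have h3 : ∀ a, Measurable (fun x : Λ × ℝ => F x.2 a) := fun a =>
    (measurable_pi_apply a).comp (hF.comp measurable_snd)
  have h4 : ∀ a, Measurable (fun x : Λ × ℝ => A x.2 a) := fun a =>
    (measurable_pi_apply a).comp (hA.comp measurable_snd)
  have ht : Measurable (fun x : Λ × ℝ => x.2) := measurable_snd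
  unfold k5_J k5_xD k5_y k5_yd dotProduct
  refine Measurable.sub (Measurable.sub ((h1 1).add ((ht.const_mul 2).mul (h1 2))) ?_) ?_
  · exact Finset.measurable_sum _ fun a _ => (h4 a).mul ((h2 0 a).add (ht.mul (h2 1 a)))
  · exact (Finset.measurable_sum _ fun a _ => (h3 a).mul (h2 1 a)).const_mul _

/-- the bin cap may be restricted to fewer scales -/
theorem k5l_tm_Rs {Λ : Type} {m : Set Λ → ℝ} {c : Λ → k5_Co j} {d K ζ : ℝ} {Rs Rs' : Set ℝ} {t : ℝ} {f : Fin j → ℝ}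
    {G : Set Λ} (h : k5_Tm j d K ζ Rs m c t f G) (hR : Rs' ⊆ Rs) : k5_Tm j d K ζ Rs' m c t f G :=
  ⟨h.z0, h.t0, h.t1, h.fb, h.supp, h.cap, fun r hr => h.bcap r (hR hr)⟩

/-- bound of the scalar -/
theorem k5l_S_le (c : k5_Co j) (f : Fin j → ℝ) (K t : ℝ) (hK : 1 ≤ K) (hc : ‖c‖ ≤ K) (hf : ‖f‖ ≤ K) (ht0 : 0 ≤ t)
    (ht1 : t ≤ 1) : |k5_S f c t| ≤ 3 * K + 3 * j * K ^ 2 := by
  obtain ⟨h1, h2, -⟩ := k5_sig_le c K t hc ht0 ht1
  have h3 := h1 0
  have h4 := k5_dot_le f (k5_y c t)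
  have j0 : (0 : ℝ) ≤ j := Nat.cast_nonneg j
  have h5 : (j : ℝ) * ‖f‖ * ‖k5_y c t‖ ≤ j * K * (2 * K) :=
    mul_le_mul (mul_le_mul_of_nonneg_left hf j0) h2 (norm_nonneg _) (by positivity)
  have e : k5_S f c t = k5_xD 0 c t - f ⬝ᵥ k5_y c t := rfl
  rw [e]
  have h6 : |k5_xD 0 c t - f ⬝ᵥ k5_y c t| ≤ |k5_xD 0 c t| + |f ⬝ᵥ k5_y c t| := abs_sub _ _
  nlinarith [mul_nonneg j0 (sq_nonneg K)]

/-- bound of the first jet -/
theorem k5l_J_le (c : k5_Co j) (g f : Fin j → ℝ) (K t : ℝ) (hK : 1 ≤ K) (hc : ‖c‖ ≤ K) (hg : ‖g‖ ≤ K) (hf : ‖f‖ ≤ K)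
    (ht0 : 0 ≤ t) (ht1 : t ≤ 1) : |k5_J 1 g f c t| ≤ 3 * K + 3 * j * K ^ 2 := by
  obtain ⟨h1, h2, h2'⟩ := k5_sig_le c K t hc ht0 ht1
  have h3 := h1 1
  have h4 := k5_dot_le g (k5_y c t)
  have h4' := k5_dot_le f (k5_yd c)
  have j0 : (0 : ℝ) ≤ j := Nat.cast_nonneg j
  have h5 : (j : ℝ) * ‖g‖ * ‖k5_y c t‖ ≤ j * K * (2 * K) :=
    mul_le_mul (mul_le_mul_of_nonneg_left hg j0) h2 (norm_nonneg _) (by positivity)
  have h5' : (j : ℝ) * ‖f‖ * ‖k5_yd c‖ ≤ j * K * K :=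
    mul_le_mul (mul_le_mul_of_nonneg_left hf j0) h2' (norm_nonneg _) (by positivity)
  have e : k5_J 1 g f c t = k5_xD 1 c t - g ⬝ᵥ k5_y c t - f ⬝ᵥ k5_yd c := by
    unfold k5_J; push_cast; ring
  rw [e]
  have h6 : |k5_xD 1 c t - g ⬝ᵥ k5_y c t - f ⬝ᵥ k5_yd c| ≤ |k5_xD 1 c t| + |g ⬝ᵥ k5_y c t| + |f ⬝ᵥ k5_yd c| :=
    (abs_sub _ _).trans (add_le_add_left (abs_sub _ _) _)
  nlinarith

/-- **L-252-S5L-T**  the kept labels at a fixed time.
PROOF.  `G_t` has positive mass, so it is nonempty: `0 ≤ t < 1` (`Snd.tI`), `T := Snd.tm t`.   `Rs := {w}` (restrict `bcap`: `w ∈ k5_Dy ζ`).   `D' l := (Sb l, Jb l)`: measurable fibres (`Int.floor` measurable, `Snd.mc`; at fixed `t` everything is a continuous function of `c l`),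
finite range (`|S| ≤ 3K + 2jK²`, `|J_1| ≤ 3K + 3jK²`, `w > 0`).   `k5l_quot`: `(Λ', P, ρ)`.   `k5_node_leaf` for `(P, c ∘ ρ)`, `K' = 3^(j+1) K`, `Φ 0 = F t`, `Φ 1 = A t` (e.g. `Φ i = if i = 0 then F t else A t`), cover from `Fj.cover t` (`ρ l'` is an actual labelled trajectory):
`her` with the event `A = (ρ · ∈ G_t)`, `i = 1`, `r = w` (`wd ≤ w ≤ 1`): `entC Jb' Sb' ≤ L := C₀ (1 + log K' + log (1/s))` (`P.pr A = ν(G_t) ≥ s`).   `k5l_markov`.   Translate the three probabilities by the second claim of `k5l_quot` (`Q` = a condition on the pair `(Sb, Jb)`; the outer event is again such a condition,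
because `a`, `b` are functions of the pair).   `exp(-2L) = (e K'/s)^(-2C₀) ≥ 1/(C (K/s)^C)`; note `s ≤ 1 ≤ K`.   ~350 l. -/
theorem k5l_time (j : ℕ) (d : ℝ) (hd0 : 0 ≤ d) (hd : d < 1) :
    ∃ C : ℝ, 1 ≤ C ∧ ∀ (Λ : Type) [MeasurableSpace Λ] (ν : Measure Λ) (c : Λ → k5_Co j) (E : Set (Λ × ℝ))
      (F A : ℝ → Fin j → ℝ) (K κ ζ s : ℝ) (ks : Finset ℕ) (Hst wd w t : ℝ),
      1 ≤ K → k5_Snd j d K ζ ν c E F → k5_Fj j K κ c E F A ks Hst wd → 0 < s → s ≤ ν.real (k5_sec E t) →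
      ζ ≤ Hst → Hst ≤ wd → wd ≤ w → w ∈ k5_Dy ζ →
      ν.real (k5_sec E t) / 2 ≤ ν.real (k5_sec (k5l_E ν c E F A w (1 / (C * (K / s) ^ C)) s) t) := by
  obtain ⟨C₀, hC₀, hleaf⟩ := k5_node_leaf j
  have hC₀0 : 0 < C₀ := by linarith
  set c₁ : ℝ := Real.exp 1 * 3 ^ (j + 1) with hc₁
  have hc₁1 : 1 ≤ c₁ := by
    have h1 : (1 : ℝ) ≤ Real.exp 1 := Real.one_le_exp (by norm_num)
    have h2 : (1 : ℝ) ≤ 3 ^ (j + 1) := one_le_pow₀ (by norm_num)
    nlinarith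
  have hc₁p : 1 ≤ c₁ ^ (2 * C₀) := Real.one_le_rpow hc₁1 (by positivity)
  refine ⟨2 * C₀ + c₁ ^ (2 * C₀), by linarith, ?_⟩
  intro Λ _ ν c E F A K κ ζ s ks Hst wd w t hK hS hF hs hsG hζH hHw hww hwD
  have := hS.prob
  set C : ℝ := 2 * C₀ + c₁ ^ (2 * C₀) with hC
  set G : Set Λ := k5_sec E t with hG
  have hGm : MeasurableSet G := k5_meas_sec hS.mE t
  have hGpos : 0 < ν.real G := hs.trans_le hsG
  obtain ⟨l₀, hl₀⟩ : G.Nonempty := by
    by_contra hne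
    rw [not_nonempty_iff_eq_empty] at hne
    rw [hne] at hGpos
    simp at hGpos
  obtain ⟨ht0, ht1⟩ := hS.tI l₀ t hl₀
  have hTm := hS.tm t ht0 ht1
  have hζ0 : 0 < ζ := hTm.z0
  have hw0 : 0 < w := hζ0.trans_le hwD.1
  have hw1 : w ≤ 1 := by
    obtain ⟨i, hi⟩ := hwD.2
    rw [hi]
    exact pow_le_one₀ (by norm_num) (by norm_num)
  have hs1 : s ≤ 1 := hsG.trans (by simpa using measureReal_mono (μ := ν) (subset_univ G))
  set K' : ℝ := 3 ^ (j + 1) * K with hK'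
  have h3 : (1 : ℝ) ≤ 3 ^ (j + 1) := one_le_pow₀ (by norm_num)
  have hKK' : K ≤ K' := by rw [hK']; nlinarith
  have hK'1 : 1 ≤ K' := hK.trans hKK'
  -- the pair of bins
  set Sb : Λ → ℤ := fun l => k5_bin w (k5_S (F t) (c l) t) with hSb
  set Jb : Λ → ℤ := fun l => k5_bin w (k5_J 1 (A t) (F t) (c l) t) with hJb
  set D' : Λ → ℤ × ℤ := fun l => (Sb l, Jb l) with hD'
  have hSbm : Measurable Sb :=
    Int.measurable_floor.comp (((k5l_meas_S c F hS.mc hS.mF).comp (measurable_prodMk_right (y := t))).div_const w)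
  have hJbm : Measurable Jb :=
    Int.measurable_floor.comp (((k5l_meas_J c F A hS.mc hS.mF hF.mA).comp (measurable_prodMk_right (y := t))).div_const w)
  have hD'm : ∀ x, MeasurableSet (D' ⁻¹' {x}) := fun x => (hSbm.prodMk hJbm) (measurableSet_singleton x)
  set B : ℝ := 3 * K + 3 * j * K ^ 2 with hB
  have hfin : (range D').Finite := by
    refine ((Finset.Icc ⌊-B / w⌋ ⌊B / w⌋ ×ˢ Finset.Icc ⌊-B / w⌋ ⌊B / w⌋ : Finset (ℤ × ℤ)).finite_toSet).subset ?_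
    rintro _ ⟨l, rfl⟩
    have a1 := abs_le.1 (k5l_S_le (c l) (F t) K t hK (hS.cb l) hTm.fb ht0 ht1.le)
    have a2 := abs_le.1 (k5l_J_le (c l) (A t) (F t) K t hK (hS.cb l) (hF.Ab t) hTm.fb ht0 ht1.le)
    simp only [Finset.coe_product, mem_prod, Finset.mem_coe, hD']
    exact ⟨k5_ei_bin_Icc hw0 a1.1 a1.2, k5_ei_bin_Icc hw0 a2.1 a2.2⟩
  have hTw : k5_Tm j d K ζ {w} (fun A => ν.real A) c t (F t) G := k5l_tm_Rs hTm (singleton_subset_iff.2 hwD)
  obtain ⟨Λ', iF, P, ρ, hTm', hpr⟩ := k5l_quot ν c hS.mc d K ζ hK hd0 hS.cb {w} (finite_singleton w) t (F t) G hGm hTw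
    D' hfin hD'm
  -- the leaf node
  set Φ : ℕ → Fin j → ℝ := fun i => if i = 0 then F t else A t with hΦ
  have hΦ0 : Φ 0 = F t := by simp [hΦ]
  have hΦ1 : Φ 1 = A t := by simp [hΦ]
  have hnode : k5_Node P (fun l' => c (ρ l')) d K' ζ {w} t 1 Φ (ρ ⁻¹' G) wd C₀ := by
    refine hleaf Λ' P (fun l' => c (ρ l')) d K' ζ {w} t Φ (ρ ⁻¹' G) Hst wd hd0 hK'1
      (fun l' => (hS.cb _).trans hKK') (by rw [hΦ0]; exact hTm') (by rw [hΦ1]; exact (hF.Ab t).trans hKK') hζH hHw ?_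
    intro z
    obtain ⟨Z, hZ, hZ2⟩ := hF.cover t z
    refine ⟨Z, hZ.trans hKK', fun l' hl' hz => ?_⟩
    rw [hΦ0] at hz
    rw [hΦ0, hΦ1]
    exact hZ2 (ρ l') hl' hz
  set Ae : Λ' → Prop := fun l' => ρ l' ∈ G with hAe
  have hPA : P.pr Ae = ν.real G := by
    have := hpr (fun _ => True)
    simpa [hAe] using this
  have hPA0 : 0 < P.pr Ae := by rw [hPA]; exact hGpos
  have hher := hnode.her Ae (fun l' h => h) hPA0 1 le_rfl le_rfl w (mem_singleton w) hww hw1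
  simp only [Nat.sub_self, hΦ0, hΦ1] at hher
  set L : ℝ := C₀ * (1 + Real.log K' + Real.log (1 / s)) with hL
  have hlogK' : 0 ≤ Real.log K' := Real.log_nonneg hK'1
  have hlogs : 0 ≤ Real.log (1 / s) := Real.log_nonneg (by rw [le_div_iff₀ hs]; linarith)
  have hL0 : 0 < L := by positivity
  have hherL : (P.cnd Ae).entC (fun l' => Jb (ρ l')) (fun l' => Sb (ρ l')) ≤ L := by
    refine hher.trans ?_
    rw [hL, hPA]
    refine mul_le_mul_of_nonneg_left ?_ hC₀0.le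
    have : Real.log (1 / ν.real G) ≤ Real.log (1 / s) :=
      Real.log_le_log (by positivity) (one_div_le_one_div_of_le hs hsG)
    linarith
  have hmk := k5l_markov P Ae hPA0 (fun l' => Jb (ρ l')) (fun l' => Sb (ρ l')) L hL0 hherL
  -- translation of the probabilities
  have ha : ∀ z y : ℤ, P.pr (fun l' => Ae l' ∧ Sb (ρ l') = z ∧ Jb (ρ l') = y) = k5l_a ν c E F A w t z y :=
    fun z y => hpr (fun x => x.1 = z ∧ x.2 = y)
  have hb : ∀ z : ℤ, P.pr (fun l' => Ae l' ∧ Sb (ρ l') = z) = k5l_b ν c E F w t z :=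
    fun z => hpr (fun x => x.1 = z)
  simp only [ha, hb] at hmk
  have hout := hpr (fun x => 0 < k5l_a ν c E F A w t x.1 x.2 ∧
    Real.exp (-(2 * L)) * k5l_b ν c E F w t x.1 ≤ k5l_a ν c E F A w t x.1 x.2)
  rw [hPA] at hmk
  refine hmk.trans ?_
  have hout' : P.pr (fun l => Ae l ∧ 0 < k5l_a ν c E F A w t (Sb (ρ l)) (Jb (ρ l)) ∧
      Real.exp (-(2 * L)) * k5l_b ν c E F w t (Sb (ρ l)) ≤ k5l_a ν c E F A w t (Sb (ρ l)) (Jb (ρ l)))
      = ν.real {l | l ∈ G ∧ 0 < k5l_a ν c E F A w t (Sb l) (Jb l) ∧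
        Real.exp (-(2 * L)) * k5l_b ν c E F w t (Sb l) ≤ k5l_a ν c E F A w t (Sb l) (Jb l)} := hout
  rw [hout']
  -- the threshold
  have hKs1 : 1 ≤ K / s := by rw [le_div_iff₀ hs]; linarith
  have hθ : 1 / (C * (K / s) ^ C) ≤ Real.exp (-(2 * L)) := by
    have e1 : Real.exp (2 * L) = k5_Y (2 * C₀) K' s := by
      rw [k5_Y, hL]; congr 1; ring
    have e2 : Real.exp 1 * K' / s = c₁ * (K / s) := by rw [hK', hc₁]; ring
    have h5 : Real.exp (2 * L) ≤ C * (K / s) ^ C := by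
      rw [e1, k5_Y_eq _ _ _ (by linarith) hs, e2, Real.mul_rpow (by linarith) (by linarith)]
      have h6 : (K / s) ^ (2 * C₀) ≤ (K / s) ^ C := Real.rpow_le_rpow_of_exponent_le hKs1 (by rw [hC]; linarith)
      have h7 : c₁ ^ (2 * C₀) ≤ C := by rw [hC]; linarith
      exact mul_le_mul h7 h6 (by positivity) (by linarith)
    rw [Real.exp_neg, one_div]
    exact inv_anti₀ (Real.exp_pos _) h5
  refine measureReal_mono ?_
  rintro l ⟨h1, h2, h3'⟩
  refine ⟨h1, hsG, h2, le_trans ?_ h3'⟩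
  exact mul_le_mul_of_nonneg_right hθ measureReal_nonneg

theorem k5l_cn_mS {Λ : Type} [MeasurableSpace Λ] (c : Λ → k5_Co j) (hc : Measurable c) (f : Fin j → ℝ) (w t : ℝ) :
    Measurable (fun l => k5_bin w (k5_S f (c l) t)) := by
  unfold k5_bin k5_S k5_x k5_y dotProduct
  have h1 : ∀ i, Measurable (fun l => (c l).1 i) := fun i => (measurable_pi_apply i).comp (measurable_fst.comp hc)
  have h2 : ∀ i a, Measurable (fun l => (c l).2 i a) := fun i a =>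
    (measurable_pi_apply a).comp ((measurable_pi_apply i).comp (measurable_snd.comp hc))
  refine Int.measurable_floor.comp (Measurable.div_const ?_ w)
  refine Measurable.sub ?_ ?_
  · exact ((h1 0).add ((h1 1).const_mul t)).add ((h1 2).const_mul (t ^ 2))
  · refine Finset.measurable_sum _ (fun a _ => ?_)
    exact ((h2 0 a).add ((h2 1 a).const_mul t)).const_mul (f a)

theorem k5l_cn_mJ {Λ : Type} [MeasurableSpace Λ] (c : Λ → k5_Co j) (hc : Measurable c) (g f : Fin j → ℝ) (w t : ℝ) :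
    Measurable (fun l => k5_bin w (k5_J 1 g f (c l) t)) := by
  unfold k5_bin k5_J k5_xD k5_y k5_yd dotProduct
  have h1 : ∀ i, Measurable (fun l => (c l).1 i) := fun i => (measurable_pi_apply i).comp (measurable_fst.comp hc)
  have h2 : ∀ i a, Measurable (fun l => (c l).2 i a) := fun i a =>
    (measurable_pi_apply a).comp ((measurable_pi_apply i).comp (measurable_snd.comp hc))
  refine Int.measurable_floor.comp (Measurable.div_const ?_ w)
  refine Measurable.sub (Measurable.sub ?_ ?_) ?_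
  · exact (h1 1).add ((h1 2).const_mul (2 * t))
  · refine Finset.measurable_sum _ (fun a _ => ?_)
    exact ((h2 0 a).add ((h2 1 a).const_mul t)).const_mul (g a)
  · refine Measurable.const_mul ?_ _
    refine Finset.measurable_sum _ (fun a _ => ?_)
    exact (h2 1 a).const_mul (f a)

/-- abstract count: disjoint measurable pieces of a set, each of positive mass `≥ θ` times the whole -/
theorem k5l_cn_abs {Λ : Type} [MeasurableSpace Λ] (ν : Measure Λ) [IsFiniteMeasure ν] (B : Set Λ) (S : ℤ → Set Λ)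
    (hS : ∀ y, MeasurableSet (S y)) (hsub : ∀ y, S y ⊆ B) (hdis : ∀ y y', y ≠ y' → Disjoint (S y) (S y'))
    (θ : ℝ) (hθ : 0 < θ) :
    ∃ Z : Finset ℤ, (Z.card : ℝ) ≤ 1 / θ ∧ ∀ y, 0 < ν.real (S y) → θ * ν.real B ≤ ν.real (S y) → y ∈ Z := by
  classical
  have key : ∀ Y : Finset ℤ, (∀ y ∈ Y, 0 < ν.real (S y) ∧ θ * ν.real B ≤ ν.real (S y)) → (Y.card : ℝ) ≤ 1 / θ := by
    intro Y hY
    rcases Y.eq_empty_or_nonempty with rfl | ⟨y0, hy0⟩
    · simp only [Finset.card_empty, Nat.cast_zero]; positivity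
    have hB : 0 < ν.real B := lt_of_lt_of_le (hY y0 hy0).1 (measureReal_mono (hsub y0))
    have h1 : ν.real (⋃ y ∈ Y, S y) = ∑ y ∈ Y, ν.real (S y) :=
      measureReal_biUnion_finset (fun y _ y' _ hne => hdis y y' hne) (fun y _ => hS y)
    have h2 : ν.real (⋃ y ∈ Y, S y) ≤ ν.real B :=
      measureReal_mono (Set.iUnion₂_subset (fun y _ => hsub y))
    have h3 : (Y.card : ℝ) * (θ * ν.real B) ≤ ∑ y ∈ Y, ν.real (S y) := by
      have := Finset.card_nsmul_le_sum Y (fun y => ν.real (S y)) (θ * ν.real B) (fun y hy => (hY y hy).2)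
      simpa [nsmul_eq_mul] using this
    rw [le_div_iff₀ hθ]
    have h4 : ((Y.card : ℝ) * θ) * ν.real B ≤ 1 * ν.real B := by
      calc ((Y.card : ℝ) * θ) * ν.real B = (Y.card : ℝ) * (θ * ν.real B) := by ring
        _ ≤ ν.real B := by rw [← h1] at h3; exact h3.trans h2
        _ = 1 * ν.real B := by ring
    exact le_of_mul_le_mul_right h4 hB
  have hfin : {y : ℤ | 0 < ν.real (S y) ∧ θ * ν.real B ≤ ν.real (S y)}.Finite := by
    by_contra hinf
    obtain ⟨Y, hYs, hYc⟩ := Set.Infinite.exists_subset_card_eq hinf (⌊1 / θ⌋₊ + 1)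
    have := key Y (fun y hy => hYs hy)
    rw [hYc] at this
    have h5 := Nat.lt_floor_add_one (1 / θ)
    push_cast at this
    linarith
  refine ⟨hfin.toFinset, key _ (fun y hy => by simpa using hy), fun y h1 h2 => ?_⟩
  simp only [Set.Finite.mem_toFinset]
  exact ⟨h1, h2⟩

/-- **L-252-S5L-C**  the count.
PROOF.  `Y` = a finite set of values `y` occurring over `z` in the kept labels at the time `t`: the sets `{l ∈ G_t : Sb = z, Jb = y}`, `y ∈ Y`, are disjoint measurable subsets of `{l ∈ G_t : Sb = z}`, each of mass `≥ θ b(t,z)` and `> 0`, so `b(t,z) > 0` and `#Y θ ≤ 1`.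
Hence the set of all occurring `y` is finite with `≤ 1/θ` elements (`Set.Finite` from a uniform bound on finite subsets: `Set.finite_of_forall_finset_card_le`-style, or by contradiction with `Set.Infinite.exists_subset_card_eq`).   ~150 l. -/
theorem k5l_count {Λ : Type} [MeasurableSpace Λ] (ν : Measure Λ) [IsFiniteMeasure ν] (c : Λ → k5_Co j) (E : Set (Λ × ℝ)) (F A : ℝ → Fin j → ℝ)
    (hc : Measurable c) (hE : MeasurableSet E) (w θ s : ℝ) (hθ : 0 < θ) (t : ℝ) (z : ℤ) :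
    ∃ Z : Finset ℤ, (Z.card : ℝ) ≤ 1 / θ ∧ ∀ l, (l, t) ∈ k5l_E ν c E F A w θ s → k5_bin w (k5_S (F t) (c l) t) = z →
      k5_bin w (k5_J 1 (A t) (F t) (c l) t) ∈ Z := by
  have hm1 : MeasurableSet {l | (l, t) ∈ E} := k5_meas_sec hE t
  have hmS := k5l_cn_mS c hc (F t) w t
  have hmJ := k5l_cn_mJ c hc (A t) (F t) w t
  obtain ⟨Z, hZc, hZ⟩ := k5l_cn_abs ν {l | (l, t) ∈ E ∧ k5_bin w (k5_S (F t) (c l) t) = z}
    (fun y => {l | (l, t) ∈ E ∧ k5_bin w (k5_S (F t) (c l) t) = z ∧ k5_bin w (k5_J 1 (A t) (F t) (c l) t) = y})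
    (fun y => by
      have e : {l | (l, t) ∈ E ∧ k5_bin w (k5_S (F t) (c l) t) = z ∧ k5_bin w (k5_J 1 (A t) (F t) (c l) t) = y}
          = {l | (l, t) ∈ E} ∩ ((fun l => k5_bin w (k5_S (F t) (c l) t)) ⁻¹' {z} ∩
              (fun l => k5_bin w (k5_J 1 (A t) (F t) (c l) t)) ⁻¹' {y}) := by
        ext l; rfl
      rw [e]
      exact hm1.inter ((hmS (measurableSet_singleton z)).inter (hmJ (measurableSet_singleton y))))
    (fun y l hl => ⟨hl.1, hl.2.1⟩)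
    (fun y y' hne => Set.disjoint_left.mpr (fun l hl hl' => hne (hl.2.2.symm.trans hl'.2.2)))
    θ hθ
  refine ⟨Z, hZc, fun l hl hz => ?_⟩
  obtain ⟨_, _, h3, h4⟩ := hl
  simp only [k5l_a, k5l_b] at h3 h4
  rw [hz] at h3 h4
  exact hZ _ h3 h4

/-- **L-252-S5L-MS**  measurability of the kept labels.
PROOF.  `Ezy := {x ∈ E | Sb x = z ∧ Jb x = y}` is measurable in `Λ × ℝ` (`(l,t) ↦ S, J_1` are measurable: polynomials in `t`, `c l`, `F t`, `A t`; `Int.floor` measurable), so `t ↦ a(t,z,y) = ν.real (k5_sec Ezy t)` is measurable (`k5_measurable_sec`); same for `b`, `ν.real (k5_sec E t)`.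
`k5l_E = ⋃_{z,y} Ezy ∩ (univ ×ˢ {t | s ≤ ν(G_t) ∧ 0 < a(t,z,y) ∧ θ b(t,z) ≤ a(t,z,y)})`: countable union (`MeasurableSet.iUnion`).   ~200 l. -/
theorem k5l_meas {Λ : Type} [MeasurableSpace Λ] (ν : Measure Λ) [IsFiniteMeasure ν] (c : Λ → k5_Co j) (E : Set (Λ × ℝ)) (F A : ℝ → Fin j → ℝ)
    (hc : Measurable c) (hE : MeasurableSet E) (hF : Measurable F) (hA : Measurable A) (w θ s : ℝ) :
    MeasurableSet (k5l_E ν c E F A w θ s) := by
  have hS : Measurable (fun x : Λ × ℝ => k5_bin w (k5_S (F x.2) (c x.1) x.2)) :=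
    Int.measurable_floor.comp ((k5l_meas_S c F hc hF).div_const w)
  have hJ : Measurable (fun x : Λ × ℝ => k5_bin w (k5_J 1 (A x.2) (F x.2) (c x.1) x.2)) :=
    Int.measurable_floor.comp ((k5l_meas_J c F A hc hF hA).div_const w)
  set Ez : ℤ → Set (Λ × ℝ) := fun z => {x | x ∈ E ∧ k5_bin w (k5_S (F x.2) (c x.1) x.2) = z} with hEz
  set Ezy : ℤ → ℤ → Set (Λ × ℝ) := fun z y => {x | x ∈ E ∧ k5_bin w (k5_S (F x.2) (c x.1) x.2) = z ∧
    k5_bin w (k5_J 1 (A x.2) (F x.2) (c x.1) x.2) = y} with hEzy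
  have hEzm : ∀ z, MeasurableSet (Ez z) := fun z => hE.inter (hS (measurableSet_singleton z))
  have hEzym : ∀ z y, MeasurableSet (Ezy z y) := fun z y =>
    hE.inter ((hS (measurableSet_singleton z)).inter (hJ (measurableSet_singleton y)))
  have ha : ∀ z y, Measurable (fun t => k5l_a ν c E F A w t z y) := fun z y => k5_measurable_sec (hEzym z y)
  have hb : ∀ z, Measurable (fun t => k5l_b ν c E F w t z) := fun z => k5_measurable_sec (hEzm z)
  have hg : Measurable (fun t => ν.real (k5_sec E t)) := k5_measurable_sec hE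
  have heq : k5l_E ν c E F A w θ s = ⋃ z : ℤ, ⋃ y : ℤ, Ezy z y ∩ (Prod.snd ⁻¹' {t | s ≤ ν.real (k5_sec E t) ∧
      0 < k5l_a ν c E F A w t z y ∧ θ * k5l_b ν c E F w t z ≤ k5l_a ν c E F A w t z y}) := by
    ext x
    simp only [k5l_E, hEzy, mem_ofPred_eq, mem_iUnion, mem_inter_iff, mem_preimage]
    constructor
    · rintro ⟨h1, h2, h3, h4⟩
      exact ⟨_, _, ⟨h1, rfl, rfl⟩, h2, h3, h4⟩
    · rintro ⟨z, y, ⟨h1, rfl, rfl⟩, h2, h3, h4⟩
      exact ⟨h1, h2, h3, h4⟩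
  rw [heq]
  refine MeasurableSet.iUnion fun z => MeasurableSet.iUnion fun y => (hEzym z y).inter (measurable_snd ?_)
  exact (measurableSet_le measurable_const hg).inter
    ((measurableSet_lt measurable_const (ha z y)).inter (measurableSet_le ((hb z).const_mul θ) (ha z y)))

/-- **L-252-S5L-X**  **Proposition 5.4, list form** = `k5_first_jet_lists` verbatim.
PROOF.  `C₀` from `k5l_time`, `s := δ/2`, `θ := 1/(C₀ (K/s)^C₀)`, `E' := k5l_E ν c E F A w θ s` (`k5l_meas`, `Fj.mA`, `Snd.*`), `E' ⊆ E`.   Count: `k5l_count`, `1/θ = C₀ (2K/δ)^C₀ ≤ C (K/δ)^C`.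
Mass: `T = Ico 0 1`, `k5_mass_eq_sec` for `E` and `E'`.   `g t := ν(G_t) ≤ 1`.   `∫_T g ≥ δ`, `∫_{T ∩ {g < s}} g ≤ s`, so `∫_{T ∩ {g ≥ s}} g ≥ δ/2`; on `{g ≥ s}`: `ν(E'_t) ≥ g t/2` (`k5l_time`).   So `k5_mass ν E' ≥ δ/4` (`setIntegral_mono_on`, measurability `k5_measurable_sec`).   ~250 l. -/
theorem k5l_lists_pf (j : ℕ) (d : ℝ) (hd0 : 0 ≤ d) (hd : d < 1) :
    ∃ C : ℝ, 1 ≤ C ∧ ∀ (Λ : Type) [MeasurableSpace Λ] (ν : Measure Λ) (c : Λ → k5_Co j) (E : Set (Λ × ℝ))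
      (F A : ℝ → Fin j → ℝ) (K κ ζ δ : ℝ) (ks : Finset ℕ) (Hst wd w : ℝ),
      1 ≤ K → k5_Snd j d K ζ ν c E F → k5_Fj j K κ c E F A ks Hst wd → 0 < δ → δ ≤ k5_mass ν E →
      ζ ≤ Hst → Hst ≤ wd → wd ≤ w → w ∈ k5_Dy ζ →
      ∃ E' : Set (Λ × ℝ), MeasurableSet E' ∧ E' ⊆ E ∧ δ / 4 ≤ k5_mass ν E' ∧
        ∀ (t : ℝ) (z : ℤ), ∃ Z : Finset ℤ, (Z.card : ℝ) ≤ C * (K / δ) ^ C ∧
          ∀ l, (l, t) ∈ E' → k5_bin w (k5_S (F t) (c l) t) = z → k5_bin w (k5_J 1 (A t) (F t) (c l) t) ∈ Z := by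
  obtain ⟨C₀, hC₀, htime⟩ := k5l_time j d hd0 hd
  have hC₀0 : 0 < C₀ := by linarith
  have h2C : (1 : ℝ) ≤ (2 : ℝ) ^ C₀ := Real.one_le_rpow (by norm_num) hC₀0.le
  refine ⟨C₀ * (2 : ℝ) ^ C₀, by nlinarith, ?_⟩
  intro Λ _ ν c E F A K κ ζ δ ks Hst wd w hK hS hF hδ hm hζH hHw hww hwD
  have := hS.prob
  have hIn : k5_In E (Ico 0 1) := fun l t h => hS.tI l t h
  have hT : volume (Ico (0 : ℝ) 1) ≠ ⊤ := by simp
  have hTm : MeasurableSet (Ico (0 : ℝ) 1) := measurableSet_Ico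
  have hm1 : k5_mass ν E ≤ 1 := by
    have := k5_mass_le (ν := ν) hT hIn
    simpa using this
  have hδ1 : δ ≤ 1 := hm.trans hm1
  set s : ℝ := δ / 2 with hs
  have hs0 : 0 < s := by positivity
  set θ : ℝ := 1 / (C₀ * (K / s) ^ C₀) with hθ
  have hKs : 0 < K / s := by positivity
  have hθ0 : 0 < θ := by positivity
  set E' : Set (Λ × ℝ) := k5l_E ν c E F A w θ s with hE'
  have hE'm : MeasurableSet E' := k5l_meas ν c E F A hS.mc hS.mE hS.mF hF.mA w θ s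
  have hE'sub : E' ⊆ E := fun x hx => hx.1
  have hIn' : k5_In E' (Ico 0 1) := fun l t h => hS.tI l t (hE'sub h)
  refine ⟨E', hE'm, hE'sub, ?_, fun t z => ?_⟩
  · rw [k5_mass_eq_sec hE'm hTm hT hIn']
    rw [k5_mass_eq_sec hS.mE hTm hT hIn] at hm
    have hpt : ∀ t ∈ Ico (0 : ℝ) 1, ν.real (k5_sec E t) / 2 - s / 2 ≤ ν.real (k5_sec E' t) := by
      intro t _
      by_cases hg : s ≤ ν.real (k5_sec E t)
      · have := htime Λ ν c E F A K κ ζ s ks Hst wd w t hK hS hF hs0 hg hζH hHw hww hwD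
        linarith
      · have h0 : 0 ≤ ν.real (k5_sec E' t) := measureReal_nonneg
        push Not at hg
        linarith
    have hi1 : IntegrableOn (fun t => ν.real (k5_sec E t) / 2 - s / 2) (Ico 0 1) volume :=
      ((k5_sec_integrableOn (ν := ν) hS.mE hT).div_const 2).sub (integrableOn_const hT)
    have h1 := setIntegral_mono_on hi1 (k5_sec_integrableOn (ν := ν) hE'm hT) hTm hpt
    have h2 : ∫ t in Ico (0 : ℝ) 1, (ν.real (k5_sec E t) / 2 - s / 2)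
        = (∫ t in Ico (0 : ℝ) 1, ν.real (k5_sec E t)) / 2 - s / 2 := by
      rw [integral_sub ((k5_sec_integrableOn (ν := ν) hS.mE hT).div_const 2) (integrableOn_const hT),
        integral_div, setIntegral_const]
      simp
    rw [h2] at h1
    linarith
  · obtain ⟨Z, hZ, hZ2⟩ := k5l_count ν c E F A hS.mc hS.mE w θ s hθ0 t z
    refine ⟨Z, hZ.trans ?_, hZ2⟩
    have e1 : 1 / θ = C₀ * (K / s) ^ C₀ := by rw [hθ, one_div_one_div]
    have e2 : K / s = 2 * (K / δ) := by rw [hs]; field_simp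
    have hKδ : 1 ≤ K / δ := by rw [le_div_iff₀ hδ]; linarith
    rw [e1, e2, Real.mul_rpow (by norm_num) (by positivity)]
    have h3 : (K / δ) ^ C₀ ≤ (K / δ) ^ (C₀ * (2 : ℝ) ^ C₀) :=
      Real.rpow_le_rpow_of_exponent_le hKδ (by nlinarith)
    calc C₀ * ((2 : ℝ) ^ C₀ * (K / δ) ^ C₀) = C₀ * (2 : ℝ) ^ C₀ * (K / δ) ^ C₀ := by ring
      _ ≤ C₀ * (2 : ℝ) ^ C₀ * (K / δ) ^ (C₀ * (2 : ℝ) ^ C₀) := mul_le_mul_of_nonneg_left h3 (by positivity)

end Claimed.Agent.R252
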