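import Claimed.Agent.R252.S5.JetContract
import Claimed.Agent.R252.S5.FitContract
import Claimed.Agent.R252.S5.Clu
import Claimed.Agent.R252.S5.Lists

/-!
# Row 252, Sec. 5: THE EXITS.  CONTRACT      (architect helper55; prefix `k5_`)

Consumers (Secs. 6, 7, 8) use ONLY this file (+ `Defs.lean`):
* `k5_cluster`            Lemma 5.1 (scalar coefficient clustering)            [06 l.265, 07 l.1512, 08 l.648]
* `k5_first_jet`          Proposition 5.4, deterministic form (`FitContract.lean`)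
* `k5_first_jet_lists`    Proposition 5.4, the form used in 08 l.695 (short lists of `(S_w, (J_1)_w)` at each time)
* `k5_higher_jets`        Proposition 5.6: ONE polynomial per `h`-block on a set of times carrying dense incidence mass      [06 l.843]
* `k5_higher_jets_inc`    Proposition 5.6, the paper's wording (dense set of incidences, labelled fibres of length `≥ h^(1+ε)`)
All of them: measure model of `Defs.lean` (any probability space of trajectories, one measurable label set, Lebesgue time), one scale, `∀ ε ∃ η`.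
`k5_FJ d θ` (first-jet fit, unit FIT) is a HYPOTHESIS of the last four.
-/

set_option autoImplicit false

namespace Claimed.Agent.R252

open MeasureTheory Set
open scoped BigOperators

variable {j : ℕ}

/-- **Lemma 5.1** (scalar coefficient clustering).   `ν` finite of mass `≤ K`, quadratics with coefficients `a l`, labels of density `≥ 1/K` occupying `≤ K p^(-1-d)` squares of side `p`, coefficient balls `ν(B_r) ≤ K r^d` (`r ≥ p`).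
Then some coefficient `p`-bin has mass `≥ p^(d+ε)/(C K^C)`, counting only trajectories of labelled length `≥ 1/(2K²)`. -/
theorem k5_cluster (d ε : ℝ) (hd0 : 0 ≤ d) (hd : d < 1) (hε : 0 < ε) :
    ∃ C : ℝ, 1 ≤ C ∧ ∀ (Λ : Type) [MeasurableSpace Λ] (ν : Measure Λ) [IsFiniteMeasure ν] (a : Λ → Fin 3 → ℝ)
      (E : Set (Λ × ℝ)) (K p : ℝ), Measurable a → MeasurableSet E → 1 ≤ K → 0 < p → p ≤ 1 → ν.real univ ≤ K →
      (∀ l, ‖a l‖ ≤ K) → (∀ l t, (l, t) ∈ E → 0 ≤ t ∧ t < 1) → 1 / K ≤ k5_mass ν E →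
      (∃ Z : Finset (ℤ × ℤ), (Z.card : ℝ) ≤ K * p ^ (-1 - d) ∧
        ∀ l t, (l, t) ∈ E → (⌊t / p⌋, ⌊(a l 0 + t * a l 1 + t ^ 2 * a l 2) / p⌋) ∈ Z) →
      (∀ (r : ℝ) (b : Fin 3 → ℝ), p ≤ r → ν.real {l | ‖a l - b‖ ≤ r} ≤ K * r ^ d) →
      ∃ B : Fin 3 → ℤ, p ^ (d + ε) / (C * K ^ C)
        ≤ ν.real {l | (∀ i, ⌊a l i / p⌋ = B i) ∧ 1 / (2 * K ^ 2) ≤ volume.real (k5_fib E l)} :=
  k5a_cluster_pf d ε hd0 hd hε

/-- **Proposition 5.4, list form** (08 l.695-697): after a restriction keeping a quarter of the mass, at every time and every `w`-bin of the scalar only `C (K/δ)^C` bins of `J_1` occur. -/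
theorem k5_first_jet_lists (j : ℕ) (d : ℝ) (hd0 : 0 ≤ d) (hd : d < 1) :
    ∃ C : ℝ, 1 ≤ C ∧ ∀ (Λ : Type) [MeasurableSpace Λ] (ν : Measure Λ) (c : Λ → k5_Co j) (E : Set (Λ × ℝ))
      (F A : ℝ → Fin j → ℝ) (K κ ζ δ : ℝ) (ks : Finset ℕ) (Hst wd w : ℝ),
      1 ≤ K → k5_Snd j d K ζ ν c E F → k5_Fj j K κ c E F A ks Hst wd → 0 < δ → δ ≤ k5_mass ν E →
      ζ ≤ Hst → Hst ≤ wd → wd ≤ w → w ∈ k5_Dy ζ →
      ∃ E' : Set (Λ × ℝ), MeasurableSet E' ∧ E' ⊆ E ∧ δ / 4 ≤ k5_mass ν E' ∧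
        ∀ (t : ℝ) (z : ℤ), ∃ Z : Finset ℤ, (Z.card : ℝ) ≤ C * (K / δ) ^ C ∧
          ∀ l, (l, t) ∈ E' → k5_bin w (k5_S (F t) (c l) t) = z → k5_bin w (k5_J 1 (A t) (F t) (c l) t) ∈ Z :=
  k5l_lists_pf j d hd0 hd

/-- **L-252-S5-X1**  a hierarchy of length exponents containing prescribed ones (pure arithmetic, Mathlib only).
PROOF (helper44).  `ρ = 1 + θ/8`, `I` with `ρ^I ≥ R` (`one_lt_pow`-type unboundedness: `pow_unbounded_of_one_lt`), `g i = min kst ⌈k1 ρ^i⌉₊`, `ks = S ∪ image g (range (I+1)) ∪ {kst}`, `n = m + I + 2`.   `g 0 = k1`, `g I = kst` (`k1 ρ^I ≥ k1 R ≥ kst`).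
Successor of `k ∈ ks`, `k ≠ kst` (so `k < kst`): let `i ≤ I` be maximal with `g i ≤ k` (`Nat.findGreatest` or induction); `i < I` because `g I = kst > k`; `k' = g (i+1) > k` and `g (i+1) ≤ ⌈k1 ρ^(i+1)⌉₊ ≤ k1 ρ^(i+1) + 1 ≤ ρ (g i) + 1 ≤ ρ k + 1` (`g i = ⌈k1 ρ^i⌉₊ ≥ k1 ρ^i` since `g i < kst`).   ~150 l. -/
theorem k5_hier (θ : ℝ) (hθ : 0 < θ) (R m : ℕ) :
    ∃ n : ℕ, ∀ (k1 kst : ℕ) (S : Finset ℕ), 1 ≤ k1 → k1 ≤ kst → kst ≤ R * k1 → S.card ≤ m →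
      (∀ k ∈ S, k1 ≤ k ∧ k ≤ kst) →
      ∃ ks : Finset ℕ, S ⊆ ks ∧ ks.card ≤ n ∧ k1 ∈ ks ∧ kst ∈ ks ∧ (∀ k ∈ ks, k1 ≤ k ∧ k ≤ kst) ∧
        ∀ k ∈ ks, k ≠ kst → ∃ k' ∈ ks, k < k' ∧ (k' : ℝ) ≤ (1 + θ / 8) * k + 1 := by
  set ρ : ℝ := 1 + θ / 8 with hρd
  have hρ : 1 < ρ := by rw [hρd]; linarith
  have hρ0 : 0 < ρ := by linarith
  obtain ⟨I, hI⟩ := pow_unbounded_of_one_lt (R : ℝ) hρ
  refine ⟨m + (I + 1) + 1, fun k1 kst S h1 h12 hR hS hSb => ?_⟩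
  set g : ℕ → ℕ := fun i => min kst ⌈(k1 : ℝ) * ρ ^ i⌉₊ with hg
  have hk1r : (0 : ℝ) ≤ k1 := Nat.cast_nonneg _
  have hg0 : g 0 = k1 := by simp [hg, h12]
  have hgI : g I = kst := by
    refine min_eq_left ?_
    have h2 : (kst : ℝ) ≤ (k1 : ℝ) * ρ ^ I := by
      calc (kst : ℝ) ≤ (R : ℝ) * k1 := by exact_mod_cast hR
        _ ≤ ρ ^ I * k1 := by gcongr
        _ = (k1 : ℝ) * ρ ^ I := mul_comm _ _
    exact_mod_cast h2.trans (Nat.le_ceil _)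
  have hgle : ∀ i, g i ≤ kst := fun i => min_le_left _ _
  have hgge : ∀ i, k1 ≤ g i := by
    intro i
    refine le_min h12 ?_
    have h2 : (k1 : ℝ) ≤ (k1 : ℝ) * ρ ^ i := le_mul_of_one_le_right hk1r (one_le_pow₀ hρ.le)
    exact_mod_cast h2.trans (Nat.le_ceil _)
  have hmem : ∀ i, i ≤ I → g i ∈ S ∪ (Finset.range (I + 1)).image g ∪ {kst} := by
    intro i hi
    refine Finset.mem_union_left _ (Finset.mem_union_right _ (Finset.mem_image.2 ⟨i, Finset.mem_range.2 (by omega), rfl⟩))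
  have hb : ∀ k ∈ S ∪ (Finset.range (I + 1)).image g ∪ {kst}, k1 ≤ k ∧ k ≤ kst := by
    intro k hk
    rcases Finset.mem_union.1 hk with hk | hk
    · rcases Finset.mem_union.1 hk with hk | hk
      · exact hSb k hk
      · obtain ⟨i, _, rfl⟩ := Finset.mem_image.1 hk
        exact ⟨hgge i, hgle i⟩
    · rw [Finset.mem_singleton.1 hk]; exact ⟨h12, le_rfl⟩
  refine ⟨S ∪ (Finset.range (I + 1)).image g ∪ {kst}, ?_, ?_, ?_, ?_, hb, ?_⟩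
  · exact fun x hx => Finset.mem_union_left _ (Finset.mem_union_left _ hx)
  · calc (S ∪ (Finset.range (I + 1)).image g ∪ {kst}).card
        ≤ (S ∪ (Finset.range (I + 1)).image g).card + ({kst} : Finset ℕ).card := Finset.card_union_le _ _
      _ ≤ (S.card + ((Finset.range (I + 1)).image g).card) + 1 := by
          gcongr
          · exact Finset.card_union_le _ _
          · simp
      _ ≤ m + (I + 1) + 1 := by
          have := Finset.card_image_le (s := Finset.range (I + 1)) (f := g)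
          rw [Finset.card_range] at this
          omega
  · rw [← hg0]; exact hmem 0 (Nat.zero_le _)
  · exact Finset.mem_union_right _ (Finset.mem_singleton_self _)
  · intro k hk hne
    obtain ⟨hk1, hk2⟩ := hb k hk
    have hlt : k < kst := lt_of_le_of_ne hk2 hne
    set i : ℕ := Nat.findGreatest (fun i => g i ≤ k) I with hi
    have hP0 : g 0 ≤ k := by rw [hg0]; exact hk1
    have hPi : g i ≤ k := Nat.findGreatest_spec (P := fun i => g i ≤ k) (Nat.zero_le I) hP0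
    have hiI : i ≤ I := Nat.findGreatest_le I
    have hiI' : i < I := by
      rcases Nat.lt_or_ge i I with h | h
      · exact h
      · have : i = I := le_antisymm hiI h
        rw [this, hgI] at hPi
        omega
    have hnP : ¬ g (i + 1) ≤ k := Nat.findGreatest_is_greatest (P := fun i => g i ≤ k) (Nat.lt_succ_self i) hiI'
    refine ⟨g (i + 1), hmem _ hiI', not_le.1 hnP, ?_⟩
    have hgi : g i = ⌈(k1 : ℝ) * ρ ^ i⌉₊ := by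
      rcases le_total kst ⌈(k1 : ℝ) * ρ ^ i⌉₊ with h | h
      · have : g i = kst := min_eq_left h
        omega
      · exact min_eq_right h
    have h3 : (k1 : ℝ) * ρ ^ i ≤ k := by
      have h4 : (k1 : ℝ) * ρ ^ i ≤ (g i : ℝ) := by rw [hgi]; exact Nat.le_ceil _
      exact h4.trans (by exact_mod_cast hPi)
    calc ((g (i + 1) : ℕ) : ℝ) ≤ (⌈(k1 : ℝ) * ρ ^ (i + 1)⌉₊ : ℝ) := by exact_mod_cast min_le_right _ _
      _ ≤ (k1 : ℝ) * ρ ^ (i + 1) + 1 := (Nat.ceil_lt_add_one (by positivity)).le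
      _ = ρ * ((k1 : ℝ) * ρ ^ i) + 1 := by ring
      _ ≤ ρ * k + 1 := by gcongr

/-- a real power of a dyadic scale -/
theorem k5_sx_rpow (n : ℕ) (e : ℝ) : ((1 / 2 : ℝ) ^ n) ^ e = (1 / 2 : ℝ) ^ ((n : ℝ) * e) := by
  rw [← Real.rpow_natCast, ← Real.rpow_mul (by norm_num)]

/-- `(1/2)^x` is antitone -/
theorem k5_sx_le {x y : ℝ} (h : y ≤ x) : (1 / 2 : ℝ) ^ x ≤ (1 / 2 : ℝ) ^ y :=
  Real.rpow_le_rpow_of_exponent_ge (by norm_num) (by norm_num) h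

/-- the exponent of the reading `qs k` -/
theorem k5_sx_ceil (a : ℕ) (θ : ℝ) (ha : 1 ≤ a) (hθ : 0 < θ) (hθ1 : θ ≤ 1) :
    ((⌈(a : ℝ) * (1 + θ / 2 / 2)⌉₊ : ℕ) : ℝ) ≤ 3 * a := by
  have ha' : (1 : ℝ) ≤ a := by exact_mod_cast ha
  have h0 : 0 ≤ (a : ℝ) * (1 + θ / 2 / 2) := by positivity
  have h1 := (Nat.ceil_lt_add_one h0).le
  have h2 : (a : ℝ) * (1 + θ / 2 / 2) ≤ (a : ℝ) * (5 / 4) :=
    mul_le_mul_of_nonneg_left (by linarith) (by linarith)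
  linarith

/-- **L-252-S5-X2**  **existence of the schedule** (5.jet-scale-schedule): pure arithmetic of exponents.   `κ = θ/2`.   All scales are dyadic; all exponents are bounded multiples of `kh`.
CHOICE (helper44).  `κ = θ/2`.  `T = ⌈12/κ⌉₊`, `T' = ⌈48/(θ (1-d))⌉₊`.   `ns k = T^(M-k) (M+1) kh` (`1 ≤ k ≤ M-1`), `k1 = ns (M-1) = T (M+1) kh`, `kst = T' ns 1 = T' T^(M-2) k1`, `R = max (T (M+1)) (T' T^(M-2))`, `p = (1/2)^(kh (M+1))`, `qs k = (1/2)^⌈ns k (1+κ/2)⌉₊`, `σ = (1-d)/4`, `Zx = 3 R² + M + 1`,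
`ks` and `n` from `k5_hier θ _ R (M-1)` with `S = image ns (Icc 1 (M-1))`.
CHECKS (write every scale as `(1/2)^x` with `x` real: `Real.rpow_natCast`, `Real.rpow_mul`; `(1/2)^x ≤ (1/2)^y ↔ y ≤ x`: `Real.rpow_le_rpow_of_exponent_ge`):  `top`: `ns (M-1) κ/4 ≥ 3 (M+1) kh`;  `nxt`: `ns k κ/4 ≥ 3 ns (k+1) ≥ ns (k+1) (1+κ/2) + 1`;  `w1`: `kst θ(1-d)/16 ≥ 3 ns 1`;  `qlo/qhi`: `a ≤ ⌈a⌉₊ ≤ a + 1`;
`Hw`: exponent `θ(1-d)/16 ≤ 1`;  `sm`: `ns k κ/4 ≥ kh ≥ σ kh`, `X ≤ h^(-σ)`;  `smh`: `σ = (1-d)/4`;  floors (`pz`, `zh`, `zH`, `qR`, `ζ ≤ ((1/2)^(R k1))^3`): all exponents are `≤ 3 R² kh ≤ Zx kh`.   ~400 l.; may be split by its owner (first a lemma giving the integer data and their inequalities, then the fields). -/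
theorem k5_sch_exists (M : ℕ) (d θ : ℝ) (hM : 2 ≤ M) (hd0 : 0 ≤ d) (hd : d < 1) (hθ : 0 < θ) (hθ1 : θ ≤ 1) :
    ∃ (R n : ℕ) (Zx σ : ℝ), 0 < Zx ∧ 0 < σ ∧ ∀ kh : ℕ, 1 ≤ kh →
      ∃ (ks : Finset ℕ) (k1 kst : ℕ) (ns : ℕ → ℕ) (qs : ℕ → ℝ) (p : ℝ),
        ks.card ≤ n ∧ k1 ∈ ks ∧ kst ∈ ks ∧ (∀ k ∈ ks, k1 ≤ k ∧ k ≤ kst) ∧ kst ≤ R * k1 ∧ kh ≤ k1 ∧ k1 ≤ R * kh ∧
        (∀ k ∈ ks, k ≠ kst → ∃ k' ∈ ks, k < k' ∧ (k' : ℝ) ≤ (1 + θ / 8) * k + 1) ∧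
        (∀ k, 1 ≤ k → k ≤ M - 1 → ns k ∈ ks) ∧
        ∀ ζ X : ℝ, 0 < ζ → ζ ≤ ((1 / 2 : ℝ) ^ kh) ^ Zx → X ≤ ((1 / 2 : ℝ) ^ kh) ^ (-σ) →
          ζ ≤ ((1 / 2 : ℝ) ^ (R * k1)) ^ 3 ∧
          k5_Sch M d (θ / 2) ζ ((1 / 2 : ℝ) ^ kh) p ((1 / 2 : ℝ) ^ kst) (((1 / 2 : ℝ) ^ kst) ^ (θ * (1 - d) / 16)) X
            (k5_Dy ζ) (fun k => (1 / 2 : ℝ) ^ ns k) qs := by
  have hd1 : 0 < 1 - d := by linarith
  obtain ⟨T, hTr⟩ : ∃ T : ℕ, 3 ≤ (T : ℝ) * (θ / 2 / 4) := by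
    refine ⟨⌈24 / θ⌉₊, ?_⟩
    have h1 : 24 / θ ≤ ((⌈24 / θ⌉₊ : ℕ) : ℝ) := Nat.le_ceil _
    have h2 : 24 ≤ ((⌈24 / θ⌉₊ : ℕ) : ℝ) * θ := by rwa [div_le_iff₀ hθ] at h1
    linarith
  obtain ⟨T', hT'r⟩ : ∃ T' : ℕ, 3 ≤ (T' : ℝ) * (θ * (1 - d) / 16) := by
    refine ⟨⌈48 / (θ * (1 - d))⌉₊, ?_⟩
    have h1 : 48 / (θ * (1 - d)) ≤ ((⌈48 / (θ * (1 - d))⌉₊ : ℕ) : ℝ) := Nat.le_ceil _
    have h2 : 48 ≤ ((⌈48 / (θ * (1 - d))⌉₊ : ℕ) : ℝ) * (θ * (1 - d)) := by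
      rwa [div_le_iff₀ (by positivity)] at h1
    linarith
  have hT1 : 1 ≤ T := by
    rcases Nat.eq_zero_or_pos T with h | h
    · rw [h] at hTr; norm_num at hTr
    · exact h
  have hT'1 : 1 ≤ T' := by
    rcases Nat.eq_zero_or_pos T' with h | h
    · rw [h] at hT'r; norm_num at hT'r
    · exact h
  obtain ⟨R, hR⟩ : ∃ R : ℕ, R = max (T * (M + 1)) (T' * T ^ (M - 2)) := ⟨_, rfl⟩
  have hR1 : T * (M + 1) ≤ R := hR ▸ le_max_left _ _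
  have hR2 : T' * T ^ (M - 2) ≤ R := hR ▸ le_max_right _ _
  obtain ⟨n, hn⟩ := k5_hier θ hθ R (M - 1)
  refine ⟨R, n, 3 * (R : ℝ) ^ 2 + M + 1, (1 - d) / 4, by positivity, by linarith, fun kh hkh => ?_⟩
  obtain ⟨B, hB⟩ : ∃ B : ℕ, B = (M + 1) * kh := ⟨_, rfl⟩
  have hB1 : 1 ≤ B := by
    rw [hB]; exact Nat.mul_pos (by omega) hkh
  have hkhB : kh ≤ B := by
    rw [hB]; exact Nat.le_mul_of_pos_left _ (by omega)
  obtain ⟨ns, hns⟩ : ∃ ns : ℕ → ℕ, ∀ k, ns k = T ^ (M - k) * B := ⟨fun k => T ^ (M - k) * B, fun _ => rfl⟩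
  obtain ⟨k1, hk1⟩ : ∃ k1 : ℕ, k1 = T * B := ⟨_, rfl⟩
  obtain ⟨kst, hkst⟩ : ∃ kst : ℕ, kst = T' * ns 1 := ⟨_, rfl⟩
  have hns_top : ns (M - 1) = k1 := by
    rw [hns, hk1, show M - (M - 1) = 1 by omega, pow_one]
  have hns_succ : ∀ k, k + 1 ≤ M - 1 → ns k = T * ns (k + 1) := by
    intro k hk
    rw [hns, hns, show M - k = (M - (k + 1)) + 1 by omega, pow_succ]; ring
  have hns_lo : ∀ k, 1 ≤ k → k ≤ M - 1 → k1 ≤ ns k := by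
    intro k hk1' hk2
    rw [hns, hk1]
    refine Nat.mul_le_mul_right _ ?_
    calc T = T ^ 1 := (pow_one T).symm
      _ ≤ T ^ (M - k) := Nat.pow_le_pow_right hT1 (by omega)
  have hns_hi : ∀ k, 1 ≤ k → k ≤ M - 1 → ns k ≤ ns 1 := by
    intro k hk1' hk2
    rw [hns, hns]
    exact Nat.mul_le_mul_right _ (Nat.pow_le_pow_right hT1 (by omega))
  have hns1st : ns 1 ≤ kst := by
    rw [hkst]; exact Nat.le_mul_of_pos_left _ hT'1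
  have hk11 : 1 ≤ k1 := by
    rw [hk1]; exact Nat.mul_pos hT1 hB1
  have hkst_eq : kst = (T' * T ^ (M - 2)) * k1 := by
    rw [hkst, hns, hk1, show M - 1 = (M - 2) + 1 by omega, pow_succ]; ring
  have hkstR : kst ≤ R * k1 := by
    rw [hkst_eq]; exact Nat.mul_le_mul_right _ hR2
  have hk1R : k1 ≤ R * kh := by
    rw [hk1, hB, ← mul_assoc]; exact Nat.mul_le_mul_right _ hR1
  have hkhk1 : kh ≤ k1 := by
    rw [hk1]; exact hkhB.trans (Nat.le_mul_of_pos_left _ hT1)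
  have hk1st : k1 ≤ kst := (hns_lo 1 le_rfl (by omega)).trans hns1st
  obtain ⟨ks, hS, hcard, hk1m, hkstm, hbd, hsucc⟩ := hn k1 kst ((Finset.Icc 1 (M - 1)).image ns) hk11 hk1st hkstR
    (by
      refine Finset.card_image_le.trans ?_
      simp)
    (by
      intro k hk
      obtain ⟨i, hi, rfl⟩ := Finset.mem_image.1 hk
      rw [Finset.mem_Icc] at hi
      exact ⟨hns_lo i hi.1 hi.2, (hns_hi i hi.1 hi.2).trans hns1st⟩)
  refine ⟨ks, k1, kst, ns, fun k => (1 / 2 : ℝ) ^ ⌈(ns k : ℝ) * (1 + θ / 2 / 2)⌉₊, (1 / 2 : ℝ) ^ (kh * (M + 1)),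
    hcard, hk1m, hkstm, hbd, hkstR, hkhk1, hk1R, hsucc, ?_, ?_⟩
  · intro k hk1' hk2
    exact hS (Finset.mem_image.2 ⟨k, Finset.mem_Icc.2 ⟨hk1', hk2⟩, rfl⟩)
  intro ζ X hζ0 hζ hX
  -- real versions of the integer inequalities
  have hkhr : (1 : ℝ) ≤ kh := by exact_mod_cast hkh
  have hRk1 : ((R * k1 : ℕ) : ℝ) ≤ (R : ℝ) ^ 2 * kh := by
    have : R * k1 ≤ R * (R * kh) := Nat.mul_le_mul_left _ hk1R
    have h2 : ((R * k1 : ℕ) : ℝ) ≤ ((R * (R * kh) : ℕ) : ℝ) := by exact_mod_cast this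
    rw [show (R : ℝ) ^ 2 * kh = ((R * (R * kh) : ℕ) : ℝ) by push_cast; ring]
    exact h2
  have hkstr : (kst : ℝ) ≤ (R : ℝ) ^ 2 * kh := le_trans (by exact_mod_cast hkstR) hRk1
  have hZ : 3 * ((R : ℝ) ^ 2 * kh) ≤ (kh : ℝ) * (3 * (R : ℝ) ^ 2 + M + 1) := by
    have : 0 ≤ (kh : ℝ) * ((M : ℝ) + 1) := by positivity
    nlinarith
  have hfl : ∀ x : ℝ, x ≤ (kh : ℝ) * (3 * (R : ℝ) ^ 2 + M + 1) → ζ ≤ (1 / 2 : ℝ) ^ x := by
    intro x hx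
    refine hζ.trans ?_
    rw [k5_sx_rpow]
    exact k5_sx_le hx
  have hfln : ∀ i : ℕ, (i : ℝ) ≤ (kh : ℝ) * (3 * (R : ℝ) ^ 2 + M + 1) → ζ ≤ (1 / 2 : ℝ) ^ i := by
    intro i hi
    rw [← Real.rpow_natCast]
    exact hfl _ hi
  have hns1 : ∀ k, 1 ≤ k → k ≤ M - 1 → 1 ≤ ns k := fun k h1 h2 => hk11.trans (hns_lo k h1 h2)
  have hnsr : ∀ k, 1 ≤ k → k ≤ M - 1 → (ns k : ℝ) ≤ (R : ℝ) ^ 2 * kh := fun k h1 h2 =>
    le_trans (by exact_mod_cast (hns_hi k h1 h2).trans hns1st) hkstr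
  have hqz : ∀ k, 1 ≤ k → k ≤ M - 1 → ζ ≤ (1 / 2 : ℝ) ^ ⌈(ns k : ℝ) * (1 + θ / 2 / 2)⌉₊ := by
    intro k h1 h2
    refine hfln _ ?_
    have := k5_sx_ceil (ns k) θ (hns1 k h1 h2) hθ hθ1
    have h3 := hnsr k h1 h2
    linarith
  have hpz : ζ ≤ (1 / 2 : ℝ) ^ (kh * (M + 1)) := by
    refine hfln _ ?_
    push_cast
    have : 0 ≤ (kh : ℝ) * (3 * (R : ℝ) ^ 2) := by positivity
    nlinarith
  have hk1B : (k1 : ℝ) = T * B := by rw [hk1]; push_cast; ring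
  have hBr : (B : ℝ) = ((M : ℝ) + 1) * kh := by rw [hB]; push_cast; ring
  have hB0 : (0 : ℝ) ≤ B := Nat.cast_nonneg _
  have hk1q : 3 * (B : ℝ) ≤ (k1 : ℝ) * (θ / 2 / 4) := by
    rw [hk1B]
    calc 3 * (B : ℝ) ≤ ((T : ℝ) * (θ / 2 / 4)) * B := mul_le_mul_of_nonneg_right hTr hB0
      _ = (T : ℝ) * B * (θ / 2 / 4) := by ring
  refine ⟨?_, ?_⟩
  · rw [← pow_mul]
    refine hfln _ ?_
    push_cast
    have := hRk1
    push_cast at this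
    linarith
  refine
    { h0 := by positivity
      h1 := pow_le_one₀ (by norm_num) (by norm_num)
      pR := ⟨hpz, _, rfl⟩
      pz := hpz
      ph := by rw [← pow_mul]
      zh := ?_
      zH := ?_
      Hw := ?_
      w1 := ?_
      H0 := fun k _ _ => ⟨by positivity, pow_le_one₀ (by norm_num) (by norm_num)⟩
      qR := fun k h1 h2 => ⟨⟨hqz k h1 h2, _, rfl⟩, hqz k h1 h2⟩
      qlo := ?_
      qhi := ?_
      nxt := ?_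
      top := ?_
      sm := ?_
      smh := ?_ }
  · -- zh
    rw [k5_sx_rpow]
    refine hfl _ ?_
    have : 0 ≤ (kh : ℝ) * (3 * (R : ℝ) ^ 2) := by positivity
    nlinarith
  · -- zH
    refine hfln _ ?_
    have : 0 ≤ (R : ℝ) ^ 2 * kh := by positivity
    linarith
  · -- Hw
    have h1 : ((1 / 2 : ℝ) ^ kst) ^ (1 : ℝ) ≤ ((1 / 2 : ℝ) ^ kst) ^ (θ * (1 - d) / 16) := by
      refine Real.rpow_le_rpow_of_exponent_ge (by positivity) (pow_le_one₀ (by norm_num) (by norm_num)) ?_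
      have : θ * (1 - d) ≤ 1 * 1 := mul_le_mul hθ1 (by linarith) hd1.le (by norm_num)
      linarith
    rwa [Real.rpow_one] at h1
  · -- w1
    show ((1 / 2 : ℝ) ^ kst) ^ (θ * (1 - d) / 16) ≤ (1 / 2 : ℝ) ^ ⌈(ns 1 : ℝ) * (1 + θ / 2 / 2)⌉₊
    rw [k5_sx_rpow, ← Real.rpow_natCast]
    refine k5_sx_le ?_
    have h1 := k5_sx_ceil (ns 1) θ (hns1 1 le_rfl (by omega)) hθ hθ1
    have h2 : (kst : ℝ) = T' * ns 1 := by rw [hkst]; push_cast; ring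
    have h3 : 3 * (ns 1 : ℝ) ≤ ((T' : ℝ) * (θ * (1 - d) / 16)) * ns 1 :=
      mul_le_mul_of_nonneg_right hT'r (Nat.cast_nonneg _)
    rw [h2]
    calc _ ≤ 3 * (ns 1 : ℝ) := h1
      _ ≤ ((T' : ℝ) * (θ * (1 - d) / 16)) * ns 1 := h3
      _ = _ := by ring
  · -- qlo
    intro k h1 h2
    show ((1 / 2 : ℝ) ^ ns k) ^ (1 + θ / 2 / 2) / 2 ≤ (1 / 2 : ℝ) ^ ⌈(ns k : ℝ) * (1 + θ / 2 / 2)⌉₊
    rw [k5_sx_rpow, ← Real.rpow_natCast]
    have h3 : (1 / 2 : ℝ) ^ ((ns k : ℝ) * (1 + θ / 2 / 2)) / 2 = (1 / 2 : ℝ) ^ ((ns k : ℝ) * (1 + θ / 2 / 2) + 1) := by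
      rw [Real.rpow_add (by norm_num), Real.rpow_one]; ring
    rw [h3]
    refine k5_sx_le ?_
    exact (Nat.ceil_lt_add_one (by positivity)).le
  · -- qhi
    intro k h1 h2
    show (1 / 2 : ℝ) ^ ⌈(ns k : ℝ) * (1 + θ / 2 / 2)⌉₊ ≤ ((1 / 2 : ℝ) ^ ns k) ^ (1 + θ / 2 / 2)
    rw [k5_sx_rpow, ← Real.rpow_natCast]
    exact k5_sx_le (Nat.le_ceil _)
  · -- nxt
    intro k h1 h2
    show ((1 / 2 : ℝ) ^ ns k) ^ (θ / 2 / 4) ≤ (1 / 2 : ℝ) ^ ⌈(ns (k + 1) : ℝ) * (1 + θ / 2 / 2)⌉₊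
    rw [k5_sx_rpow, ← Real.rpow_natCast]
    refine k5_sx_le ?_
    have h3 := k5_sx_ceil (ns (k + 1)) θ (hns1 (k + 1) (by omega) h2) hθ hθ1
    have h4 : (ns k : ℝ) = T * ns (k + 1) := by rw [hns_succ k h2]; push_cast; ring
    have h5 : 3 * (ns (k + 1) : ℝ) ≤ ((T : ℝ) * (θ / 2 / 4)) * ns (k + 1) :=
      mul_le_mul_of_nonneg_right hTr (Nat.cast_nonneg _)
    rw [h4]
    calc _ ≤ 3 * (ns (k + 1) : ℝ) := h3
      _ ≤ ((T : ℝ) * (θ / 2 / 4)) * ns (k + 1) := h5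
      _ = _ := by ring
  · -- top
    show ((1 / 2 : ℝ) ^ ns (M - 1)) ^ (θ / 2 / 4) ≤ (1 / 2 : ℝ) ^ (kh * (M + 1))
    rw [k5_sx_rpow, ← Real.rpow_natCast, hns_top]
    refine k5_sx_le ?_
    push_cast
    have : (kh : ℝ) * ((M : ℝ) + 1) = B := by rw [hBr]; ring
    rw [this]
    linarith
  · -- sm
    intro k h1 h2
    show X * ((1 / 2 : ℝ) ^ ns k) ^ (θ / 2 / 4) ≤ 1
    rw [k5_sx_rpow] at hX ⊢
    have hpos : 0 < (1 / 2 : ℝ) ^ ((ns k : ℝ) * (θ / 2 / 4)) := Real.rpow_pos_of_pos (by norm_num) _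
    calc X * (1 / 2 : ℝ) ^ ((ns k : ℝ) * (θ / 2 / 4))
        ≤ (1 / 2 : ℝ) ^ ((kh : ℝ) * (-((1 - d) / 4))) * (1 / 2 : ℝ) ^ ((ns k : ℝ) * (θ / 2 / 4)) :=
          mul_le_mul_of_nonneg_right hX hpos.le
      _ = (1 / 2 : ℝ) ^ ((kh : ℝ) * (-((1 - d) / 4)) + (ns k : ℝ) * (θ / 2 / 4)) := by
          rw [Real.rpow_add (by norm_num)]
      _ ≤ (1 / 2 : ℝ) ^ (0 : ℝ) := by
          refine k5_sx_le ?_
          have h3 : (k1 : ℝ) ≤ ns k := by exact_mod_cast hns_lo k h1 h2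
          have h4 : (k1 : ℝ) * (θ / 2 / 4) ≤ (ns k : ℝ) * (θ / 2 / 4) :=
            mul_le_mul_of_nonneg_right h3 (by positivity)
          have h5 : (kh : ℝ) ≤ B := by exact_mod_cast hkhB
          have h6 : (kh : ℝ) * ((1 - d) / 4) ≤ (kh : ℝ) * 1 :=
            mul_le_mul_of_nonneg_left (by linarith) (by linarith)
          linarith
      _ = 1 := Real.rpow_zero _
  · -- smh
    have hpos : 0 < ((1 / 2 : ℝ) ^ kh) ^ ((1 - d) / 4) := Real.rpow_pos_of_pos (by positivity) _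
    calc X * ((1 / 2 : ℝ) ^ kh) ^ ((1 - d) / 4)
        ≤ ((1 / 2 : ℝ) ^ kh) ^ (-((1 - d) / 4)) * ((1 / 2 : ℝ) ^ kh) ^ ((1 - d) / 4) :=
          mul_le_mul_of_nonneg_right hX hpos.le
      _ = 1 := by
          rw [← Real.rpow_add (by positivity)]; simp

/-- powers of a dyadic scale as powers of `2` -/
theorem k5_hj_pow (k : ℕ) (x : ℝ) : ((1 / 2 : ℝ) ^ k) ^ x = (2 : ℝ) ^ (-(k : ℝ) * x) := by
  rw [← Real.rpow_natCast, ← Real.rpow_mul (by norm_num), one_div, Real.inv_rpow (by norm_num),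
    ← Real.rpow_neg (by norm_num)]
  congr 1
  ring

/-- comparison of powers of `2` -/
theorem k5_hj_le {x y : ℝ} (h : x ≤ y) : (2 : ℝ) ^ x ≤ (2 : ℝ) ^ y :=
  Real.rpow_le_rpow_of_exponent_le (by norm_num) h

/-- a negative power of a fine dyadic scale exceeds any constant -/
theorem k5_hj_big (a C : ℝ) (ha : 0 < a) : ∃ k₀ : ℕ, ∀ kh : ℕ, k₀ ≤ kh → C ≤ (2 : ℝ) ^ ((kh : ℝ) * a) := by
  have h1 : (1 : ℝ) < (2 : ℝ) ^ a := Real.one_lt_rpow (by norm_num) ha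
  obtain ⟨n, hn⟩ := pow_unbounded_of_one_lt C h1
  refine ⟨n, fun kh hk => hn.le.trans ?_⟩
  rw [← Real.rpow_natCast, ← Real.rpow_mul (by norm_num)]
  refine k5_hj_le ?_
  have : (n : ℝ) ≤ kh := by exact_mod_cast hk
  nlinarith

/-- **L-252-S5-X3**  **Proposition 5.6** (higher-jet polynomial fitting).   The exponent `Zx` of the floor depends only on `M, d, θ`.   `h = (1/2)^kh`.
PROOF (helper44; glue).  `(R, n, Zx, σ)` from `k5_sch_exists`, `C` from `k5_jets_core j M d (θ/2)`.   Given `ε`: `ε₁ = min (σ/(4 C R)) (ε/(2 C R))` (if `R = 0` nothing to do: `kh ≤ k1 ≤ R kh` forces `R ≥ 1`), `(η₁, k₁)` from `k5_first_jet … R n ε₁`, `η = min η₁ ε₁`, `k₀ ≥ max k₁ 1` so large that `C ≤ h^(-σ/2)` and `C ≤ h^(-ε/2)` for `kh ≥ k₀`.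
Data: `0 < ζ` from `(hS.tm 0 _ _).z0`.   Schedule data `ks, k1, kst, ns, qs, p` for `kh`; `H1 = (1/2)^k1`, `h^R ≤ H1 ≤ h`.   `k5_first_jet`: `E' ⊆ E`, `A`, mass `≥ δ = H1^ε₁`, package with `K₂ = H1^(-ε₁) ≥ K` (`K ≤ h^(-η) ≤ H1^(-ε₁)`).   `k5_snd_mono`, `k5_snd_mono_K`: `k5_Snd j d K₂ ζ ν c E' F`.
`X = C (K₂/δ)^C = C H1^(-2 ε₁ C) ≤ C h^(-2 ε₁ C R) ≤ h^(-σ)`: the schedule holds.   `k5_jets_core` gives `W`;  `mass (k5_rt E W) ≥ mass (k5_rt E' W) ≥ 1/(C (1/δ)^C) = H1^(ε₁ C)/C ≥ h^ε` (`k5_mass_mono`), coefficients `≤ X ≤ h^(-ε)`.   ~300 l. -/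
theorem k5_higher_jets (j M : ℕ) (d θ : ℝ) (hM : 2 ≤ M) (hd0 : 0 ≤ d) (hd : d < 1) (hθ : 0 < θ) (hθ1 : θ ≤ 1)
    (hFJ : k5_FJ d θ) :
    ∃ Zx : ℝ, 0 < Zx ∧ ∀ ε : ℝ, 0 < ε → ∃ (η : ℝ) (k₀ : ℕ), 0 < η ∧ ∀ (kh : ℕ) (K ζ : ℝ), k₀ ≤ kh → 1 ≤ K →
      K ≤ ((1 / 2 : ℝ) ^ kh) ^ (-η) → ζ ≤ ((1 / 2 : ℝ) ^ kh) ^ Zx →
      ∀ (Λ : Type) [MeasurableSpace Λ] (ν : Measure Λ) (c : Λ → k5_Co j) (E : Set (Λ × ℝ)) (F : ℝ → Fin j → ℝ),
      k5_Snd j d K ζ ν c E F → 1 / K ≤ k5_mass ν E →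
      ∃ W : Set ℝ, MeasurableSet W ∧ ((1 / 2 : ℝ) ^ kh) ^ ε ≤ k5_mass ν (k5_rt E W) ∧
        ∀ b : ℤ, ∃ a : Fin (M + 1) → Fin j → ℝ, (∀ i, ‖a i‖ ≤ ((1 / 2 : ℝ) ^ kh) ^ (-ε)) ∧
          ∀ v ∈ W, ⌊v * 2 ^ kh⌋ = b →
            ‖F v - ∑ i : Fin (M + 1), v ^ (i : ℕ) • a i‖ ≤ ((1 / 2 : ℝ) ^ kh) ^ ((M : ℝ) + 1 / 4) := by
  obtain ⟨R, n, Zx, σ, hZx, hσ, hsch⟩ := k5_sch_exists M d θ hM hd0 hd hθ hθ1
  obtain ⟨C, hC1, hcore⟩ := k5_jets_core j M d (θ / 2) hM hd0 hd (by positivity) (by linarith)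
  refine ⟨Zx, hZx, fun ε hε => ?_⟩
  have hC0 : 0 < C := by linarith
  have hR0 : (0 : ℝ) < (R : ℝ) + 1 := by positivity
  set ε₁ : ℝ := min (σ / (4 * C * (R + 1))) (ε / (4 * C * (R + 1))) with hε₁def
  have hε₁ : 0 < ε₁ := lt_min (by positivity) (by positivity)
  have hε₁σ : 4 * C * (R + 1) * ε₁ ≤ σ := by
    have := min_le_left (σ / (4 * C * (R + 1))) (ε / (4 * C * (R + 1)))
    rw [← hε₁def, le_div_iff₀ (by positivity)] at this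
    linarith
  have hε₁ε : 4 * C * (R + 1) * ε₁ ≤ ε := by
    have := min_le_right (σ / (4 * C * (R + 1))) (ε / (4 * C * (R + 1)))
    rw [← hε₁def, le_div_iff₀ (by positivity)] at this
    linarith
  obtain ⟨η₁, k₁, hη₁, hfj⟩ := k5_first_jet j d θ hd0 hd hθ hθ1 hFJ R n ε₁ hε₁
  obtain ⟨k₂, hk₂⟩ := k5_hj_big (σ / 2) C (by positivity)
  obtain ⟨k₃, hk₃⟩ := k5_hj_big (ε / 2) C (by positivity)
  refine ⟨min η₁ ε₁, max (max k₁ 1) (max k₂ k₃), lt_min hη₁ hε₁, ?_⟩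
  intro kh K ζ hk hK1 hKη hζ Λ _ ν c E F hS hmass
  have := hS.prob
  have hkk₁ : k₁ ≤ kh := le_trans (le_trans (le_max_left _ _) (le_max_left _ _)) hk
  have hkh1 : 1 ≤ kh := le_trans (le_trans (le_max_right _ _) (le_max_left _ _)) hk
  have hCσ : C ≤ (2 : ℝ) ^ ((kh : ℝ) * (σ / 2)) := hk₂ kh (le_trans (le_trans (le_max_left _ _) (le_max_right _ _)) hk)
  have hCε : C ≤ (2 : ℝ) ^ ((kh : ℝ) * (ε / 2)) := hk₃ kh (le_trans (le_trans (le_max_right _ _) (le_max_right _ _)) hk)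
  have hζ0 : 0 < ζ := (hS.tm 0 le_rfl one_pos).z0
  obtain ⟨ks, k1, kst, ns, qs, p, hcard, hk1, hkst, hrange, hkstR, hkhk1, hk1R, hsucc, hns, hS2⟩ := hsch kh hkh1
  have hkhk1' : (kh : ℝ) ≤ k1 := by exact_mod_cast hkhk1
  have hk1R' : (k1 : ℝ) ≤ (R + 1) * kh := by
    have : (k1 : ℝ) ≤ (R : ℝ) * kh := by exact_mod_cast hk1R
    have h0 : (0 : ℝ) ≤ kh := Nat.cast_nonneg _
    linarith
  have hkh0 : (0 : ℝ) ≤ kh := Nat.cast_nonneg _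
  have hk10 : (0 : ℝ) ≤ k1 := Nat.cast_nonneg _
  -- the constants of the second stage
  set K₂ : ℝ := ((1 / 2 : ℝ) ^ k1) ^ (-ε₁) with hK₂def
  set δ : ℝ := ((1 / 2 : ℝ) ^ k1) ^ ε₁ with hδdef
  have hK₂e : K₂ = (2 : ℝ) ^ ((k1 : ℝ) * ε₁) := by rw [hK₂def, k5_hj_pow]; congr 1; ring
  have hδe : δ = (2 : ℝ) ^ (-((k1 : ℝ) * ε₁)) := by rw [hδdef, k5_hj_pow]; congr 1; ring
  have hδ0 : 0 < δ := by rw [hδe]; positivity
  have hδ1 : δ ≤ 1 := by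
    rw [hδe]
    calc (2 : ℝ) ^ (-((k1 : ℝ) * ε₁)) ≤ (2 : ℝ) ^ (0 : ℝ) := k5_hj_le (by nlinarith)
      _ = 1 := Real.rpow_zero _
  have hKδ : K₂ / δ = (2 : ℝ) ^ (2 * ((k1 : ℝ) * ε₁)) := by
    rw [hK₂e, hδe, ← Real.rpow_sub (by norm_num)]; congr 1; ring
  have hKδC : (K₂ / δ) ^ C = (2 : ℝ) ^ (2 * ((k1 : ℝ) * ε₁) * C) := by
    rw [hKδ, ← Real.rpow_mul (by norm_num)]
  have hexp : 2 * ((k1 : ℝ) * ε₁) * C ≤ (kh : ℝ) * (2 * C * (R + 1) * ε₁) := by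
    have : (k1 : ℝ) * (ε₁ * C) ≤ (R + 1) * kh * (ε₁ * C) := mul_le_mul_of_nonneg_right hk1R' (by positivity)
    nlinarith
  have hKK₂ : K ≤ K₂ := by
    refine hKη.trans ?_
    rw [k5_hj_pow, hK₂e]
    refine k5_hj_le ?_
    have h1 : min η₁ ε₁ ≤ ε₁ := min_le_right _ _
    have h2 : (kh : ℝ) * min η₁ ε₁ ≤ kh * ε₁ := mul_le_mul_of_nonneg_left h1 hkh0
    have h3 : (kh : ℝ) * ε₁ ≤ k1 * ε₁ := mul_le_mul_of_nonneg_right hkhk1' hε₁.le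
    linarith
  have hK₂1 : 1 ≤ K₂ := hK1.trans hKK₂
  have hX : C * (K₂ / δ) ^ C ≤ ((1 / 2 : ℝ) ^ kh) ^ (-σ) := by
    rw [hKδC, k5_hj_pow]
    calc C * (2 : ℝ) ^ (2 * ((k1 : ℝ) * ε₁) * C)
        ≤ (2 : ℝ) ^ ((kh : ℝ) * (σ / 2)) * (2 : ℝ) ^ ((kh : ℝ) * (σ / 2)) := by
          refine mul_le_mul hCσ (k5_hj_le (hexp.trans ?_)) (by positivity) (by positivity)
          refine mul_le_mul_of_nonneg_left ?_ hkh0
          linarith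
      _ = (2 : ℝ) ^ (-(kh : ℝ) * -σ) := by
          rw [← Real.rpow_add (by norm_num)]; congr 1; ring
  have hXε : C * (K₂ / δ) ^ C ≤ ((1 / 2 : ℝ) ^ kh) ^ (-ε) := by
    rw [hKδC, k5_hj_pow]
    calc C * (2 : ℝ) ^ (2 * ((k1 : ℝ) * ε₁) * C)
        ≤ (2 : ℝ) ^ ((kh : ℝ) * (ε / 2)) * (2 : ℝ) ^ ((kh : ℝ) * (ε / 2)) := by
          refine mul_le_mul hCε (k5_hj_le (hexp.trans ?_)) (by positivity) (by positivity)
          refine mul_le_mul_of_nonneg_left ?_ hkh0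
          linarith
      _ = (2 : ℝ) ^ (-(kh : ℝ) * -ε) := by
          rw [← Real.rpow_add (by norm_num)]; congr 1; ring
  obtain ⟨hζR, hSch⟩ := hS2 ζ (C * (K₂ / δ) ^ C) hζ0 hζ hX
  -- the first jet
  have hKη₁ : K ≤ ((1 / 2 : ℝ) ^ k1) ^ (-η₁) := by
    refine hKη.trans ?_
    rw [k5_hj_pow, k5_hj_pow]
    refine k5_hj_le ?_
    have h1 : min η₁ ε₁ ≤ η₁ := min_le_left _ _
    have h2 : (kh : ℝ) * min η₁ ε₁ ≤ kh * η₁ := mul_le_mul_of_nonneg_left h1 hkh0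
    have h3 : (kh : ℝ) * η₁ ≤ k1 * η₁ := mul_le_mul_of_nonneg_right hkhk1' hη₁.le
    linarith
  obtain ⟨E', A, hE'm, hE'sub, hE'mass, hFj⟩ := hfj ks k1 kst K ζ (hkk₁.trans hkhk1) hcard hk1 hkst hrange hkstR hsucc
    hK1 hKη₁ hζR Λ ν c E F hS hmass
  have hS' : k5_Snd j d K₂ ζ ν c E' F := k5_snd_mono_K (k5_snd_mono hS hE'm hE'sub) (by linarith) hKK₂
  obtain ⟨W, hW, hWmass, hpoly⟩ := hcore Λ ν c E' F A K₂ ζ δ ks ns qs kh p _ _ hK₂1 hS' hFj hns hδ0 hδ1 hE'mass hSch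
  refine ⟨W, hW, ?_, fun b => ?_⟩
  · have hmono : k5_mass ν (k5_rt E' W) ≤ k5_mass ν (k5_rt E W) := by
      refine k5_mass_mono (T := Ico 0 1) (by simp) (fun l t h => ?_) (fun x hx => ⟨hE'sub hx.1, hx.2⟩)
      exact hS.tI l t h.1
    refine le_trans ?_ (hWmass.trans hmono)
    have e1 : (1 / δ) ^ C = (2 : ℝ) ^ ((k1 : ℝ) * ε₁ * C) := by
      rw [hδe, one_div, ← Real.rpow_neg (by norm_num), neg_neg, ← Real.rpow_mul (by norm_num)]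
    rw [e1, k5_hj_pow, le_div_iff₀ (by positivity)]
    calc (2 : ℝ) ^ (-(kh : ℝ) * ε) * (C * (2 : ℝ) ^ ((k1 : ℝ) * ε₁ * C))
        ≤ (2 : ℝ) ^ (-(kh : ℝ) * ε) * ((2 : ℝ) ^ ((kh : ℝ) * (ε / 2)) * (2 : ℝ) ^ ((kh : ℝ) * (ε / 2))) := by
          refine mul_le_mul_of_nonneg_left ?_ (by positivity)
          refine mul_le_mul hCε (k5_hj_le ?_) (by positivity) (by positivity)
          have h5 : (k1 : ℝ) * ε₁ * C ≤ 2 * ((k1 : ℝ) * ε₁) * C := by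
            have : 0 ≤ (k1 : ℝ) * ε₁ * C := by positivity
            linarith
          refine h5.trans (hexp.trans ?_)
          refine mul_le_mul_of_nonneg_left ?_ hkh0
          linarith
      _ = 1 := by
          rw [← Real.rpow_add (by norm_num), ← Real.rpow_add (by norm_num)]
          have : -(kh : ℝ) * ε + ((kh : ℝ) * (ε / 2) + (kh : ℝ) * (ε / 2)) = 0 := by ring
          rw [this, Real.rpow_zero]
  · obtain ⟨a, ha, hfit⟩ := hpoly b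
    exact ⟨a, fun i => (ha i).trans hXε, hfit⟩

/-- **pruning of the short fibres**: blocks of length `(1/2)^kh`; half of the mass sits on (trajectory, block) pairs whose labelled length is at least half of the average. -/
theorem k5_hj_prune {Λ : Type} [MeasurableSpace Λ] (ν : Measure Λ) [IsProbabilityMeasure ν] (E : Set (Λ × ℝ))
    (hE : MeasurableSet E) (hI : ∀ l t, (l, t) ∈ E → 0 ≤ t ∧ t < 1) (kh : ℕ) :
    ∃ E' : Set (Λ × ℝ), MeasurableSet E' ∧ E' ⊆ E ∧ k5_mass ν E / 2 ≤ k5_mass ν E' ∧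
      ∀ l t, (l, t) ∈ E' →
        (1 / 2 : ℝ) ^ kh * k5_mass ν E / 2 ≤ volume.real {v | (l, v) ∈ E ∧ ⌊v * 2 ^ kh⌋ = ⌊t * 2 ^ kh⌋} := by
  classical
  set m : ℝ := k5_mass ν E with hm
  have hm0 : 0 ≤ m := k5_mass_nonneg
  set θ₀ : ℝ := (1 / 2 : ℝ) ^ kh * m / 2 with hθ₀
  have hθ₀0 : 0 ≤ θ₀ := by positivity
  have hfl : Measurable (fun t : ℝ => ⌊t * 2 ^ kh⌋) := Int.measurable_floor.comp (measurable_id.mul_const _)
  set Eb : ℤ → Set (Λ × ℝ) := fun b => {x | x ∈ E ∧ ⌊x.2 * 2 ^ kh⌋ = b} with hEbdef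
  have hEb : ∀ b, MeasurableSet (Eb b) := fun b =>
    hE.inter ((hfl.comp measurable_snd) (measurableSet_singleton b))
  set φ : Λ → ℤ → ℝ := fun l b => volume.real (k5_fib (Eb b) l) with hφ
  have hφm : ∀ b, Measurable (fun l => φ l b) := fun b => k5_measurable_fib (hEb b)
  set E' : Set (Λ × ℝ) := {x | x ∈ E ∧ θ₀ ≤ φ x.1 ⌊x.2 * 2 ^ kh⌋} with hE'def
  have hE'eq : E' = ⋃ b : ℤ, Eb b ∩ (Prod.fst ⁻¹' {l | θ₀ ≤ φ l b}) := by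
    ext x
    simp only [hE'def, hEbdef, mem_ofPred_eq, mem_iUnion, mem_inter_iff, mem_preimage]
    constructor
    · rintro ⟨h1, h2⟩
      exact ⟨_, ⟨h1, rfl⟩, h2⟩
    · rintro ⟨b, ⟨h1, rfl⟩, h2⟩
      exact ⟨h1, h2⟩
  have hE'm : MeasurableSet E' := by
    rw [hE'eq]
    exact MeasurableSet.iUnion fun b =>
      (hEb b).inter (measurable_fst (measurableSet_le measurable_const (hφm b)))
  have hE'sub : E' ⊆ E := fun x hx => hx.1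
  have hIn : k5_In E (Ico 0 1) := fun l t h => hI l t h
  have hT : volume (Ico (0 : ℝ) 1) ≠ ⊤ := by simp
  refine ⟨E', hE'm, hE'sub, ?_, fun l t hlt => hlt.2⟩
  have hsplit := k5_mass_split (ν := ν) hE hT hIn hE'm
  have hinter : E ∩ E' = E' := inter_eq_right.2 hE'sub
  rw [hinter] at hsplit
  have hbad : k5_mass ν (E \ E') ≤ m / 2 := by
    have hIn' : k5_In (E \ E') (Ico 0 1) := fun l t h => hI l t h.1
    have key : ∀ l, volume.real (k5_fib (E \ E') l) ≤ m / 2 := by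
      intro l
      set S : ℕ → Set ℝ := fun a => if φ l (a : ℤ) < θ₀ then k5_fib (Eb (a : ℤ)) l else ∅ with hS
      have hSsub : ∀ a, S a ⊆ Ico 0 1 := by
        intro a v hv
        simp only [hS] at hv
        split_ifs at hv with hc
        · exact hI l v hv.1
        · exact absurd hv (notMem_empty v)
      have hSle : ∀ a, volume.real (S a) ≤ θ₀ := by
        intro a
        simp only [hS]
        split_ifs with hc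
        · exact hc.le
        · simpa using hθ₀0
      have hcov : k5_fib (E \ E') l ⊆ ⋃ a ∈ Finset.range (2 ^ kh), S a := by
        intro v hv
        have hvE : (l, v) ∈ E := hv.1
        have hvN : ¬ (θ₀ ≤ φ l ⌊v * 2 ^ kh⌋) := fun h => hv.2 ⟨hvE, h⟩
        obtain ⟨hv0, hv1⟩ := hI l v hvE
        have hb0 : 0 ≤ ⌊v * 2 ^ kh⌋ := Int.floor_nonneg.2 (by positivity)
        obtain ⟨a, ha⟩ := Int.eq_ofNat_of_zero_le hb0
        have ha2 : a < 2 ^ kh := by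
          have h1 : ((a : ℤ) : ℝ) ≤ v * 2 ^ kh := by rw [← ha]; exact Int.floor_le _
          have h2 : v * 2 ^ kh < 2 ^ kh := by
            have : (0 : ℝ) < 2 ^ kh := by positivity
            nlinarith
          have h3 : (a : ℝ) < 2 ^ kh := by
            have : ((a : ℤ) : ℝ) = (a : ℝ) := by norm_cast
            linarith
          exact_mod_cast h3
        simp only [mem_iUnion, Finset.mem_range, exists_prop]
        refine ⟨a, ha2, ?_⟩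
        simp only [hS]
        rw [ha] at hvN
        rw [if_pos (not_le.1 hvN)]
        exact ⟨hvE, ha⟩
      have hfin : volume (⋃ a ∈ Finset.range (2 ^ kh), S a) ≠ ⊤ := by
        refine ne_top_of_le_ne_top hT (measure_mono ?_)
        intro v hv
        simp only [mem_iUnion, exists_prop] at hv
        obtain ⟨a, -, hva⟩ := hv
        exact hSsub a hva
      calc volume.real (k5_fib (E \ E') l) ≤ volume.real (⋃ a ∈ Finset.range (2 ^ kh), S a) :=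
            measureReal_mono hcov hfin
        _ ≤ ∑ a ∈ Finset.range (2 ^ kh), volume.real (S a) := measureReal_biUnion_finset_le _ _
        _ ≤ ∑ _a ∈ Finset.range (2 ^ kh), θ₀ := Finset.sum_le_sum fun a _ => hSle a
        _ = m / 2 := by
            rw [Finset.sum_const, Finset.card_range, nsmul_eq_mul, hθ₀]
            push_cast
            have : (2 : ℝ) ^ kh * (1 / 2 : ℝ) ^ kh = 1 := by
              rw [← mul_pow]; norm_num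
            calc (2 : ℝ) ^ kh * ((1 / 2 : ℝ) ^ kh * m / 2) = ((2 : ℝ) ^ kh * (1 / 2 : ℝ) ^ kh) * (m / 2) := by ring
              _ = m / 2 := by rw [this, one_mul]
    have := k5_mass_le_fib (ν := ν) (hE.diff hE'm) hT hIn' key
    simpa using this
  linarith

/-- **L-252-S5-X4**  **Proposition 5.6**, the paper's wording.
PROOF (helper44).  `k5_higher_jets` with `ε/2`: `W`, `m_W = mass (k5_rt E W) ≥ h^(ε/2)`, polynomials `a_b`.   `φ(l, b) = volume.real {v | (l,v) ∈ E ∧ v ∈ W ∧ ⌊v 2^kh⌋ = b}`.   `E' = {(l,t) ∈ E | t ∈ W ∧ h m_W / 2 ≤ φ(l, ⌊t 2^kh⌋)}` (measurable: countable union over `b : ℤ` of `{l | h m_W/2 ≤ φ(l,b)} ×ˢ {t | ⌊t 2^kh⌋ = b}` intersected with `k5_rt E W`; `k5_measurable_fib`).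
The removed part `{(l,t) ∈ k5_rt E W | φ(l, block of t) < h m_W/2}` has mass `≤ ∑_{b < 2^kh} ∫ h m_W/2 dν = m_W/2` (`E ⊆ Λ × [0,1)`, `k5_mass_sum`/`k5_mass_le_fib`, blocks as in `k5_blk_*` of `JetContract.lean`).   So `mass E' ≥ m_W/2 ≥ h^ε`, and for `(l,t) ∈ E'` with `b = ⌊t 2^kh⌋`, `a = a_b`: the set of the statement contains `{v | (l,v) ∈ E, v ∈ W, ⌊v 2^kh⌋ = b}`, of length `≥ h m_W/2 ≥ h^(1+ε)`
(`k₀` so large that `1/2 ≥ h^(ε/2)`; finiteness of the volume: subset of `[0,1)`).   ~300 l. -/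
theorem k5_higher_jets_inc (j M : ℕ) (d θ : ℝ) (hM : 2 ≤ M) (hd0 : 0 ≤ d) (hd : d < 1) (hθ : 0 < θ) (hθ1 : θ ≤ 1)
    (hFJ : k5_FJ d θ) :
    ∃ Zx : ℝ, 0 < Zx ∧ ∀ ε : ℝ, 0 < ε → ∃ (η : ℝ) (k₀ : ℕ), 0 < η ∧ ∀ (kh : ℕ) (K ζ : ℝ), k₀ ≤ kh → 1 ≤ K →
      K ≤ ((1 / 2 : ℝ) ^ kh) ^ (-η) → ζ ≤ ((1 / 2 : ℝ) ^ kh) ^ Zx →
      ∀ (Λ : Type) [MeasurableSpace Λ] (ν : Measure Λ) (c : Λ → k5_Co j) (E : Set (Λ × ℝ)) (F : ℝ → Fin j → ℝ),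
      k5_Snd j d K ζ ν c E F → 1 / K ≤ k5_mass ν E →
      ∃ E' : Set (Λ × ℝ), MeasurableSet E' ∧ E' ⊆ E ∧ ((1 / 2 : ℝ) ^ kh) ^ ε ≤ k5_mass ν E' ∧
        ∀ l t, (l, t) ∈ E' → ∃ a : Fin (M + 1) → Fin j → ℝ, (∀ i, ‖a i‖ ≤ ((1 / 2 : ℝ) ^ kh) ^ (-ε)) ∧
          ‖F t - ∑ i : Fin (M + 1), t ^ (i : ℕ) • a i‖ ≤ ((1 / 2 : ℝ) ^ kh) ^ ((M : ℝ) + 1 / 4) ∧
          ((1 / 2 : ℝ) ^ kh) ^ (1 + ε) ≤ volume.real {v | (l, v) ∈ E ∧ ⌊v * 2 ^ kh⌋ = ⌊t * 2 ^ kh⌋ ∧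
            ‖F v - ∑ i : Fin (M + 1), v ^ (i : ℕ) • a i‖ ≤ ((1 / 2 : ℝ) ^ kh) ^ ((M : ℝ) + 1 / 4)} := by
  obtain ⟨Zx, hZx, hmain⟩ := k5_higher_jets j M d θ hM hd0 hd hθ hθ1 hFJ
  refine ⟨Zx, hZx, fun ε hε => ?_⟩
  obtain ⟨η, k₁, hη, hj⟩ := hmain (ε / 2) (by positivity)
  obtain ⟨k₂, hk₂⟩ := k5_hj_big (ε / 2) 2 (by positivity)
  refine ⟨η, max k₁ k₂, hη, ?_⟩
  intro kh K ζ hk hK1 hKη hζ Λ _ ν c E F hS hmass
  have := hS.prob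
  have h2 : (2 : ℝ) ≤ (2 : ℝ) ^ ((kh : ℝ) * (ε / 2)) := hk₂ kh ((le_max_right _ _).trans hk)
  obtain ⟨W, hW, hWm, hpoly⟩ := hj kh K ζ ((le_max_left _ _).trans hk) hK1 hKη hζ Λ ν c E F hS hmass
  have hEW : MeasurableSet (k5_rt E W) := k5_meas_rt hS.mE hW
  obtain ⟨E', hE'm, hE'sub, hE'mass, hfib⟩ := k5_hj_prune ν (k5_rt E W) hEW (fun l t h => hS.tI l t h.1) kh
  have hkh0 : (0 : ℝ) ≤ kh := Nat.cast_nonneg _
  -- `h^(ε/2) / 2 ≥ h^ε`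
  have hhalf : ((1 / 2 : ℝ) ^ kh) ^ ε ≤ ((1 / 2 : ℝ) ^ kh) ^ (ε / 2) / 2 := by
    rw [k5_hj_pow, k5_hj_pow, le_div_iff₀ (by norm_num)]
    calc (2 : ℝ) ^ (-(kh : ℝ) * ε) * 2 ≤ (2 : ℝ) ^ (-(kh : ℝ) * ε) * (2 : ℝ) ^ ((kh : ℝ) * (ε / 2)) :=
          mul_le_mul_of_nonneg_left h2 (by positivity)
      _ = (2 : ℝ) ^ (-(kh : ℝ) * (ε / 2)) := by
          rw [← Real.rpow_add (by norm_num)]; congr 1; ring
  refine ⟨E', hE'm, fun x hx => (hE'sub hx).1, ?_, fun l t hlt => ?_⟩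
  · linarith
  · obtain ⟨a, ha, hfit⟩ := hpoly ⌊t * 2 ^ kh⌋
    have htW : t ∈ W := (hE'sub hlt).2
    refine ⟨a, fun i => (ha i).trans ?_, hfit t htW rfl, ?_⟩
    · rw [k5_hj_pow, k5_hj_pow]
      refine k5_hj_le ?_
      nlinarith
    · have h1 := hfib l t hlt
      have hsub : {v | (l, v) ∈ k5_rt E W ∧ ⌊v * 2 ^ kh⌋ = ⌊t * 2 ^ kh⌋} ⊆
          {v | (l, v) ∈ E ∧ ⌊v * 2 ^ kh⌋ = ⌊t * 2 ^ kh⌋ ∧
            ‖F v - ∑ i : Fin (M + 1), v ^ (i : ℕ) • a i‖ ≤ ((1 / 2 : ℝ) ^ kh) ^ ((M : ℝ) + 1 / 4)} := by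
        rintro v ⟨hv1, hv2⟩
        exact ⟨hv1.1, hv2, hfit v hv1.2 hv2⟩
      have hfin : volume {v | (l, v) ∈ E ∧ ⌊v * 2 ^ kh⌋ = ⌊t * 2 ^ kh⌋ ∧
            ‖F v - ∑ i : Fin (M + 1), v ^ (i : ℕ) • a i‖ ≤ ((1 / 2 : ℝ) ^ kh) ^ ((M : ℝ) + 1 / 4)} ≠ ⊤ := by
        refine ne_top_of_le_ne_top (b := volume (Ico (0 : ℝ) 1)) (by simp) (measure_mono ?_)
        rintro v ⟨hv1, -⟩
        exact hS.tI l v hv1
      refine le_trans ?_ (h1.trans (measureReal_mono hsub hfin))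
      have hpos : (0 : ℝ) < (1 / 2 : ℝ) ^ kh := by positivity
      have e1 : ((1 / 2 : ℝ) ^ kh) ^ (1 + ε) = (1 / 2 : ℝ) ^ kh * ((1 / 2 : ℝ) ^ kh) ^ ε := by
        rw [Real.rpow_add hpos, Real.rpow_one]
      rw [e1, mul_div_assoc]
      refine mul_le_mul_of_nonneg_left ?_ hpos.le
      linarith

end Claimed.Agent.R252
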