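import Claimed.Agent.R252.S5.MassContract

/-!
# Row 252, Sec. 5: CONCENTRATION OF THE SLOPES IN ONE GROUP (05 l.701-748).   CONTRACT      (architect helper55; prefix `k5_`)

PAPER-FREE, normalised.   `μ` finite measure on `Λ` (mass `≤ K`), labels `U ⊆ Λ × [0,1]`, values `L(l,u) = b_l + u k_l + O(K p₀)`, `Y_l ∈ ℝ^j`, slopes `|k_l - k_l'| ≤ K (‖Y_l - Y_l'‖ + p₀)`,
`≤ K p₀^(-d)` occupied `p₀`-cells of values at each time, joint cap `μ {u ∈ U_l, Y_l ∈ p₀-cube, L(l,u) ∈ p₀-interval} ≤ K p₀^(j+d)`.   `w := p₀^((1-d)/4)`.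
CLAIM (`k5_slope_conc`): some interval of length `w` carries slopes of incidence mass `≥ 1/(C K^C)`.
Collisions are measured with the SAME API: `k5_mass (μ.prod μ) 𝒞`, `𝒞 ⊆ (Λ × Λ) × ℝ` (pairs of trajectories as "trajectories").
(1) prune short labels and light `Y`-cells (`k5_sc_prune`);  (2) collisions `≥ mass² / N` (`k5_sc_lower`);  (3) close slopes: `≤ K · 4 σ K p₀^d / τ²` (`k5_sc_close`);  (4) far slopes: `≤ K² · 2 (1 + 2K) p₀ / w` (`k5_sc_far`);  (5) compare.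
RULE: statements are frozen; prove IN PLACE; helper lemmas (prefix `k5_`) directly above the theorem that needs them; earlier statements (also of the imported files) may be used as black boxes.
-/

set_option autoImplicit false

namespace Claimed.Agent.R252

open MeasureTheory Set
open scoped BigOperators

variable {j : ℕ} {Λ : Type} [MeasurableSpace Λ]

/-- trajectories of labelled length `≥ τ` -/
def k5_scLg (U : Set (Λ × ℝ)) (τ : ℝ) : Set Λ := {l | τ ≤ volume.real (k5_fib U l)}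

/-- the pruned labels: long trajectories in `Y`-cells of long mass `≥ p₀^j τ` -/
def k5_scU (μ : Measure Λ) (U : Set (Λ × ℝ)) (Y : Λ → Fin j → ℝ) (p₀ τ : ℝ) : Set (Λ × ℝ) :=
  {x | x ∈ U ∧ x.1 ∈ k5_scLg U τ ∧
    p₀ ^ j * τ ≤ μ.real {l' | l' ∈ k5_scLg U τ ∧ k5_vbin p₀ (Y l') = k5_vbin p₀ (Y x.1)}}

/-- the collisions of the labels `V` : pairs labelled at the same time with values in the same `p₀`-cell -/
def k5_scC (V : Set (Λ × ℝ)) (L : Λ × ℝ → ℝ) (p₀ : ℝ) : Set ((Λ × Λ) × ℝ) :=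
  {x | (x.1.1, x.2) ∈ V ∧ (x.1.2, x.2) ∈ V ∧ k5_bin p₀ (L (x.1.1, x.2)) = k5_bin p₀ (L (x.1.2, x.2))}

theorem k5_slope_eqns_cite : True := by
  have := @k5_scLg.eq_1
  have := @k5_scU.eq_1
  have := @k5_scC.eq_1
  trivial

theorem k5_measurable_vbin (p₀ : ℝ) : Measurable (k5_vbin (j := j) p₀) := by
  refine measurable_pi_iff.2 fun a => ?_
  have h0 : Measurable fun v : Fin j → ℝ => v a := measurable_pi_apply a
  have h : Measurable fun v : Fin j → ℝ => v a / p₀ := h0.div_const p₀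
  exact Int.measurable_floor.comp h

theorem k5_scLg_meas (U : Set (Λ × ℝ)) (τ : ℝ) (hU : MeasurableSet U) : MeasurableSet (k5_scLg U τ) :=
  measurableSet_le measurable_const (k5_measurable_fib hU)

/-- the cells of the vectors of norm `≤ K` -/
theorem k5_vbin_mem_box (K p₀ : ℝ) (hp : 0 < p₀) (v : Fin j → ℝ) (hv : ‖v‖ ≤ K) :
    k5_vbin p₀ v ∈ Fintype.piFinset (fun _ : Fin j => Finset.Icc ⌊-(K / p₀)⌋ ⌊K / p₀⌋) := by
  rw [Fintype.mem_piFinset]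
  intro a
  have h1 : |v a| ≤ K := by
    have := norm_le_pi_norm v a
    rw [Real.norm_eq_abs] at this
    exact this.trans hv
  rw [Finset.mem_Icc]
  constructor
  · apply Int.floor_le_floor
    rw [← neg_div]
    exact div_le_div_of_nonneg_right (abs_le.1 h1).1 hp.le
  · apply Int.floor_le_floor
    exact div_le_div_of_nonneg_right (abs_le.1 h1).2 hp.le

theorem k5_box_card (K p₀ : ℝ) (hK : 1 ≤ K) (hp : 0 < p₀) (hp1 : p₀ ≤ 1) :
    ((Fintype.piFinset (fun _ : Fin j => Finset.Icc ⌊-(K / p₀)⌋ ⌊K / p₀⌋)).card : ℝ) ≤ (4 * K / p₀) ^ j := by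
  have hx : 1 ≤ K / p₀ := by
    rw [le_div_iff₀ hp]
    linarith
  rw [Fintype.card_piFinset, Finset.prod_const, Finset.card_univ, Fintype.card_fin, Int.card_Icc]
  push_cast
  refine pow_le_pow_left₀ (Nat.cast_nonneg _) ?_ j
  have h1 : (⌊K / p₀⌋ : ℝ) ≤ K / p₀ := Int.floor_le _
  have h2 : -(K / p₀) < (⌊-(K / p₀)⌋ : ℝ) + 1 := Int.lt_floor_add_one _
  have h3 : (0 : ℤ) ≤ ⌊K / p₀⌋ + 1 - ⌊-(K / p₀)⌋ := by
    have h4 : (⌊-(K / p₀)⌋ : ℤ) ≤ ⌊K / p₀⌋ := Int.floor_le_floor (by linarith)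
    linarith
  have h5 : (((⌊K / p₀⌋ + 1 - ⌊-(K / p₀)⌋).toNat : ℕ) : ℝ) = ((⌊K / p₀⌋ + 1 - ⌊-(K / p₀)⌋ : ℤ) : ℝ) := by
    have := Int.toNat_of_nonneg h3
    exact_mod_cast this
  rw [h5]
  push_cast
  have h6 : 4 * K / p₀ = 4 * (K / p₀) := by ring
  rw [h6]
  linarith

/-- **L-252-S5-S1**  the pruning.
PROOF.  Measurability: `k5_measurable_fib` (so `k5_scLg` is measurable); the function `x ↦ μ.real {l' ∈ Lg | vbin (Y l') = vbin (Y x.1)}` is `g ∘ vbin ∘ Y ∘ fst` with `g` a function on the countable discrete type `Fin j → ℤ` (`measurable_from_top`/`Measurable.of_discrete`), `vbin ∘ Y` measurable (`Int.measurable_floor`… componentwise, `measurable_pi_iff`).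
Loss 1: `{x ∈ U | x.1 ∉ Lg}` has fibres `< τ` : `k5_mass_le_fib` : `≤ τ μ(Λ) ≤ K τ`.   Loss 2: `{x ∈ U | x.1 ∈ Lg, cell light}` : `≤ μ {l ∈ Lg | cell light}` (fibres `≤ 1`), and the cells of labelled trajectories lie in the `Finset` `Fintype.piFinset (fun _ => Finset.Icc (-n) n)`, `n := ⌈K/p₀⌉ + 1`, of cardinality `≤ (4 K / p₀)^j`;
each light cell contributes `< p₀^j τ` (finite union).   `k5_mass_split` twice.   ~300 l. -/
theorem k5_sc_prune (μ : Measure Λ) [IsFiniteMeasure μ] (U : Set (Λ × ℝ)) (Y : Λ → Fin j → ℝ) (K p₀ τ : ℝ)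
    (hU : MeasurableSet U) (hY : Measurable Y) (hK : 1 ≤ K) (hp : 0 < p₀) (hp1 : p₀ ≤ 1) (hτ : 0 < τ)
    (hμ : μ.real univ ≤ K) (hI : ∀ l u, (l, u) ∈ U → 0 ≤ u ∧ u ≤ 1 ∧ ‖Y l‖ ≤ K) :
    MeasurableSet (k5_scU μ U Y p₀ τ) ∧ k5_mass μ U - (K + (4 * K) ^ j) * τ ≤ k5_mass μ (k5_scU μ U Y p₀ τ) := by
  classical
  set Lg := k5_scLg U τ with hLg
  have hLgm : MeasurableSet Lg := k5_scLg_meas U τ hU
  set g : (Fin j → ℤ) → ℝ := fun κ => μ.real {l' | l' ∈ Lg ∧ k5_vbin p₀ (Y l') = κ} with hg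
  have hvm : Measurable fun l => k5_vbin p₀ (Y l) := (k5_measurable_vbin p₀).comp hY
  have hgm : Measurable fun l => g (k5_vbin p₀ (Y l)) := (Measurable.of_discrete (f := g)).comp hvm
  set A : Set Λ := {l | l ∈ Lg ∧ p₀ ^ j * τ ≤ g (k5_vbin p₀ (Y l))} with hA
  have hAm : MeasurableSet A := hLgm.inter (measurableSet_le measurable_const hgm)
  have hscU : k5_scU μ U Y p₀ τ = U ∩ Prod.fst ⁻¹' A := rfl
  have hIn : k5_In U (Icc 0 1) := fun l t h => ⟨(hI l t h).1, (hI l t h).2.1⟩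
  have hT : volume (Icc (0 : ℝ) 1) ≠ ⊤ := by simp
  have hfA : MeasurableSet (Prod.fst ⁻¹' A : Set (Λ × ℝ)) := measurable_fst hAm
  rw [hscU]
  refine ⟨hU.inter hfA, ?_⟩
  -- loss 1
  set E1 : Set (Λ × ℝ) := U ∩ Prod.fst ⁻¹' Lgᶜ with hE1
  have hE1m : MeasurableSet E1 := hU.inter (measurable_fst hLgm.compl)
  have hE1I : k5_In E1 (Icc 0 1) := fun l t h => hIn l t h.1
  have hL1 : k5_mass μ E1 ≤ K * τ := by
    have h1 : k5_mass μ E1 ≤ τ * μ.real univ := by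
      refine k5_mass_le_fib hE1m hT hE1I fun l => ?_
      by_cases hl : l ∈ Lg
      · have : k5_fib E1 l = ∅ := by
          ext t
          simp only [k5_fib, hE1, mem_ofPred_eq, mem_inter_iff, mem_preimage, mem_compl_iff, mem_empty_iff_false,
            iff_false, not_and, not_not]
          exact fun _ => hl
        rw [this]
        simpa using hτ.le
      · have h2 : k5_fib E1 l ⊆ k5_fib U l := fun t ht => ht.1
        have h3 : volume (k5_fib U l) ≠ ⊤ := ne_top_of_le_ne_top hT (measure_mono (k5_fib_sub hIn l))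
        have h4 : volume.real (k5_fib E1 l) ≤ volume.real (k5_fib U l) := measureReal_mono h2 h3
        have h5 : volume.real (k5_fib U l) < τ := not_le.1 hl
        linarith
    calc k5_mass μ E1 ≤ τ * μ.real univ := h1
      _ ≤ τ * K := mul_le_mul_of_nonneg_left hμ hτ.le
      _ = K * τ := mul_comm _ _
  -- loss 2
  set B : Set Λ := {l | l ∈ Lg ∧ g (k5_vbin p₀ (Y l)) < p₀ ^ j * τ} with hB
  have hBm : MeasurableSet B := hLgm.inter (measurableSet_lt hgm measurable_const)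
  set E2 : Set (Λ × ℝ) := U ∩ Prod.fst ⁻¹' B with hE2
  have hE2m : MeasurableSet E2 := hU.inter (measurable_fst hBm)
  have hE2I : k5_In E2 (Icc 0 1) := fun l t h => hIn l t h.1
  set F : Finset (Fin j → ℤ) := Fintype.piFinset (fun _ : Fin j => Finset.Icc ⌊-(K / p₀)⌋ ⌊K / p₀⌋) with hF
  have hLgY : ∀ l ∈ Lg, ‖Y l‖ ≤ K := by
    intro l hl
    have h1 : (k5_fib U l).Nonempty := by
      by_contra hne
      rw [Set.not_nonempty_iff_eq_empty] at hne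
      have h2 : τ ≤ volume.real (k5_fib U l) := hl
      rw [hne] at h2
      simp at h2
      linarith
    obtain ⟨t, ht⟩ := h1
    exact (hI l t ht).2.2
  have hBle : μ.real B ≤ (4 * K) ^ j * τ := by
    set F' : Finset (Fin j → ℤ) := F.filter (fun κ => g κ < p₀ ^ j * τ) with hF'
    have hsub : B ⊆ ⋃ κ ∈ F', {l' | l' ∈ Lg ∧ k5_vbin p₀ (Y l') = κ} := by
      intro l hl
      simp only [mem_iUnion, exists_prop]
      refine ⟨k5_vbin p₀ (Y l), ?_, hl.1, rfl⟩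
      rw [hF', Finset.mem_filter]
      exact ⟨k5_vbin_mem_box K p₀ hp (Y l) (hLgY l hl.1), hl.2⟩
    have h1 : μ.real B ≤ μ.real (⋃ κ ∈ F', {l' | l' ∈ Lg ∧ k5_vbin p₀ (Y l') = κ}) :=
      measureReal_mono hsub (measure_ne_top μ _)
    have h2 : μ.real (⋃ κ ∈ F', {l' | l' ∈ Lg ∧ k5_vbin p₀ (Y l') = κ}) ≤ ∑ κ ∈ F', g κ :=
      measureReal_biUnion_finset_le _ _
    have h3 : ∑ κ ∈ F', g κ ≤ ∑ _κ ∈ F', p₀ ^ j * τ :=
      Finset.sum_le_sum fun κ hκ => (Finset.mem_filter.1 hκ).2.le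
    have h4 : (F'.card : ℝ) ≤ (4 * K / p₀) ^ j :=
      le_trans (by exact_mod_cast Finset.card_filter_le _ _) (k5_box_card K p₀ hK hp hp1)
    have h5 : 0 ≤ p₀ ^ j * τ := by positivity
    calc μ.real B ≤ ∑ _κ ∈ F', p₀ ^ j * τ := h1.trans (h2.trans h3)
      _ = (F'.card : ℝ) * (p₀ ^ j * τ) := by rw [Finset.sum_const, nsmul_eq_mul]
      _ ≤ (4 * K / p₀) ^ j * (p₀ ^ j * τ) := mul_le_mul_of_nonneg_right h4 h5
      _ = (4 * K) ^ j * τ := by
        rw [div_pow]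
        field_simp
  have hL2 : k5_mass μ E2 ≤ (4 * K) ^ j * τ := by
    have h1 : k5_mass μ E2 ≤ μ.real B * volume.real (Icc (0 : ℝ) 1) := by
      refine k5_mass_le_sec hE2m measurableSet_Icc hT hE2I fun t _ => ?_
      exact measureReal_mono fun l hl => hl.2
    have h2 : volume.real (Icc (0 : ℝ) 1) = 1 := by simp [measureReal_def]
    rw [h2, mul_one] at h1
    exact h1.trans hBle
  -- the comparison
  have hsplit := k5_mass_split (ν := μ) hU hT hIn hfA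
  have hsub : U \ Prod.fst ⁻¹' A ⊆ E1 ∪ E2 := by
    intro x hx
    by_cases hl : x.1 ∈ Lg
    · right
      refine ⟨hx.1, hl, ?_⟩
      by_contra hc
      exact hx.2 ⟨hl, not_lt.1 hc⟩
    · left
      exact ⟨hx.1, hl⟩
  have hEI : k5_In (E1 ∪ E2) (Icc 0 1) := fun l t h => h.elim (fun h => hE1I l t h) (fun h => hE2I l t h)
  have h7 : k5_mass μ (U \ Prod.fst ⁻¹' A) ≤ k5_mass μ (E1 ∪ E2) := k5_mass_mono hT hEI hsub
  have h8 : k5_mass μ (E1 ∪ E2) ≤ k5_mass μ E1 + k5_mass μ E2 := measureReal_union_le _ _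
  rw [hsplit]
  nlinarith

theorem k5_measurable_bin (p₀ : ℝ) : Measurable (k5_bin p₀) :=
  Int.measurable_floor.comp (measurable_id.div_const p₀)

theorem k5_scC_meas (V : Set (Λ × ℝ)) (L : Λ × ℝ → ℝ) (p₀ : ℝ) (hV : MeasurableSet V) (hL : Measurable L) :
    MeasurableSet (k5_scC V L p₀) := by
  have m1 : Measurable fun x : (Λ × Λ) × ℝ => (x.1.1, x.2) := (measurable_fst.fst).prodMk measurable_snd
  have m2 : Measurable fun x : (Λ × Λ) × ℝ => (x.1.2, x.2) := (measurable_fst.snd).prodMk measurable_snd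
  exact (m1 hV).inter ((m2 hV).inter (measurableSet_eq_fun (((k5_measurable_bin p₀).comp hL).comp m1)
    (((k5_measurable_bin p₀).comp hL).comp m2)))

/-- the lower bound at one time -/
theorem k5_scC_sec_lower (μ : Measure Λ) [IsFiniteMeasure μ] (V : Set (Λ × ℝ)) (L : Λ × ℝ → ℝ) (p₀ N : ℝ)
    (hV : MeasurableSet V) (hL : Measurable L) (hN : 0 < N) (u : ℝ) (Z : Finset ℤ) (hZc : (Z.card : ℝ) ≤ N)
    (hZ : ∀ l, (l, u) ∈ V → k5_bin p₀ (L (l, u)) ∈ Z) :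
    μ.real (k5_sec V u) ^ 2 / N ≤ (μ.prod μ).real (k5_sec (k5_scC V L p₀) u) := by
  set G : ℤ → Set Λ := fun z => {l | (l, u) ∈ V ∧ k5_bin p₀ (L (l, u)) = z} with hG
  have hGm : ∀ z, MeasurableSet (G z) := fun z =>
    (k5_meas_sec hV u).inter (((k5_measurable_bin p₀).comp (hL.comp measurable_prodMk_right)) (measurableSet_singleton z))
  have hGd : ∀ z z', z ≠ z' → Disjoint (G z) (G z') := by
    intro z z' hne
    refine Set.disjoint_left.2 fun l h1 h2 => hne ?_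
    rw [← h1.2, ← h2.2]
  have e1 : k5_sec V u = ⋃ z ∈ Z, G z := by
    ext l
    simp only [mem_iUnion, exists_prop]
    constructor
    · intro h
      exact ⟨_, hZ l h, h, rfl⟩
    · rintro ⟨z, -, h, -⟩
      exact h
  have e2 : (⋃ z ∈ Z, G z ×ˢ G z) ⊆ k5_sec (k5_scC V L p₀) u := by
    intro x hx
    simp only [mem_iUnion, exists_prop] at hx
    obtain ⟨z, -, h1, h2⟩ := hx
    exact ⟨h1.1, h2.1, h1.2.trans h2.2.symm⟩
  have s1 : μ.real (k5_sec V u) = ∑ z ∈ Z, μ.real (G z) := by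
    rw [e1]
    exact measureReal_biUnion_finset (fun z _ z' _ hne => hGd z z' hne) (fun z _ => hGm z)
  have s2 : ∑ z ∈ Z, μ.real (G z) ^ 2 ≤ (μ.prod μ).real (k5_sec (k5_scC V L p₀) u) := by
    have h1 : (μ.prod μ).real (⋃ z ∈ Z, G z ×ˢ G z) = ∑ z ∈ Z, (μ.prod μ).real (G z ×ˢ G z) := by
      refine measureReal_biUnion_finset (fun z _ z' _ hne => ?_) (fun z _ => (hGm z).prod (hGm z))
      exact Set.disjoint_left.2 fun x h1 h2 => Set.disjoint_left.1 (hGd z z' hne) h1.1 h2.1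
    calc ∑ z ∈ Z, μ.real (G z) ^ 2 = ∑ z ∈ Z, (μ.prod μ).real (G z ×ˢ G z) :=
          Finset.sum_congr rfl fun z _ => by rw [measureReal_prod_prod, sq]
      _ = (μ.prod μ).real (⋃ z ∈ Z, G z ×ˢ G z) := h1.symm
      _ ≤ _ := measureReal_mono e2
  have cs := sq_sum_le_card_mul_sum_sq (s := Z) (f := fun z => μ.real (G z))
  have h0 : 0 ≤ ∑ z ∈ Z, μ.real (G z) ^ 2 := Finset.sum_nonneg fun z _ => by positivity
  rw [div_le_iff₀ hN, s1]
  calc (∑ z ∈ Z, μ.real (G z)) ^ 2 ≤ (Z.card : ℝ) * ∑ z ∈ Z, μ.real (G z) ^ 2 := cs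
    _ ≤ N * ∑ z ∈ Z, μ.real (G z) ^ 2 := mul_le_mul_of_nonneg_right hZc h0
    _ ≤ N * (μ.prod μ).real (k5_sec (k5_scC V L p₀) u) := mul_le_mul_of_nonneg_left s2 hN.le
    _ = _ := mul_comm _ _

/-- **L-252-S5-S2**  measurability of the collision set and the lower bound (Cauchy-Schwarz twice).
PROOF.  Measurability: preimages of `V` under the measurable maps `x ↦ (x.1.1, x.2)`, `x ↦ (x.1.2, x.2)`; equality of two measurable `ℤ`-valued functions (`measurableSet_eq_fun`).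
`k5_mass_eq_sec` on `T = Icc 0 1` for `μ.prod μ`.   At a fixed time `u`, `G := k5_sec V u`, `G_z := G ∩ {bin = z}` : the section of `𝒞` is `⋃_{z ∈ Z_u} G_z ×ˢ G_z` (disjoint), so its `μ.prod μ`-measure is `∑_z μ(G_z)²` (`Measure.prod_prod`), `≥ (∑_z μ(G_z))² / #Z_u = μ(G)² / #Z_u ≥ μ(G)²/N` (`sq_sum_le_card_mul_sum_sq`).
`∫_0^1 μ(G_u)² du ≥ (∫_0^1 μ(G_u) du)²` (Cauchy-Schwarz on the probability space `[0,1]`: `k5_cs` with `ν := volume.restrict (Icc 0 1)`).   ~300 l. -/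
theorem k5_sc_lower (μ : Measure Λ) [IsFiniteMeasure μ] (V : Set (Λ × ℝ)) (L : Λ × ℝ → ℝ) (p₀ N : ℝ)
    (hV : MeasurableSet V) (hL : Measurable L) (hN : 0 < N) (hI : ∀ l u, (l, u) ∈ V → 0 ≤ u ∧ u ≤ 1)
    (hZ : ∀ u, ∃ Z : Finset ℤ, (Z.card : ℝ) ≤ N ∧ ∀ l, (l, u) ∈ V → k5_bin p₀ (L (l, u)) ∈ Z) :
    MeasurableSet (k5_scC V L p₀) ∧ k5_mass μ V ^ 2 / N ≤ k5_mass (μ.prod μ) (k5_scC V L p₀) := by
  have hCm := k5_scC_meas V L p₀ hV hL
  refine ⟨hCm, ?_⟩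
  have hT : volume (Icc (0 : ℝ) 1) ≠ ⊤ := by simp
  have hIV : k5_In V (Icc 0 1) := fun l t h => ⟨(hI l t h).1, (hI l t h).2⟩
  have hIC : k5_In (k5_scC V L p₀) (Icc 0 1) := fun x t h => hIV x.1 t h.1
  rw [k5_mass_eq_sec hCm measurableSet_Icc hT hIC, k5_mass_eq_sec hV measurableSet_Icc hT hIV]
  have hgm : Measurable fun t => μ.real (k5_sec V t) := k5_measurable_sec hV
  have hcs := k5_cs (ν := volume.restrict (Icc (0 : ℝ) 1)) (fun t => μ.real (k5_sec V t)) hgm (μ.real univ)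
    (fun _ => measureReal_nonneg) (fun _ => measureReal_mono (subset_univ _))
  have h1 : (volume.restrict (Icc (0 : ℝ) 1)).real univ = 1 := by
    rw [measureReal_def, Measure.restrict_apply MeasurableSet.univ, univ_inter, Real.volume_Icc]
    simp
  rw [h1, one_mul] at hcs
  have hi2 : IntegrableOn (fun t => μ.real (k5_sec V t) ^ 2 / N) (Icc 0 1) volume := by
    refine Measure.integrableOn_of_bounded (M := μ.real univ ^ 2 / N) hT
      ((hgm.pow_const 2).div_const N).aestronglyMeasurable (Filter.Eventually.of_forall fun t => ?_)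
    rw [Real.norm_of_nonneg (by positivity)]
    have h3 : μ.real (k5_sec V t) ≤ μ.real univ := measureReal_mono (subset_univ _)
    exact div_le_div_of_nonneg_right (pow_le_pow_left₀ measureReal_nonneg h3 2) hN.le
  have h2 : ∫ t in Icc (0 : ℝ) 1, μ.real (k5_sec V t) ^ 2 / N
      ≤ ∫ t in Icc (0 : ℝ) 1, (μ.prod μ).real (k5_sec (k5_scC V L p₀) t) := by
    refine setIntegral_mono_on hi2 (k5_sec_integrableOn hCm hT) measurableSet_Icc fun t _ => ?_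
    obtain ⟨Z, hZc, hZm⟩ := hZ t
    exact k5_scC_sec_lower μ V L p₀ N hV hL hN t Z hZc hZm
  rw [integral_div] at h2
  exact (div_le_div_of_nonneg_right hcs hN.le).trans h2

theorem k5_sd_bin_iff {r s : ℝ} (hr : 0 < r) (z : ℤ) : k5_bin r s = z ↔ (z : ℝ) * r ≤ s ∧ s < (z : ℝ) * r + r := by
  unfold k5_bin
  rw [Int.floor_eq_iff, le_div_iff₀ hr, div_lt_iff₀ hr]
  constructor
  · rintro ⟨a, b⟩; exact ⟨a, by linarith⟩
  · rintro ⟨a, b⟩; exact ⟨a, by linarith⟩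

theorem k5_sd_meas_vbin {Y : Λ → Fin j → ℝ} (hY : Measurable Y) (p : ℝ) : Measurable fun l => k5_vbin p (Y l) :=
  measurable_pi_iff.2 fun a => (((measurable_pi_apply a).comp hY).div_const p).floor

theorem k5_sd_fib_int (ν : Measure Λ) [IsFiniteMeasure ν] {E : Set (Λ × ℝ)} (hE : MeasurableSet E) (hI : k5_In E (Icc 0 1)) :
    Integrable (fun l => volume.real (k5_fib E l)) ν := by
  refine Integrable.of_bound (k5_measurable_fib hE).aestronglyMeasurable 1 (Filter.Eventually.of_forall fun l => ?_)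
  rw [Real.norm_of_nonneg measureReal_nonneg]
  have := measureReal_mono (μ := volume) (k5_fib_sub hI l) (by simp)
  simpa using this

/-- **L-252-S5-S3**  close slopes, at ONE time and for ONE cell `z` of values: the pruned trajectories with slope within `w` of `k₀` have mass `≤ 4 σ K p₀^d / τ²`.
PROOF.  `𝒦` := the (finite) set of `Y`-cells `κ` containing some `l'` of the set.   For `κ ∈ 𝒦` : `μ(Lg ∩ κ) ≥ p₀^j τ` (definition of `k5_scU`), and every `l ∈ Lg ∩ κ` (it is labelled somewhere since `τ > 0`) has `|k_l - k_l'| ≤ K (p₀ + p₀) ≤ w` (same cell: `‖Y_l - Y_l'‖ ≤ p₀`), so `|k_l - k₀| ≤ 2 w`.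
Hence `#𝒦 p₀^j τ ≤ μ {l ∈ Lg : |k_l - k₀| ≤ 2 w} ≤ τ⁻¹ k5_mass μ {x ∈ U : |k - k₀| ≤ 2 w} ≤ 4 σ / τ` (Markov: `k5_mass_eq_fib`, fibres `≥ τ` on `Lg`; four intervals of length `w`).   For each `κ ∈ 𝒦` the joint cap with `e := κ p₀`, `a := z p₀` gives `≤ K p₀^(j+d)`.   ~300 l. -/
theorem k5_sc_close (μ : Measure Λ) [IsFiniteMeasure μ] (U : Set (Λ × ℝ)) (Y : Λ → Fin j → ℝ) (k : Λ → ℝ)
    (L : Λ × ℝ → ℝ) (K d p₀ τ w σ : ℝ) (hU : MeasurableSet U) (hY : Measurable Y) (hk : Measurable k)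
    (hL : Measurable L) (hK : 1 ≤ K) (hp : 0 < p₀) (hp1 : p₀ ≤ 1) (hτ : 0 < τ) (hw : 2 * K * p₀ ≤ w)
    (hI : ∀ l u, (l, u) ∈ U → 0 ≤ u ∧ u ≤ 1 ∧ ‖Y l‖ ≤ K)
    (hlip : ∀ l u l' u', (l, u) ∈ U → (l', u') ∈ U → |k l - k l'| ≤ K * (‖Y l - Y l'‖ + p₀))
    (hcap : ∀ (u a : ℝ) (e : Fin j → ℝ), μ.real {l | (l, u) ∈ U ∧ (∀ i, e i ≤ Y l i ∧ Y l i ≤ e i + p₀) ∧
      a ≤ L (l, u) ∧ L (l, u) ≤ a + p₀} ≤ K * p₀ ^ ((j : ℝ) + d))
    (hσ : ∀ a : ℝ, k5_mass μ {x | x ∈ U ∧ a ≤ k x.1 ∧ k x.1 ≤ a + w} ≤ σ) (u k₀ : ℝ) (z : ℤ) :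
    μ.real {l' | (l', u) ∈ k5_scU μ U Y p₀ τ ∧ k5_bin p₀ (L (l', u)) = z ∧ |k l' - k₀| ≤ w}
      ≤ 4 * σ * K * p₀ ^ d / τ ^ 2 := by
  classical
  have hK0 : 0 < K := by linarith
  have hw0 : 0 < w := lt_of_lt_of_le (by positivity) hw
  set S : Set Λ := {l' | (l', u) ∈ k5_scU μ U Y p₀ τ ∧ k5_bin p₀ (L (l', u)) = z ∧ |k l' - k₀| ≤ w} with hS
  have hLgm : MeasurableSet (k5_scLg U τ) := measurableSet_le measurable_const (k5_measurable_fib hU)
  have hcellm : ∀ κ : Fin j → ℤ, MeasurableSet {l | k5_vbin p₀ (Y l) = κ} := fun κ =>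
    (k5_sd_meas_vbin hY p₀) (measurableSet_singleton κ)
  set 𝒦 : Finset (Fin j → ℤ) := (Fintype.piFinset fun _ : Fin j => Finset.Icc ⌊-K / p₀⌋ ⌊K / p₀⌋).filter
    (fun κ => ∃ l' ∈ S, k5_vbin p₀ (Y l') = κ) with h𝒦
  have hmem : ∀ l' ∈ S, k5_vbin p₀ (Y l') ∈ 𝒦 := by
    intro l' hl'
    refine Finset.mem_filter.2 ⟨Fintype.mem_piFinset.2 fun a => ?_, l', hl', rfl⟩
    have hb := abs_le.1 ((norm_le_pi_norm (Y l') a).trans (hI l' u hl'.1.1).2.2)
    exact Finset.mem_Icc.2 ⟨Int.floor_le_floor (div_le_div_of_nonneg_right hb.1 hp.le),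
      Int.floor_le_floor (div_le_div_of_nonneg_right hb.2 hp.le)⟩
  -- Claim A
  have hA : (𝒦.card : ℝ) * (p₀ ^ j * τ) ≤ μ.real {l | l ∈ k5_scLg U τ ∧ |k l - k₀| ≤ 2 * w} := by
    have h1 : μ.real (⋃ κ ∈ 𝒦, {l | l ∈ k5_scLg U τ ∧ k5_vbin p₀ (Y l) = κ})
        = ∑ κ ∈ 𝒦, μ.real {l | l ∈ k5_scLg U τ ∧ k5_vbin p₀ (Y l) = κ} := by
      refine measureReal_biUnion_finset ?_ (fun κ _ => hLgm.inter (hcellm κ))
      intro κ _ κ' _ hne
      refine Set.disjoint_left.2 fun l h1 h2 => hne (h1.2.symm.trans h2.2)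
    have h2 : 𝒦.card • (p₀ ^ j * τ) ≤ ∑ κ ∈ 𝒦, μ.real {l | l ∈ k5_scLg U τ ∧ k5_vbin p₀ (Y l) = κ} := by
      refine Finset.card_nsmul_le_sum _ _ _ fun κ hκ => ?_
      obtain ⟨l', hl', rfl⟩ := (Finset.mem_filter.1 hκ).2
      exact hl'.1.2.2
    have h3 : μ.real (⋃ κ ∈ 𝒦, {l | l ∈ k5_scLg U τ ∧ k5_vbin p₀ (Y l) = κ})
        ≤ μ.real {l | l ∈ k5_scLg U τ ∧ |k l - k₀| ≤ 2 * w} := by
      refine measureReal_mono ?_ (measure_ne_top μ _)
      intro l hl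
      simp only [mem_iUnion] at hl
      obtain ⟨κ, hκ, hlg, hlκ⟩ := hl
      obtain ⟨l', hl', hκ'⟩ := (Finset.mem_filter.1 hκ).2
      refine ⟨hlg, ?_⟩
      -- `l` is labelled somewhere
      have hne : (k5_fib U l).Nonempty := by
        by_contra hcon
        rw [Set.not_nonempty_iff_eq_empty] at hcon
        have : τ ≤ volume.real (k5_fib U l) := hlg
        rw [hcon, measureReal_empty] at this
        linarith
      obtain ⟨u', hu'⟩ := hne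
      have hYY : ‖Y l - Y l'‖ ≤ p₀ := by
        refine (pi_norm_le_iff_of_nonneg hp.le).2 fun a => ?_
        have e1 := (k5_sd_bin_iff hp (κ a)).1 (congrFun hlκ a)
        have e2 := (k5_sd_bin_iff hp (κ a)).1 (congrFun hκ' a)
        rw [Pi.sub_apply, Real.norm_eq_abs, abs_le]
        constructor <;> linarith [e1.1, e1.2, e2.1, e2.2]
      have h5 := hlip l u' l' u hu' hl'.1.1
      have h6 : |k l - k l'| ≤ w := by
        refine h5.trans (le_trans ?_ hw)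
        nlinarith
      have h7 := hl'.2.2
      calc |k l - k₀| = |(k l - k l') + (k l' - k₀)| := by ring_nf
        _ ≤ |k l - k l'| + |k l' - k₀| := abs_add_le _ _
        _ ≤ 2 * w := by linarith
    rw [nsmul_eq_mul] at h2
    linarith
  -- Claim B
  have hE'm : MeasurableSet {x : Λ × ℝ | x ∈ U ∧ |k x.1 - k₀| ≤ 2 * w} :=
    hU.inter (measurableSet_le ((hk.comp measurable_fst).sub_const k₀).abs measurable_const)
  have hE'I : k5_In {x : Λ × ℝ | x ∈ U ∧ |k x.1 - k₀| ≤ 2 * w} (Icc 0 1) := fun l t h =>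
    ⟨(hI l t h.1).1, (hI l t h.1).2.1⟩
  have hB : τ * μ.real {l | l ∈ k5_scLg U τ ∧ |k l - k₀| ≤ 2 * w} ≤ k5_mass μ {x | x ∈ U ∧ |k x.1 - k₀| ≤ 2 * w} := by
    rw [k5_mass_eq_fib hE'm (T := Icc 0 1) (by simp) hE'I]
    have h1 := mul_meas_ge_le_integral_of_nonneg (μ := μ) (f := fun l => volume.real (k5_fib {x : Λ × ℝ | x ∈ U ∧ |k x.1 - k₀| ≤ 2 * w} l))
      (Filter.Eventually.of_forall fun l => measureReal_nonneg) (k5_sd_fib_int μ hE'm hE'I) τ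
    refine le_trans (mul_le_mul_of_nonneg_left ?_ hτ.le) h1
    refine measureReal_mono ?_ (measure_ne_top μ _)
    rintro l ⟨hlg, hlk⟩
    have e : k5_fib {x : Λ × ℝ | x ∈ U ∧ |k x.1 - k₀| ≤ 2 * w} l = k5_fib U l := by
      ext t
      exact ⟨fun h => h.1, fun h => ⟨h, hlk⟩⟩
    show τ ≤ volume.real (k5_fib {x : Λ × ℝ | x ∈ U ∧ |k x.1 - k₀| ≤ 2 * w} l)
    rw [e]
    exact hlg
  have hB2 : k5_mass μ {x | x ∈ U ∧ |k x.1 - k₀| ≤ 2 * w} ≤ 4 * σ := by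
    have hIu : k5_In (⋃ i ∈ Finset.range 4, {x : Λ × ℝ | x ∈ U ∧ k₀ - 2 * w + (i : ℝ) * w ≤ k x.1 ∧ k x.1 ≤ k₀ - 2 * w + (i : ℝ) * w + w})
        (Icc 0 1) := by
      intro l t h
      simp only [mem_iUnion] at h
      obtain ⟨i, _, h⟩ := h
      exact ⟨(hI l t h.1).1, (hI l t h.1).2.1⟩
    have h1 := k5_mass_mono (ν := μ) (T := Icc 0 1) (by simp) hIu
      (E := {x : Λ × ℝ | x ∈ U ∧ |k x.1 - k₀| ≤ 2 * w}) (by
        rintro x ⟨hxU, hx⟩
        rw [abs_le] at hx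
        simp only [mem_iUnion]
        by_cases c1 : k x.1 ≤ k₀ - w
        · exact ⟨0, by simp, hxU, by simp; linarith [hx.1], by simp; linarith⟩
        · by_cases c2 : k x.1 ≤ k₀
          · exact ⟨1, by simp, hxU, by simp; linarith, by simp; linarith⟩
          · by_cases c3 : k x.1 ≤ k₀ + w
            · exact ⟨2, by simp, hxU, by push_cast; linarith, by push_cast; linarith⟩
            · exact ⟨3, by simp, hxU, by push_cast; linarith, by push_cast; linarith [hx.2]⟩)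
    refine h1.trans ?_
    unfold k5_mass
    refine (measureReal_biUnion_finset_le _ _).trans ?_
    have := Finset.sum_le_card_nsmul (Finset.range 4)
      (fun i : ℕ => (μ.prod volume).real {x : Λ × ℝ | x ∈ U ∧ k₀ - 2 * w + (i : ℝ) * w ≤ k x.1 ∧ k x.1 ≤ k₀ - 2 * w + (i : ℝ) * w + w}) σ
      fun i _ => hσ _
    simpa using this
  -- Claim C
  have hC : μ.real S ≤ (𝒦.card : ℝ) * (K * p₀ ^ ((j : ℝ) + d)) := by
    have h1 : S ⊆ ⋃ κ ∈ 𝒦, {l | (l, u) ∈ U ∧ (∀ i, (κ i : ℝ) * p₀ ≤ Y l i ∧ Y l i ≤ (κ i : ℝ) * p₀ + p₀) ∧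
        (z : ℝ) * p₀ ≤ L (l, u) ∧ L (l, u) ≤ (z : ℝ) * p₀ + p₀} := by
      intro l' hl'
      simp only [mem_iUnion]
      have e1 := (k5_sd_bin_iff hp z).1 hl'.2.1
      refine ⟨_, hmem l' hl', hl'.1.1, fun i => ?_, e1.1, e1.2.le⟩
      have e2 := (k5_sd_bin_iff hp (k5_vbin p₀ (Y l') i)).1 rfl
      exact ⟨e2.1, e2.2.le⟩
    refine (measureReal_mono h1 (measure_ne_top μ _)).trans ((measureReal_biUnion_finset_le _ _).trans ?_)
    have := Finset.sum_le_card_nsmul 𝒦 (fun κ : Fin j → ℤ => μ.real {l | (l, u) ∈ U ∧ (∀ i, (κ i : ℝ) * p₀ ≤ Y l i ∧ Y l i ≤ (κ i : ℝ) * p₀ + p₀) ∧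
        (z : ℝ) * p₀ ≤ L (l, u) ∧ L (l, u) ≤ (z : ℝ) * p₀ + p₀}) (K * p₀ ^ ((j : ℝ) + d)) fun κ _ => hcap u _ _
    rwa [nsmul_eq_mul] at this
  -- conclusion
  have hpd : 0 < p₀ ^ d := Real.rpow_pos_of_pos hp d
  have e : p₀ ^ ((j : ℝ) + d) = p₀ ^ j * p₀ ^ d := by rw [Real.rpow_add hp, Real.rpow_natCast]
  rw [le_div_iff₀ (by positivity)]
  have h1 : (𝒦.card : ℝ) * (p₀ ^ j * τ) * τ ≤ 4 * σ := by
    have := mul_le_mul_of_nonneg_right hA hτ.le
    linarith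
  calc μ.real S * τ ^ 2 ≤ (𝒦.card : ℝ) * (K * p₀ ^ ((j : ℝ) + d)) * τ ^ 2 := mul_le_mul_of_nonneg_right hC (by positivity)
    _ = ((𝒦.card : ℝ) * (p₀ ^ j * τ) * τ) * (K * p₀ ^ d) := by rw [e]; ring
    _ ≤ 4 * σ * (K * p₀ ^ d) := mul_le_mul_of_nonneg_right h1 (by positivity)
    _ = 4 * σ * K * p₀ ^ d := by ring

theorem k5_sf_meas_bin {α : Type} [MeasurableSpace α] {g : α → ℝ} (hg : Measurable g) (p : ℝ) : Measurable fun x => k5_bin p (g x) :=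
  (hg.div_const p).floor

theorem k5_sf_meas_scC (V : Set (Λ × ℝ)) (L : Λ × ℝ → ℝ) (p₀ : ℝ) (hV : MeasurableSet V) (hL : Measurable L) :
    MeasurableSet (k5_scC V L p₀) := by
  have m1 : Measurable fun x : (Λ × Λ) × ℝ => (x.1.1, x.2) := (measurable_fst.comp measurable_fst).prodMk measurable_snd
  have m2 : Measurable fun x : (Λ × Λ) × ℝ => (x.1.2, x.2) := (measurable_snd.comp measurable_fst).prodMk measurable_snd
  exact (m1 hV).inter ((m2 hV).inter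
    (measurableSet_eq_fun (k5_sf_meas_bin (hL.comp m1) p₀) (k5_sf_meas_bin (hL.comp m2) p₀)))

theorem k5_sf_bin_close {p s s' : ℝ} (hp : 0 < p) (h : k5_bin p s = k5_bin p s') : |s - s'| ≤ p := by
  unfold k5_bin at h
  have a1 := Int.floor_le (s / p)
  have a2 := Int.lt_floor_add_one (s / p)
  have b1 := Int.floor_le (s' / p)
  have b2 := Int.lt_floor_add_one (s' / p)
  rw [h] at a1 a2
  rw [le_div_iff₀ hp] at a1 b1
  rw [div_lt_iff₀ hp] at a2 b2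
  rw [abs_le]
  constructor <;> nlinarith

theorem k5_sf_prod_univ (μ : Measure Λ) [IsFiniteMeasure μ] : (μ.prod μ).real univ = μ.real univ ^ 2 := by
  rw [← univ_prod_univ, measureReal_def, Measure.prod_prod, ENNReal.toReal_mul, pow_two]
  rfl

/-- **L-252-S5-S4**  far slopes: two affine functions with slopes `> w` apart agree up to `(1 + 2K) p₀` only on a time set of length `≤ 2 (1 + 2 K) p₀ / w`.
PROOF.  `k5_mass_le_fib` for `μ.prod μ` : the fibre over a pair `(l, l')` with `|k_l - k_l'| > w` is contained in `{u : |(b_l - b_l') + u (k_l - k_l')| ≤ (1 + 2 K) p₀}` (same cell: `|L - L'| ≤ p₀`; two errors `K p₀`), an interval of length `2 (1 + 2K) p₀ / |k_l - k_l'|` (`Real.volume_Icc`, preimage of `Icc` under an affine map with nonzero slope: `{u | |α + u β| ≤ ρ} = Icc ((-ρ - α)/β) ((ρ - α)/β)` for `β > 0`, symmetric for `β < 0`);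
other fibres are empty.   `(μ.prod μ).real univ = (μ.real univ)²`.   Measurability from `k5_sc_lower`.   ~200 l. -/
theorem k5_sc_far (μ : Measure Λ) [IsFiniteMeasure μ] (V : Set (Λ × ℝ)) (b k : Λ → ℝ) (L : Λ × ℝ → ℝ) (K p₀ w : ℝ)
    (hV : MeasurableSet V) (hb : Measurable b) (hk : Measurable k) (hL : Measurable L) (hK : 1 ≤ K) (hp : 0 < p₀)
    (hw : 0 < w) (hI : ∀ l u, (l, u) ∈ V → 0 ≤ u ∧ u ≤ 1)
    (hmod : ∀ l u, (l, u) ∈ V → |L (l, u) - (b l + u * k l)| ≤ K * p₀) :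
    k5_mass (μ.prod μ) {x | x ∈ k5_scC V L p₀ ∧ w < |k x.1.1 - k x.1.2|}
      ≤ 2 * (1 + 2 * K) * p₀ / w * μ.real univ ^ 2 := by
  have hm : MeasurableSet {x : (Λ × Λ) × ℝ | x ∈ k5_scC V L p₀ ∧ w < |k x.1.1 - k x.1.2|} := by
    refine (k5_sf_meas_scC V L p₀ hV hL).inter ?_
    have : Measurable fun x : (Λ × Λ) × ℝ => |k x.1.1 - k x.1.2| :=
      ((hk.comp (measurable_fst.comp measurable_fst)).sub (hk.comp (measurable_snd.comp measurable_fst))).abs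
    exact measurableSet_lt measurable_const this
  have hIn : k5_In {x : (Λ × Λ) × ℝ | x ∈ k5_scC V L p₀ ∧ w < |k x.1.1 - k x.1.2|} (Icc 0 1) := fun l t h =>
    hI _ _ h.1.1
  rw [← k5_sf_prod_univ]
  refine k5_mass_le_fib hm (T := Icc 0 1) (by simp) hIn fun ll => ?_
  obtain ⟨l, l'⟩ := ll
  have hρ : 0 ≤ (1 + 2 * K) * p₀ := by positivity
  by_cases hβ : w < |k l - k l'|
  · have hβ0 : 0 < |k l - k l'| := hw.trans hβ
    have hne : k l - k l' ≠ 0 := abs_pos.1 hβ0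
    have hsub : k5_fib {x : (Λ × Λ) × ℝ | x ∈ k5_scC V L p₀ ∧ w < |k x.1.1 - k x.1.2|} (l, l') ⊆
        Icc (-(b l - b l') / (k l - k l') - (1 + 2 * K) * p₀ / |k l - k l'|)
          (-(b l - b l') / (k l - k l') + (1 + 2 * K) * p₀ / |k l - k l'|) := by
      intro u hu
      obtain ⟨⟨h1, h2, h3⟩, -⟩ := hu
      have e1 := abs_le.1 (hmod l u h1)
      have e2 := abs_le.1 (hmod l' u h2)
      have e3 := abs_le.1 (k5_sf_bin_close hp h3)
      have e4 : |(b l - b l') + u * (k l - k l')| ≤ (1 + 2 * K) * p₀ := by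
        rw [abs_le]; constructor <;> nlinarith [e1.1, e1.2, e2.1, e2.2, e3.1, e3.2]
      have e5 : u - -(b l - b l') / (k l - k l') = ((b l - b l') + u * (k l - k l')) / (k l - k l') := by
        field_simp
        ring
      have e6 : |u - -(b l - b l') / (k l - k l')| ≤ (1 + 2 * K) * p₀ / |k l - k l'| := by
        rw [e5, abs_div]
        exact div_le_div_of_nonneg_right e4 hβ0.le
      rw [abs_le] at e6
      exact ⟨by linarith [e6.1], by linarith [e6.2]⟩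
    refine (measureReal_mono hsub (by simp)).trans ?_
    rw [Real.volume_real_Icc_of_le (by have := div_nonneg hρ hβ0.le; linarith)]
    have : (1 + 2 * K) * p₀ / |k l - k l'| ≤ (1 + 2 * K) * p₀ / w := div_le_div_of_nonneg_left hρ hw hβ.le
    have e : 2 * (1 + 2 * K) * p₀ / w = 2 * ((1 + 2 * K) * p₀ / w) := by ring
    rw [e]
    linarith
  · have : k5_fib {x : (Λ × Λ) × ℝ | x ∈ k5_scC V L p₀ ∧ w < |k x.1.1 - k x.1.2|} (l, l') = ∅ := by
      ext u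
      simp only [k5_fib, mem_ofPred_eq, mem_empty_iff_false, iff_false]
      exact fun h => hβ h.2
    rw [this, measureReal_empty]
    positivity

theorem k5_se_prod_le (μ : Measure Λ) [IsFiniteMeasure μ] {A : Set (Λ × Λ)} (hA : MeasurableSet A) {B : ℝ} (hB : 0 ≤ B)
    (h : ∀ l, μ.real {l' | (l, l') ∈ A} ≤ B) : (μ.prod μ).real A ≤ B * μ.real univ := by
  rw [measureReal_def, Measure.prod_apply hA]
  have h1 : ∫⁻ l, μ (Prod.mk l ⁻¹' A) ∂μ ≤ ∫⁻ _, ENNReal.ofReal B ∂μ := by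
    refine lintegral_mono fun l => ?_
    exact (ENNReal.le_ofReal_iff_toReal_le (measure_ne_top μ _) hB).2 (h l)
  rw [lintegral_const] at h1
  have h2 := ENNReal.toReal_mono (ENNReal.mul_ne_top ENNReal.ofReal_ne_top (measure_ne_top μ univ)) h1
  rwa [ENNReal.toReal_mul, ENNReal.toReal_ofReal hB] at h2

theorem k5_se_num (j : ℕ) {K : ℝ} (hK : 1 ≤ K) :
    1024 * K ^ 7 * (K + (4 * K) ^ j) ^ 2 ≤ 1024 * (1 + 4 ^ j) ^ 2 * K ^ (2 * j + 9) ∧
    1024 * (1 + 4 ^ j) ^ 2 * K ^ (2 * j + 9)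
      ≤ (1024 * (1 + 4 ^ j) ^ 2 + 2 * j + 9) * K ^ (1024 * (1 + 4 ^ j) ^ 2 + 2 * j + 9 : ℝ) := by
  have hK0 : 0 < K := by linarith
  have hj0 : (0 : ℝ) ≤ j := Nat.cast_nonneg j
  constructor
  · have h1 : K ≤ K ^ (j + 1) := by
      calc K = K ^ 1 := (pow_one K).symm
        _ ≤ K ^ (j + 1) := pow_le_pow_right₀ hK (by omega)
    have h2 : K ^ j ≤ K ^ (j + 1) := pow_le_pow_right₀ hK (by omega)
    have h3 : K + (4 * K) ^ j ≤ (1 + 4 ^ j) * K ^ (j + 1) := by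
      rw [mul_pow]
      have : (0 : ℝ) ≤ 4 ^ j := by positivity
      nlinarith
    have h4 := pow_le_pow_left₀ (by positivity) h3 2
    calc 1024 * K ^ 7 * (K + (4 * K) ^ j) ^ 2 ≤ 1024 * K ^ 7 * ((1 + 4 ^ j) * K ^ (j + 1)) ^ 2 :=
          mul_le_mul_of_nonneg_left h4 (by positivity)
      _ = 1024 * (1 + 4 ^ j) ^ 2 * K ^ (2 * j + 9) := by ring
  · have h1 : K ^ (2 * j + 9) ≤ K ^ (1024 * (1 + 4 ^ j) ^ 2 + 2 * j + 9 : ℝ) := by
      rw [← Real.rpow_natCast]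
      refine Real.rpow_le_rpow_of_exponent_le hK ?_
      push_cast
      have : (0 : ℝ) ≤ 1024 * (1 + 4 ^ j) ^ 2 := by positivity
      linarith
    exact mul_le_mul (by linarith) h1 (by positivity) (by positivity)

/-- **L-252-S5-S5**  **concentration of the slopes in one group** (assembly).
PROOF.  `w := p₀^((1-d)/4)`, `τ := 1/(4 K (K + (4K)^j))`, `V := k5_scU μ U Y p₀ τ`, `mass V ≥ 1/K - 1/(4K) ≥ 1/(2K)` (`k5_sc_prune`).   By contradiction: `hσ` with `σ := 1/(C K^C)`.   `k5_sc_lower` (`N := K p₀^(-d)`): `mass 𝒞 ≥ p₀^d/(4 K³)`.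
`k5_mass_split` of `𝒞` by the measurable set `{w < |k - k'|}`.   Far part: `k5_sc_far` `≤ 2 (1 + 2K) K² p₀^(1 - (1-d)/4)`; `1 - (1-d)/4 - d = 3(1-d)/4 ≥ (1-d)/2`, so by the smallness hypothesis it is `≤ p₀^d/(16 K³)`.
Close part: `k5_mass_le_sec` on `Icc 0 1`; at a fixed time the section is `{(l, l') | l ∈ V_u, l' ∈ V_u, same cell, |k - k'| ≤ w}`, and `(μ.prod μ)` of it is `∫ μ {l' | …} dμ(l) ≤ μ(Λ) · 4 σ K p₀^d / τ²` (`Measure.prod_apply` + `k5_sc_close` with `z := bin (L(l,u))`, `k₀ := k l`).   So `≤ 4 σ K² p₀^d/τ² ≤ p₀^d/(16 K³)` for `C` large.   Contradiction.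
`2 K p₀ ≤ w` from the smallness hypothesis.   ~300 l. -/
theorem k5_slope_conc (j : ℕ) (d : ℝ) (hd0 : 0 ≤ d) (hd : d < 1) :
    ∃ C : ℝ, 1 ≤ C ∧ ∀ (Λ : Type) [MeasurableSpace Λ] (μ : Measure Λ) [IsFiniteMeasure μ] (U : Set (Λ × ℝ))
      (Y : Λ → Fin j → ℝ) (b k : Λ → ℝ) (L : Λ × ℝ → ℝ) (K p₀ : ℝ),
      MeasurableSet U → Measurable Y → Measurable b → Measurable k → Measurable L → 1 ≤ K → 0 < p₀ → p₀ ≤ 1 →
      μ.real univ ≤ K → 1 / K ≤ k5_mass μ U →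
      (∀ l u, (l, u) ∈ U → 0 ≤ u ∧ u ≤ 1 ∧ ‖Y l‖ ≤ K) →
      (∀ l u, (l, u) ∈ U → |L (l, u) - (b l + u * k l)| ≤ K * p₀) →
      (∀ l u l' u', (l, u) ∈ U → (l', u') ∈ U → |k l - k l'| ≤ K * (‖Y l - Y l'‖ + p₀)) →
      (∀ u, ∃ Z : Finset ℤ, (Z.card : ℝ) ≤ K * p₀ ^ (-d) ∧ ∀ l, (l, u) ∈ U → k5_bin p₀ (L (l, u)) ∈ Z) →
      (∀ (u a : ℝ) (e : Fin j → ℝ), μ.real {l | (l, u) ∈ U ∧ (∀ i, e i ≤ Y l i ∧ Y l i ≤ e i + p₀) ∧
        a ≤ L (l, u) ∧ L (l, u) ≤ a + p₀} ≤ K * p₀ ^ ((j : ℝ) + d)) →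
      C * K ^ C * p₀ ^ ((1 - d) / 2) ≤ 1 →
      ∃ a : ℝ, 1 / (C * K ^ C) ≤ k5_mass μ {x | x ∈ U ∧ a ≤ k x.1 ∧ k x.1 ≤ a + p₀ ^ ((1 - d) / 4)} := by
  have hj0 : (0 : ℝ) ≤ j := Nat.cast_nonneg j
  refine ⟨1024 * (1 + 4 ^ j) ^ 2 + 2 * j + 9, by
    have : (0 : ℝ) ≤ 1024 * (1 + 4 ^ j) ^ 2 := by positivity
    linarith, ?_⟩
  intro Λ _ μ _ U Y b k L K p₀ hU hY hb hk hL hK hp hp1 hμ hmass hI hmod hlip hZ hcap hs
  by_contra hcon
  push Not at hcon
  have hK0 : 0 < K := by linarith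
  obtain ⟨hn1, hn2⟩ := k5_se_num j hK
  set D : ℝ := 1024 * (1 + 4 ^ j) ^ 2 * K ^ (2 * j + 9) with hD
  set T : ℝ := K + (4 * K) ^ j with hT
  set w : ℝ := p₀ ^ ((1 - d) / 4) with hw
  set P : ℝ := p₀ ^ ((1 - d) / 2) with hP
  set pd : ℝ := p₀ ^ d with hpd
  have hT1 : K ≤ T := by
    have : (0 : ℝ) ≤ (4 * K) ^ j := by positivity
    linarith
  have hT0 : 0 < T := by linarith
  have hD0 : 0 < D := by positivity
  have hw0 : 0 < w := Real.rpow_pos_of_pos hp _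
  have hP0 : 0 < P := Real.rpow_pos_of_pos hp _
  have hpd0 : 0 < pd := Real.rpow_pos_of_pos hp _
  have hDP : D * P ≤ 1 := (mul_le_mul_of_nonneg_right hn2 hP0.le).trans hs
  have hD7 : 1024 * K ^ 7 ≤ D := by
    refine le_trans ?_ hn1
    have : 1 ≤ T ^ 2 := one_le_pow₀ (hK.trans hT1)
    nlinarith [pow_pos hK0 7]
  -- powers of p₀
  have r1 : w * p₀ ^ ((3 + d) / 4) = p₀ := by
    rw [hw, ← Real.rpow_add hp]
    have : (1 - d) / 4 + (3 + d) / 4 = 1 := by ring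
    rw [this, Real.rpow_one]
  have r2 : p₀ ^ ((3 + d) / 4) = pd * p₀ ^ (3 * (1 - d) / 4) := by
    rw [hpd, ← Real.rpow_add hp]
    congr 1
    ring
  have r3 : p₀ ^ (3 * (1 - d) / 4) ≤ P := Real.rpow_le_rpow_of_exponent_ge hp hp1 (by linarith)
  have r4 : p₀ ^ ((3 + d) / 4) ≤ P := Real.rpow_le_rpow_of_exponent_ge hp hp1 (by linarith)
  have r5 : p₀ / w = p₀ ^ ((3 + d) / 4) := by
    rw [div_eq_iff hw0.ne', mul_comm]; exact r1.symm
  -- (N1)
  have hN1 : 2 * K * p₀ ≤ w := by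
    have h1 : 2 * K ≤ D := by
      have : K ≤ K ^ 7 := by
        calc K = K ^ 1 := (pow_one K).symm
          _ ≤ K ^ 7 := pow_le_pow_right₀ hK (by omega)
      linarith
    have h2 : 2 * K * p₀ ^ ((3 + d) / 4) ≤ 1 :=
      (mul_le_mul h1 r4 (Real.rpow_pos_of_pos hp _).le hD0.le).trans hDP
    calc 2 * K * p₀ = w * (2 * K * p₀ ^ ((3 + d) / 4)) := by linear_combination (-(2 * K)) * r1
      _ ≤ w * 1 := mul_le_mul_of_nonneg_left h2 hw0.le
      _ = w := mul_one w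
  -- the pruning
  set τ : ℝ := 1 / (4 * K * T) with hτ
  have hτ0 : 0 < τ := by positivity
  obtain ⟨hVm, hVmass⟩ := k5_sc_prune μ U Y K p₀ τ hU hY hK hp hp1 hτ0 hμ hI
  set V := k5_scU μ U Y p₀ τ with hV
  have hVU : ∀ x, x ∈ V → x ∈ U := fun x hx => hx.1
  have hmV : 1 / (2 * K) ≤ k5_mass μ V := by
    have e : T * τ = 1 / (4 * K) := by rw [hτ]; field_simp
    rw [e] at hVmass
    have e2 : 1 / K - 1 / (4 * K) = 3 / (4 * K) := by field_simp; ring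
    have e3 : 1 / (2 * K) ≤ 3 / (4 * K) := by
      rw [div_le_div_iff₀ (by positivity) (by positivity)]; nlinarith
    linarith
  -- collisions
  have hNpos : 0 < K * p₀ ^ (-d) := mul_pos hK0 (Real.rpow_pos_of_pos hp _)
  obtain ⟨hCm, hClow⟩ := k5_sc_lower μ V L p₀ (K * p₀ ^ (-d)) hVm hL hNpos
    (fun l u h => ⟨(hI l u (hVU _ h)).1, (hI l u (hVU _ h)).2.1⟩)
    (fun u => by
      obtain ⟨Z, h1, h2⟩ := hZ u
      exact ⟨Z, h1, fun l hl => h2 l (hVU _ hl)⟩)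
  have hlow : pd / (4 * K ^ 3) ≤ k5_mass (μ.prod μ) (k5_scC V L p₀) := by
    refine le_trans ?_ hClow
    rw [Real.rpow_neg hp.le, ← hpd]
    have h1 : (1 / (2 * K)) ^ 2 ≤ k5_mass μ V ^ 2 := pow_le_pow_left₀ (by positivity) hmV 2
    have e : pd / (4 * K ^ 3) = (1 / (2 * K)) ^ 2 / (K * pd⁻¹) := by field_simp; ring
    rw [e]
    exact div_le_div_of_nonneg_right h1 (by positivity)
  have hCI : k5_In (k5_scC V L p₀) (Icc 0 1) := fun ll t h =>
    ⟨(hI _ _ (hVU _ h.1)).1, (hI _ _ (hVU _ h.1)).2.1⟩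
  have hFm : MeasurableSet {x : (Λ × Λ) × ℝ | w < |k x.1.1 - k x.1.2|} :=
    measurableSet_lt measurable_const
      ((hk.comp (measurable_fst.comp measurable_fst)).sub (hk.comp (measurable_snd.comp measurable_fst))).abs
  have hsplit := k5_mass_split (ν := μ.prod μ) hCm (T := Icc 0 1) (by simp) hCI hFm
  have hM0 : 0 ≤ μ.real univ := measureReal_nonneg
  -- far slopes
  have hfar : k5_mass (μ.prod μ) (k5_scC V L p₀ ∩ {x | w < |k x.1.1 - k x.1.2|}) ≤ pd / (16 * K ^ 3) := by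
    have h1 := k5_sc_far μ V b k L K p₀ w hVm hb hk hL hK hp hw0
      (fun l u h => ⟨(hI l u (hVU _ h)).1, (hI l u (hVU _ h)).2.1⟩) (fun l u h => hmod l u (hVU _ h))
    refine le_trans h1 ?_
    have e1 : 2 * (1 + 2 * K) * p₀ / w = 2 * (1 + 2 * K) * (pd * p₀ ^ (3 * (1 - d) / 4)) := by
      rw [mul_div_assoc, r5, r2]
    rw [e1]
    have h2 : μ.real univ ^ 2 ≤ K ^ 2 := pow_le_pow_left₀ hM0 hμ 2
    have h3 : 2 * (1 + 2 * K) * K ^ 2 * (16 * K ^ 3) ≤ D := by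
      refine le_trans ?_ hD7
      have a5 : K ^ 5 ≤ K ^ 7 := pow_le_pow_right₀ hK (by omega)
      have a6 : K ^ 6 ≤ K ^ 7 := pow_le_pow_right₀ hK (by omega)
      have e : 2 * (1 + 2 * K) * K ^ 2 * (16 * K ^ 3) = 32 * K ^ 5 + 64 * K ^ 6 := by ring
      rw [e]
      linarith [pow_pos hK0 7]
    have h4 : 2 * (1 + 2 * K) * K ^ 2 * (16 * K ^ 3) * P ≤ 1 := (mul_le_mul_of_nonneg_right h3 hP0.le).trans hDP
    rw [le_div_iff₀ (by positivity)]
    calc 2 * (1 + 2 * K) * (pd * p₀ ^ (3 * (1 - d) / 4)) * μ.real univ ^ 2 * (16 * K ^ 3)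
        ≤ 2 * (1 + 2 * K) * (pd * P) * K ^ 2 * (16 * K ^ 3) := by
          have := Real.rpow_pos_of_pos hp (3 * (1 - d) / 4)
          gcongr
      _ = pd * (2 * (1 + 2 * K) * K ^ 2 * (16 * K ^ 3) * P) := by ring
      _ ≤ pd * 1 := mul_le_mul_of_nonneg_left h4 hpd0.le
      _ = pd := mul_one pd
  -- close slopes
  have hσ : ∀ a : ℝ, k5_mass μ {x | x ∈ U ∧ a ≤ k x.1 ∧ k x.1 ≤ a + w} ≤ 1 / D := by
    intro a
    refine (hcon a).le.trans ?_
    exact one_div_le_one_div_of_le hD0 hn2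
  have hB0 : 0 ≤ 4 * (1 / D) * K * pd / τ ^ 2 := by positivity
  have hclose : k5_mass (μ.prod μ) (k5_scC V L p₀ \ {x | w < |k x.1.1 - k x.1.2|}) ≤ pd / (16 * K ^ 3) := by
    have hEm : MeasurableSet (k5_scC V L p₀ \ {x | w < |k x.1.1 - k x.1.2|}) := hCm.diff hFm
    have hEI : k5_In (k5_scC V L p₀ \ {x | w < |k x.1.1 - k x.1.2|}) (Icc 0 1) := fun ll t h => hCI ll t h.1
    have h1 := k5_mass_le_sec (ν := μ.prod μ) hEm (T := Icc 0 1) measurableSet_Icc (by simp) hEI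
      (a := 4 * (1 / D) * K * pd / τ ^ 2 * μ.real univ) fun u _ => by
        refine k5_se_prod_le μ (k5_meas_sec hEm u) hB0 fun l => ?_
        refine le_trans (measureReal_mono ?_ (measure_ne_top μ _))
          (k5_sc_close μ U Y k L K d p₀ τ w (1 / D) hU hY hk hL hK hp hp1 hτ0 hN1 hI hlip hcap hσ u (k l) (k5_bin p₀ (L (l, u))))
        rintro l' ⟨⟨-, h2, h3⟩, h4⟩
        refine ⟨h2, h3.symm, ?_⟩
        rw [abs_sub_comm]
        exact not_lt.1 h4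
    refine h1.trans ?_
    have e0 : volume.real (Icc (0 : ℝ) 1) = 1 := by simp
    rw [e0, mul_one]
    have h2 : 4 * (1 / D) * K * pd / τ ^ 2 * μ.real univ ≤ 4 * (1 / D) * K * pd / τ ^ 2 * K :=
      mul_le_mul_of_nonneg_left hμ hB0
    refine h2.trans ?_
    have e1 : 4 * (1 / D) * K * pd / τ ^ 2 * K = pd * (64 * K ^ 4 * T ^ 2) / D := by
      rw [hτ]; field_simp; ring
    rw [e1, div_le_div_iff₀ hD0 (by positivity)]
    calc pd * (64 * K ^ 4 * T ^ 2) * (16 * K ^ 3) = pd * (1024 * K ^ 7 * T ^ 2) := by ring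
      _ ≤ pd * D := mul_le_mul_of_nonneg_left hn1 hpd0.le
  have hfin : 0 < pd / K ^ 3 := by positivity
  have e1 : pd / (4 * K ^ 3) = pd / K ^ 3 / 4 := by field_simp
  have e2 : pd / (16 * K ^ 3) = pd / K ^ 3 / 16 := by field_simp
  rw [e1] at hlow
  rw [e2] at hfar hclose
  linarith

end Claimed.Agent.R252
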