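import Claimed.Agent.R252.S5.LocalContract
import Claimed.Agent.R252.S5.SlopeContract

/-!
# Row 252, Sec. 5: RESTRICTION OF THE TRAJECTORY LABELS AND THE COVER OF `J_1` (05 l.701-766).   CONTRACT      (architect helper55; prefix `k5_`)

Measure model, finest length `H = (1/2)^k`, block `I_b = [b H, (b+1) H)`, affine fit `F t ≈ t • AI + c1` on the labelled times of the block, error `K H^(1+θ)`.   `p₀ := H^(θ/2)`, `w := p₀^((1-d)/4) = H^(θ(1-d)/8)`.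
For a popular time `ts` of the block: group `g = k5_bin H (k5_S (F ts) c tI)`, slope `k5_ksl = k5_R (F ts) c tI - AI ⬝ᵥ k5_y c tI`.
(V1) `|J_1(l,t) - k_l| ≤ C K² H`;  (V2) one good group: `k5_slope_conc` after normalisation;  (V3) one block;  (V4) all blocks: definition of `E'`, its mass, the cover.
RULE: statements are frozen; prove IN PLACE; helper lemmas (prefix `k5_`) directly above the theorem that needs them; earlier statements (also of the imported files) may be used as black boxes.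
-/

set_option autoImplicit false

namespace Claimed.Agent.R252

open MeasureTheory Set
open scoped BigOperators

variable {j : ℕ}

/-- the frozen slope `k_l = q_l - A_I Y_l` -/
def k5_ksl (fs AI : Fin j → ℝ) (tI : ℝ) (c : k5_Co j) : ℝ := k5_R fs c tI - AI ⬝ᵥ k5_y c tI

theorem k5_cover_eqns_cite : True := by
  have := @k5_ksl.eq_1
  trivial

/-- **L-252-S5-V1**  (5.quadratic-jet-error).
PROOF.  `J_1 - k = 2 (t - tI) c.1 2 - (f - fs) ⬝ᵥ y' - (t - tI) (AI ⬝ᵥ y')` (unfold; `y(t) = y(tI) + (t - tI) y'`); bounds `2 K H`, `j (2 K H) K`, `H j K K`.   ~80 l. -/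
theorem k5_cov_J (c : k5_Co j) (K H tI t : ℝ) (f fs AI : Fin j → ℝ) (hK : 1 ≤ K) (hc : ‖c‖ ≤ K) (hH : 0 < H)
    (htt : |t - tI| ≤ H) (hA : ‖AI‖ ≤ K) (hf : ‖f - fs‖ ≤ 2 * K * H) :
    |k5_J 1 AI f c t - k5_ksl fs AI tI c| ≤ (2 + 3 * j) * K ^ 2 * H := by
  have hj : (0 : ℝ) ≤ j := Nat.cast_nonneg j
  have hK0 : 0 ≤ K := by linarith
  have ey : k5_y c t = k5_y c tI + (t - tI) • k5_yd c := by
    funext a
    simp only [k5_y, k5_yd, Pi.add_apply, Pi.smul_apply, smul_eq_mul]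
    ring
  have key : k5_J 1 AI f c t - k5_ksl fs AI tI c
      = 2 * ((t - tI) * c.1 2) - (t - tI) * (AI ⬝ᵥ k5_yd c) - (f - fs) ⬝ᵥ k5_yd c := by
    unfold k5_J k5_ksl k5_R
    rw [ey, dotProduct_add, dotProduct_smul, smul_eq_mul, sub_dotProduct]
    simp only [k5_xD]
    push_cast
    ring
  rw [key]
  have hyd : ‖k5_yd c‖ ≤ K := k5_loc_c2 c hc 1
  have b1 : |(t - tI) * c.1 2| ≤ H * K := k5_loc_abs_mul htt (k5_loc_c1 c hc 2)
  have b2 : |(t - tI) * (AI ⬝ᵥ k5_yd c)| ≤ H * (j * K * K) := k5_loc_abs_mul htt (k5_loc_dot_le' AI (k5_yd c) hA hyd)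
  have b3 : |(f - fs) ⬝ᵥ k5_yd c| ≤ j * (2 * K * H) * K := k5_loc_dot_le' (f - fs) (k5_yd c) hf hyd
  have t1 := abs_sub (2 * ((t - tI) * c.1 2) - (t - tI) * (AI ⬝ᵥ k5_yd c)) ((f - fs) ⬝ᵥ k5_yd c)
  have t2 := abs_sub (2 * ((t - tI) * c.1 2)) ((t - tI) * (AI ⬝ᵥ k5_yd c))
  have t3 : |2 * ((t - tI) * c.1 2)| = 2 * |(t - tI) * c.1 2| := by rw [abs_mul, abs_of_pos (by norm_num : (0 : ℝ) < 2)]
  have hKK : H * K ≤ H * K ^ 2 := mul_le_mul_of_nonneg_left (by nlinarith) hH.le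
  have e : (2 + 3 * (j : ℝ)) * K ^ 2 * H = 2 * (H * K ^ 2) + H * (j * K * K) + j * (2 * K * H) * K := by ring
  rw [e]
  linarith

/-! ### helpers of `k5_cov_group` (L-252-S5-V2, helper144) -/

section k5_cvg

theorem k5_cvg_cont_S : Continuous (fun p : (Fin j → ℝ) × k5_Co j × ℝ => k5_S p.1 p.2.1 p.2.2) := by
  unfold k5_S k5_x k5_y dotProduct
  fun_prop

theorem k5_cvg_cont_R : Continuous (fun p : (Fin j → ℝ) × k5_Co j × ℝ => k5_R p.1 p.2.1 p.2.2) := by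
  unfold k5_R k5_xD k5_yd dotProduct
  fun_prop

theorem k5_cvg_cont_y : Continuous (fun p : k5_Co j × ℝ => k5_y p.1 p.2) := by
  unfold k5_y
  fun_prop

theorem k5_cvg_dot_le (f v : Fin j → ℝ) : |f ⬝ᵥ v| ≤ (j : ℝ) * ‖f‖ * ‖v‖ := by
  unfold dotProduct
  calc |∑ i, f i * v i| ≤ ∑ i, |f i * v i| := Finset.abs_sum_le_sum_abs _ _
    _ ≤ ∑ _i : Fin j, ‖f‖ * ‖v‖ := by
        refine Finset.sum_le_sum fun i _ => ?_
        rw [abs_mul]
        exact mul_le_mul (norm_le_pi_norm f i) (norm_le_pi_norm v i) (abs_nonneg _) (norm_nonneg _)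
    _ = (j : ℝ) * ‖f‖ * ‖v‖ := by simp [mul_assoc]

theorem k5_cvg_co (c : k5_Co j) (K : ℝ) (hc : ‖c‖ ≤ K) :
    (∀ i, |c.1 i| ≤ K) ∧ (∀ i a, |c.2 i a| ≤ K) ∧ ‖k5_yd c‖ ≤ K := by
  have h1 : ‖c.1‖ ≤ K := (norm_fst_le c).trans hc
  have h2 : ‖c.2‖ ≤ K := (norm_snd_le c).trans hc
  refine ⟨fun i => (norm_le_pi_norm c.1 i).trans h1, fun i a => ?_, ?_⟩
  · exact ((norm_le_pi_norm (c.2 i) a).trans (norm_le_pi_norm c.2 i)).trans h2
  · exact (norm_le_pi_norm c.2 1).trans h2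

theorem k5_cvg_y_le (c : k5_Co j) (K t : ℝ) (hK : 0 ≤ K) (hc : ‖c‖ ≤ K) (ht : |t| ≤ 1) : ‖k5_y c t‖ ≤ 2 * K := by
  obtain ⟨-, h2, -⟩ := k5_cvg_co c K hc
  rw [pi_norm_le_iff_of_nonneg (by positivity)]
  intro a
  unfold k5_y
  rw [Real.norm_eq_abs]
  calc |c.2 0 a + t * c.2 1 a| ≤ |c.2 0 a| + |t| * |c.2 1 a| := by
        rw [← abs_mul]; exact abs_add_le _ _
    _ ≤ K + 1 * K := by
        gcongr
        · exact h2 0 a
        · exact h2 1 a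
    _ = 2 * K := by ring

/-- context of `k5_cov_group` -/
structure k5_CvgCtx {Λ : Type} [MeasurableSpace Λ] (j : ℕ) (d θ K ζ H tI ts : ℝ) (ν : Measure Λ) (c : Λ → k5_Co j)
    (E : Set (Λ × ℝ)) (F : ℝ → Fin j → ℝ) (AI c1 : Fin j → ℝ) : Prop where
  hd0 : 0 ≤ d
  hθ : 0 < θ
  hθ1 : θ ≤ 1
  hK : 1 ≤ K
  snd : k5_Snd j d K ζ ν c E F
  hH : 0 < H
  hH1 : H ≤ 1
  hζ : ζ ≤ H ^ 3
  htI : |tI| ≤ 1
  h1 : tI ≤ ts
  h2 : ts < tI + H
  hl : ∃ l, (l, ts) ∈ E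
  hA : ‖AI‖ ≤ K
  fit : ∀ l t, (l, t) ∈ E → t ∈ Ico tI (tI + H) → ‖F t - (t • AI + c1)‖ ≤ K * H ^ (1 + θ)

variable {Λ : Type} [MeasurableSpace Λ] {d θ K ζ H tI ts : ℝ} {ν : Measure Λ} {c : Λ → k5_Co j}
  {E : Set (Λ × ℝ)} {F : ℝ → Fin j → ℝ} {AI c1 : Fin j → ℝ}

theorem k5_cvg_ts (h : k5_CvgCtx j d θ K ζ H tI ts ν c E F AI c1) : 0 ≤ ts ∧ ts < 1 ∧ ‖F ts‖ ≤ K := by
  obtain ⟨l, hl⟩ := h.hl
  obtain ⟨a, b⟩ := h.snd.tI l ts hl
  exact ⟨a, b, (h.snd.tm ts a b).fb⟩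

theorem k5_cvg_zeta (h : k5_CvgCtx j d θ K ζ H tI ts ν c E F AI c1) : 0 < ζ ∧ ζ ≤ H := by
  obtain ⟨a, b, -⟩ := k5_cvg_ts h
  refine ⟨(h.snd.tm ts a b).z0, h.hζ.trans ?_⟩
  calc H ^ 3 = H * H ^ 2 := by ring
    _ ≤ H * 1 := by
        have := h.hH; have := h.hH1
        gcongr
        exact pow_le_one₀ h.hH.le h.hH1
    _ = H := by ring

theorem k5_cvg_row (h : k5_CvgCtx j d θ K ζ H tI ts ν c E F AI c1) (l : Λ) (t : ℝ) (hl : (l, t) ∈ E)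
    (ht : t ∈ Ico tI (tI + H)) : 0 ≤ t ∧ t < 1 ∧ |t - tI| ≤ H ∧ ‖F t - F ts‖ ≤ 2 * K * H := by
  obtain ⟨a, b⟩ := h.snd.tI l t hl
  obtain ⟨l', hl'⟩ := h.hl
  have hK := h.hK
  refine ⟨a, b, ?_, ?_⟩
  · rw [abs_le]; constructor <;> linarith [ht.1, ht.2, h.hH]
  · refine (h.snd.rowc l t l' ts hl hl').trans ?_
    have h3 : |t - ts| ≤ H := by
      rw [abs_le]; constructor <;> linarith [ht.1, ht.2, h.h1, h.h2]
    have h4 := (k5_cvg_zeta h).2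
    nlinarith

/-- the constant part of the normalised affine row -/
noncomputable def k5_cvgA (F : ℝ → Fin j → ℝ) (H tI ts : ℝ) (AI c1 : Fin j → ℝ) : Fin j → ℝ :=
  H⁻¹ • (tI • AI + c1 - F ts)

theorem k5_cvg_phi (h : k5_CvgCtx j d θ K ζ H tI ts ν c E F AI c1) (l : Λ) (u : ℝ) (hl : (l, tI + H * u) ∈ E)
    (hu0 : 0 ≤ u) (hu1 : u < 1) :
    ‖k5_lphi F (F ts) tI H u‖ ≤ 2 * K ∧
      ‖k5_lphi F (F ts) tI H u - (k5_cvgA F H tI ts AI c1 + u • AI)‖ ≤ K * H ^ θ := by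
  have hH := h.hH
  have ht : tI + H * u ∈ Ico tI (tI + H) := by
    constructor
    · nlinarith
    · nlinarith
  obtain ⟨-, -, -, h4⟩ := k5_cvg_row h l _ hl ht
  constructor
  · unfold k5_lphi
    rw [norm_smul, Real.norm_eq_abs, abs_of_pos (inv_pos.2 hH)]
    calc H⁻¹ * ‖F (tI + H * u) - F ts‖ ≤ H⁻¹ * (2 * K * H) := by gcongr
      _ = 2 * K := by field_simp
  · have e : k5_lphi F (F ts) tI H u - (k5_cvgA F H tI ts AI c1 + u • AI)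
        = H⁻¹ • (F (tI + H * u) - ((tI + H * u) • AI + c1)) := by
      unfold k5_lphi k5_cvgA
      ext a
      simp only [Pi.sub_apply, Pi.add_apply, Pi.smul_apply, smul_eq_mul]
      field_simp
      ring
    rw [e, norm_smul, Real.norm_eq_abs, abs_of_pos (inv_pos.2 hH)]
    calc H⁻¹ * ‖F (tI + H * u) - ((tI + H * u) • AI + c1)‖ ≤ H⁻¹ * (K * H ^ (1 + θ)) := by
          gcongr
          exact h.fit l _ hl ht
      _ = K * H ^ θ := by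
          rw [Real.rpow_add hH, Real.rpow_one]
          field_simp

theorem k5_cvg_p0 (h : k5_CvgCtx j d θ K ζ H tI ts ν c E F AI c1) :
    0 < H ^ (θ / 2) ∧ H ^ (θ / 2) ≤ 1 ∧ H ≤ H ^ (θ / 2) ∧ H ^ θ ≤ H ^ (θ / 2) := by
  have hH := h.hH
  have hθ := h.hθ
  have hθ1 := h.hθ1
  refine ⟨Real.rpow_pos_of_pos hH _, Real.rpow_le_one hH.le h.hH1 (by linarith), ?_, ?_⟩
  · calc H = H ^ (1 : ℝ) := (Real.rpow_one H).symm
      _ ≤ H ^ (θ / 2) := Real.rpow_le_rpow_of_exponent_ge hH h.hH1 (by linarith)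
  · exact Real.rpow_le_rpow_of_exponent_ge hH h.hH1 (by linarith)

/-- the group -/
def k5_cvgG (c : Λ → k5_Co j) (E : Set (Λ × ℝ)) (F : ℝ → Fin j → ℝ) (H tI ts : ℝ) (g : ℤ) : Set Λ :=
  {l | (l, ts) ∈ E ∧ k5_bin H (k5_S (F ts) (c l) tI) = g}

/-- the normalised labels of the group -/
def k5_cvgU (c : Λ → k5_Co j) (E : Set (Λ × ℝ)) (F : ℝ → Fin j → ℝ) (H tI ts : ℝ) (g : ℤ) : Set (Λ × ℝ) :=
  {x | (x.1, tI + H * x.2) ∈ E ∧ 0 ≤ x.2 ∧ x.2 < 1 ∧ x.1 ∈ k5_cvgG c E F H tI ts g}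

/-- the normalised scalar -/
noncomputable def k5_cvgL (c : Λ → k5_Co j) (F : ℝ → Fin j → ℝ) (H tI : ℝ) (g : ℤ) (x : Λ × ℝ) : ℝ :=
  (k5_S (F (tI + H * x.2)) (c x.1) (tI + H * x.2) - g * H) / H

/-- the intercept of the affine model -/
noncomputable def k5_cvgb (c : Λ → k5_Co j) (F : ℝ → Fin j → ℝ) (H tI ts : ℝ) (AI c1 : Fin j → ℝ) (g : ℤ) (l : Λ) : ℝ :=
  (k5_S (F ts) (c l) tI - g * H) / H - k5_cvgA F H tI ts AI c1 ⬝ᵥ k5_y (c l) tI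

theorem k5_cvg_bin {H s : ℝ} {g : ℤ} (hH : 0 < H) (h : k5_bin H s = g) : (g : ℝ) * H ≤ s ∧ s < g * H + H := by
  unfold k5_bin at h
  rw [Int.floor_eq_iff] at h
  constructor
  · have := h.1
    rwa [le_div_iff₀ hH] at this
  · have := h.2
    rw [div_lt_iff₀ hH] at this
    linarith

/-- the affine model of the normalised scalar -/
theorem k5_cvg_model (h : k5_CvgCtx j d θ K ζ H tI ts ν c E F AI c1) (g : ℤ) (l : Λ) (u : ℝ)
    (hx : (l, u) ∈ k5_cvgU c E F H tI ts g) :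
    |k5_cvgL c F H tI g (l, u) - (k5_cvgb c F H tI ts AI c1 g l + u * k5_ksl (F ts) AI tI (c l))|
      ≤ (1 + 4 * j) * K ^ 2 * H ^ (θ / 2) := by
  obtain ⟨hl, hu0, hu1, -⟩ := hx
  simp only at hl hu0 hu1
  have hH := h.hH
  have hK := h.hK
  obtain ⟨hp1, hp2⟩ := k5_cvg_phi h l u hl hu0 hu1
  obtain ⟨hq0, -, hq2, hq3⟩ := k5_cvg_p0 h
  have hc := h.snd.cb l
  obtain ⟨hc1, -, hc3⟩ := k5_cvg_co (c l) K hc
  have hY := k5_cvg_y_le (c l) K tI (by linarith) hc h.htI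
  set φ := k5_lphi F (F ts) tI H u with hφ
  set α := k5_cvgA F H tI ts AI c1 with hα
  have e : k5_cvgL c F H tI g (l, u) - (k5_cvgb c F H tI ts AI c1 g l + u * k5_ksl (F ts) AI tI (c l))
      = - ((φ - (α + u • AI)) ⬝ᵥ k5_y (c l) tI) + H * (u ^ 2 * (c l).1 2 - u * (φ ⬝ᵥ k5_yd (c l))) := by
    unfold k5_cvgL k5_cvgb k5_ksl
    simp only
    rw [k5_loc_identity F (F ts) tI H u (g * H) hH.ne' (c l), sub_dotProduct, add_dotProduct, smul_dotProduct,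
      smul_eq_mul]
    ring
  rw [e]
  have b1 : |(φ - (α + u • AI)) ⬝ᵥ k5_y (c l) tI| ≤ (j : ℝ) * (K * H ^ θ) * (2 * K) := by
    refine (k5_cvg_dot_le _ _).trans ?_
    gcongr
  have b2 : |φ ⬝ᵥ k5_yd (c l)| ≤ (j : ℝ) * (2 * K) * K := by
    refine (k5_cvg_dot_le _ _).trans ?_
    gcongr
  have b3 : |u ^ 2 * (c l).1 2 - u * (φ ⬝ᵥ k5_yd (c l))| ≤ K + (j : ℝ) * (2 * K) * K := by
    refine (abs_sub _ _).trans ?_
    rw [abs_mul, abs_mul, abs_of_nonneg (by positivity : (0:ℝ) ≤ u ^ 2), abs_of_nonneg hu0]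
    have hu2 : u ^ 2 ≤ 1 := pow_le_one₀ hu0 hu1.le
    have := hc1 2
    have h5 : u ^ 2 * |(c l).1 2| ≤ 1 * K := by gcongr
    have h6 : u * |φ ⬝ᵥ k5_yd (c l)| ≤ 1 * ((j : ℝ) * (2 * K) * K) := by gcongr
    linarith
  have hj : (0 : ℝ) ≤ j := Nat.cast_nonneg j
  calc |-((φ - (α + u • AI)) ⬝ᵥ k5_y (c l) tI) + H * (u ^ 2 * (c l).1 2 - u * (φ ⬝ᵥ k5_yd (c l)))|
      ≤ |(φ - (α + u • AI)) ⬝ᵥ k5_y (c l) tI| + H * |u ^ 2 * (c l).1 2 - u * (φ ⬝ᵥ k5_yd (c l))| := by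
        refine (abs_add_le _ _).trans ?_
        rw [abs_neg, abs_mul, abs_of_pos hH]
    _ ≤ (j : ℝ) * (K * H ^ θ) * (2 * K) + H * (K + (j : ℝ) * (2 * K) * K) := by gcongr
    _ ≤ (j : ℝ) * (K * H ^ (θ / 2)) * (2 * K) + H ^ (θ / 2) * (K ^ 2 + (j : ℝ) * (2 * K) * K) := by
        have : K ≤ K ^ 2 := by nlinarith
        gcongr
    _ = (1 + 4 * j) * K ^ 2 * H ^ (θ / 2) := by ring

/-- range of the normalised scalar -/
theorem k5_cvg_range (h : k5_CvgCtx j d θ K ζ H tI ts ν c E F AI c1) (g : ℤ) (l : Λ) (u : ℝ)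
    (hx : (l, u) ∈ k5_cvgU c E F H tI ts g) :
    -((3 + 5 * j) * K ^ 2) ≤ k5_cvgL c F H tI g (l, u) ∧ k5_cvgL c F H tI g (l, u) ≤ (3 + 5 * j) * K ^ 2 + 1 := by
  obtain ⟨hl, hu0, hu1, hG⟩ := hx
  simp only at hl hu0 hu1 hG
  have hH := h.hH
  have ht : tI + H * u ∈ Ico tI (tI + H) := ⟨by nlinarith, by nlinarith⟩
  obtain ⟨r1, r2, r3, r4⟩ := k5_cvg_row h l _ hl ht
  have hn := k5_loc_near (c l) K H tI (tI + H * u) (F (tI + H * u)) (F ts) h.hK (h.snd.cb l) hH h.htI r1 r2.le r3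
    (k5_cvg_ts h).2.2 r4
  obtain ⟨b1, b2⟩ := k5_cvg_bin hH hG.2
  rw [abs_le] at hn
  unfold k5_cvgL
  simp only
  constructor
  · rw [le_div_iff₀ hH]; nlinarith [hn.1]
  · rw [div_le_iff₀ hH]; nlinarith [hn.2]

/-- the slopes -/
theorem k5_cvg_slopes (Cf : ℝ) (hCf : 1 ≤ Cf)
    (hfro : ∀ (l l' : Λ), (l, ts) ∈ E → (l', ts) ∈ E →
      |k5_S (F ts) (c l) tI - k5_S (F ts) (c l') tI| ≤ H →
      |k5_R (F ts) (c l) tI - k5_R (F ts) (c l') tI| ≤ Cf * K ^ 3 * (‖k5_y (c l) tI - k5_y (c l') tI‖ + H))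
    (h : k5_CvgCtx j d θ K ζ H tI ts ν c E F AI c1) (g : ℤ) (l l' : Λ)
    (hl : l ∈ k5_cvgG c E F H tI ts g) (hl' : l' ∈ k5_cvgG c E F H tI ts g) :
    |k5_ksl (F ts) AI tI (c l) - k5_ksl (F ts) AI tI (c l')|
      ≤ (Cf + j) * K ^ 3 * (‖k5_y (c l) tI - k5_y (c l') tI‖ + H ^ (θ / 2)) := by
  have hH := h.hH
  have hK := h.hK
  obtain ⟨a1, a2⟩ := k5_cvg_bin hH hl.2
  obtain ⟨b1, b2⟩ := k5_cvg_bin hH hl'.2
  have hB : |k5_S (F ts) (c l) tI - k5_S (F ts) (c l') tI| ≤ H := by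
    rw [abs_le]; constructor <;> linarith
  have h1 := hfro l l' hl.1 hl'.1 hB
  obtain ⟨hq0, -, hq2, -⟩ := k5_cvg_p0 h
  have e : k5_ksl (F ts) AI tI (c l) - k5_ksl (F ts) AI tI (c l')
      = (k5_R (F ts) (c l) tI - k5_R (F ts) (c l') tI) - AI ⬝ᵥ (k5_y (c l) tI - k5_y (c l') tI) := by
    unfold k5_ksl
    rw [dotProduct_sub]; ring
  rw [e]
  set N := ‖k5_y (c l) tI - k5_y (c l') tI‖ with hN
  have hN0 : 0 ≤ N := norm_nonneg _
  have h2 : |AI ⬝ᵥ (k5_y (c l) tI - k5_y (c l') tI)| ≤ (j : ℝ) * K * N := by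
    refine (k5_cvg_dot_le _ _).trans ?_
    have := h.hA
    gcongr
  have hj : (0 : ℝ) ≤ j := Nat.cast_nonneg j
  have hK3 : K ≤ K ^ 3 := by
    calc K = K * 1 := by ring
      _ ≤ K * K ^ 2 := by gcongr; nlinarith
      _ = K ^ 3 := by ring
  calc |(k5_R (F ts) (c l) tI - k5_R (F ts) (c l') tI) - AI ⬝ᵥ (k5_y (c l) tI - k5_y (c l') tI)|
      ≤ Cf * K ^ 3 * (N + H) + (j : ℝ) * K * N := (abs_sub _ _).trans (add_le_add h1 h2)
    _ ≤ Cf * K ^ 3 * (N + H ^ (θ / 2)) + (j : ℝ) * K ^ 3 * (N + H ^ (θ / 2)) := by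
        have : N ≤ N + H ^ (θ / 2) := by linarith
        gcongr
    _ = (Cf + j) * K ^ 3 * (N + H ^ (θ / 2)) := by ring

theorem k5_cvg_zeta2 (h : k5_CvgCtx j d θ K ζ H tI ts ν c E F AI c1) : ζ ≤ H * H ^ (θ / 2) := by
  obtain ⟨hq0, -, hq2, -⟩ := k5_cvg_p0 h
  have hH := h.hH
  have hH1 := h.hH1
  calc ζ ≤ H ^ 3 := h.hζ
    _ = H * (H * H) := by ring
    _ ≤ H * (1 * H ^ (θ / 2)) := by gcongr
    _ = H * H ^ (θ / 2) := by ring

/-- occupied cells of the normalised scalar -/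
theorem k5_cvg_cells (h : k5_CvgCtx j d θ K ζ H tI ts ν c E F AI c1) (g : ℤ) (u : ℝ) :
    ∃ Z : Finset ℤ, (Z.card : ℝ) ≤ (18 + 20 * j) * K ^ 3 * (H ^ (θ / 2)) ^ (-d) ∧
      ∀ l, (l, u) ∈ k5_cvgU c E F H tI ts g → k5_bin (H ^ (θ / 2)) (k5_cvgL c F H tI g (l, u)) ∈ Z := by
  obtain ⟨hq0, hq1, hq2, -⟩ := k5_cvg_p0 h
  have hH := h.hH
  have hK := h.hK
  have hj : (0 : ℝ) ≤ j := Nat.cast_nonneg j
  by_cases hne : ∃ l, (l, u) ∈ k5_cvgU c E F H tI ts g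
  swap
  · refine ⟨∅, ?_, fun l hl => (hne ⟨l, hl⟩).elim⟩
    simp only [Finset.card_empty, Nat.cast_zero]
    positivity
  obtain ⟨l0, hl0⟩ := hne
  obtain ⟨t0, t1⟩ := h.snd.tI l0 _ hl0.1
  simp only at t0 t1
  have tm := h.snd.tm _ t0 t1
  set M : ℝ := (3 + 5 * j) * K ^ 2 with hM
  have hM0 : 0 ≤ M := by positivity
  have key : ∀ i : ℕ, ∃ Z : Finset ℤ, (Z.card : ℝ) ≤ 2 * K * (1 / H ^ (θ / 2)) ^ d ∧
      ∀ l ∈ k5_sec E (tI + H * u), -M + i ≤ (k5_S (F (tI + H * u)) (c l) (tI + H * u) - g * H) / H →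
        (k5_S (F (tI + H * u)) (c l) (tI + H * u) - g * H) / H ≤ -M + i + 1 →
        k5_bin (H ^ (θ / 2)) ((k5_S (F (tI + H * u)) (c l) (tI + H * u) - g * H) / H) ∈ Z := fun i =>
    k5_supp_affine (k5_sec E (tI + H * u)) (fun l => k5_S (F (tI + H * u)) (c l) (tI + H * u)) K d ζ H (g * H) hH
      tm.supp (H ^ (θ / 2)) 1 (-M + i) (k5_cvg_zeta2 h) hq1 (by linarith [h.hH1])
  choose Z hZ1 hZ2 using key
  set n : ℕ := ⌈2 * M + 1⌉₊ + 1 with hn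
  refine ⟨(Finset.range n).biUnion Z, ?_, fun l hl => ?_⟩
  · have e1 : (1 / H ^ (θ / 2)) ^ d = (H ^ (θ / 2)) ^ (-d) := by
      rw [one_div, Real.inv_rpow hq0.le, Real.rpow_neg hq0.le]
    have hP : 0 ≤ (H ^ (θ / 2)) ^ (-d) := Real.rpow_nonneg hq0.le _
    have hn1 : (n : ℝ) ≤ 2 * M + 3 := by
      have := Nat.ceil_lt_add_one (by positivity : (0 : ℝ) ≤ 2 * M + 1)
      rw [hn]; push_cast
      linarith
    calc (((Finset.range n).biUnion Z).card : ℝ) ≤ ((∑ i ∈ Finset.range n, (Z i).card : ℕ) : ℝ) := by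
          exact_mod_cast Finset.card_biUnion_le
      _ = ∑ i ∈ Finset.range n, ((Z i).card : ℝ) := by push_cast; rfl
      _ ≤ ∑ _i ∈ Finset.range n, 2 * K * (H ^ (θ / 2)) ^ (-d) := by
          refine Finset.sum_le_sum fun i _ => ?_
          rw [← e1]; exact hZ1 i
      _ = n * (2 * K * (H ^ (θ / 2)) ^ (-d)) := by simp
      _ ≤ (2 * M + 3) * (2 * K * (H ^ (θ / 2)) ^ (-d)) := by gcongr
      _ ≤ (18 + 20 * j) * K ^ 3 * (H ^ (θ / 2)) ^ (-d) := by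
          have : (2 * M + 3) * (2 * K) ≤ (18 + 20 * j) * K ^ 3 := by
            rw [hM]
            have h2 : (1 : ℝ) ≤ K ^ 2 := by nlinarith
            nlinarith [mul_nonneg hj (by positivity : (0:ℝ) ≤ K ^ 3)]
          calc (2 * M + 3) * (2 * K * (H ^ (θ / 2)) ^ (-d)) = (2 * M + 3) * (2 * K) * (H ^ (θ / 2)) ^ (-d) := by ring
            _ ≤ _ := by gcongr
  · obtain ⟨r1, r2⟩ := k5_cvg_range h g l u hl
    have hL : k5_cvgL c F H tI g (l, u) = (k5_S (F (tI + H * u)) (c l) (tI + H * u) - g * H) / H := rfl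
    rw [← hM] at r1 r2
    set x := k5_cvgL c F H tI g (l, u) with hx
    have hx0 : 0 ≤ x + M := by linarith
    set i : ℕ := ⌊x + M⌋₊ with hi
    have i1 : (i : ℝ) ≤ x + M := Nat.floor_le hx0
    have i2 : x + M < i + 1 := Nat.lt_floor_add_one _
    have hin : i < n := by
      have : (i : ℝ) < n := by
        have := Nat.le_ceil (2 * M + 1)
        rw [hn]; push_cast
        linarith
      exact_mod_cast this
    rw [Finset.mem_biUnion]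
    refine ⟨i, Finset.mem_range.2 hin, ?_⟩
    have := hZ2 i l hl.1 (by rw [← hL]; linarith) (by rw [← hL]; linarith)
    rw [← hL] at this
    exact this

/-- the joint cap in the original measure -/
theorem k5_cvg_cap (h : k5_CvgCtx j d θ K ζ H tI ts ν c E F AI c1) (g : ℤ) (u a : ℝ) (e : Fin j → ℝ) :
    ν.real {l | (l, u) ∈ k5_cvgU c E F H tI ts g ∧
        (∀ i, e i ≤ k5_y (c l) tI i ∧ k5_y (c l) tI i ≤ e i + H ^ (θ / 2)) ∧
        a ≤ k5_cvgL c F H tI g (l, u) ∧ k5_cvgL c F H tI g (l, u) ≤ a + H ^ (θ / 2)}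
      ≤ 2 * (4 * K) ^ j * (2 + j * K) * K * (H ^ d * (H ^ (θ / 2)) ^ ((j : ℝ) + d)) := by
  obtain ⟨hq0, hq1, hq2, -⟩ := k5_cvg_p0 h
  have hH := h.hH
  have hK := h.hK
  have hj : (0 : ℝ) ≤ j := Nat.cast_nonneg j
  haveI := h.snd.prob
  set p := H ^ (θ / 2) with hp
  set S : Set Λ := {l | (l, u) ∈ k5_cvgU c E F H tI ts g ∧
        (∀ i, e i ≤ k5_y (c l) tI i ∧ k5_y (c l) tI i ≤ e i + p) ∧
        a ≤ k5_cvgL c F H tI g (l, u) ∧ k5_cvgL c F H tI g (l, u) ≤ a + p} with hS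
  have hR0 : 0 ≤ 2 * (4 * K) ^ j * (2 + j * K) * K * (H ^ d * p ^ ((j : ℝ) + d)) := by positivity
  by_cases hne : S.Nonempty
  swap
  · rw [Set.not_nonempty_iff_eq_empty] at hne
    rw [hne]; simpa using hR0
  obtain ⟨l0, hl0⟩ := hne
  obtain ⟨t0, t1⟩ := h.snd.tI l0 _ hl0.1.1
  simp only at t0 t1
  have hu0 : 0 ≤ u := hl0.1.2.1
  have hu1 : u < 1 := hl0.1.2.2.1
  have tm := h.snd.tm _ t0 t1
  have hqq : H * p ≤ 1 := by nlinarith [h.hH1]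
  have hcap := k5_box_cap ν c d K ζ (k5_Dy ζ) (tI + H * u) (F (tI + H * u)) (k5_sec E (tI + H * u)) hK tm (H * p)
    (H * p) (H * a + g * H) (fun _ => p + 2 * K * H) (fun b => e b - K * H) (k5_cvg_zeta2 h) hqq (by positivity)
    (fun _ => by positivity)
  refine le_trans (measureReal_mono ?_ (measure_ne_top _ _)) (hcap.trans ?_)
  · intro l hl
    obtain ⟨hU, hY, hL1, hL2⟩ := hl
    have hLdef : k5_cvgL c F H tI g (l, u) = (k5_S (F (tI + H * u)) (c l) (tI + H * u) - g * H) / H := rfl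
    rw [hLdef] at hL1 hL2
    rw [le_div_iff₀ hH] at hL1
    rw [div_le_iff₀ hH] at hL2
    refine ⟨hU.1, by linarith, by linarith, fun b => ?_⟩
    obtain ⟨-, hc2, -⟩ := k5_cvg_co (c l) K (h.snd.cb l)
    have hy : k5_y (c l) (tI + H * u) b = k5_y (c l) tI b + H * u * (c l).2 1 b := by
      unfold k5_y; ring
    have hb : |H * u * (c l).2 1 b| ≤ K * H := by
      rw [abs_mul, abs_mul, abs_of_pos hH, abs_of_nonneg hu0]
      have := hc2 1 b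
      calc H * u * |(c l).2 1 b| ≤ H * 1 * K := by gcongr
        _ = K * H := by ring
    rw [abs_le] at hb
    rw [hy]
    constructor
    · linarith [(hY b).1, hb.1]
    · linarith [(hY b).2, hb.2]
  · have e1 : H * p / (H * p) + 1 = 2 := by
      rw [div_self (by positivity)]; norm_num
    have e2 : ∏ _b : Fin j, ((p + 2 * K * H) / (H * p) + 1) = ((p + 2 * K * H) / (H * p) + 1) ^ j := by
      simp
    have e3 : (p + 2 * K * H) / (H * p) + 1 ≤ 4 * K / H := by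
      rw [div_add_one (by positivity), div_le_div_iff₀ (by positivity) hH]
      have h1 : H * H ≤ H * p := by gcongr
      have h2 : H * p ≤ p := by nlinarith [h.hH1]
      nlinarith [mul_pos hH hq0, mul_nonneg (by linarith : (0:ℝ) ≤ K - 1) (mul_pos hH hq0).le]
    have e4 : (H * p) ^ ((j : ℝ) + d) = H ^ j * (H ^ d * p ^ ((j : ℝ) + d)) := by
      rw [Real.mul_rpow hH.le hq0.le, Real.rpow_add hH, Real.rpow_natCast]; ring
    rw [e1, e2, e4]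
    calc 2 * ((p + 2 * K * H) / (H * p) + 1) ^ j * (2 + j * K) * K * (H ^ j * (H ^ d * p ^ ((j : ℝ) + d)))
        ≤ 2 * (4 * K / H) ^ j * (2 + j * K) * K * (H ^ j * (H ^ d * p ^ ((j : ℝ) + d))) := by
          gcongr
      _ = 2 * (4 * K) ^ j * (2 + j * K) * K * (H ^ d * p ^ ((j : ℝ) + d)) := by
          rw [div_pow]; field_simp

/-- prior mass of the group -/
theorem k5_cvg_prior (h : k5_CvgCtx j d θ K ζ H tI ts ν c E F AI c1) (g : ℤ) :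
    ν.real (k5_cvgG c E F H tI ts g) ≤ (8 + 10 * j) * K ^ 2 * (5 * K) ^ j * (2 + j * K) * K * H ^ d := by
  have hH := h.hH
  have hK := h.hK
  have hj : (0 : ℝ) ≤ j := Nat.cast_nonneg j
  haveI := h.snd.prob
  obtain ⟨t0, t1, hfs⟩ := k5_cvg_ts h
  have tm := h.snd.tm _ t0 t1
  have hcap := k5_box_cap ν c d K ζ (k5_Dy ζ) ts (F ts) (k5_sec E ts) hK tm H
    ((7 + 10 * j) * K ^ 2 * H) (g * H - (3 + 5 * j) * K ^ 2 * H) (fun _ => 4 * K) (fun _ => - (2 * K))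
    (k5_cvg_zeta h).2 h.hH1 (by positivity) (fun _ => by positivity)
  refine le_trans (measureReal_mono ?_ (measure_ne_top _ _)) (hcap.trans ?_)
  · intro l hl
    obtain ⟨hE, hb⟩ := hl
    obtain ⟨b1, b2⟩ := k5_cvg_bin hH hb
    have hn := k5_loc_near (c l) K H tI ts (F ts) (F ts) hK (h.snd.cb l) hH h.htI t0 t1.le
      (by rw [abs_le]; constructor <;> linarith [h.h1, h.h2]) hfs (by simp; positivity)
    rw [abs_le] at hn
    have hK2 : (1 : ℝ) ≤ K ^ 2 := by nlinarith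
    refine ⟨hE, by linarith [hn.1], ?_, fun b => ?_⟩
    · have : H ≤ K ^ 2 * H := by nlinarith
      nlinarith [hn.2]
    · have hy := k5_cvg_y_le (c l) K ts (by linarith) (h.snd.cb l) (by rw [abs_le]; constructor <;> linarith)
      have := (norm_le_pi_norm (k5_y (c l) ts) b).trans hy
      rw [Real.norm_eq_abs, abs_le] at this
      constructor <;> linarith [this.1, this.2]
  · have e1 : (7 + 10 * j) * K ^ 2 * H / H + 1 ≤ (8 + 10 * j) * K ^ 2 := by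
      rw [mul_div_assoc, div_self hH.ne']
      nlinarith
    have e2 : ∏ _b : Fin j, (4 * K / H + 1) = (4 * K / H + 1) ^ j := by simp
    have e3 : 4 * K / H + 1 ≤ 5 * K / H := by
      rw [div_add_one hH.ne', div_le_div_iff_of_pos_right hH]
      linarith [h.hH1]
    have e4 : H ^ ((j : ℝ) + d) = H ^ j * H ^ d := by
      rw [Real.rpow_add hH, Real.rpow_natCast]
    have hHd : 0 < H ^ d := Real.rpow_pos_of_pos hH _
    rw [e2, e4]
    calc ((7 + 10 * j) * K ^ 2 * H / H + 1) * (4 * K / H + 1) ^ j * (2 + j * K) * K * (H ^ j * H ^ d)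
        ≤ ((8 + 10 * j) * K ^ 2) * (5 * K / H) ^ j * (2 + j * K) * K * (H ^ j * H ^ d) := by
          gcongr
      _ = (8 + 10 * j) * K ^ 2 * (5 * K) ^ j * (2 + j * K) * K * H ^ d := by
          rw [div_pow]; field_simp

theorem k5_cvg_mS (hc : Measurable c) (f : Fin j → ℝ) (t : ℝ) : Measurable (fun l => k5_S f (c l) t) :=
  k5_cvg_cont_S.measurable.comp (measurable_const.prodMk (hc.prodMk measurable_const))

theorem k5_cvg_mR (hc : Measurable c) (f : Fin j → ℝ) (t : ℝ) : Measurable (fun l => k5_R f (c l) t) :=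
  k5_cvg_cont_R.measurable.comp (measurable_const.prodMk (hc.prodMk measurable_const))

theorem k5_cvg_mY (hc : Measurable c) (t : ℝ) : Measurable (fun l => k5_y (c l) t) :=
  k5_cvg_cont_y.measurable.comp (hc.prodMk measurable_const)

theorem k5_cvg_mdot (f : Fin j → ℝ) {Y : Λ → Fin j → ℝ} (hY : Measurable Y) : Measurable (fun l => f ⬝ᵥ Y l) := by
  unfold dotProduct
  refine Finset.measurable_sum _ fun i _ => ?_
  exact ((measurable_pi_apply i).comp hY).const_mul _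

theorem k5_cvg_mk (hc : Measurable c) (f AI : Fin j → ℝ) (t : ℝ) : Measurable (fun l => k5_ksl f AI t (c l)) := by
  unfold k5_ksl
  exact (k5_cvg_mR hc f t).sub (k5_cvg_mdot AI (k5_cvg_mY hc t))

theorem k5_cvg_mb (hc : Measurable c) (F : ℝ → Fin j → ℝ) (H tI ts : ℝ) (AI c1 : Fin j → ℝ) (g : ℤ) :
    Measurable (k5_cvgb c F H tI ts AI c1 g) := by
  unfold k5_cvgb
  exact (((k5_cvg_mS hc _ _).sub_const _).div_const _).sub (k5_cvg_mdot _ (k5_cvg_mY hc tI))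

theorem k5_cvg_mL (hc : Measurable c) (hF : Measurable F) (H tI : ℝ) (g : ℤ) : Measurable (k5_cvgL c F H tI g) := by
  unfold k5_cvgL
  have ht : Measurable (fun x : Λ × ℝ => tI + H * x.2) := (measurable_snd.const_mul H).const_add tI
  have h1 : Measurable (fun x : Λ × ℝ => k5_S (F (tI + H * x.2)) (c x.1) (tI + H * x.2)) :=
    k5_cvg_cont_S.measurable.comp ((hF.comp ht).prodMk ((hc.comp measurable_fst).prodMk ht))
  exact (h1.sub_const _).div_const _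

theorem k5_cvg_mG (hc : Measurable c) (hE : MeasurableSet E) (F : ℝ → Fin j → ℝ) (H tI ts : ℝ) (g : ℤ) :
    MeasurableSet (k5_cvgG c E F H tI ts g) := by
  have h1 : MeasurableSet {l | (l, ts) ∈ E} := k5_meas_sec hE ts
  have h2 : Measurable (fun l => k5_bin H (k5_S (F ts) (c l) tI)) := by
    unfold k5_bin
    exact Int.measurable_floor.comp ((k5_cvg_mS hc _ _).div_const _)
  exact h1.inter (h2 (measurableSet_singleton g))

theorem k5_cvg_mU (hc : Measurable c) (hE : MeasurableSet E) (F : ℝ → Fin j → ℝ) (H tI ts : ℝ) (g : ℤ) :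
    MeasurableSet (k5_cvgU c E F H tI ts g) := by
  have hm : Measurable (fun x : Λ × ℝ => (x.1, tI + H * x.2)) :=
    measurable_fst.prodMk ((measurable_snd.const_mul H).const_add tI)
  have h1 : MeasurableSet {x : Λ × ℝ | (x.1, tI + H * x.2) ∈ E} := hm hE
  have h2 : MeasurableSet {x : Λ × ℝ | 0 ≤ x.2} := measurableSet_le measurable_const measurable_snd
  have h3 : MeasurableSet {x : Λ × ℝ | x.2 < 1} := measurableSet_lt measurable_snd measurable_const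
  have h4 : MeasurableSet {x : Λ × ℝ | x.1 ∈ k5_cvgG c E F H tI ts g} := measurable_fst (k5_cvg_mG hc hE F H tI ts g)
  exact h1.inter (h2.inter (h3.inter h4))

/-- transfer of the incidence mass -/
theorem k5_cvg_transfer [IsFiniteMeasure ν] (hc : Measurable c) (hE : MeasurableSet E) (F : ℝ → Fin j → ℝ) (H tI ts : ℝ)
    (hH : 0 < H) (g : ℤ) (a : ℝ) (ha : 0 ≤ a) (PP : Set Λ) (hPP : MeasurableSet PP) :
    k5_mass (ENNReal.ofReal a • ν.restrict (k5_cvgG c E F H tI ts g)) {x | x ∈ k5_cvgU c E F H tI ts g ∧ x.1 ∈ PP}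
      = a * (k5_mass ν {x | x ∈ E ∧ x.2 ∈ Ico tI (tI + H) ∧ (x.1, ts) ∈ E ∧
          k5_bin H (k5_S (F ts) (c x.1) tI) = g ∧ x.1 ∈ PP} / H) := by
  have hU := k5_cvg_mU hc hE F H tI ts g
  have hG := k5_cvg_mG hc hE F H tI ts g
  have h1 : MeasurableSet {x : Λ × ℝ | x ∈ k5_cvgU c E F H tI ts g ∧ x.1 ∈ PP} := hU.inter (measurable_fst hPP)
  rw [k5_mass_smul_restrict h1 hG a ha]
  have h2 : MeasurableSet {x : Λ × ℝ | x ∈ E ∧ x.2 ∈ Ico tI (tI + H) ∧ (x.1, ts) ∈ E ∧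
          k5_bin H (k5_S (F ts) (c x.1) tI) = g ∧ x.1 ∈ PP} := by
    have e : {x : Λ × ℝ | x ∈ E ∧ x.2 ∈ Ico tI (tI + H) ∧ (x.1, ts) ∈ E ∧
          k5_bin H (k5_S (F ts) (c x.1) tI) = g ∧ x.1 ∈ PP}
        = E ∩ (Prod.snd ⁻¹' Ico tI (tI + H) ∩ (Prod.fst ⁻¹' (k5_cvgG c E F H tI ts g) ∩ Prod.fst ⁻¹' PP)) := by
      ext x
      simp only [k5_cvgG, mem_setOf_eq, mem_inter_iff, mem_preimage]
      tauto
    rw [e]
    exact hE.inter ((measurable_snd measurableSet_Ico).inter ((measurable_fst hG).inter (measurable_fst hPP)))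
  rw [← k5_mass_affine h2 tI H hH]
  congr 2
  ext x
  simp only [k5_cvgU, k5_cvgG, mem_setOf_eq, mem_Ico]
  constructor
  · rintro ⟨⟨⟨a1, a2, a3, a4, a5⟩, a6⟩, -⟩
    exact ⟨a1, ⟨by nlinarith, by nlinarith⟩, a4, a5, a6⟩
  · rintro ⟨a1, ⟨a2, a3⟩, a4, a5, a6⟩
    have b2 : 0 ≤ x.2 := by
      by_contra hcon
      push_neg at hcon
      nlinarith
    have b3 : x.2 < 1 := by
      by_contra hcon
      push_neg at hcon
      nlinarith
    exact ⟨⟨⟨a1, b2, b3, a4, a5⟩, a6⟩, a4, a5⟩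

theorem k5_cvg_real_le {Λ : Type} [MeasurableSpace Λ] (ν : Measure Λ) [IsFiniteMeasure ν] (G S : Set Λ) (a : ℝ)
    (ha : 0 ≤ a) : (ENNReal.ofReal a • ν.restrict G).real S ≤ a * ν.real S := by
  rw [measureReal_def, Measure.smul_apply, smul_eq_mul, ENNReal.toReal_mul, ENNReal.toReal_ofReal ha, measureReal_def]
  exact mul_le_mul_of_nonneg_left (ENNReal.toReal_mono (measure_ne_top _ _) (Measure.restrict_apply_le _ _)) ha

/-- arithmetic of the constants -/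
theorem k5_cvg_const (j : ℕ) (Cs A K K₁ : ℝ) (hCs : 1 ≤ Cs) (hA : 1 ≤ A) (hK : 1 ≤ K) (hK1 : 1 ≤ K₁) :
    Cs * (A * K ^ (j + 4) * K₁) ^ Cs ≤ (Cs * A ^ Cs + ((j : ℝ) + 4) * Cs) * (K * K₁) ^ (Cs * A ^ Cs + ((j : ℝ) + 4) * Cs) := by
  set X := K * K₁ with hX
  have hX1 : 1 ≤ X := by nlinarith
  have hACs : 0 < A ^ Cs := Real.rpow_pos_of_pos (by linarith) _
  have hj : (0 : ℝ) ≤ j := Nat.cast_nonneg j
  have h1 : A * K ^ (j + 4) * K₁ ≤ A * X ^ (j + 4) := by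
    rw [hX, mul_pow, mul_assoc]
    have : K₁ ≤ K₁ ^ (j + 4) := le_self_pow₀ hK1 (by omega)
    gcongr
  have h2 : (A * K ^ (j + 4) * K₁) ^ Cs ≤ (A * X ^ (j + 4)) ^ Cs :=
    Real.rpow_le_rpow (by positivity) h1 (by linarith)
  have h3 : (A * X ^ (j + 4)) ^ Cs = A ^ Cs * X ^ (((j : ℝ) + 4) * Cs) := by
    rw [Real.mul_rpow (by linarith) (by positivity), Real.rpow_mul (by linarith)]
    congr 2
    rw [← Real.rpow_natCast]; push_cast; rfl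
  have h4 : X ^ (((j : ℝ) + 4) * Cs) ≤ X ^ (Cs * A ^ Cs + ((j : ℝ) + 4) * Cs) :=
    Real.rpow_le_rpow_of_exponent_le hX1 (by nlinarith)
  have hXp : 0 < X ^ (Cs * A ^ Cs + ((j : ℝ) + 4) * Cs) := Real.rpow_pos_of_pos (by linarith) _
  calc Cs * (A * K ^ (j + 4) * K₁) ^ Cs ≤ Cs * (A ^ Cs * X ^ (((j : ℝ) + 4) * Cs)) := by
        rw [← h3]; gcongr
    _ ≤ Cs * (A ^ Cs * X ^ (Cs * A ^ Cs + ((j : ℝ) + 4) * Cs)) := by gcongr
    _ = (Cs * A ^ Cs) * X ^ (Cs * A ^ Cs + ((j : ℝ) + 4) * Cs) := by ring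
    _ ≤ (Cs * A ^ Cs + ((j : ℝ) + 4) * Cs) * X ^ (Cs * A ^ Cs + ((j : ℝ) + 4) * Cs) := by
        have : 0 ≤ ((j : ℝ) + 4) * Cs := by positivity
        gcongr
        linarith

/-- numerical facts on the constant `A` -/
theorem k5_cvg_A (j : ℕ) (Cf : ℝ) (hCf : 1 ≤ Cf) :
    1 ≤ Cf + 100 * ((j : ℝ) + 1) ^ 2 * 5 ^ j ∧ 2 ≤ Cf + 100 * ((j : ℝ) + 1) ^ 2 * 5 ^ j ∧
      1 + 4 * (j : ℝ) ≤ Cf + 100 * ((j : ℝ) + 1) ^ 2 * 5 ^ j ∧ Cf + j ≤ Cf + 100 * ((j : ℝ) + 1) ^ 2 * 5 ^ j ∧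
      18 + 20 * (j : ℝ) ≤ Cf + 100 * ((j : ℝ) + 1) ^ 2 * 5 ^ j ∧
      (8 + 10 * (j : ℝ)) * (2 + j) * 5 ^ j ≤ Cf + 100 * ((j : ℝ) + 1) ^ 2 * 5 ^ j ∧
      2 * 4 ^ j * (2 + (j : ℝ)) ≤ Cf + 100 * ((j : ℝ) + 1) ^ 2 * 5 ^ j := by
  have hj : (0 : ℝ) ≤ j := Nat.cast_nonneg j
  have h5j : (1 : ℝ) ≤ 5 ^ j := one_le_pow₀ (by norm_num)
  have hB0 : (0 : ℝ) ≤ 100 * ((j : ℝ) + 1) ^ 2 := by positivity
  have hBig : 100 * ((j : ℝ) + 1) ^ 2 ≤ 100 * ((j : ℝ) + 1) ^ 2 * 5 ^ j := le_mul_of_one_le_right hB0 h5j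
  have h45 : (4 : ℝ) ^ j ≤ 5 ^ j := pow_le_pow_left₀ (by norm_num) (by norm_num) j
  refine ⟨by nlinarith, by nlinarith, by nlinarith, by nlinarith, by nlinarith, ?_, ?_⟩
  · have : (8 + 10 * (j : ℝ)) * (2 + j) ≤ 100 * ((j : ℝ) + 1) ^ 2 := by nlinarith
    have h3 : (8 + 10 * (j : ℝ)) * (2 + j) * 5 ^ j ≤ 100 * ((j : ℝ) + 1) ^ 2 * 5 ^ j := by gcongr
    linarith
  · have h3 : 2 * (2 + (j : ℝ)) ≤ 100 * ((j : ℝ) + 1) ^ 2 := by nlinarith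
    have h4 : 2 * (2 + (j : ℝ)) * 4 ^ j ≤ 100 * ((j : ℝ) + 1) ^ 2 * 5 ^ j := by gcongr
    linarith

theorem k5_cvg_key (j : ℕ) (A K K₁ : ℝ) (hA : 1 ≤ A) (hK : 1 ≤ K) (hK1 : 1 ≤ K₁) (a : ℝ) (m : ℕ) (ha0 : 0 ≤ a)
    (ha : a ≤ A) (hm : m ≤ j + 4) : a * K ^ m ≤ A * K ^ (j + 4) * K₁ := by
  have e1 : K ^ m ≤ K ^ (j + 4) := pow_le_pow_right₀ hK hm
  have e2 : (0 : ℝ) < K ^ (j + 4) := by positivity
  calc a * K ^ m ≤ A * K ^ (j + 4) * 1 := by rw [mul_one]; gcongr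
    _ ≤ A * K ^ (j + 4) * K₁ := by gcongr

theorem k5_cvg_HH (hH : 0 < H) : H ^ (-d) * H ^ d = 1 := by rw [← Real.rpow_add hH]; simp

theorem k5_cvg_H1 (h : k5_CvgCtx j d θ K ζ H tI ts ν c E F AI c1) (g : ℤ) (K' : ℝ)
    (hb : ((8 + 10 * (j : ℝ)) * (2 + j) * 5 ^ j) * K ^ (j + 4) ≤ K') :
    (ENNReal.ofReal (H ^ (-d)) • ν.restrict (k5_cvgG c E F H tI ts g)).real univ ≤ K' := by
  have hH := h.hH
  have hK := h.hK
  have hj : (0 : ℝ) ≤ j := Nat.cast_nonneg j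
  have := h.snd.prob
  have hHnd : 0 < H ^ (-d) := Real.rpow_pos_of_pos hH _
  have h2jK : 2 + (j : ℝ) * K ≤ (2 + j) * K := by nlinarith
  rw [k5_real_smul_restrict MeasurableSet.univ _ hHnd.le, univ_inter]
  have e0 := k5_cvg_prior h g
  have e1 : (8 + 10 * (j : ℝ)) * K ^ 2 * (5 * K) ^ j * (2 + j * K) * K
      ≤ ((8 + 10 * (j : ℝ)) * (2 + j) * 5 ^ j) * K ^ (j + 4) := by
    calc (8 + 10 * (j : ℝ)) * K ^ 2 * (5 * K) ^ j * (2 + j * K) * K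
        ≤ (8 + 10 * (j : ℝ)) * K ^ 2 * (5 * K) ^ j * ((2 + j) * K) * K := by gcongr
      _ = ((8 + 10 * (j : ℝ)) * (2 + j) * 5 ^ j) * K ^ (j + 4) := by rw [mul_pow]; ring
  calc H ^ (-d) * ν.real (k5_cvgG c E F H tI ts g)
      ≤ H ^ (-d) * ((8 + 10 * j) * K ^ 2 * (5 * K) ^ j * (2 + j * K) * K * H ^ d) := by gcongr
    _ = (8 + 10 * (j : ℝ)) * K ^ 2 * (5 * K) ^ j * (2 + j * K) * K * (H ^ (-d) * H ^ d) := by ring
    _ = (8 + 10 * (j : ℝ)) * K ^ 2 * (5 * K) ^ j * (2 + j * K) * K := by rw [k5_cvg_HH hH, mul_one]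
    _ ≤ _ := e1
    _ ≤ K' := hb

theorem k5_cvg_H2 (h : k5_CvgCtx j d θ K ζ H tI ts ν c E F AI c1) (g : ℤ) (K' K₁ : ℝ) (hK1 : 1 ≤ K₁) (hb : K₁ ≤ K')
    (hmass : H ^ (1 + d) / K₁ ≤ k5_mass ν {x | x ∈ E ∧ x.2 ∈ Ico tI (tI + H) ∧ (x.1, ts) ∈ E ∧
        k5_bin H (k5_S (F ts) (c x.1) tI) = g}) :
    1 / K' ≤ k5_mass (ENNReal.ofReal (H ^ (-d)) • ν.restrict (k5_cvgG c E F H tI ts g)) (k5_cvgU c E F H tI ts g) := by
  have hH := h.hH
  have := h.snd.prob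
  have hHnd : 0 < H ^ (-d) := Real.rpow_pos_of_pos hH _
  have hH1d : H ^ (1 + d) = H * H ^ d := by rw [Real.rpow_add hH, Real.rpow_one]
  have e := k5_cvg_transfer (ν := ν) h.snd.mc h.snd.mE F H tI ts hH g (H ^ (-d)) hHnd.le univ MeasurableSet.univ
  have e1 : {x : Λ × ℝ | x ∈ k5_cvgU c E F H tI ts g ∧ x.1 ∈ (univ : Set Λ)} = k5_cvgU c E F H tI ts g := by
    ext x; simp
  have e2 : {x : Λ × ℝ | x ∈ E ∧ x.2 ∈ Ico tI (tI + H) ∧ (x.1, ts) ∈ E ∧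
        k5_bin H (k5_S (F ts) (c x.1) tI) = g ∧ x.1 ∈ (univ : Set Λ)}
      = {x | x ∈ E ∧ x.2 ∈ Ico tI (tI + H) ∧ (x.1, ts) ∈ E ∧ k5_bin H (k5_S (F ts) (c x.1) tI) = g} := by
    ext x; simp
  rw [e1, e2] at e
  rw [e]
  calc 1 / K' ≤ 1 / K₁ := one_div_le_one_div_of_le (by linarith) hb
    _ = H ^ (-d) * (H ^ (1 + d) / K₁ / H) := by
        rw [hH1d]
        have : H ^ (-d) * (H * H ^ d / K₁ / H) = (H ^ (-d) * H ^ d) / K₁ := by field_simp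
        rw [this, k5_cvg_HH hH]
    _ ≤ _ := by gcongr

theorem k5_cvg_H7 (h : k5_CvgCtx j d θ K ζ H tI ts ν c E F AI c1) (g : ℤ) (K' : ℝ)
    (hb : (2 * 4 ^ j * (2 + (j : ℝ))) * K ^ (j + 2) ≤ K') (u a : ℝ) (e : Fin j → ℝ) :
    (ENNReal.ofReal (H ^ (-d)) • ν.restrict (k5_cvgG c E F H tI ts g)).real {l | (l, u) ∈ k5_cvgU c E F H tI ts g ∧
      (∀ i, e i ≤ k5_y (c l) tI i ∧ k5_y (c l) tI i ≤ e i + H ^ (θ / 2)) ∧
      a ≤ k5_cvgL c F H tI g (l, u) ∧ k5_cvgL c F H tI g (l, u) ≤ a + H ^ (θ / 2)}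
      ≤ K' * (H ^ (θ / 2)) ^ ((j : ℝ) + d) := by
  have hH := h.hH
  have hK := h.hK
  have hj : (0 : ℝ) ≤ j := Nat.cast_nonneg j
  have := h.snd.prob
  obtain ⟨hp0, -, -, -⟩ := k5_cvg_p0 h
  have hHnd : 0 < H ^ (-d) := Real.rpow_pos_of_pos hH _
  have h2jK : 2 + (j : ℝ) * K ≤ (2 + j) * K := by nlinarith
  refine (k5_cvg_real_le ν _ _ _ hHnd.le).trans ?_
  have e0 := k5_cvg_cap h g u a e
  have hpp : 0 ≤ (H ^ (θ / 2)) ^ ((j : ℝ) + d) := Real.rpow_nonneg hp0.le _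
  have e1 : 2 * (4 * K) ^ j * (2 + j * K) * K ≤ (2 * 4 ^ j * (2 + (j : ℝ))) * K ^ (j + 2) := by
    calc 2 * (4 * K) ^ j * (2 + j * K) * K ≤ 2 * (4 * K) ^ j * ((2 + j) * K) * K := by gcongr
      _ = (2 * 4 ^ j * (2 + (j : ℝ))) * K ^ (j + 2) := by rw [mul_pow]; ring
  calc H ^ (-d) * ν.real _
      ≤ H ^ (-d) * (2 * (4 * K) ^ j * (2 + j * K) * K * (H ^ d * (H ^ (θ / 2)) ^ ((j : ℝ) + d))) := by
        gcongr
    _ = 2 * (4 * K) ^ j * (2 + j * K) * K * (H ^ (-d) * H ^ d) * (H ^ (θ / 2)) ^ ((j : ℝ) + d) := by ring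
    _ = 2 * (4 * K) ^ j * (2 + j * K) * K * (H ^ (θ / 2)) ^ ((j : ℝ) + d) := by rw [k5_cvg_HH hH, mul_one]
    _ ≤ K' * (H ^ (θ / 2)) ^ ((j : ℝ) + d) := by
        have := e1.trans hb
        gcongr

/-- transfer of the conclusion -/
theorem k5_cvg_back (h : k5_CvgCtx j d θ K ζ H tI ts ν c E F AI c1) (g : ℤ) (a w X : ℝ)
    (ha : X ≤ k5_mass (ENNReal.ofReal (H ^ (-d)) • ν.restrict (k5_cvgG c E F H tI ts g))
      {x | x ∈ k5_cvgU c E F H tI ts g ∧ a ≤ k5_ksl (F ts) AI tI (c x.1) ∧ k5_ksl (F ts) AI tI (c x.1) ≤ a + w}) :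
    H ^ (1 + d) * X ≤ k5_mass ν {x | x ∈ E ∧ x.2 ∈ Ico tI (tI + H) ∧ (x.1, ts) ∈ E ∧
        k5_bin H (k5_S (F ts) (c x.1) tI) = g ∧ a ≤ k5_ksl (F ts) AI tI (c x.1) ∧
        k5_ksl (F ts) AI tI (c x.1) ≤ a + w} := by
  have hH := h.hH
  have := h.snd.prob
  have hmc := h.snd.mc
  have hHnd : 0 < H ^ (-d) := Real.rpow_pos_of_pos hH _
  have hH1d : H ^ (1 + d) = H * H ^ d := by rw [Real.rpow_add hH, Real.rpow_one]
  have hPP : MeasurableSet {l : Λ | a ≤ k5_ksl (F ts) AI tI (c l) ∧ k5_ksl (F ts) AI tI (c l) ≤ a + w} :=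
    (measurableSet_le measurable_const (k5_cvg_mk hmc _ _ _)).inter
      (measurableSet_le (k5_cvg_mk hmc _ _ _) measurable_const)
  have e := k5_cvg_transfer (ν := ν) hmc h.snd.mE F H tI ts hH g (H ^ (-d)) hHnd.le _ hPP
  have e1 : {x : Λ × ℝ | x ∈ k5_cvgU c E F H tI ts g ∧ x.1 ∈ {l : Λ | a ≤ k5_ksl (F ts) AI tI (c l) ∧
      k5_ksl (F ts) AI tI (c l) ≤ a + w}}
      = {x | x ∈ k5_cvgU c E F H tI ts g ∧ a ≤ k5_ksl (F ts) AI tI (c x.1) ∧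
          k5_ksl (F ts) AI tI (c x.1) ≤ a + w} := rfl
  have e2 : {x : Λ × ℝ | x ∈ E ∧ x.2 ∈ Ico tI (tI + H) ∧ (x.1, ts) ∈ E ∧
          k5_bin H (k5_S (F ts) (c x.1) tI) = g ∧ x.1 ∈ {l : Λ | a ≤ k5_ksl (F ts) AI tI (c l) ∧
      k5_ksl (F ts) AI tI (c l) ≤ a + w}}
      = {x | x ∈ E ∧ x.2 ∈ Ico tI (tI + H) ∧ (x.1, ts) ∈ E ∧
        k5_bin H (k5_S (F ts) (c x.1) tI) = g ∧ a ≤ k5_ksl (F ts) AI tI (c x.1) ∧
        k5_ksl (F ts) AI tI (c x.1) ≤ a + w} := rfl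
  rw [e1, e2] at e
  rw [e] at ha
  set m := k5_mass ν {x | x ∈ E ∧ x.2 ∈ Ico tI (tI + H) ∧ (x.1, ts) ∈ E ∧
        k5_bin H (k5_S (F ts) (c x.1) tI) = g ∧ a ≤ k5_ksl (F ts) AI tI (c x.1) ∧
        k5_ksl (F ts) AI tI (c x.1) ≤ a + w} with hm
  have hm' : m = H ^ (1 + d) * (H ^ (-d) * (m / H)) := by
    rw [hH1d]
    have : H * H ^ d * (H ^ (-d) * (m / H)) = (H ^ (-d) * H ^ d) * m := by field_simp
    rw [this, k5_cvg_HH hH, one_mul]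
  have hH1d0 : 0 < H ^ (1 + d) := Real.rpow_pos_of_pos hH _
  calc H ^ (1 + d) * X ≤ H ^ (1 + d) * (H ^ (-d) * (m / H)) := by gcongr
    _ = m := hm'.symm

theorem k5_cvg_eqns_cite : True := by
  have := @k5_cvgA.eq_1
  have := @k5_cvgG.eq_1
  have := @k5_cvgU.eq_1
  have := @k5_cvgL.eq_1
  have := @k5_cvgb.eq_1
  trivial

end k5_cvg

/-- **L-252-S5-V2**  **one good group.**   If the group `g` of the block carries incidence mass `≥ H^(1+d)/K₁` (among trajectories labelled at `ts`), some slope interval of length `w = H^(θ(1-d)/8)` carries `≥ H^(1+d)/(C (K K₁)^C)`.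
PROOF.  Normalise as in `k5_local_fit` but WITHOUT slices: `𝒢 := {l | (l, ts) ∈ E ∧ k5_bin H (k5_S fs (c l) tI) = g}`, `μ := ENNReal.ofReal (H^(-d)) • ν.restrict 𝒢`, `U := {x | (x.1, tI + H x.2) ∈ E ∧ 0 ≤ x.2 ∧ x.2 < 1 ∧ x.1 ∈ 𝒢}`, `Y l := k5_y (c l) tI`, `k l := k5_ksl fs AI tI (c l)`,
`L x := (k5_S (F (tI + H x.2)) (c x.1) (tI + H x.2) - g H)/H`, `b l := (k5_S fs (c l) tI - g H)/H - α ⬝ᵥ Y l` with `α := H⁻¹ • (tI • AI + c1 - fs)`, `p₀ := H^(θ/2)`.   Apply `k5_slope_conc` with `K' := C₁ (K K₁)^(C₁)`: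
* model: `k5_loc_identity` (`bC := g H`) and `φ(u) = α + u • AI + O(K H^θ)` (the fit at `t = tI + H u`, divided by `H`): error `j (K H^θ)(2K) + H (K + j ‖φ‖ K) ≤ K' p₀` (`‖φ‖ ≤ 2 K` by `Snd.rowc`);
* slopes: `k5_loc_frozen` (`|B - B'| ≤ H` in a group) and `|AI ⬝ᵥ (Y - Y')| ≤ j K ‖Y - Y'‖`, `H ≤ p₀`;
* occupied cells: `|L| ≤ C K²` on the labels (`k5_loc_near`), `k5_supp_affine` with `(q, r) := (p₀, 1)` on `≤ C K²` unit intervals (`ζ ≤ H³ ≤ H p₀`);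
* joint cap: `k5_box_cap` at `t = tI + H u`, `q := H p₀`, `α := H p₀`, `β b := p₀ + 2 K H ≤ 3 K p₀` : `2 (3K/H + 1)^j (2 + jK) K (H p₀)^(j+d) ≤ K' H^d p₀^(j+d)`;
* `μ univ ≤ K'` : `k5_box_cap` at `ts`, `q := H`, `α := (7 + 10 j) K² H`, `β b := 4 K`;   * mass: `k5_mass_smul_restrict`, `k5_mass_affine` : `mass_μ U = H^(-d-1) mass_ν {…} ≥ 1/K₁`.
Transfer the conclusion back with the same two lemmas.   ~500 l.; may be split (hypotheses / transfer). -/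
theorem k5_cov_group (j : ℕ) (d θ : ℝ) (hd0 : 0 ≤ d) (hd : d < 1) (hθ : 0 < θ) (hθ1 : θ ≤ 1) :
    ∃ C : ℝ, 1 ≤ C ∧ ∀ (Λ : Type) [MeasurableSpace Λ] (ν : Measure Λ) (c : Λ → k5_Co j) (E : Set (Λ × ℝ))
      (F : ℝ → Fin j → ℝ) (K K₁ ζ H tI ts : ℝ) (AI c1 : Fin j → ℝ) (g : ℤ),
      1 ≤ K → 1 ≤ K₁ → k5_Snd j d K ζ ν c E F → 0 < H → H ≤ 1 → ζ ≤ H ^ 3 → |tI| ≤ 1 → tI ≤ ts → ts < tI + H →
      (∃ l, (l, ts) ∈ E) → ‖AI‖ ≤ K →
      (∀ l t, (l, t) ∈ E → t ∈ Ico tI (tI + H) → ‖F t - (t • AI + c1)‖ ≤ K * H ^ (1 + θ)) →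
      C * (K * K₁) ^ C * H ^ (θ * (1 - d) / 16) ≤ 1 →
      H ^ (1 + d) / K₁ ≤ k5_mass ν {x | x ∈ E ∧ x.2 ∈ Ico tI (tI + H) ∧ (x.1, ts) ∈ E ∧
        k5_bin H (k5_S (F ts) (c x.1) tI) = g} →
      ∃ a₁ : ℝ, H ^ (1 + d) / (C * (K * K₁) ^ C) ≤ k5_mass ν {x | x ∈ E ∧ x.2 ∈ Ico tI (tI + H) ∧ (x.1, ts) ∈ E ∧
        k5_bin H (k5_S (F ts) (c x.1) tI) = g ∧ a₁ ≤ k5_ksl (F ts) AI tI (c x.1) ∧
        k5_ksl (F ts) AI tI (c x.1) ≤ a₁ + H ^ (θ * (1 - d) / 8)} := by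
  obtain ⟨Cs, hCs1, hCs⟩ := k5_slope_conc j d hd0 hd
  obtain ⟨Cf, hCf1, hCf⟩ := k5_loc_frozen j
  have hj : (0 : ℝ) ≤ j := Nat.cast_nonneg j
  obtain ⟨hA1, hA2, hA3, hA4, hA5, hA6, hA7⟩ := k5_cvg_A j Cf hCf1
  set A : ℝ := Cf + 100 * ((j : ℝ) + 1) ^ 2 * 5 ^ j with hA
  have hACs1 : 1 ≤ A ^ Cs := Real.one_le_rpow hA1 (by linarith)
  have hC0 : 0 ≤ ((j : ℝ) + 4) * Cs := by positivity
  have hC1 : 1 ≤ Cs * A ^ Cs := one_le_mul_of_one_le_of_one_le hCs1 hACs1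
  refine ⟨Cs * A ^ Cs + ((j : ℝ) + 4) * Cs, by linarith, ?_⟩
  intro Λ _ ν c E F K K₁ ζ H tI ts AI c1 g hK hK1 hsnd hH hH1 hζ htI h1 h2 hl hAI hfit hsmall hmass
  have ctx : k5_CvgCtx j d θ K ζ H tI ts ν c E F AI c1 :=
    ⟨hd0, hθ, hθ1, hK, hsnd, hH, hH1, hζ, htI, h1, h2, hl, hAI, hfit⟩
  haveI := hsnd.prob
  obtain ⟨hp0, hp1, -, -⟩ := k5_cvg_p0 ctx
  have key := k5_cvg_key j A K K₁ hA1 hK hK1
  have hconst := k5_cvg_const j Cs A K K₁ hCs1 hA1 hK hK1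
  generalize hC : Cs * A ^ Cs + ((j : ℝ) + 4) * Cs = C at hconst hsmall ⊢
  have hCpos : 0 < C := by rw [← hC]; linarith
  generalize hK' : A * K ^ (j + 4) * K₁ = K' at key hconst
  have hK'1 : 1 ≤ K' := by
    have := key 1 0 (by norm_num) hA1 (by omega)
    simpa using this
  have hK1K' : K₁ ≤ K' := by
    rw [← hK']
    exact le_mul_of_one_le_left (by linarith) (one_le_mul_of_one_le_of_one_le hA1 (one_le_pow₀ hK))
  haveI : IsFiniteMeasure (ENNReal.ofReal (H ^ (-d)) • ν.restrict (k5_cvgG c E F H tI ts g)) :=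
    Measure.smul_finite _ ENNReal.ofReal_ne_top
  have hmc := hsnd.mc
  have hmE := hsnd.mE
  have H3 : ∀ l u, (l, u) ∈ k5_cvgU c E F H tI ts g → 0 ≤ u ∧ u ≤ 1 ∧ ‖k5_y (c l) tI‖ ≤ K' := by
    intro l u hx
    refine ⟨hx.2.1, hx.2.2.1.le, (k5_cvg_y_le (c l) K tI (by linarith) (hsnd.cb l) htI).trans ?_⟩
    have := key 2 1 (by norm_num) hA2 (by omega)
    simpa using this
  have H4 : ∀ l u, (l, u) ∈ k5_cvgU c E F H tI ts g → |k5_cvgL c F H tI g (l, u)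
      - (k5_cvgb c F H tI ts AI c1 g l + u * k5_ksl (F ts) AI tI (c l))| ≤ K' * H ^ (θ / 2) := by
    intro l u hx
    refine (k5_cvg_model ctx g l u hx).trans ?_
    exact mul_le_mul_of_nonneg_right (key (1 + 4 * j) 2 (by positivity) hA3 (by omega)) hp0.le
  have H5 : ∀ l u l' u', (l, u) ∈ k5_cvgU c E F H tI ts g → (l', u') ∈ k5_cvgU c E F H tI ts g →
      |k5_ksl (F ts) AI tI (c l) - k5_ksl (F ts) AI tI (c l')|
      ≤ K' * (‖k5_y (c l) tI - k5_y (c l') tI‖ + H ^ (θ / 2)) := by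
    intro l u l' u' hx hx'
    have hfro : ∀ (l l' : Λ), (l, ts) ∈ E → (l', ts) ∈ E →
        |k5_S (F ts) (c l) tI - k5_S (F ts) (c l') tI| ≤ H →
        |k5_R (F ts) (c l) tI - k5_R (F ts) (c l') tI| ≤ Cf * K ^ 3 * (‖k5_y (c l) tI - k5_y (c l') tI‖ + H) :=
      fun l l' a b e => hCf Λ ν c E F d K ζ H tI ts l l' hK hsnd hH hH1 (k5_cvg_zeta ctx).2 htI h1 h2 a b e
    refine (k5_cvg_slopes Cf hCf1 hfro ctx g l l' hx.2.2.2 hx'.2.2.2).trans ?_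
    exact mul_le_mul_of_nonneg_right (key (Cf + j) 3 (by positivity) hA4 (by omega))
      (add_nonneg (norm_nonneg _) hp0.le)
  have H6 : ∀ u, ∃ Z : Finset ℤ, (Z.card : ℝ) ≤ K' * (H ^ (θ / 2)) ^ (-d) ∧
      ∀ l, (l, u) ∈ k5_cvgU c E F H tI ts g → k5_bin (H ^ (θ / 2)) (k5_cvgL c F H tI g (l, u)) ∈ Z := by
    intro u
    obtain ⟨Z, hZ1, hZ2⟩ := k5_cvg_cells ctx g u
    refine ⟨Z, hZ1.trans ?_, hZ2⟩
    exact mul_le_mul_of_nonneg_right (key (18 + 20 * j) 3 (by positivity) hA5 (by omega))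
      (Real.rpow_nonneg hp0.le _)
  have hX0 : 0 < C * (K * K₁) ^ C :=
    mul_pos hCpos (Real.rpow_pos_of_pos (by positivity) _)
  have hY0 : 0 < Cs * K' ^ Cs :=
    mul_pos (by linarith) (Real.rpow_pos_of_pos (by linarith) _)
  have H8 : Cs * K' ^ Cs * (H ^ (θ / 2)) ^ ((1 - d) / 2) ≤ 1 := by
    have e1 : (H ^ (θ / 2)) ^ ((1 - d) / 2) ≤ H ^ (θ * (1 - d) / 16) := by
      rw [← Real.rpow_mul hH.le]
      refine Real.rpow_le_rpow_of_exponent_ge hH hH1 ?_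
      have : 0 ≤ θ * (1 - d) := mul_nonneg hθ.le (by linarith)
      linarith
    have e2 : 0 ≤ (H ^ (θ / 2)) ^ ((1 - d) / 2) := Real.rpow_nonneg hp0.le _
    exact (mul_le_mul hconst e1 e2 hX0.le).trans hsmall
  obtain ⟨a, ha⟩ := hCs Λ (ENNReal.ofReal (H ^ (-d)) • ν.restrict (k5_cvgG c E F H tI ts g))
    (k5_cvgU c E F H tI ts g) (fun l => k5_y (c l) tI) (k5_cvgb c F H tI ts AI c1 g)
    (fun l => k5_ksl (F ts) AI tI (c l)) (k5_cvgL c F H tI g) K' (H ^ (θ / 2)) (k5_cvg_mU hmc hmE F H tI ts g)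
    (k5_cvg_mY hmc tI) (k5_cvg_mb hmc F H tI ts AI c1 g) (k5_cvg_mk hmc _ _ _) (k5_cvg_mL hmc hsnd.mF H tI g)
    hK'1 hp0 hp1 (k5_cvg_H1 ctx g K' (key _ _ (by positivity) hA6 le_rfl))
    (k5_cvg_H2 ctx g K' K₁ hK1 hK1K' hmass) H3 H4 H5 H6
    (k5_cvg_H7 ctx g K' (key _ _ (by positivity) hA7 (by omega))) H8
  refine ⟨a, ?_⟩
  have hw : (H ^ (θ / 2)) ^ ((1 - d) / 4) = H ^ (θ * (1 - d) / 8) := by
    rw [← Real.rpow_mul hH.le]; congr 1; ring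
  rw [hw] at ha
  have hb := k5_cvg_back ctx g a _ _ ha
  refine le_trans ?_ hb
  have hH1d0 : 0 < H ^ (1 + d) := Real.rpow_pos_of_pos hH _
  rw [div_eq_mul_one_div]
  exact mul_le_mul_of_nonneg_left (one_div_le_one_div_of_le hY0 hconst) hH1d0.le

/-- dot product against the sup norms (local copy) -/
theorem k5_cb_dot_le (f v : Fin j → ℝ) : |f ⬝ᵥ v| ≤ (j : ℝ) * ‖f‖ * ‖v‖ := by
  unfold dotProduct
  calc |∑ i, f i * v i| ≤ ∑ i, |f i * v i| := Finset.abs_sum_le_sum_abs _ _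
    _ ≤ ∑ _i : Fin j, ‖f‖ * ‖v‖ := by
        apply Finset.sum_le_sum
        intro i _
        rw [abs_mul]
        exact mul_le_mul (norm_le_pi_norm f i) (norm_le_pi_norm v i) (abs_nonneg _) (norm_nonneg _)
    _ = (j : ℝ) * ‖f‖ * ‖v‖ := by
        rw [Finset.sum_const, Finset.card_univ, Fintype.card_fin, nsmul_eq_mul]; ring

/-- bounds of the signals (local copy) -/
theorem k5_cb_sig (c : k5_Co j) (K t : ℝ) (hc : ‖c‖ ≤ K) (ht0 : 0 ≤ t) (ht1 : t ≤ 1) :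
    |k5_x c t| ≤ 3 * K ∧ ‖k5_y c t‖ ≤ 2 * K := by
  have hK0 : 0 ≤ K := (norm_nonneg _).trans hc
  have h1 : ∀ i, |c.1 i| ≤ K := fun i => ((norm_le_pi_norm c.1 i).trans (norm_fst_le c)).trans hc
  have h2 : ∀ i a, |c.2 i a| ≤ K := fun i a =>
    (((norm_le_pi_norm (c.2 i) a).trans (norm_le_pi_norm c.2 i)).trans (norm_snd_le c)).trans hc
  have ht2 : t ^ 2 ≤ 1 := by nlinarith
  have mulb : ∀ (u x : ℝ), 0 ≤ u → u ≤ 1 → |x| ≤ K → |u * x| ≤ K := by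
    intro u x hu0 hu1 hx
    rw [abs_mul, abs_of_nonneg hu0]
    calc u * |x| ≤ 1 * K := mul_le_mul hu1 hx (abs_nonneg _) zero_le_one
      _ = K := one_mul _
  constructor
  · unfold k5_x
    have a1 := abs_add_le (c.1 0 + t * c.1 1) (t ^ 2 * c.1 2)
    have a2 := abs_add_le (c.1 0) (t * c.1 1)
    have b1 := mulb t _ ht0 ht1 (h1 1)
    have b2 := mulb (t ^ 2) _ (sq_nonneg t) ht2 (h1 2)
    linarith [h1 0]
  · rw [pi_norm_le_iff_of_nonneg (by positivity)]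
    intro a
    simp only [k5_y, Real.norm_eq_abs]
    have a1 := abs_add_le (c.2 0 a) (t * c.2 1 a)
    have b1 := mulb t _ ht0 ht1 (h2 1 a)
    linarith [h2 0 a]

/-- the scalar is bounded -/
theorem k5_cb_S_le (c : k5_Co j) (K t : ℝ) (f : Fin j → ℝ) (hK : 1 ≤ K) (hc : ‖c‖ ≤ K) (ht0 : 0 ≤ t) (ht1 : t ≤ 1)
    (hf : ‖f‖ ≤ K) : |k5_S f c t| ≤ (3 + 2 * j) * K ^ 2 := by
  obtain ⟨h1, h2⟩ := k5_cb_sig c K t hc ht0 ht1
  have hK0 : 0 ≤ K := by linarith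
  have hj0 : (0 : ℝ) ≤ j := Nat.cast_nonneg j
  have h3 : |f ⬝ᵥ k5_y c t| ≤ j * K * (2 * K) :=
    (k5_cb_dot_le f _).trans (mul_le_mul (mul_le_mul_of_nonneg_left hf hj0) h2 (norm_nonneg _) (by positivity))
  unfold k5_S
  have a1 := abs_sub (k5_x c t) (f ⬝ᵥ k5_y c t)
  have hKK : K ≤ K ^ 2 := by nlinarith
  calc _ ≤ 3 * K + j * K * (2 * K) := by linarith
    _ ≤ 3 * K ^ 2 + j * K * (2 * K) := by linarith
    _ = _ := by ring

/-- two reals at distance `≤ M H` lie in cells of the mesh `H` at distance `≤ ⌈M⌉₊ + 1` -/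
theorem k5_cb_bin_near {H a b M : ℝ} (hH : 0 < H) (h : |a - b| ≤ M * H) :
    k5_bin H a ∈ Finset.Icc (k5_bin H b - ((⌈M⌉₊ : ℤ) + 1)) (k5_bin H b + ((⌈M⌉₊ : ℤ) + 1)) := by
  unfold k5_bin
  have h1 : |a / H - b / H| ≤ M := by
    rw [← sub_div, abs_div, abs_of_pos hH, div_le_iff₀ hH]; exact h
  have hM : M ≤ (⌈M⌉₊ : ℝ) := Nat.le_ceil M
  obtain ⟨h2, h3⟩ := abs_le.mp h1
  rw [Finset.mem_Icc]
  constructor
  · have : ((⌊b / H⌋ - ((⌈M⌉₊ : ℤ) + 1) : ℤ) : ℝ) ≤ a / H := by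
      push_cast
      have := Int.floor_le (b / H)
      linarith
    exact Int.le_floor.mpr this
  · have h4 : a / H < ((⌊b / H⌋ + ((⌈M⌉₊ : ℤ) + 1) : ℤ) : ℝ) := by
      push_cast
      have := Int.lt_floor_add_one (b / H)
      linarith
    exact (Int.floor_lt.mpr h4).le

/-- **the occupied groups** of a block -/
theorem k5_cb_groups {Λ : Type} [MeasurableSpace Λ] (ν : Measure Λ) (c : Λ → k5_Co j)
    (E : Set (Λ × ℝ)) (F : ℝ → Fin j → ℝ) (d K ζ H tI ts : ℝ) (hK : 1 ≤ K) (hS : k5_Snd j d K ζ ν c E F) (hH : 0 < H)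
    (hH1 : H ≤ 1) (hζ : ζ ≤ H) (htI : |tI| ≤ 1) (hts0 : 0 ≤ ts) (hts1 : ts < 1) (h1 : tI ≤ ts) (h2 : ts < tI + H) :
    ∃ 𝒩 : Finset ℤ, (𝒩.card : ℝ) ≤ (9 + 4 * j) * (11 + 10 * j) * K ^ 5 * H ^ (-d) ∧
      ∀ l, (l, ts) ∈ E → k5_bin H (k5_S (F ts) (c l) tI) ∈ 𝒩 := by
  classical
  have hK0 : 0 < K := by linarith
  have hj0 : (0 : ℝ) ≤ j := Nat.cast_nonneg j
  have hT := hS.tm ts hts0 hts1
  have hsupp := fun a : ℤ => hT.supp H 1 (a : ℝ) hζ hH1 le_rfl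
  choose Z hZc hZ using hsupp
  set n₀ : ℕ := ⌈(3 + 2 * (j : ℝ)) * K ^ 2⌉₊ with hn₀
  set m : ℤ := (⌈(3 + 5 * (j : ℝ)) * K ^ 2⌉₊ : ℤ) + 1 with hm
  refine ⟨(Finset.Icc (-(n₀ : ℤ)) n₀).biUnion (fun a => (Z a).biUnion (fun z => Finset.Icc (z - m) (z + m))), ?_, ?_⟩
  · have hHd : (1 / H) ^ d = H ^ (-d) := by
      rw [one_div, Real.inv_rpow hH.le, Real.rpow_neg hH.le]
    have hHd0 : 0 < H ^ (-d) := Real.rpow_pos_of_pos hH _
    have c3 : ∀ z : ℤ, ((Finset.Icc (z - m) (z + m)).card : ℝ) ≤ (11 + 10 * j) * K ^ 2 := by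
      intro z
      rw [Int.card_Icc]
      have e : z + m + 1 - (z - m) = 2 * m + 1 := by ring
      have hm0 : 0 ≤ 2 * m + 1 := by rw [hm]; positivity
      rw [e]
      have : (((2 * m + 1).toNat : ℕ) : ℝ) = ((2 * m + 1 : ℤ) : ℝ) := by
        exact_mod_cast congrArg (fun x : ℤ => (x : ℝ)) (Int.toNat_of_nonneg hm0)
      rw [this, hm]
      push_cast
      have hc := (Nat.ceil_lt_add_one (show 0 ≤ (3 + 5 * (j : ℝ)) * K ^ 2 by positivity)).le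
      have hKK : 1 ≤ K ^ 2 := by nlinarith
      nlinarith
    have c2 : ∀ a : ℤ, (((Z a).biUnion (fun z => Finset.Icc (z - m) (z + m))).card : ℝ)
        ≤ K * H ^ (-d) * ((11 + 10 * j) * K ^ 2) := by
      intro a
      calc (((Z a).biUnion (fun z => Finset.Icc (z - m) (z + m))).card : ℝ)
          ≤ ∑ z ∈ Z a, ((Finset.Icc (z - m) (z + m)).card : ℝ) := by exact_mod_cast Finset.card_biUnion_le
        _ ≤ ∑ _z ∈ Z a, (11 + 10 * j) * K ^ 2 := Finset.sum_le_sum fun z _ => c3 z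
        _ = ((Z a).card : ℝ) * ((11 + 10 * j) * K ^ 2) := by rw [Finset.sum_const, nsmul_eq_mul]
        _ ≤ K * H ^ (-d) * ((11 + 10 * j) * K ^ 2) := by
            apply mul_le_mul_of_nonneg_right _ (by positivity)
            rw [← hHd]; exact hZc a
    have c1 : ((Finset.Icc (-(n₀ : ℤ)) n₀).card : ℝ) ≤ (9 + 4 * j) * K ^ 2 := by
      rw [Int.card_Icc]
      have e : (n₀ : ℤ) + 1 - (-(n₀ : ℤ)) = 2 * n₀ + 1 := by ring
      have hm0 : (0 : ℤ) ≤ 2 * n₀ + 1 := by positivity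
      rw [e]
      have : (((2 * (n₀ : ℤ) + 1).toNat : ℕ) : ℝ) = ((2 * (n₀ : ℤ) + 1 : ℤ) : ℝ) := by
        exact_mod_cast congrArg (fun x : ℤ => (x : ℝ)) (Int.toNat_of_nonneg hm0)
      rw [this]
      push_cast
      have hc := (Nat.ceil_lt_add_one (show 0 ≤ (3 + 2 * (j : ℝ)) * K ^ 2 by positivity)).le
      have hKK : 1 ≤ K ^ 2 := by nlinarith
      rw [← hn₀] at hc
      nlinarith
    calc _ ≤ ∑ a ∈ Finset.Icc (-(n₀ : ℤ)) n₀, (((Z a).biUnion (fun z => Finset.Icc (z - m) (z + m))).card : ℝ) := by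
          exact_mod_cast Finset.card_biUnion_le
      _ ≤ ∑ _a ∈ Finset.Icc (-(n₀ : ℤ)) n₀, K * H ^ (-d) * ((11 + 10 * j) * K ^ 2) := Finset.sum_le_sum fun a _ => c2 a
      _ = ((Finset.Icc (-(n₀ : ℤ)) n₀).card : ℝ) * (K * H ^ (-d) * ((11 + 10 * j) * K ^ 2)) := by
          rw [Finset.sum_const, nsmul_eq_mul]
      _ ≤ (9 + 4 * j) * K ^ 2 * (K * H ^ (-d) * ((11 + 10 * j) * K ^ 2)) :=
          mul_le_mul_of_nonneg_right c1 (by positivity)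
      _ = _ := by ring
  · intro l hl
    have hSb := k5_cb_S_le (c l) K ts (F ts) hK (hS.cb l) hts0 hts1.le hT.fb
    obtain ⟨hb1, hb2⟩ := abs_le.mp hSb
    set s : ℝ := k5_S (F ts) (c l) ts with hs
    have hn : (3 + 2 * (j : ℝ)) * K ^ 2 ≤ n₀ := Nat.le_ceil _
    rw [Finset.mem_biUnion]
    refine ⟨⌊s⌋, ?_, ?_⟩
    · rw [Finset.mem_Icc]
      constructor
      · apply Int.le_floor.mpr; push_cast; linarith
      · have : s < ((n₀ : ℤ) + 1 : ℤ) := by push_cast; linarith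
        have := Int.floor_lt.mpr this
        omega
    · rw [Finset.mem_biUnion]
      refine ⟨k5_bin H s, hZ ⌊s⌋ l hl (Int.floor_le s) (Int.lt_floor_add_one s).le, ?_⟩
      apply k5_cb_bin_near hH
      have := k5_loc_near (c l) K H tI ts (F ts) (F ts) hK (hS.cb l) hH htI hts0 hts1.le
        (by rw [abs_of_nonneg (by linarith)]; linarith) hT.fb (by rw [sub_self, norm_zero]; positivity)
      rw [abs_sub_comm]
      exact this


/-- **prior mass of one group** -/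
theorem k5_cb_prior {Λ : Type} [MeasurableSpace Λ] (ν : Measure Λ) (c : Λ → k5_Co j)
    (E : Set (Λ × ℝ)) (F : ℝ → Fin j → ℝ) (d K ζ H tI ts : ℝ) (g : ℤ) (hK : 1 ≤ K) (hS : k5_Snd j d K ζ ν c E F) (hH : 0 < H)
    (hH1 : H ≤ 1) (hζ : ζ ≤ H) (htI : |tI| ≤ 1) (hts0 : 0 ≤ ts) (hts1 : ts < 1) (h1 : tI ≤ ts) (h2 : ts < tI + H) :
    ν.real {l | (l, ts) ∈ E ∧ k5_bin H (k5_S (F ts) (c l) tI) = g}
      ≤ (8 + 10 * j) * (2 + j) * 5 ^ j * K ^ (4 + j) * H ^ d := by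
  have hK0 : 0 < K := by linarith
  have hj0 : (0 : ℝ) ≤ j := Nat.cast_nonneg j
  have hT := hS.tm ts hts0 hts1
  have := hS.prob
  have hbox := k5_box_cap ν c d K ζ (k5_Dy ζ) ts (F ts) (k5_sec E ts) hK hT H ((7 + 10 * j) * K ^ 2 * H)
    (g * H - (3 + 5 * j) * K ^ 2 * H) (fun _ => 4 * K) (fun _ => -(2 * K)) hζ hH1 (by positivity) (fun _ => by positivity)
  have hKK : 1 ≤ K ^ 2 := by nlinarith
  refine le_trans (measureReal_mono ?_ (measure_ne_top ν _)) (hbox.trans ?_)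
  · intro l hl
    obtain ⟨hl1, hl2⟩ := hl
    have hnear := k5_loc_near (c l) K H tI ts (F ts) (F ts) hK (hS.cb l) hH htI hts0 hts1.le
      (by rw [abs_of_nonneg (by linarith)]; linarith) hT.fb (by rw [sub_self, norm_zero]; positivity)
    obtain ⟨n1, n2⟩ := abs_le.mp hnear
    have hy := (k5_cb_sig (c l) K ts (hS.cb l) hts0 hts1.le).2
    unfold k5_bin at hl2
    have b1 : (g : ℝ) * H ≤ k5_S (F ts) (c l) tI := by
      have := Int.floor_le (k5_S (F ts) (c l) tI / H)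
      rw [hl2, le_div_iff₀ hH] at this; exact this
    have b2 : k5_S (F ts) (c l) tI ≤ (g : ℝ) * H + H := by
      have := (Int.lt_floor_add_one (k5_S (F ts) (c l) tI / H)).le
      rw [hl2, div_le_iff₀ hH] at this; linarith
    refine ⟨hl1, by linarith, ?_, ?_⟩
    · have : H ≤ K ^ 2 * H := le_mul_of_one_le_left hH.le hKK
      nlinarith
    · intro b
      have := (norm_le_pi_norm (k5_y (c l) ts) b).trans hy
      rw [Real.norm_eq_abs] at this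
      obtain ⟨y1, y2⟩ := abs_le.mp this
      constructor <;> linarith
  · have e1 : (7 + 10 * (j : ℝ)) * K ^ 2 * H / H + 1 ≤ (8 + 10 * j) * K ^ 2 := by
      rw [mul_div_assoc, div_self hH.ne', mul_one]; nlinarith
    have e2 : ∏ _b : Fin j, (4 * K / H + 1) ≤ (5 * K / H) ^ j := by
      rw [Finset.prod_const, Finset.card_univ, Fintype.card_fin]
      apply pow_le_pow_left₀ (by positivity)
      have : 1 ≤ K / H := by rw [le_div_iff₀ hH]; linarith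
      have e : 5 * K / H = 4 * K / H + K / H := by ring
      rw [e]; linarith
    have e3 : 2 + (j : ℝ) * K ≤ (2 + j) * K := by nlinarith
    have e4 : H ^ ((j : ℝ) + d) = H ^ j * H ^ d := by
      rw [Real.rpow_add hH, Real.rpow_natCast]
    have hHd0 : 0 < H ^ d := Real.rpow_pos_of_pos hH _
    calc ((7 + 10 * (j : ℝ)) * K ^ 2 * H / H + 1) * (∏ _b : Fin j, (4 * K / H + 1)) * (2 + j * K) * K * H ^ ((j : ℝ) + d)
        ≤ ((8 + 10 * j) * K ^ 2) * ((5 * K / H) ^ j) * ((2 + j) * K) * K * H ^ ((j : ℝ) + d) := by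
          apply mul_le_mul_of_nonneg_right _ (by positivity)
          apply mul_le_mul_of_nonneg_right _ hK0.le
          apply mul_le_mul _ e3 (by positivity) (by positivity)
          apply mul_le_mul e1 e2 _ (by positivity)
          exact Finset.prod_nonneg fun _ _ => by positivity
      _ = _ := by
          rw [e4, div_pow, mul_pow, pow_add]
          field_simp


theorem k5_cb_meas_S (f : Fin j → ℝ) (t : ℝ) : Measurable (fun c : k5_Co j => k5_S f c t) := by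
  unfold k5_S k5_x k5_y dotProduct
  fun_prop

theorem k5_cb_meas_ksl (fs AI : Fin j → ℝ) (t : ℝ) : Measurable (fun c : k5_Co j => k5_ksl fs AI t c) := by
  unfold k5_ksl k5_R k5_xD k5_yd k5_y dotProduct
  fun_prop

theorem k5_cb_meas_bin (H : ℝ) : Measurable (k5_bin H) := by
  unfold k5_bin
  fun_prop

/-- constants of the form `C K^C` are monotone (local copy) -/
theorem k5_cb_cst_le {B C₁ a₁ C : ℝ} (hB : 1 ≤ B) (h0 : 0 ≤ C₁) (h1 : C₁ ≤ C) (h2 : a₁ ≤ C) :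
    C₁ * B ^ a₁ ≤ C * B ^ C := by
  have hB0 : 0 < B := lt_of_lt_of_le one_pos hB
  have := Real.rpow_le_rpow_of_exponent_le hB h2
  exact mul_le_mul h1 this (Real.rpow_nonneg hB0.le _) (h0.trans h1)

/-- the constant of `k5_cov_group` at `K₁ = 2 c₂ K^7` -/
theorem k5_cb_KK (K c₂ Cg : ℝ) (hK : 1 ≤ K) (hc₂ : 1 ≤ c₂) :
    Cg * (K * (2 * c₂ * K ^ 7)) ^ Cg = (Cg * (2 * c₂) ^ Cg) * K ^ (8 * Cg) := by
  have hK0 : 0 < K := by linarith
  have e : K * (2 * c₂ * K ^ 7) = (2 * c₂) * K ^ (8 : ℝ) := by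
    rw [show (8 : ℝ) = ((8 : ℕ) : ℝ) by norm_num, Real.rpow_natCast]; ring
  rw [e, Real.mul_rpow (by positivity) (by positivity), ← Real.rpow_mul hK0.le]
  ring

/-- the pigeonhole of the block: good groups carry half of the mass -/
theorem k5_cb_pigeon (𝒩 : Finset ℤ) (m : ℤ → ℝ) (M lo hi Nb : ℝ) (hsum : M ≤ ∑ g ∈ 𝒩, m g) (hhi : ∀ g ∈ 𝒩, m g ≤ hi)
    (hN : (𝒩.card : ℝ) ≤ Nb) (hlo : 0 ≤ lo) (hbad : Nb * lo ≤ M / 2) :
    M / 2 ≤ ((𝒩.filter (fun g => lo ≤ m g)).card : ℝ) * hi := by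
  classical
  have h1 := Finset.sum_filter_add_sum_filter_not 𝒩 (fun g => lo ≤ m g) m
  have h2 : ∑ g ∈ 𝒩.filter (fun g => ¬ lo ≤ m g), m g ≤ Nb * lo := by
    calc ∑ g ∈ 𝒩.filter (fun g => ¬ lo ≤ m g), m g ≤ ∑ _g ∈ 𝒩.filter (fun g => ¬ lo ≤ m g), lo := by
          apply Finset.sum_le_sum
          intro g hg
          exact (not_le.mp (Finset.mem_filter.mp hg).2).le
      _ = ((𝒩.filter (fun g => ¬ lo ≤ m g)).card : ℝ) * lo := by rw [Finset.sum_const, nsmul_eq_mul]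
      _ ≤ Nb * lo := by
          apply mul_le_mul_of_nonneg_right _ hlo
          refine le_trans ?_ hN
          exact_mod_cast Finset.card_filter_le _ _
  have h3 : ∑ g ∈ 𝒩.filter (fun g => lo ≤ m g), m g ≤ ((𝒩.filter (fun g => lo ≤ m g)).card : ℝ) * hi := by
    calc ∑ g ∈ 𝒩.filter (fun g => lo ≤ m g), m g ≤ ∑ _g ∈ 𝒩.filter (fun g => lo ≤ m g), hi := by
          apply Finset.sum_le_sum
          intro g hg
          exact hhi g (Finset.mem_filter.mp hg).1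
      _ = _ := by rw [Finset.sum_const, nsmul_eq_mul]
  linarith

/-- **L-252-S5-V3**  **one block** of incidence mass `≥ H/K` : a popular time `ts`, one slope interval `[a₁ g, a₁ g + w]` per group, retained mass `≥ H/(C K^C)`.
PROOF.  `k5_popular` : `ts`, `mass E₁ ≥ H/K²`, `E₁ := {x ∈ E | x.2 ∈ I, (x.1, ts) ∈ E}`.   The occupied groups lie in a `Finset 𝒩 ⊆ ℤ`, `#𝒩 ≤ N := C₂ K^(C₂) H^(-d)` (as in `k5_loc_group`: support count of `S(ts)` at the mesh `H` + `k5_loc_near`).   `mass E₁ = ∑_{g ∈ 𝒩} m_g` (`k5_mass_sum`).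
Groups with `m_g < H^(1+d)/K₁`, `K₁ := 2 K² C₂ K^(C₂)`, carry together `< N H^(1+d)/K₁ = H/(2 K²)`.   Each group has `m_g ≤ H ν(𝒢_g) ≤ C₃ K^(C₃) H^(1+d)` (`k5_mass_le_sec` + `k5_box_cap` at `ts`), so there are `≥ H^(-d)/(2 K² C₃ K^(C₃))` good groups;  `k5_cov_group` in each (`a₁ g`; `a₁ g := 0` for the others);
the retained set contains the disjoint union over the good groups: mass `≥ #good · H^(1+d)/(C (K K₁)^C)`.   ~400 l. -/
theorem k5_cov_block (j : ℕ) (d θ : ℝ) (hd0 : 0 ≤ d) (hd : d < 1) (hθ : 0 < θ) (hθ1 : θ ≤ 1) :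
    ∃ C : ℝ, 1 ≤ C ∧ ∀ (Λ : Type) [MeasurableSpace Λ] (ν : Measure Λ) (c : Λ → k5_Co j) (E : Set (Λ × ℝ))
      (F : ℝ → Fin j → ℝ) (K ζ H tI : ℝ) (AI c1 : Fin j → ℝ),
      1 ≤ K → k5_Snd j d K ζ ν c E F → 0 < H → H ≤ 1 → ζ ≤ H ^ 3 → ‖AI‖ ≤ K →
      (∀ l t, (l, t) ∈ E → t ∈ Ico tI (tI + H) → ‖F t - (t • AI + c1)‖ ≤ K * H ^ (1 + θ)) →
      C * K ^ C * H ^ (θ * (1 - d) / 16) ≤ 1 → H / K ≤ k5_mass ν (k5_rt E (Ico tI (tI + H))) →
      ∃ (ts : ℝ) (a₁ : ℤ → ℝ), ts ∈ Ico tI (tI + H) ∧ (∃ l, (l, ts) ∈ E) ∧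
        H / (C * K ^ C) ≤ k5_mass ν {x | x ∈ E ∧ x.2 ∈ Ico tI (tI + H) ∧ (x.1, ts) ∈ E ∧
          a₁ (k5_bin H (k5_S (F ts) (c x.1) tI)) ≤ k5_ksl (F ts) AI tI (c x.1) ∧
          k5_ksl (F ts) AI tI (c x.1) ≤ a₁ (k5_bin H (k5_S (F ts) (c x.1) tI)) + H ^ (θ * (1 - d) / 8)} := by
  classical
  obtain ⟨Cg, hCg1, hCg⟩ := k5_cov_group j d θ hd0 hd hθ hθ1
  have hj0 : (0 : ℝ) ≤ j := Nat.cast_nonneg j
  set c₂ : ℝ := (9 + 4 * j) * (11 + 10 * j) with hc₂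
  set c₃ : ℝ := (8 + 10 * j) * (2 + j) * 5 ^ j with hc₃
  have hc₂1 : 1 ≤ c₂ := by rw [hc₂]; nlinarith
  have hc₃1 : 1 ≤ c₃ := by
    have : (1 : ℝ) ≤ 5 ^ j := one_le_pow₀ (by norm_num)
    have h' : (1 : ℝ) ≤ (8 + 10 * j) * (2 + j) := by nlinarith
    rw [hc₃]; nlinarith
  set D : ℝ := Cg * (2 * c₂) ^ Cg with hD
  have hD1 : 1 ≤ D := by
    have : 1 ≤ (2 * c₂) ^ Cg := Real.one_le_rpow (by linarith) (by linarith)
    rw [hD]; nlinarith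
  set C : ℝ := 2 * c₃ * D + D + 8 * Cg + 6 + j with hC
  have hcD : 0 ≤ 2 * c₃ * D := by positivity
  refine ⟨C, by rw [hC]; linarith, ?_⟩
  intro Λ _ ν c E F K ζ H tI AI c1 hK hS hH hH1 hζ hAI hfit hsm hmass
  have := hS.prob
  have hK0 : 0 < K := by linarith
  set I : Set ℝ := Ico tI (tI + H) with hI
  have hIm : MeasurableSet I := measurableSet_Ico
  have hIv : volume.real I = H := by
    rw [hI, measureReal_def, Real.volume_Ico, ENNReal.toReal_ofReal (by linarith)]; ring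
  have hIfin : volume I ≠ ⊤ := by rw [hI, Real.volume_Ico]; exact ENNReal.ofReal_ne_top
  have hpos : 0 < k5_mass ν (k5_rt E I) := lt_of_lt_of_le (div_pos hH hK0) hmass
  obtain ⟨ts, htsI, hlab, hpop⟩ := k5_popular ν E hS.mE tI H 1 hH (by simp) one_pos hpos
  obtain ⟨l₀, hl₀⟩ := hlab
  obtain ⟨hts0, hts1⟩ := hS.tI l₀ ts hl₀
  have htI : |tI| ≤ 1 := by
    rw [abs_le]; constructor <;> linarith [htsI.1, htsI.2]
  have hζH : ζ ≤ H := hζ.trans (pow_le_of_le_one hH.le hH1 (by norm_num))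
  set E₁ : Set (Λ × ℝ) := {x | x ∈ E ∧ x.2 ∈ I ∧ (x.1, ts) ∈ E} with hE₁
  have hE₁m : MeasurableSet E₁ := by
    have h1 := k5_meas_pair hS.mE hS.mE (fun _ => ts) measurable_const
    have h2 : MeasurableSet {x : Λ × ℝ | x.2 ∈ I} := measurable_snd hIm
    have e : E₁ = {x : Λ × ℝ | x ∈ E ∧ (x.1, ts) ∈ E} ∩ {x : Λ × ℝ | x.2 ∈ I} := by
      ext x; constructor
      · rintro ⟨a, b, c'⟩; exact ⟨⟨a, c'⟩, b⟩
      · rintro ⟨⟨a, c'⟩, b⟩; exact ⟨a, b, c'⟩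
    rw [e]; exact h1.inter h2
  have hE₁M : H / K ^ 2 ≤ k5_mass ν E₁ := by
    refine le_trans ?_ hpop
    rw [one_mul, le_div_iff₀ hH]
    calc H / K ^ 2 * H = (H / K) ^ 2 := by field_simp
      _ ≤ _ := pow_le_pow_left₀ (by positivity) hmass 2
  obtain ⟨𝒩, h𝒩c, h𝒩⟩ := k5_cb_groups ν c E F d K ζ H tI ts hK hS hH hH1 hζH htI hts0 hts1 htsI.1 htsI.2
  set gr : Λ × ℝ → ℤ := fun x => k5_bin H (k5_S (F ts) (c x.1) tI) with hgr
  have hgrm : Measurable gr :=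
    (k5_cb_meas_bin H).comp ((k5_cb_meas_S (F ts) tI).comp (hS.mc.comp measurable_fst))
  set Sg : ℤ → Set (Λ × ℝ) := fun g => {x | gr x = g} with hSg
  have hSgm : ∀ g, MeasurableSet (Sg g) := fun g => hgrm (measurableSet_singleton g)
  have hSgd : ((𝒩 : Set ℤ)).PairwiseDisjoint Sg := by
    intro a _ b _ hab
    rw [Function.onFun, Set.disjoint_left]
    intro x hxa hxb
    exact hab (hxa.symm.trans hxb)
  have hIn₁ : k5_In E₁ I := fun l t h => h.2.1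
  have hsum : k5_mass ν E₁ = ∑ g ∈ 𝒩, k5_mass ν (E₁ ∩ Sg g) :=
    k5_mass_sum hIfin hIn₁ 𝒩 Sg (fun g _ => hSgm g) hSgd (by
      intro x hx
      simp only [mem_iUnion, exists_prop]
      exact ⟨gr x, h𝒩 x.1 hx.2.2, rfl⟩)
  set T : ℝ := H ^ (1 + d) with hT
  have hT0 : 0 < T := Real.rpow_pos_of_pos hH _
  have hTe : T = H * H ^ d := by rw [hT, Real.rpow_add hH, Real.rpow_one]
  set K₁ : ℝ := 2 * c₂ * K ^ 7 with hK₁
  have hK₁1 : 1 ≤ K₁ := by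
    have : 1 ≤ K ^ 7 := one_le_pow₀ hK
    rw [hK₁]; nlinarith
  have hK₁0 : 0 < K₁ := by linarith
  have hup : ∀ g ∈ 𝒩, k5_mass ν (E₁ ∩ Sg g) ≤ c₃ * K ^ (4 + j) * T := by
    intro g _
    have h1 := k5_mass_le_sec (ν := ν) (E := E₁ ∩ Sg g) (hE₁m.inter (hSgm g)) hIm hIfin (fun l t h => h.1.2.1)
      (a := c₃ * K ^ (4 + j) * H ^ d) (by
        intro t _
        refine le_trans (measureReal_mono ?_ (measure_ne_top ν _))
          (k5_cb_prior ν c E F d K ζ H tI ts g hK hS hH hH1 hζH htI hts0 hts1 htsI.1 htsI.2)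
        intro l hl
        exact ⟨hl.1.2.2, hl.2⟩)
    rw [hIv] at h1
    rw [hTe]; linarith
  have hbad : c₂ * K ^ 5 * H ^ (-d) * (T / K₁) ≤ H / K ^ 2 / 2 := by
    have e : H ^ (-d) * T = H := by
      rw [hT, ← Real.rpow_add hH]; simp
    have : c₂ * K ^ 5 * H ^ (-d) * (T / K₁) = H / K ^ 2 / 2 := by
      calc c₂ * K ^ 5 * H ^ (-d) * (T / K₁) = c₂ * K ^ 5 * (H ^ (-d) * T) / K₁ := by ring
        _ = _ := by rw [e, hK₁]; field_simp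
    exact this.le
  have hpig := k5_cb_pigeon 𝒩 (fun g => k5_mass ν (E₁ ∩ Sg g)) (H / K ^ 2) (T / K₁) (c₃ * K ^ (4 + j) * T)
    (c₂ * K ^ 5 * H ^ (-d)) (hsum ▸ hE₁M) hup h𝒩c (by positivity) hbad
  set good : Finset ℤ := 𝒩.filter (fun g => T / K₁ ≤ k5_mass ν (E₁ ∩ Sg g)) with hgood
  -- the constant of the groups
  have hKK := k5_cb_KK K c₂ Cg hK hc₂1
  rw [← hK₁, ← hD] at hKK
  have hsm' : Cg * (K * K₁) ^ Cg * H ^ (θ * (1 - d) / 16) ≤ 1 := by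
    rw [hKK]
    refine le_trans (mul_le_mul_of_nonneg_right ?_ (Real.rpow_nonneg hH.le _)) hsm
    exact k5_cb_cst_le hK (by linarith) (by rw [hC]; linarith) (by rw [hC]; linarith)
  have hex : ∀ g : ℤ, ∃ a : ℝ, g ∈ good → T / (Cg * (K * K₁) ^ Cg) ≤ k5_mass ν {x | x ∈ E ∧ x.2 ∈ I ∧ (x.1, ts) ∈ E ∧
        k5_bin H (k5_S (F ts) (c x.1) tI) = g ∧ a ≤ k5_ksl (F ts) AI tI (c x.1) ∧
        k5_ksl (F ts) AI tI (c x.1) ≤ a + H ^ (θ * (1 - d) / 8)} := by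
    intro g
    by_cases hg : g ∈ good
    · have hg2 := (Finset.mem_filter.mp hg).2
      have e : E₁ ∩ Sg g = {x | x ∈ E ∧ x.2 ∈ I ∧ (x.1, ts) ∈ E ∧ k5_bin H (k5_S (F ts) (c x.1) tI) = g} := by
        ext x; constructor
        · rintro ⟨⟨a, b, c'⟩, e'⟩; exact ⟨a, b, c', e'⟩
        · rintro ⟨a, b, c', e'⟩; exact ⟨⟨a, b, c'⟩, e'⟩
      rw [e] at hg2
      obtain ⟨a, ha⟩ := hCg Λ ν c E F K K₁ ζ H tI ts AI c1 g hK hK₁1 hS hH hH1 hζ htI htsI.1 htsI.2 ⟨l₀, hl₀⟩ hAI hfit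
        hsm' hg2
      exact ⟨a, fun _ => ha⟩
    · exact ⟨0, fun h => absurd h hg⟩
  choose a₁ ha₁ using hex
  refine ⟨ts, a₁, htsI, ⟨l₀, hl₀⟩, ?_⟩
  set R : Set (Λ × ℝ) := {x | x ∈ E ∧ x.2 ∈ I ∧ (x.1, ts) ∈ E ∧
          a₁ (k5_bin H (k5_S (F ts) (c x.1) tI)) ≤ k5_ksl (F ts) AI tI (c x.1) ∧
          k5_ksl (F ts) AI tI (c x.1) ≤ a₁ (k5_bin H (k5_S (F ts) (c x.1) tI)) + H ^ (θ * (1 - d) / 8)} with hR
  have hInR : k5_In R I := fun l t h => h.2.1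
  have hsumR : k5_mass ν R = ∑ g ∈ 𝒩, k5_mass ν (R ∩ Sg g) :=
    k5_mass_sum hIfin hInR 𝒩 Sg (fun g _ => hSgm g) hSgd (by
      intro x hx
      simp only [mem_iUnion, exists_prop]
      exact ⟨gr x, h𝒩 x.1 hx.2.2.1, rfl⟩)
  have hlowR : (good.card : ℝ) * (T / (Cg * (K * K₁) ^ Cg)) ≤ k5_mass ν R := by
    rw [hsumR]
    calc (good.card : ℝ) * (T / (Cg * (K * K₁) ^ Cg)) = ∑ _g ∈ good, T / (Cg * (K * K₁) ^ Cg) := by
          rw [Finset.sum_const, nsmul_eq_mul]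
      _ ≤ ∑ g ∈ good, k5_mass ν (R ∩ Sg g) := by
          apply Finset.sum_le_sum
          intro g hg
          refine le_trans (ha₁ g hg) (le_of_eq ?_)
          congr 1
          ext x; constructor
          · rintro ⟨a, b, c', e', f1, f2⟩
            refine ⟨⟨a, b, c', ?_, ?_⟩, e'⟩
            · rw [e']; exact f1
            · rw [e']; exact f2
          · rintro ⟨⟨a, b, c', f1, f2⟩, e'⟩
            have e'' : k5_bin H (k5_S (F ts) (c x.1) tI) = g := e'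
            rw [e''] at f1 f2
            exact ⟨a, b, c', e'', f1, f2⟩
      _ ≤ ∑ g ∈ 𝒩, k5_mass ν (R ∩ Sg g) :=
          Finset.sum_le_sum_of_subset_of_nonneg (Finset.filter_subset _ _) (fun _ _ _ => k5_mass_nonneg)
  refine le_trans ?_ hlowR
  rw [hKK]
  -- arithmetic
  have hDK0 : 0 < D * K ^ (8 * Cg) := by positivity
  have hfin : 2 * K ^ 2 * (c₃ * K ^ (4 + j)) * (D * K ^ (8 * Cg)) ≤ C * K ^ C := by
    have e : 2 * K ^ 2 * (c₃ * K ^ (4 + j)) * (D * K ^ (8 * Cg)) = (2 * c₃ * D) * K ^ ((6 : ℝ) + j + 8 * Cg) := by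
      rw [Real.rpow_add hK0, show (6 : ℝ) + j = ((6 + j : ℕ) : ℝ) by push_cast; ring, Real.rpow_natCast]
      ring
    rw [e]
    exact k5_cb_cst_le hK hcD (by rw [hC]; linarith) (by rw [hC]; linarith)
  have hCK0 : 0 < C * K ^ C := lt_of_lt_of_le (by positivity) hfin
  rw [div_le_iff₀ hCK0]
  have h1 : H ≤ (good.card : ℝ) * T * (2 * K ^ 2 * (c₃ * K ^ (4 + j))) := by
    have : H / K ^ 2 / 2 ≤ (good.card : ℝ) * (c₃ * K ^ (4 + j) * T) := hpig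
    rw [div_div, div_le_iff₀ (by positivity)] at this
    linarith
  have hgT : 0 ≤ (good.card : ℝ) * T := by positivity
  calc H ≤ (good.card : ℝ) * T * (2 * K ^ 2 * (c₃ * K ^ (4 + j))) := h1
    _ = (good.card : ℝ) * (T / (D * K ^ (8 * Cg))) * (2 * K ^ 2 * (c₃ * K ^ (4 + j)) * (D * K ^ (8 * Cg))) := by
        field_simp
    _ ≤ (good.card : ℝ) * (T / (D * K ^ (8 * Cg))) * (C * K ^ C) :=
        mul_le_mul_of_nonneg_left hfin (by positivity)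

/-- the dyadic block of a time -/
theorem k5_sv_block (k : ℕ) (t : ℝ) (b : ℤ) :
    t ∈ Ico ((b : ℝ) * (1 / 2 : ℝ) ^ k) ((b : ℝ) * (1 / 2 : ℝ) ^ k + (1 / 2 : ℝ) ^ k) ↔ ⌊t * 2 ^ k⌋ = b := by
  have hP : (0 : ℝ) < 2 ^ k := by positivity
  have e : (1 / 2 : ℝ) ^ k = 1 / 2 ^ k := by rw [div_pow, one_pow]
  rw [Int.floor_eq_iff, mem_Ico, e]
  constructor
  · rintro ⟨h1, h2⟩
    constructor
    · rw [mul_one_div, div_le_iff₀ hP] at h1; exact h1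
    · rw [mul_one_div, ← add_div, lt_div_iff₀ hP] at h2; exact h2
  · rintro ⟨h1, h2⟩
    constructor
    · rw [mul_one_div, div_le_iff₀ hP]; exact h1
    · rw [mul_one_div, ← add_div, lt_div_iff₀ hP]; exact h2

/-- the retained labels of one block -/
def k5_svR {Λ : Type} (c : Λ → k5_Co j) (E : Set (Λ × ℝ)) (F : ℝ → Fin j → ℝ) (H tI ts w : ℝ) (AI : Fin j → ℝ)
    (a₁ : ℤ → ℝ) : Set (Λ × ℝ) :=
  {x | x ∈ E ∧ x.2 ∈ Ico tI (tI + H) ∧ (x.1, ts) ∈ E ∧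
    a₁ (k5_bin H (k5_S (F ts) (c x.1) tI)) ≤ k5_ksl (F ts) AI tI (c x.1) ∧
    k5_ksl (F ts) AI tI (c x.1) ≤ a₁ (k5_bin H (k5_S (F ts) (c x.1) tI)) + w}

theorem k5_svR_eqns_cite : True := by
  have := @k5_svR.eq_1
  trivial

theorem k5_svR_meas {Λ : Type} [MeasurableSpace Λ] (c : Λ → k5_Co j) (hc : Measurable c) (E : Set (Λ × ℝ))
    (hE : MeasurableSet E) (F : ℝ → Fin j → ℝ) (H tI ts w : ℝ) (AI : Fin j → ℝ) (a₁ : ℤ → ℝ) :
    MeasurableSet (k5_svR c E F H tI ts w AI a₁) := by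
  have h1 := k5_meas_pair hE hE (fun _ => ts) measurable_const
  have h2 : MeasurableSet {x : Λ × ℝ | x.2 ∈ Ico tI (tI + H)} := measurable_snd measurableSet_Ico
  have hg : Measurable (fun x : Λ × ℝ => a₁ (k5_bin H (k5_S (F ts) (c x.1) tI))) :=
    (Measurable.of_discrete (f := a₁)).comp
      ((k5_cb_meas_bin H).comp ((k5_cb_meas_S (F ts) tI).comp (hc.comp measurable_fst)))
  have hk : Measurable (fun x : Λ × ℝ => k5_ksl (F ts) AI tI (c x.1)) :=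
    (k5_cb_meas_ksl (F ts) AI tI).comp (hc.comp measurable_fst)
  have h3 := measurableSet_le hg hk
  have h4 := measurableSet_le hk (hg.add_const w)
  have e : k5_svR c E F H tI ts w AI a₁ = (({x : Λ × ℝ | x ∈ E ∧ (x.1, ts) ∈ E} ∩ {x : Λ × ℝ | x.2 ∈ Ico tI (tI + H)}) ∩
      {x : Λ × ℝ | a₁ (k5_bin H (k5_S (F ts) (c x.1) tI)) ≤ k5_ksl (F ts) AI tI (c x.1)}) ∩
      {x : Λ × ℝ | k5_ksl (F ts) AI tI (c x.1) ≤ a₁ (k5_bin H (k5_S (F ts) (c x.1) tI)) + w} := by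
    ext x; constructor
    · rintro ⟨a, b, c', f1, f2⟩; exact ⟨⟨⟨⟨a, c'⟩, b⟩, f1⟩, f2⟩
    · rintro ⟨⟨⟨⟨a, c'⟩, b⟩, f1⟩, f2⟩; exact ⟨a, b, c', f1, f2⟩
  rw [e]
  exact ((h1.inter h2).inter h3).inter h4

/-- the cover of `J_1` inside one block -/
theorem k5_sv_cover {Λ : Type} [MeasurableSpace Λ] (ν : Measure Λ) (c : Λ → k5_Co j) (E : Set (Λ × ℝ))
    (F : ℝ → Fin j → ℝ) (d K ζ H tI ts w : ℝ) (AI : Fin j → ℝ) (a₁ : ℤ → ℝ) (hK : 1 ≤ K) (hS : k5_Snd j d K ζ ν c E F)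
    (hH : 0 < H) (hζ : ζ ≤ H) (htI : |tI| ≤ 1) (hts : ts ∈ Ico tI (tI + H)) (hAI : ‖AI‖ ≤ K) (hHw : H ≤ w) (t : ℝ) (z : ℤ) :
    ∃ Z : Finset ℝ, (Z.card : ℝ) ≤ (11 + 10 * j) * K ^ 2 ∧
      ∀ l, (l, t) ∈ k5_svR c E F H tI ts w AI a₁ → k5_bin H (k5_S (F t) (c l) t) = z →
        ∃ b ∈ Z, |k5_J 1 AI (F t) (c l) t - b| ≤ (3 + 3 * j) * K ^ 2 * w := by
  classical
  have hK0 : 0 < K := by linarith
  have hj0 : (0 : ℝ) ≤ j := Nat.cast_nonneg j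
  set m : ℤ := (⌈(3 + 5 * (j : ℝ)) * K ^ 2⌉₊ : ℤ) + 1 with hm
  refine ⟨(Finset.Icc (z - m) (z + m)).image a₁, ?_, ?_⟩
  · have hci : (((Finset.Icc (z - m) (z + m)).image a₁).card : ℝ) ≤ ((Finset.Icc (z - m) (z + m)).card : ℝ) := by
      exact_mod_cast Finset.card_image_le
    refine le_trans hci ?_
    rw [Int.card_Icc]
    have e : z + m + 1 - (z - m) = 2 * m + 1 := by ring
    have hm0 : 0 ≤ 2 * m + 1 := by rw [hm]; positivity
    rw [e]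
    have : (((2 * m + 1).toNat : ℕ) : ℝ) = ((2 * m + 1 : ℤ) : ℝ) := by
      exact_mod_cast congrArg (fun x : ℤ => (x : ℝ)) (Int.toNat_of_nonneg hm0)
    rw [this, hm]
    push_cast
    have hc := (Nat.ceil_lt_add_one (show 0 ≤ (3 + 5 * (j : ℝ)) * K ^ 2 by positivity)).le
    have hKK : 1 ≤ K ^ 2 := by nlinarith
    nlinarith
  · rintro l ⟨hlE, htI', hlts, f1, f2⟩ hz
    simp only at hlE htI' hlts f1 f2
    obtain ⟨ht0, ht1⟩ := hS.tI l t hlE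
    obtain ⟨hts0, hts1⟩ := hS.tI l ts hlts
    have hfs : ‖F ts‖ ≤ K := (hS.tm ts hts0 hts1).fb
    have htt : |t - tI| ≤ H := by
      rw [abs_of_nonneg (by linarith [htI'.1])]; linarith [htI'.2]
    have htts : |t - ts| ≤ H := by
      rw [abs_le]; constructor <;> linarith [htI'.1, htI'.2, hts.1, hts.2]
    have hrow : ‖F t - F ts‖ ≤ 2 * K * H := by
      have := hS.rowc l t l ts hlE hlts
      calc ‖F t - F ts‖ ≤ K * (|t - ts| + ζ) := this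
        _ ≤ K * (H + H) := mul_le_mul_of_nonneg_left (by linarith) hK0.le
        _ = _ := by ring
    have hnear := k5_loc_near (c l) K H tI t (F t) (F ts) hK (hS.cb l) hH htI ht0 ht1.le htt hfs hrow
    have hg := k5_cb_bin_near (a := k5_S (F ts) (c l) tI) (b := k5_S (F t) (c l) t) hH (by rw [abs_sub_comm]; exact hnear)
    rw [hz] at hg
    refine ⟨a₁ (k5_bin H (k5_S (F ts) (c l) tI)), Finset.mem_image_of_mem a₁ hg, ?_⟩
    have hJ := k5_cov_J (c l) K H tI t (F t) (F ts) AI hK (hS.cb l) hH htt hAI hrow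
    set kl := k5_ksl (F ts) AI tI (c l)
    set av := a₁ (k5_bin H (k5_S (F ts) (c l) tI))
    have h2 : |kl - av| ≤ w := by rw [abs_le]; constructor <;> linarith
    have h3 := abs_sub_le (k5_J 1 AI (F t) (c l) t) kl av
    have hw0 : 0 < w := lt_of_lt_of_le hH hHw
    have hKK : 1 ≤ K ^ 2 := by nlinarith
    have h4 : (2 + 3 * (j : ℝ)) * K ^ 2 * H ≤ (2 + 3 * (j : ℝ)) * K ^ 2 * w :=
      mul_le_mul_of_nonneg_left hHw (by positivity)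
    have h5 : w ≤ K ^ 2 * w := le_mul_of_one_le_left hw0.le hKK
    calc _ ≤ (2 + 3 * (j : ℝ)) * K ^ 2 * w + K ^ 2 * w := by linarith
      _ = _ := by ring


/-- **L-252-S5-V4**  **restriction of the trajectory labels and the deterministic cover of `J_1`** at the finest length `H = (1/2)^k` (all blocks).
PROOF.  `H := (1/2)^k`, `n := 2^k` blocks `I_b = [b H, (b+1) H)`, `0 ≤ b < n`; `⌊t 2^k⌋ = b ⟺ t ∈ I_b`.   `mass E = ∑_b mass (rt E I_b)` (`k5_mass_sum`); blocks with mass `< H/(2K)` carry `< 1/(2K)`; each block has mass `≤ H`; so the good blocks carry `≥ 1/(2K)` and number `≥ n/(2K)`.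
`k5_cov_block` (slack `2K`) in every good block: `ts b`, `a₁ b` (`choose`).   `E' := ⋃_{b good} {x ∈ E | x.2 ∈ I_b ∧ (x.1, ts b) ∈ E ∧ slope condition}` : measurable (finite union; `k5_meas_pair`; `a₁ b ∘ bin` is a measurable function because every function on `ℤ` is measurable), `mass E' ≥ (n/(2K)) H/(C K^C)`.
COVER: fix `t`, `z`.   If `t` lies in no good block: `Z := ∅`.   Otherwise `b := ⌊t 2^k⌋`, `tI := b H`, `fs := F (ts b)`.   For `(l,t) ∈ E'` with `bin H (S_l(t)) = z` : `‖F t - fs‖ ≤ K (H + ζ) ≤ 2 K H` (`Snd.rowc`), `|B_l - S_l(t)| ≤ (3 + 5j) K² H` (`k5_loc_near`), so the group `g` of `l` satisfies `|g - z| ≤ (3 + 5 j) K² + 1`: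
`Z := (Finset.Icc (z - m) (z + m)).image (a₁ b)`, `m := ⌈(3 + 5j) K²⌉ + 1`;   `|J_1 - a₁ b g| ≤ |J_1 - k_l| + w ≤ (2 + 3j) K² H + w` (`k5_cov_J`), `H ≤ w`.   ~450 l. -/
theorem k5_slope_cover (j : ℕ) (d θ : ℝ) (hd0 : 0 ≤ d) (hd : d < 1) (hθ : 0 < θ) (hθ1 : θ ≤ 1) :
    ∃ C : ℝ, 1 ≤ C ∧ ∀ (Λ : Type) [MeasurableSpace Λ] (ν : Measure Λ) (c : Λ → k5_Co j) (E : Set (Λ × ℝ))
      (F : ℝ → Fin j → ℝ) (K ζ : ℝ) (k : ℕ) (a0 c1 : ℤ → Fin j → ℝ),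
      1 ≤ K → k5_Snd j d K ζ ν c E F → 1 / K ≤ k5_mass ν E → ζ ≤ ((1 / 2 : ℝ) ^ k) ^ 3 → (∀ b, ‖a0 b‖ ≤ K) →
      (∀ l t, (l, t) ∈ E → ‖F t - (t • a0 ⌊t * 2 ^ k⌋ + c1 ⌊t * 2 ^ k⌋)‖ ≤ K * ((1 / 2 : ℝ) ^ k) ^ (1 + θ)) →
      C * K ^ C * ((1 / 2 : ℝ) ^ k) ^ (θ * (1 - d) / 16) ≤ 1 →
      ∃ E' : Set (Λ × ℝ), MeasurableSet E' ∧ E' ⊆ E ∧ 1 / (C * K ^ C) ≤ k5_mass ν E' ∧
        ∀ (t : ℝ) (z : ℤ), ∃ Z : Finset ℝ, (Z.card : ℝ) ≤ C * K ^ C ∧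
          ∀ l, (l, t) ∈ E' → k5_bin ((1 / 2 : ℝ) ^ k) (k5_S (F t) (c l) t) = z →
            ∃ b ∈ Z, |k5_J 1 (a0 ⌊t * 2 ^ k⌋) (F t) (c l) t - b| ≤ C * K ^ C * ((1 / 2 : ℝ) ^ k) ^ (θ * (1 - d) / 8) := by
  classical
  obtain ⟨Cb, hCb1, hCb⟩ := k5_cov_block j d θ hd0 hd hθ hθ1
  have hj0 : (0 : ℝ) ≤ j := Nat.cast_nonneg j
  set D : ℝ := Cb * 2 ^ Cb with hD
  have hD1 : 1 ≤ D := by
    have : (1 : ℝ) ≤ 2 ^ Cb := Real.one_le_rpow (by norm_num) (by linarith)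
    rw [hD]; nlinarith
  set C : ℝ := 2 * D + Cb + 13 + 10 * j with hC
  refine ⟨C, by rw [hC]; linarith, ?_⟩
  intro Λ _ ν c E F K ζ k a0 c1 hK hS hmass hζ ha0 hfit hsm
  have := hS.prob
  have hK0 : 0 < K := by linarith
  set H : ℝ := (1 / 2 : ℝ) ^ k with hH'
  have hH : 0 < H := by rw [hH']; positivity
  have hH1 : H ≤ 1 := by rw [hH']; exact pow_le_one₀ (by norm_num) (by norm_num)
  have hHP : (2 : ℝ) ^ k * H = 1 := by rw [hH', ← mul_pow]; norm_num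
  have hζH : ζ ≤ H := hζ.trans (pow_le_of_le_one hH.le hH1 (by norm_num))
  set w : ℝ := H ^ (θ * (1 - d) / 8) with hw
  have hHw : H ≤ w := by
    have : θ * (1 - d) / 8 ≤ 1 := by nlinarith
    have h' := Real.rpow_le_rpow_of_exponent_ge hH hH1 this
    rwa [Real.rpow_one] at h'
  have hw0 : 0 < w := lt_of_lt_of_le hH hHw
  set blocks : Finset ℤ := Finset.Ico 0 (2 ^ k) with hblocks
  have hcard : (blocks.card : ℝ) = 2 ^ k := by
    rw [hblocks, Int.card_Ico, sub_zero]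
    have h0 : (0 : ℤ) ≤ 2 ^ k := by positivity
    have : ((((2 : ℤ) ^ k).toNat : ℕ) : ℝ) = (((2 : ℤ) ^ k : ℤ) : ℝ) := by
      exact_mod_cast congrArg (fun x : ℤ => (x : ℝ)) (Int.toNat_of_nonneg h0)
    rw [this]; push_cast; ring
  set Ib : ℤ → Set ℝ := fun b => Ico ((b : ℝ) * H) ((b : ℝ) * H + H) with hIb
  have hIbv : ∀ b, volume.real (Ib b) = H := by
    intro b
    rw [hIb, measureReal_def, Real.volume_Ico, ENNReal.toReal_ofReal (by linarith)]; ring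
  have hIbfin : ∀ b, volume (Ib b) ≠ ⊤ := by
    intro b; simp only [hIb, Real.volume_Ico]; exact ENNReal.ofReal_ne_top
  set Sb : ℤ → Set (Λ × ℝ) := fun b => {x | x.2 ∈ Ib b} with hSb
  have hSbm : ∀ b, MeasurableSet (Sb b) := fun b => measurable_snd measurableSet_Ico
  have hSbd : ((blocks : Set ℤ)).PairwiseDisjoint Sb := by
    intro a _ b _ hab
    rw [Function.onFun, Set.disjoint_left]
    intro x hxa hxb
    exact hab (((k5_sv_block k x.2 a).mp hxa).symm.trans ((k5_sv_block k x.2 b).mp hxb))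
  have h01fin : volume (Ico (0 : ℝ) 1) ≠ ⊤ := by rw [Real.volume_Ico]; exact ENNReal.ofReal_ne_top
  have hInE : k5_In E (Ico 0 1) := fun l t h => hS.tI l t h
  have hblk : ∀ t : ℝ, 0 ≤ t → t < 1 → ⌊t * 2 ^ k⌋ ∈ blocks := by
    intro t ht0 ht1
    rw [hblocks, Finset.mem_Ico]
    constructor
    · exact Int.floor_nonneg.mpr (by positivity)
    · apply Int.floor_lt.mpr
      push_cast
      have : (0 : ℝ) < 2 ^ k := by positivity
      nlinarith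
  have hcovE : ∀ A : Set (Λ × ℝ), A ⊆ E → A ⊆ ⋃ b ∈ blocks, Sb b := by
    intro A hA x hx
    simp only [mem_iUnion, exists_prop]
    obtain ⟨h0, h1⟩ := hS.tI x.1 x.2 (hA hx)
    exact ⟨⌊x.2 * 2 ^ k⌋, hblk x.2 h0 h1, (k5_sv_block k x.2 _).mpr rfl⟩
  have hsum : k5_mass ν E = ∑ b ∈ blocks, k5_mass ν (E ∩ Sb b) :=
    k5_mass_sum h01fin hInE blocks Sb (fun b _ => hSbm b) hSbd (hcovE E le_rfl)
  have hup : ∀ b ∈ blocks, k5_mass ν (E ∩ Sb b) ≤ H := by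
    intro b _
    have h1 := k5_mass_le (ν := ν) (E := E ∩ Sb b) (hIbfin b) (fun l t h => h.2)
    rw [hIbv b] at h1
    simpa using h1
  have hbad : (2 : ℝ) ^ k * (H / (2 * K)) ≤ 1 / K / 2 := by
    have : (2 : ℝ) ^ k * (H / (2 * K)) = ((2 : ℝ) ^ k * H) / (2 * K) := by ring
    rw [this, hHP, div_div, mul_comm K 2]
  have hpig := k5_cb_pigeon blocks (fun b => k5_mass ν (E ∩ Sb b)) (1 / K) (H / (2 * K)) H (2 ^ k)
    (hsum ▸ hmass) hup hcard.le (by positivity) hbad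
  set good : Finset ℤ := blocks.filter (fun b => H / (2 * K) ≤ k5_mass ν (E ∩ Sb b)) with hgood
  have hS2 : k5_Snd j d (2 * K) ζ ν c E F := k5_snd_mono_K hS hK0.le (by linarith)
  have hKK : Cb * (2 * K) ^ Cb = D * K ^ Cb := by
    rw [Real.mul_rpow (by norm_num) hK0.le, hD]; ring
  have hsm' : Cb * (2 * K) ^ Cb * H ^ (θ * (1 - d) / 16) ≤ 1 := by
    rw [hKK]
    refine le_trans (mul_le_mul_of_nonneg_right ?_ (Real.rpow_nonneg hH.le _)) hsm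
    exact k5_cb_cst_le hK (by linarith) (by rw [hC]; linarith) (by rw [hC]; linarith)
  have hex : ∀ b : ℤ, ∃ (ts : ℝ) (a₁ : ℤ → ℝ), b ∈ good → ts ∈ Ib b ∧
      H / (Cb * (2 * K) ^ Cb) ≤ k5_mass ν (k5_svR c E F H ((b : ℝ) * H) ts w (a0 b) a₁) := by
    intro b
    by_cases hb : b ∈ good
    · have hb2 := (Finset.mem_filter.mp hb).2
      obtain ⟨ts, a₁, h1, -, h3⟩ := hCb Λ ν c E F (2 * K) ζ H ((b : ℝ) * H) (a0 b) (c1 b) (by linarith) hS2 hH hH1 hζ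
        ((ha0 b).trans (by linarith)) (by
          intro l t hl ht
          have e := (k5_sv_block k t b).mp ht
          have := hfit l t hl
          rw [e] at this
          refine this.trans (mul_le_mul_of_nonneg_right (by linarith) (Real.rpow_nonneg hH.le _))) hsm' hb2
      exact ⟨ts, a₁, fun _ => ⟨h1, h3⟩⟩
    · exact ⟨0, fun _ => 0, fun h => absurd h hb⟩
  choose ts a₁ hgd using hex
  set Rb : ℤ → Set (Λ × ℝ) := fun b => k5_svR c E F H ((b : ℝ) * H) (ts b) w (a0 b) (a₁ b) with hRb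
  have hRbE : ∀ b, Rb b ⊆ E := fun b x hx => hx.1
  refine ⟨⋃ b ∈ good, Rb b, Finset.measurableSet_biUnion good
    (fun b _ => k5_svR_meas c hS.mc E hS.mE F H _ _ w _ _), ?_, ?_, ?_⟩
  · intro x hx
    simp only [mem_iUnion, exists_prop] at hx
    obtain ⟨b, -, hb⟩ := hx
    exact hRbE b hb
  · set E' : Set (Λ × ℝ) := ⋃ b ∈ good, Rb b with hE'
    have hE'E : E' ⊆ E := by
      intro x hx
      simp only [hE', mem_iUnion, exists_prop] at hx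
      obtain ⟨b, -, hb⟩ := hx
      exact hRbE b hb
    have hInE' : k5_In E' (Ico 0 1) := fun l t h => hS.tI l t (hE'E h)
    have hsum' : k5_mass ν E' = ∑ b ∈ blocks, k5_mass ν (E' ∩ Sb b) :=
      k5_mass_sum h01fin hInE' blocks Sb (fun b _ => hSbm b) hSbd (hcovE E' hE'E)
    have hlow : (good.card : ℝ) * (H / (Cb * (2 * K) ^ Cb)) ≤ k5_mass ν E' := by
      rw [hsum']
      calc (good.card : ℝ) * (H / (Cb * (2 * K) ^ Cb)) = ∑ _b ∈ good, H / (Cb * (2 * K) ^ Cb) := by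
            rw [Finset.sum_const, nsmul_eq_mul]
        _ ≤ ∑ b ∈ good, k5_mass ν (E' ∩ Sb b) := by
            apply Finset.sum_le_sum
            intro b hb
            refine le_trans (hgd b hb).2 ?_
            apply k5_mass_mono (ν := ν) (hIbfin b) (fun l t h => h.2)
            intro x hx
            refine ⟨?_, hx.2.1⟩
            simp only [hE', mem_iUnion, exists_prop]
            exact ⟨b, hb, hx⟩
        _ ≤ ∑ b ∈ blocks, k5_mass ν (E' ∩ Sb b) :=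
            Finset.sum_le_sum_of_subset_of_nonneg (Finset.filter_subset _ _) (fun _ _ _ => k5_mass_nonneg)
    refine le_trans ?_ hlow
    rw [hKK]
    have hfin : 2 * K * (D * K ^ Cb) ≤ C * K ^ C := by
      have e : 2 * K * (D * K ^ Cb) = (2 * D) * K ^ (Cb + 1) := by
        rw [Real.rpow_add hK0, Real.rpow_one]; ring
      rw [e]
      exact k5_cb_cst_le hK (by linarith) (by rw [hC]; linarith) (by rw [hC]; linarith)
    have hDK0 : 0 < D * K ^ Cb := by positivity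
    have hCK0 : 0 < C * K ^ C := lt_of_lt_of_le (by positivity) hfin
    rw [div_le_iff₀ hCK0]
    have h1 : 1 ≤ (good.card : ℝ) * H * (2 * K) := by
      have : 1 / K / 2 ≤ (good.card : ℝ) * H := hpig
      rw [div_div, div_le_iff₀ (by positivity)] at this
      linarith
    calc (1 : ℝ) ≤ (good.card : ℝ) * H * (2 * K) := h1
      _ = (good.card : ℝ) * (H / (D * K ^ Cb)) * (2 * K * (D * K ^ Cb)) := by field_simp
      _ ≤ (good.card : ℝ) * (H / (D * K ^ Cb)) * (C * K ^ C) := mul_le_mul_of_nonneg_left hfin (by positivity)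
  · intro t z
    have hK2 : ∀ a : ℝ, 0 ≤ a → a ≤ C → a * K ^ 2 ≤ C * K ^ C := by
      intro a ha0 haC
      have := k5_cb_cst_le (a₁ := 2) hK ha0 haC (show (2 : ℝ) ≤ C by rw [hC]; linarith)
      rwa [Real.rpow_two] at this
    by_cases hb : ⌊t * 2 ^ k⌋ ∈ good
    · set b : ℤ := ⌊t * 2 ^ k⌋ with hbdef
      have hbb := Finset.mem_Ico.mp (Finset.mem_filter.mp hb).1
      have htI : |(b : ℝ) * H| ≤ 1 := by
        have h0 : (0 : ℝ) ≤ b := by exact_mod_cast hbb.1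
        have h1 : (b : ℝ) ≤ 2 ^ k := by exact_mod_cast hbb.2.le
        rw [abs_of_nonneg (by positivity), ← hHP]
        exact mul_le_mul_of_nonneg_right h1 hH.le
      obtain ⟨Z, hZc, hZ⟩ := k5_sv_cover ν c E F d K ζ H ((b : ℝ) * H) (ts b) w (a0 b) (a₁ b) hK hS hH hζH htI
        (hgd b hb).1 (ha0 b) hHw t z
      refine ⟨Z, hZc.trans (hK2 _ (by positivity) (by rw [hC]; linarith)), ?_⟩
      intro l hl hz
      simp only [mem_iUnion, exists_prop] at hl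
      obtain ⟨b', -, hl'⟩ := hl
      have e : b = b' := (k5_sv_block k t b').mp hl'.2.1
      rw [← e] at hl'
      obtain ⟨v, hv, hv2⟩ := hZ l hl' hz
      refine ⟨v, hv, hv2.trans ?_⟩
      exact mul_le_mul_of_nonneg_right (hK2 _ (by positivity) (by rw [hC]; linarith)) hw0.le
    · refine ⟨∅, by simp; positivity, ?_⟩
      intro l hl _
      simp only [mem_iUnion, exists_prop] at hl
      obtain ⟨b', hb', hl'⟩ := hl
      have e : ⌊t * 2 ^ k⌋ = b' := (k5_sv_block k t b').mp hl'.2.1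
      exact absurd (e ▸ hb') hb

end Claimed.Agent.R252
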