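import Claimed.Agent.R252.S5.Defs

/-!
# Row 252, Sec. 5, ENTROPY AT FIXED TIMES (finite model): CONTRACT      (architect helper55; prefix `k5_`)

Everything here is PAPER-FREE finite probability on `R255.FLaw Λ` (`Λ` a `Fintype` of trajectories, `P` the prior), library `R255/Ent/Basic.lean` (import only).
`Q = P.cnd A` is the prior conditioned on a set `A ⊆ G` of trajectories labelled at the tested time(s).    Error terms: `C (1 + log K) + log (1 / P.pr A)`.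

* `k5_ent_joint`, `k5_ent_tang`, `k5_ent_indep`, `k5_ent_proj`  = Lemma 5.3
* `k5_common_info`                                                = (5.common-information)
* `k5_node_leaf`                                                  = (5.first-jet-entropy) from the deterministic cover
(pair step: `PairContract.lean`; final test: `FinalContract.lean`; tree: `JetContract.lean`)
RULE: statements are frozen; prove IN PLACE; helper lemmas (prefix `k5_`) directly above the theorem that needs them; earlier statements of the file may be used as black boxes.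
-/

set_option autoImplicit false

namespace Claimed.Agent.R252

open MeasureTheory Set
open Claimed.Agent.R255
open scoped BigOperators

variable {j : ℕ}

theorem k5_ent_denom_ev {Λ β : Type} [Fintype Λ] (P : FLaw Λ) (A : Λ → Prop) (hA : 0 < P.pr A) (B : Λ → β) :
    (P.cnd A).ev (fun ω => P.pr (fun l => B l = B ω) / P.pr (fun l => A l ∧ B l = B ω)) ≤ 1 / P.pr A := by
  classical
  have h1 := ent_ev_comp (P.cnd A) B (Finset.univ.image B) (fun ω _ => Finset.mem_image_of_mem B (Finset.mem_univ ω))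
    (fun b => P.pr (fun l => B l = b) / P.pr (fun l => A l ∧ B l = b))
  rw [h1]
  have h2 : ∀ b ∈ Finset.univ.image B, (P.cnd A).pr (fun ω => B ω = b) *
      (P.pr (fun l => B l = b) / P.pr (fun l => A l ∧ B l = b)) ≤ P.pr (fun l => B l = b) / P.pr A := by
    intro b _
    rw [ent_cnd_pr P A hA]
    have hb := ent_pr_nonneg P (fun l => B l = b)
    by_cases h0 : P.pr (fun l => A l ∧ B l = b) = 0
    · rw [h0]
      simp only [zero_div, zero_mul]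
      positivity
    · apply le_of_eq
      field_simp
  refine (Finset.sum_le_sum h2).trans ?_
  rw [← Finset.sum_div]
  exact div_le_div_of_nonneg_right (ent_aux_sum_pr_le P B _) hA.le

/-- **L-252-S5-E1**  (5.denominator-entropy) in the only form used:  if `P(A, Z = z | B = b) ≤ κ` for all `z, b` then `H_Q(Z | B) ≥ log (1/κ) - log (1/P(A))`, `Q = P(· | A)`.
PROOF.  `Q := P.cnd A`.   `ent_entC_eq_ev` : `Q.entC Z B = Q.ev (Q.surC Z B)`, `surC = - log (Q.fib (pair Z B) ω / Q.fib B ω)`.   For `ω` in the support of `Q` (`ent_cnd_supp`: `A ω`, `P.p ω ≠ 0`), by `ent_cnd_pr` :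
`Q.fib (pair Z B) ω = P.pr (A ∧ Z = Z ω ∧ B = B ω) / P.pr A`, `Q.fib B ω = P.pr (A ∧ B = B ω) / P.pr A =: a(ω) / P.pr A`, `a(ω) > 0`.   With `b(ω) := P.pr (B = B ω)` the hypothesis gives `surC ≥ log (1/κ) - log (b/a)`.
`log x ≤ x / c - 1 + log c` (`Real.log_le_sub_one_of_pos` applied to `x / c`) with `c = 1 / P.pr A` : `log (b/a) ≤ P.pr A * (b/a) - 1 + log (1 / P.pr A)`.
Finally `Q.ev (b/a) ≤ 1 / P.pr A` : group by the values `β₀` of `B` (`ent_ev_comp` with `S := univ.image B`): `∑_β₀ Q.pr (B = β₀) * P.pr (B = β₀) / P.pr (A ∧ B = β₀) = ∑_{β₀ : P(A, β₀) > 0} P.pr (B = β₀) / P.pr A ≤ 1 / P.pr A` (`ent_aux_sum_pr_le`).   ~120 l. -/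
theorem k5_ent_denom {Λ α β : Type} [Fintype Λ] (P : FLaw Λ) (A : Λ → Prop) (hA : 0 < P.pr A) (Z : Λ → α) (B : Λ → β)
    (κ : ℝ) (hκ : 0 < κ)
    (h : ∀ z b, P.pr (fun l => A l ∧ Z l = z ∧ B l = b) ≤ κ * P.pr (fun l => B l = b)) :
    Real.log (1 / κ) - Real.log (1 / P.pr A) ≤ (P.cnd A).entC Z B := by
  classical
  rw [ent_entC_eq_ev]
  have hev := k5_ent_denom_ev P A hA B
  have key : ∀ ω, (P.cnd A).p ω ≠ 0 →
      Real.log (1 / κ) - Real.log (1 / P.pr A) + 1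
        - P.pr A * (P.pr (fun l => B l = B ω) / P.pr (fun l => A l ∧ B l = B ω)) ≤ (P.cnd A).surC Z B ω := by
    intro ω hω
    rw [ent_surC_eq_sub _ Z B hω]
    have hs := (ent_cnd_supp P A hA).1 hω
    have hfB : (P.cnd A).fib B ω = P.pr (fun l => A l ∧ B l = B ω) / P.pr A := by
      unfold FLaw.fib
      rw [ent_cnd_pr P A hA]
    have hfp : (P.cnd A).fib (FLaw.pair Z B) ω = P.pr (fun l => A l ∧ Z l = Z ω ∧ B l = B ω) / P.pr A := by
      unfold FLaw.fib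
      rw [ent_cnd_pr P A hA]
      congr 1
      refine ent_pr_congr P fun l _ => ?_
      simp only [FLaw.pair, Prod.mk.injEq]
    have ha : 0 < P.pr (fun l => A l ∧ B l = B ω) := (ent_pr_pos_iff P _).2 ⟨ω, ⟨hs.1, rfl⟩, hs.2⟩
    have hz : 0 < P.pr (fun l => A l ∧ Z l = Z ω ∧ B l = B ω) := (ent_pr_pos_iff P _).2 ⟨ω, ⟨hs.1, rfl, rfl⟩, hs.2⟩
    have hb : 0 < P.pr (fun l => B l = B ω) := (ent_pr_pos_iff P _).2 ⟨ω, rfl, hs.2⟩
    obtain ⟨a, haa⟩ : ∃ a, a = P.pr (fun l => A l ∧ B l = B ω) := ⟨_, rfl⟩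
    obtain ⟨b, hbb⟩ : ∃ b, b = P.pr (fun l => B l = B ω) := ⟨_, rfl⟩
    obtain ⟨z, hzz⟩ : ∃ z, z = P.pr (fun l => A l ∧ Z l = Z ω ∧ B l = B ω) := ⟨_, rfl⟩
    obtain ⟨pA, hpA⟩ : ∃ pA, pA = P.pr A := ⟨_, rfl⟩
    have hzb : z ≤ κ * b := by rw [hzz, hbb]; exact h (Z ω) (B ω)
    rw [hfB, hfp, ← haa, ← hbb, ← hzz, ← hpA]
    rw [← haa] at ha
    rw [← hbb] at hb
    rw [← hzz] at hz
    rw [← hpA] at hA
    rw [Real.log_div ha.ne' hA.ne', Real.log_div hz.ne' hA.ne', one_div, one_div, Real.log_inv, Real.log_inv]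
    have h1 : Real.log z ≤ Real.log κ + Real.log b := by
      rw [← Real.log_mul hκ.ne' hb.ne']
      exact Real.log_le_log hz hzb
    have h2 : Real.log (pA * (b / a)) ≤ pA * (b / a) - 1 := Real.log_le_sub_one_of_pos (by positivity)
    rw [Real.log_mul hA.ne' (by positivity), Real.log_div hb.ne' ha.ne'] at h2
    linarith
  have h3 := ent_ev_mono (P.cnd A) key
  have h4 : (P.cnd A).ev (fun ω => Real.log (1 / κ) - Real.log (1 / P.pr A) + 1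
        - P.pr A * (P.pr (fun l => B l = B ω) / P.pr (fun l => A l ∧ B l = B ω)))
      = Real.log (1 / κ) - Real.log (1 / P.pr A) + 1
        - P.pr A * (P.cnd A).ev (fun ω => P.pr (fun l => B l = B ω) / P.pr (fun l => A l ∧ B l = B ω)) := by
    rw [ent_ev_sub, ent_ev_const, ent_ev_mul_left]
  rw [h4] at h3
  have h5 : P.pr A * (P.cnd A).ev (fun ω => P.pr (fun l => B l = B ω) / P.pr (fun l => A l ∧ B l = B ω)) ≤ 1 := by
    calc _ ≤ P.pr A * (1 / P.pr A) := mul_le_mul_of_nonneg_left hev hA.le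
      _ = 1 := by field_simp
  linarith

/-- **L-252-S5-E2**  (5.common-information).
PROOF.  Everything is a linear identity/inequality between entropies of tuples.   `H(Z|C) = H(Z|B,C) + I(Z;B|C)` (`ent_miC_eq`), `H(Z|B,C) ≤ H(Z|B)` (`ent_entC_anti`), `I(Z;B|C) ≤ I((A,Z);B|C)` (`ent_miC_mono` + `ent_miC_comm`),
`I((A,Z);B|C) = I(A;B|C) + I(Z;B|A,C)` (`ent_miC_chain`), `I(Z;B|A,C) ≤ H(Z|A,C) ≤ H(Z|A)` (`ent_miC_le_left`, `ent_entC_anti`).   ~50 l. -/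
theorem k5_common_info {Λ α β γ δ : Type} [Fintype Λ] (Q : FLaw Λ) (Z : Λ → α) (A : Λ → β) (B : Λ → γ) (C : Λ → δ) :
    Q.entC Z C ≤ Q.entC Z B + Q.entC Z A + Q.miC A B C := by
  have h1 := ent_miC_eq Q Z B C
  have h2 : Q.entC Z (FLaw.pair B C) ≤ Q.entC Z B :=
    ent_entC_anti Q Z (FLaw.pair B C) B fun ω ω' _ _ h => by
      simp only [FLaw.pair, Prod.mk.injEq] at h
      exact h.1
  have h3 : Q.miC Z B C = Q.miC B Z C := ent_miC_comm Q Z B C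
  have h4 : Q.miC B Z C ≤ Q.miC B (FLaw.pair Z A) C :=
    ent_miC_mono Q B (FLaw.pair Z A) Z C fun ω ω' _ _ h _ => by
      simp only [FLaw.pair, Prod.mk.injEq] at h
      exact h.1
  have h5 := ent_miC_chain Q B Z A C
  have h6 : Q.miC B Z (FLaw.pair A C) ≤ Q.entC Z (FLaw.pair A C) := ent_miC_le_right Q B Z (FLaw.pair A C)
  have h7 : Q.entC Z (FLaw.pair A C) ≤ Q.entC Z A :=
    ent_entC_anti Q Z (FLaw.pair A C) A fun ω ω' _ _ h => by
      simp only [FLaw.pair, Prod.mk.injEq] at h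
      exact h.1
  have h8 : Q.miC B A C = Q.miC A B C := ent_miC_comm Q B A C
  linarith

theorem k5_dot_abs_le (f v : Fin j → ℝ) (K r : ℝ) (hf : ∀ b, |f b| ≤ K) (hv : ∀ b, |v b| ≤ r) (hK : 0 ≤ K) :
    |f ⬝ᵥ v| ≤ (j : ℝ) * K * r := by
  unfold dotProduct
  calc |∑ i, f i * v i| ≤ ∑ i, |f i * v i| := Finset.abs_sum_le_sum_abs _ _
    _ ≤ ∑ _i : Fin j, K * r := by
        refine Finset.sum_le_sum fun i _ => ?_
        rw [abs_mul]
        exact mul_le_mul (hf i) (hv i) (abs_nonneg _) hK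
    _ = (j : ℝ) * K * r := by
        rw [Finset.sum_const, Finset.card_univ, Fintype.card_fin, nsmul_eq_mul]; ring

theorem k5_cell_cover (f : Fin j → ℝ) (K r : ℝ) (hK : 1 ≤ K) (hf : ‖f‖ ≤ K) (hr : 0 < r) (k : ℤ) (n : Fin j → ℤ) :
    ∃ (N : ℕ) (a : ℕ → ℝ), (N : ℝ) ≤ 2 + 2 * (j : ℝ) * K ∧ ∀ (c : k5_Co j) (t : ℝ),
      k5_bin r (k5_S f c t) = k → k5_vbin r (k5_y c t) = n →
      ∃ i ∈ Finset.range N, k5_InQ r (a i) (fun b => (n b : ℝ) * r) c t := by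
  have hK0 : 0 ≤ K := by linarith
  have hL : 0 ≤ 1 + 2 * (j : ℝ) * K := by positivity
  refine ⟨⌊1 + 2 * (j : ℝ) * K⌋₊ + 1,
    fun i => (k : ℝ) * r + f ⬝ᵥ (fun b => (n b : ℝ) * r) - (j : ℝ) * K * r + (i : ℝ) * r, ?_, ?_⟩
  · push_cast
    have := Nat.floor_le hL
    linarith
  intro c t hk hn
  have hS := Int.floor_eq_iff.1 hk
  have hS1 : (k : ℝ) * r ≤ k5_S f c t := by
    have := hS.1
    rwa [le_div_iff₀ hr] at this
  have hS2 : k5_S f c t < ((k : ℝ) + 1) * r := by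
    have := hS.2
    rwa [div_lt_iff₀ hr] at this
  have hy : ∀ b, (n b : ℝ) * r ≤ k5_y c t b ∧ k5_y c t b < ((n b : ℝ) + 1) * r := by
    intro b
    have h1 : ⌊k5_y c t b / r⌋ = n b := congrFun hn b
    have h2 := Int.floor_eq_iff.1 h1
    constructor
    · have := h2.1
      rwa [le_div_iff₀ hr] at this
    · have := h2.2
      rwa [div_lt_iff₀ hr] at this
  have hd : |f ⬝ᵥ (fun b => k5_y c t b - (n b : ℝ) * r)| ≤ (j : ℝ) * K * r := by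
    refine k5_dot_abs_le f _ K r (fun b => ?_) (fun b => ?_) hK0
    · exact (norm_le_pi_norm f b).trans hf
    · have := hy b
      rw [abs_le]; constructor <;> nlinarith [this.1, this.2]
  have hsplit : f ⬝ᵥ k5_y c t = f ⬝ᵥ (fun b => (n b : ℝ) * r) + f ⬝ᵥ (fun b => k5_y c t b - (n b : ℝ) * r) := by
    rw [← dotProduct_add]
    congr 1
    funext b
    simp
  have hx : k5_x c t = k5_S f c t + f ⬝ᵥ k5_y c t := by unfold k5_S; ring
  obtain ⟨a0, ha0⟩ : ∃ a0, a0 = (k : ℝ) * r + f ⬝ᵥ (fun b => (n b : ℝ) * r) - (j : ℝ) * K * r := ⟨_, rfl⟩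
  have hd' := abs_le.1 hd
  have hlo : 0 ≤ k5_x c t - a0 := by rw [ha0, hx, hsplit]; linarith [hd'.1]
  have hhi : k5_x c t - a0 ≤ (1 + 2 * (j : ℝ) * K) * r := by rw [ha0, hx, hsplit]; nlinarith [hd'.2]
  have hq0 : 0 ≤ (k5_x c t - a0) / r := div_nonneg hlo hr.le
  refine ⟨⌊(k5_x c t - a0) / r⌋₊, ?_, ?_⟩
  · rw [Finset.mem_range, Nat.lt_succ_iff]
    apply Nat.floor_le_floor
    rw [div_le_iff₀ hr]
    exact hhi
  · have h1 := Nat.floor_le hq0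
    have h2 := Nat.lt_floor_add_one ((k5_x c t - a0) / r)
    rw [le_div_iff₀ hr] at h1
    rw [div_lt_iff₀ hr] at h2
    refine ⟨?_, ?_, fun b => ⟨(hy b).1, ?_⟩⟩
    · show (k : ℝ) * r + f ⬝ᵥ (fun b => (n b : ℝ) * r) - (j : ℝ) * K * r + _ ≤ _
      rw [← ha0]; linarith
    · show _ ≤ (k : ℝ) * r + f ⬝ᵥ (fun b => (n b : ℝ) * r) - (j : ℝ) * K * r + _ + r
      rw [← ha0]; linarith
    · have := (hy b).2
      show _ ≤ (n b : ℝ) * r + r
      linarith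

theorem k5_ent_joint_cap {Λ : Type} [Fintype Λ] (P : FLaw Λ) (c : Λ → k5_Co j) (d K ζ : ℝ)
    (Rs : Set ℝ) (t : ℝ) (f : Fin j → ℝ) (G : Set Λ) (hK : 1 ≤ K)
    (T : k5_Tm j d K ζ Rs (k5_pm P) c t f G) (A : Λ → Prop) (hAG : ∀ l, A l → l ∈ G) (r : ℝ) (hζ : ζ ≤ r) (hr1 : r ≤ 1)
    (k : ℤ) (n : Fin j → ℤ) :
    P.pr (fun l => A l ∧ (k5_bin r (k5_S f (c l) t), k5_vbin r (k5_y (c l) t)) = (k, n))
      ≤ (2 + 2 * (j : ℝ) * K) * (K * r ^ ((j : ℝ) + d)) := by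
  have hr : 0 < r := lt_of_lt_of_le T.z0 hζ
  obtain ⟨N, a, hN, hcov⟩ := k5_cell_cover f K r hK T.fb hr k n
  have h1 : P.pr (fun l => A l ∧ (k5_bin r (k5_S f (c l) t), k5_vbin r (k5_y (c l) t)) = (k, n))
      ≤ P.pr (fun l => ∃ i ∈ Finset.range N, (l ∈ G ∧ k5_InQ r (a i) (fun b => (n b : ℝ) * r) (c l) t)) := by
    refine ent_pr_mono P fun l _ hl => ?_
    obtain ⟨hA, he⟩ := hl
    rw [Prod.mk.injEq] at he
    obtain ⟨i, hi, hq⟩ := hcov (c l) t he.1 he.2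
    exact ⟨i, hi, hAG l hA, hq⟩
  have h2 := ent_pr_exists_le P (Finset.range N)
    (fun i l => l ∈ G ∧ k5_InQ r (a i) (fun b => (n b : ℝ) * r) (c l) t)
  have h3 : ∀ i ∈ Finset.range N, P.pr (fun l => l ∈ G ∧ k5_InQ r (a i) (fun b => (n b : ℝ) * r) (c l) t)
      ≤ K * r ^ ((j : ℝ) + d) := fun i _ => T.cap r (a i) _ hζ hr1
  have h4 := Finset.sum_le_sum h3
  rw [Finset.sum_const, Finset.card_range, nsmul_eq_mul] at h4
  have h5 : 0 ≤ K * r ^ ((j : ℝ) + d) := by positivity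
  calc _ ≤ (N : ℝ) * (K * r ^ ((j : ℝ) + d)) := h1.trans (h2.trans h4)
    _ ≤ _ := mul_le_mul_of_nonneg_right hN h5

/-- **L-252-S5-E3**  Lemma 5.3, the joint lower bound: `H_Q(S_r, y_r) ≥ (j+d) log (1/r) - err`.
PROOF.  `C := 2 + log (2 + j)` or larger.   Fix a value `(k, n)` of the pair of bins.   If `⌊S/r⌋ = k` and `⌊y_b/r⌋ = n b` then `y ∈ ∏ [n b r, n b r + r]` and `x = S + f ⬝ᵥ y` lies in an interval of length `(1 + j K) r`
(`|f ⬝ᵥ (y - y')| ≤ j ‖f‖ ‖y - y'‖`, `‖f‖ ≤ K` by `fb`), which is covered by `N := ⌈1 + j K⌉₊ ≤ 2 + j K` intervals `[a_i, a_i + r]`.   So the event is contained in the union of `N` events `k5_InQ r a_i (n r) (c l) t`, and by `cap` (at `q = r`) and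
`ent_pr_exists_le` : `P.pr (A ∧ pair = (k,n)) ≤ N K r^(j+d) =: η₀`.   Hence every atom of the pair under `Q = P.cnd A` is `≤ η₀ / P.pr A` (`ent_cnd_pr`), and `ent_ge_of_atoms` gives `H_Q ≥ - log (η₀ / P.pr A)`.
`log (r^(j+d)) = (j+d) log r` (`Real.log_rpow`), `log N ≤ log (2 + j) + log K`.   ~200 l. -/
theorem k5_ent_joint (j : ℕ) : ∃ C : ℝ, 1 ≤ C ∧ ∀ (Λ : Type) [Fintype Λ] (P : FLaw Λ) (c : Λ → k5_Co j) (d K ζ : ℝ)
    (Rs : Set ℝ) (t : ℝ) (f : Fin j → ℝ) (G : Set Λ), 0 ≤ d → 1 ≤ K → (∀ l, ‖c l‖ ≤ K) →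
    k5_Tm j d K ζ Rs (k5_pm P) c t f G → ∀ A : Λ → Prop, (∀ l, A l → l ∈ G) → 0 < P.pr A → ∀ r : ℝ, ζ ≤ r → r ≤ 1 →
    ((j : ℝ) + d) * Real.log (1 / r) - (C * (1 + Real.log K) + Real.log (1 / P.pr A))
      ≤ (P.cnd A).ent (fun l => (k5_bin r (k5_S f (c l) t), k5_vbin r (k5_y (c l) t))) := by
  have hj : (0 : ℝ) ≤ j := Nat.cast_nonneg j
  have hl0 : 0 ≤ Real.log (2 + 2 * (j : ℝ)) := Real.log_nonneg (by linarith)
  refine ⟨2 + Real.log (2 + 2 * (j : ℝ)), by linarith, ?_⟩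
  intro Λ _ P c d K ζ Rs t f G _ hK _ T A hAG hA r hζ hr1
  have hr : 0 < r := lt_of_lt_of_le T.z0 hζ
  have hK0 : 0 < K := by linarith
  have hlK : 0 ≤ Real.log K := Real.log_nonneg hK
  obtain ⟨η₀, hη₀⟩ : ∃ η₀, η₀ = (2 + 2 * (j : ℝ) * K) * (K * r ^ ((j : ℝ) + d)) := ⟨_, rfl⟩
  have hrp : 0 < r ^ ((j : ℝ) + d) := Real.rpow_pos_of_pos hr _
  have hN0 : 0 < 2 + 2 * (j : ℝ) * K := by positivity
  have hη : 0 < η₀ := by rw [hη₀]; positivity
  have hat : ∀ ω, (P.cnd A).p ω ≠ 0 →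
      (P.cnd A).fib (fun l => (k5_bin r (k5_S f (c l) t), k5_vbin r (k5_y (c l) t))) ω ≤ η₀ / P.pr A := by
    intro ω _
    unfold FLaw.fib
    rw [ent_cnd_pr P A hA]
    refine div_le_div_of_nonneg_right ?_ hA.le
    rw [hη₀]
    exact k5_ent_joint_cap P c d K ζ Rs t f G hK T A hAG r hζ hr1 _ _
  have h1 := ent_ge_of_atoms (P.cnd A) _ (div_pos hη hA) hat
  refine le_trans ?_ h1
  have e1 : Real.log (1 / (η₀ / P.pr A)) = - Real.log (1 / P.pr A) - Real.log η₀ := by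
    rw [one_div, Real.log_inv, Real.log_div hη.ne' hA.ne', one_div, Real.log_inv]; ring
  have e2 : Real.log η₀ = Real.log (2 + 2 * (j : ℝ) * K) + (Real.log K + ((j : ℝ) + d) * Real.log r) := by
    rw [hη₀, Real.log_mul hN0.ne' (by positivity), Real.log_mul hK0.ne' hrp.ne', Real.log_rpow hr]
  have e3 : Real.log (2 + 2 * (j : ℝ) * K) ≤ Real.log (2 + 2 * (j : ℝ)) + Real.log K := by
    rw [← Real.log_mul (by positivity) hK0.ne']
    refine Real.log_le_log hN0 ?_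
    nlinarith
  have e4 : Real.log (1 / r) = - Real.log r := by rw [one_div, Real.log_inv]
  rw [e1, e2, e4]
  nlinarith

theorem k5_ei_bin_bd {q s : ℝ} {z : ℤ} (hq : 0 < q) (h : k5_bin q s = z) :
    (z : ℝ) * q ≤ s ∧ s ≤ z * q + q := by
  unfold k5_bin at h
  have h1 := Int.floor_le (s / q)
  have h2 := Int.lt_floor_add_one (s / q)
  rw [h] at h1 h2
  rw [le_div_iff₀ hq] at h1
  rw [div_lt_iff₀ hq] at h2
  constructor
  · exact h1
  · nlinarith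

theorem k5_ei_bin_Icc {q lo hi s : ℝ} (hq : 0 < q) (h1 : lo ≤ s) (h2 : s ≤ hi) :
    k5_bin q s ∈ Finset.Icc ⌊lo / q⌋ ⌊hi / q⌋ := by
  rw [Finset.mem_Icc]
  exact ⟨Int.floor_le_floor (div_le_div_of_nonneg_right h1 hq.le),
    Int.floor_le_floor (div_le_div_of_nonneg_right h2 hq.le)⟩

theorem k5_ei_card_Icc {q lo hi : ℝ} (hq : 0 < q) (h : lo ≤ hi) :
    ((Finset.Icc ⌊lo / q⌋ ⌊hi / q⌋).card : ℝ) ≤ (hi - lo) / q + 2 := by
  rw [Int.card_Icc]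
  have h0 : ⌊lo / q⌋ ≤ ⌊hi / q⌋ := Int.floor_le_floor (div_le_div_of_nonneg_right h hq.le)
  have h3 : (((⌊hi / q⌋ + 1 - ⌊lo / q⌋).toNat : ℕ) : ℝ) = ((⌊hi / q⌋ + 1 - ⌊lo / q⌋ : ℤ) : ℝ) := by
    have := Int.toNat_of_nonneg (a := ⌊hi / q⌋ + 1 - ⌊lo / q⌋) (by omega)
    exact_mod_cast this
  rw [h3]
  push_cast
  have h4 := Int.floor_le (hi / q)
  have h5 := Int.lt_floor_add_one (lo / q)
  rw [sub_div]
  linarith

theorem k5_ei_dot {f v : Fin j → ℝ} {K M : ℝ} (hK : 0 ≤ K) (hf : ‖f‖ ≤ K) (hv : ∀ b, |v b| ≤ M) :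
    |f ⬝ᵥ v| ≤ j * K * M := by
  unfold dotProduct
  calc |∑ i, f i * v i| ≤ ∑ i, |f i * v i| := Finset.abs_sum_le_sum_abs _ _
    _ ≤ ∑ _i : Fin j, K * M := Finset.sum_le_sum fun i _ => by
        rw [abs_mul]
        have : |f i| ≤ K := (norm_le_pi_norm f i).trans hf
        exact mul_le_mul this (hv i) (abs_nonneg _) hK
    _ = j * K * M := by simp; ring


theorem k5_ei_cb1 {r : ℝ} (hr : 0 < r) {c : k5_Co j} {B : (Fin 3 → ℤ) × (Fin 2 → Fin j → ℤ)}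
    (h : k5_cbin r c = B) (i : Fin 3) : (B.1 i : ℝ) * r ≤ c.1 i ∧ c.1 i ≤ B.1 i * r + r := by
  refine k5_ei_bin_bd hr ?_
  rw [← h]; rfl

theorem k5_ei_cb2 {r : ℝ} (hr : 0 < r) {c : k5_Co j} {B : (Fin 3 → ℤ) × (Fin 2 → Fin j → ℤ)}
    (h : k5_cbin r c = B) (i : Fin 2) (b : Fin j) :
    (B.2 i b : ℝ) * r ≤ c.2 i b ∧ c.2 i b ≤ B.2 i b * r + r := by
  refine k5_ei_bin_bd hr ?_
  rw [← h]; rfl

/-- inside a coefficient bin every coordinate of `y(t)` lies in an interval of length `2 r` -/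
theorem k5_ei_y_rng {r t : ℝ} (hr : 0 < r) (t0 : 0 ≤ t) (t1 : t ≤ 1) {c : k5_Co j}
    {B : (Fin 3 → ℤ) × (Fin 2 → Fin j → ℤ)} (h : k5_cbin r c = B) (b : Fin j) :
    (B.2 0 b : ℝ) * r + t * (B.2 1 b * r) ≤ k5_y c t b ∧
      k5_y c t b ≤ (B.2 0 b : ℝ) * r + t * (B.2 1 b * r) + 2 * r := by
  have h0 := k5_ei_cb2 hr h 0 b
  have h1 := k5_ei_cb2 hr h 1 b
  unfold k5_y
  constructor
  · nlinarith [mul_le_mul_of_nonneg_left h1.1 t0]
  · nlinarith [mul_le_mul_of_nonneg_left h1.2 t0, mul_le_mul_of_nonneg_right t1 hr.le]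

/-- inside a coefficient bin `x(t)` lies in an interval of length `3 r` -/
theorem k5_ei_x_rng {r t : ℝ} (hr : 0 < r) (t0 : 0 ≤ t) (t1 : t ≤ 1) {c : k5_Co j}
    {B : (Fin 3 → ℤ) × (Fin 2 → Fin j → ℤ)} (h : k5_cbin r c = B) :
    (B.1 0 : ℝ) * r + t * (B.1 1 * r) + t ^ 2 * (B.1 2 * r) ≤ k5_x c t ∧
      k5_x c t ≤ (B.1 0 : ℝ) * r + t * (B.1 1 * r) + t ^ 2 * (B.1 2 * r) + 3 * r := by
  have h0 := k5_ei_cb1 hr h 0
  have h1 := k5_ei_cb1 hr h 1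
  have h2 := k5_ei_cb1 hr h 2
  have t2 : 0 ≤ t ^ 2 := sq_nonneg t
  have t3 : t ^ 2 ≤ 1 := by nlinarith
  unfold k5_x
  constructor
  · nlinarith [mul_le_mul_of_nonneg_left h1.1 t0, mul_le_mul_of_nonneg_left h2.1 t2]
  · nlinarith [mul_le_mul_of_nonneg_left h1.2 t0, mul_le_mul_of_nonneg_left h2.2 t2,
      mul_le_mul_of_nonneg_right t1 hr.le, mul_le_mul_of_nonneg_right t3 hr.le]

/-- a point of `[lo, lo + L q]` lies in one of the `⌈L⌉₊ + 1` intervals `[lo + i q, lo + i q + q]` -/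
theorem k5_ei_cover {q lo L x : ℝ} (hq : 0 < q) (h1 : lo ≤ x) (h2 : x ≤ lo + L * q) :
    ∃ i ∈ Finset.range (⌈L⌉₊ + 1), lo + (i : ℝ) * q ≤ x ∧ x ≤ lo + (i : ℝ) * q + q := by
  have hx : 0 ≤ (x - lo) / q := div_nonneg (by linarith) hq.le
  refine ⟨⌊(x - lo) / q⌋₊, ?_, ?_, ?_⟩
  · rw [Finset.mem_range]
    have h3 : (x - lo) / q ≤ L := by rw [div_le_iff₀ hq]; linarith
    have h4 : ⌊(x - lo) / q⌋₊ ≤ ⌈L⌉₊ := by
      refine (Nat.floor_le_floor h3).trans (Nat.floor_le_ceil L)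
    omega
  · have := Nat.floor_le hx
    rw [le_div_iff₀ hq] at this
    linarith
  · have := Nat.lt_floor_add_one ((x - lo) / q)
    rw [div_lt_iff₀ hq] at this
    nlinarith


/-- step (ii) of `k5_ent_indep` : the cap of one scalar cell inside one coefficient bin -/
theorem k5_ent_indep_cap {Λ : Type} [Fintype Λ] (P : FLaw Λ) (c : Λ → k5_Co j) (d K ζ : ℝ)
    (Rs : Set ℝ) (t : ℝ) (f : Fin j → ℝ) (G : Set Λ) (hK : 1 ≤ K)
    (hT : k5_Tm j d K ζ Rs (k5_pm P) c t f G) (A : Λ → Prop) (hAG : ∀ l, A l → l ∈ G)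
    (q r : ℝ) (hq : ζ ≤ q) (hqr : q ≤ r) (hr : r ∈ Rs) (z : ℤ) (B : (Fin 3 → ℤ) × (Fin 2 → Fin j → ℤ)) :
    P.pr (fun l => A l ∧ k5_bin q (k5_S f (c l) t) = z ∧ k5_cbin r (c l) = B)
      ≤ (4 ^ j * (3 + 2 * j * K) * K * (q / r) ^ d) * P.pr (fun l => k5_cbin r (c l) = B) := by
  have q0 : 0 < q := lt_of_lt_of_le hT.z0 hq
  have r0 : 0 < r := lt_of_lt_of_le q0 hqr
  have K0 : 0 ≤ K := by linarith
  set lo : Fin j → ℝ := fun b => (B.2 0 b : ℝ) * r + t * (B.2 1 b * r) with hlo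
  set I : Finset (Fin j → ℤ) :=
    Fintype.piFinset fun b => Finset.Icc ⌊lo b / q⌋ ⌊(lo b + 2 * r) / q⌋ with hI
  set N : ℕ := ⌈1 + 2 * (j : ℝ) * K⌉₊ + 1 with hN
  set a : (Fin j → ℤ) → ℝ := fun n => (z : ℝ) * q + f ⬝ᵥ (fun b => (n b : ℝ) * q) - j * K * q with ha
  set E : (Fin j → ℤ) × ℕ → Λ → Prop := fun x l =>
    l ∈ G ∧ k5_cbin r (c l) = B ∧ k5_InQ q (a x.1 + (x.2 : ℝ) * q) (fun b => (x.1 b : ℝ) * q) (c l) t with hE
  have pB0 : 0 ≤ P.pr (fun l => k5_cbin r (c l) = B) := ent_pr_nonneg P _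
  have s1 : P.pr (fun l => A l ∧ k5_bin q (k5_S f (c l) t) = z ∧ k5_cbin r (c l) = B)
      ≤ P.pr (fun l => ∃ x ∈ I ×ˢ Finset.range N, E x l) := by
    refine ent_pr_mono P fun l _ hl => ?_
    obtain ⟨hA, hz, hB⟩ := hl
    have hy : ∀ b, ((k5_vbin q (k5_y (c l) t) b : ℤ) : ℝ) * q ≤ k5_y (c l) t b ∧
        k5_y (c l) t b ≤ (k5_vbin q (k5_y (c l) t) b : ℤ) * q + q := fun b =>
      k5_ei_bin_bd q0 rfl
    have hS := k5_ei_bin_bd q0 hz
    have hdot : |f ⬝ᵥ (fun b => k5_y (c l) t b - (k5_vbin q (k5_y (c l) t) b : ℤ) * q)| ≤ j * K * q := by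
      refine k5_ei_dot K0 hT.fb fun b => ?_
      rw [abs_le]
      constructor <;> linarith [(hy b).1, (hy b).2]
    have hsplit : f ⬝ᵥ (fun b => k5_y (c l) t b - (k5_vbin q (k5_y (c l) t) b : ℤ) * q)
        = f ⬝ᵥ k5_y (c l) t - f ⬝ᵥ (fun b => ((k5_vbin q (k5_y (c l) t) b : ℤ) : ℝ) * q) := by
      rw [← dotProduct_sub]; rfl
    rw [hsplit, abs_le] at hdot
    have hx : k5_x (c l) t = k5_S f (c l) t + f ⬝ᵥ k5_y (c l) t := by unfold k5_S; ring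
    obtain ⟨i, hi, hi1, hi2⟩ := k5_ei_cover (q := q) (lo := a (k5_vbin q (k5_y (c l) t)))
      (L := 1 + 2 * (j : ℝ) * K) (x := k5_x (c l) t) q0
      (by simp only [ha]; linarith [hdot.1, hS.1]) (by simp only [ha]; linarith [hdot.2, hS.2])
    refine ⟨(k5_vbin q (k5_y (c l) t), i), ?_, hAG l hA, hB, hi1, hi2, hy⟩
    rw [Finset.mem_product]
    refine ⟨?_, hi⟩
    rw [hI, Fintype.mem_piFinset]
    intro b
    have := k5_ei_y_rng r0 hT.t0 hT.t1 hB b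
    exact k5_ei_bin_Icc q0 this.1 this.2
  have s2 := ent_pr_exists_le P (I ×ˢ Finset.range N) E
  have s3 : ∀ x ∈ I ×ˢ Finset.range N, P.pr (E x)
      ≤ K * (q / r) ^ ((j : ℝ) + d) * P.pr (fun l => k5_cbin r (c l) = B) := fun x _ =>
    hT.bcap r hr q (a x.1 + (x.2 : ℝ) * q) (fun b => (x.1 b : ℝ) * q) B hq hqr
  have s4 : ∑ x ∈ I ×ˢ Finset.range N, P.pr (E x)
      ≤ ((I ×ˢ Finset.range N).card : ℝ) * (K * (q / r) ^ ((j : ℝ) + d) * P.pr (fun l => k5_cbin r (c l) = B)) := by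
    have := Finset.sum_le_card_nsmul _ _ _ s3
    rwa [nsmul_eq_mul] at this
  have rq1 : 1 ≤ r / q := by rw [le_div_iff₀ q0]; linarith
  have cI : (I.card : ℝ) ≤ (4 * (r / q)) ^ j := by
    rw [hI, Fintype.card_piFinset]
    push_cast
    calc ∏ b : Fin j, ((Finset.Icc ⌊lo b / q⌋ ⌊(lo b + 2 * r) / q⌋).card : ℝ)
        ≤ ∏ _b : Fin j, 4 * (r / q) := by
          refine Finset.prod_le_prod (fun _ _ => Nat.cast_nonneg _) fun b _ => ?_
          refine (k5_ei_card_Icc q0 (by linarith)).trans ?_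
          have : (lo b + 2 * r - lo b) / q = 2 * (r / q) := by ring
          rw [this]; linarith
      _ = (4 * (r / q)) ^ j := by simp
  have cN : (N : ℝ) ≤ 3 + 2 * j * K := by
    rw [hN]; push_cast
    have := Nat.ceil_lt_add_one (a := 1 + 2 * (j : ℝ) * K) (by positivity)
    linarith
  have cs : ((I ×ˢ Finset.range N).card : ℝ) ≤ (4 * (r / q)) ^ j * (3 + 2 * j * K) := by
    rw [Finset.card_product, Finset.card_range]; push_cast
    exact mul_le_mul cI cN (Nat.cast_nonneg _) (by positivity)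
  have qr0 : 0 < q / r := div_pos q0 r0
  have e1 : (q / r) ^ ((j : ℝ) + d) = (q / r) ^ j * (q / r) ^ d := by
    rw [Real.rpow_add qr0, Real.rpow_natCast]
  have e2 : (4 * (r / q)) ^ j * (q / r) ^ j = 4 ^ j := by
    rw [← mul_pow]
    congr 1
    field_simp
  have pd0 : 0 ≤ (q / r) ^ d := Real.rpow_nonneg qr0.le d
  calc P.pr (fun l => A l ∧ k5_bin q (k5_S f (c l) t) = z ∧ k5_cbin r (c l) = B)
      ≤ ((I ×ˢ Finset.range N).card : ℝ) * (K * (q / r) ^ ((j : ℝ) + d) * P.pr (fun l => k5_cbin r (c l) = B)) :=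
        s1.trans (s2.trans s4)
    _ ≤ ((4 * (r / q)) ^ j * (3 + 2 * j * K)) * (K * (q / r) ^ ((j : ℝ) + d) * P.pr (fun l => k5_cbin r (c l) = B)) := by
        refine mul_le_mul_of_nonneg_right cs ?_
        rw [e1]; positivity
    _ = ((4 * (r / q)) ^ j * (q / r) ^ j) * (3 + 2 * j * K) * K * (q / r) ^ d * P.pr (fun l => k5_cbin r (c l) = B) := by
        rw [e1]; ring
    _ = (4 ^ j * (3 + 2 * j * K) * K * (q / r) ^ d) * P.pr (fun l => k5_cbin r (c l) = B) := by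
        rw [e2]


/-- step (iii) of `k5_ent_indep` : inside a coefficient bin the scalar meets few cells of the mesh `r` -/
theorem k5_ei_Sr_nval {Λ : Type} [Fintype Λ] (Q : FLaw Λ) (c : Λ → k5_Co j) (K : ℝ) (t : ℝ) (f : Fin j → ℝ)
    (hK : 1 ≤ K) (t0 : 0 ≤ t) (t1 : t ≤ 1) (hf : ‖f‖ ≤ K) (r : ℝ) (r0 : 0 < r) :
    Q.entC (fun l => k5_bin r (k5_S f (c l) t)) (fun l => k5_cbin r (c l)) ≤ Real.log (8 + 4 * j * K) := by
  have K0 : 0 ≤ K := by linarith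
  refine ent_entC_le_log_nval Q _ _ fun ω₀ => ?_
  set S0 : ℝ := k5_S f (c ω₀) t with hS0
  set M : ℝ := (3 + 2 * (j : ℝ) * K) * r with hM
  have M0 : 0 ≤ M := by positivity
  refine ⟨Finset.Icc ⌊(S0 - M) / r⌋ ⌊(S0 + M) / r⌋, ?_, fun ω _ _ hω => ?_⟩
  · refine (k5_ei_card_Icc r0 (by linarith)).trans ?_
    have : (S0 + M - (S0 - M)) / r = 2 * (3 + 2 * (j : ℝ) * K) := by
      rw [hM]; field_simp; ring
    rw [this]; linarith
  · have hx := k5_ei_x_rng r0 t0 t1 (c := c ω) (B := k5_cbin r (c ω₀)) hω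
    have hx0 := k5_ei_x_rng r0 t0 t1 (c := c ω₀) (B := k5_cbin r (c ω₀)) rfl
    have hdot : |f ⬝ᵥ (k5_y (c ω) t - k5_y (c ω₀) t)| ≤ j * K * (2 * r) := by
      refine k5_ei_dot K0 hf fun b => ?_
      have hy := k5_ei_y_rng r0 t0 t1 (c := c ω) (B := k5_cbin r (c ω₀)) hω b
      have hy0 := k5_ei_y_rng r0 t0 t1 (c := c ω₀) (B := k5_cbin r (c ω₀)) rfl b
      rw [Pi.sub_apply, abs_le]
      constructor <;> linarith [hy.1, hy.2, hy0.1, hy0.2]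
    rw [dotProduct_sub, abs_le] at hdot
    have e1 : k5_S f (c ω) t = k5_x (c ω) t - f ⬝ᵥ k5_y (c ω) t := rfl
    have e2 : S0 = k5_x (c ω₀) t - f ⬝ᵥ k5_y (c ω₀) t := rfl
    refine k5_ei_bin_Icc r0 ?_ ?_
    · rw [e1, e2, hM]; nlinarith [hx.1, hx.2, hx0.1, hx0.2, hdot.1, hdot.2]
    · rw [e1, e2, hM]; nlinarith [hx.1, hx.2, hx0.1, hx0.2, hdot.1, hdot.2]

theorem k5_ei_c1 {c : k5_Co j} {K : ℝ} (h : ‖c‖ ≤ K) (i : Fin 3) : |c.1 i| ≤ K :=
  ((norm_le_pi_norm c.1 i).trans (norm_fst_le c)).trans h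

theorem k5_ei_c2 {c : k5_Co j} {K : ℝ} (h : ‖c‖ ≤ K) (i : Fin 2) (b : Fin j) : |c.2 i b| ≤ K :=
  ((norm_le_pi_norm (c.2 i) b).trans ((norm_le_pi_norm c.2 i).trans (norm_snd_le c))).trans h

theorem k5_ei_y_abs {c : k5_Co j} {K t : ℝ} (h : ‖c‖ ≤ K) (t0 : 0 ≤ t) (t1 : t ≤ 1) (b : Fin j) :
    |k5_y c t b| ≤ 2 * K := by
  have h0 := k5_ei_c2 h 0 b
  have h1 := k5_ei_c2 h 1 b
  unfold k5_y
  calc |c.2 0 b + t * c.2 1 b| ≤ |c.2 0 b| + |t * c.2 1 b| := abs_add_le _ _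
    _ = |c.2 0 b| + t * |c.2 1 b| := by rw [abs_mul, abs_of_nonneg t0]
    _ ≤ K + 1 * K := add_le_add h0 (mul_le_mul t1 h1 (abs_nonneg _) zero_le_one)
    _ = 2 * K := by ring

theorem k5_ei_x_abs {c : k5_Co j} {K t : ℝ} (h : ‖c‖ ≤ K) (t0 : 0 ≤ t) (t1 : t ≤ 1) :
    |k5_x c t| ≤ 3 * K := by
  have h0 := k5_ei_c1 h 0
  have h1 := k5_ei_c1 h 1
  have h2 := k5_ei_c1 h 2
  have t2 : 0 ≤ t ^ 2 := sq_nonneg t
  have t3 : t ^ 2 ≤ 1 := by nlinarith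
  unfold k5_x
  calc |c.1 0 + t * c.1 1 + t ^ 2 * c.1 2| ≤ |c.1 0| + |t * c.1 1| + |t ^ 2 * c.1 2| := abs_add_three _ _ _
    _ = |c.1 0| + t * |c.1 1| + t ^ 2 * |c.1 2| := by rw [abs_mul, abs_mul, abs_of_nonneg t0, abs_of_nonneg t2]
    _ ≤ K + 1 * K + 1 * K := add_le_add (add_le_add h0 (mul_le_mul t1 h1 (abs_nonneg _) zero_le_one))
        (mul_le_mul t3 h2 (abs_nonneg _) zero_le_one)
    _ = 3 * K := by ring

theorem k5_ei_S_abs {c : k5_Co j} {f : Fin j → ℝ} {K t : ℝ} (hK : 0 ≤ K) (h : ‖c‖ ≤ K) (hf : ‖f‖ ≤ K)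
    (t0 : 0 ≤ t) (t1 : t ≤ 1) : |k5_S f c t| ≤ 3 * K + j * K * (2 * K) := by
  unfold k5_S
  calc |k5_x c t - f ⬝ᵥ k5_y c t| ≤ |k5_x c t| + |f ⬝ᵥ k5_y c t| := abs_sub _ _
    _ ≤ 3 * K + j * K * (2 * K) := add_le_add (k5_ei_x_abs h t0 t1) (k5_ei_dot hK hf (k5_ei_y_abs h t0 t1))

/-- **L-252-S5-E4**  Lemma 5.3 (5.tangential-entropy), lower bound.
PROOF.  `H(y_r | S_r) = H(S_r, y_r) - H(S_r)` (`FLaw.entC`, `ent_pair_comm`);  first term: `k5_ent_joint`.   `H_Q(S_r) ≤ log #values` (`ent_le_log_card`): on `G`, `|S| ≤ |x| + j K ‖y‖ ≤ 3 K + 2 j K² =: M₀` (`‖c l‖ ≤ K`, `0 ≤ t ≤ 1`);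
cover `[-M₀, M₀]` by `⌈2 M₀⌉₊` unit intervals `[a, a+1]`; `supp` with `(q, r) := (r, 1)` gives for each a `Finset` of `≤ K (1/r)^d` bins; take the union: `#values ≤ (2 M₀ + 1) K r^(-d)`.   The support of `Q` is inside `A ⊆ G` (`ent_cnd_supp`).   ~150 l. -/
theorem k5_ent_tang (j : ℕ) : ∃ C : ℝ, 1 ≤ C ∧ ∀ (Λ : Type) [Fintype Λ] (P : FLaw Λ) (c : Λ → k5_Co j) (d K ζ : ℝ)
    (Rs : Set ℝ) (t : ℝ) (f : Fin j → ℝ) (G : Set Λ), 0 ≤ d → 1 ≤ K → (∀ l, ‖c l‖ ≤ K) →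
    k5_Tm j d K ζ Rs (k5_pm P) c t f G → ∀ A : Λ → Prop, (∀ l, A l → l ∈ G) → 0 < P.pr A → ∀ r : ℝ, ζ ≤ r → r ≤ 1 →
    (j : ℝ) * Real.log (1 / r) - (C * (1 + Real.log K) + Real.log (1 / P.pr A))
      ≤ (P.cnd A).entC (fun l => k5_vbin r (k5_y (c l) t)) (fun l => k5_bin r (k5_S f (c l) t)) := by
  obtain ⟨C1, hC1, H1⟩ := k5_ent_joint j
  have j0 : (0 : ℝ) ≤ j := Nat.cast_nonneg j
  have l1 : 0 ≤ Real.log (8 + 4 * (j : ℝ)) := Real.log_nonneg (by linarith)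
  refine ⟨C1 + 3 + Real.log (8 + 4 * (j : ℝ)), by linarith, ?_⟩
  intro Λ _ P c d K ζ Rs t f G hd hK hc hT A hAG hA r hr hr1
  have r0 : 0 < r := lt_of_lt_of_le hT.z0 hr
  have K0 : 0 < K := by linarith
  have lK : 0 ≤ Real.log K := Real.log_nonneg hK
  have h1 := H1 Λ P c d K ζ Rs t f G hd hK hc hT A hAG hA r hr hr1
  set Q := P.cnd A with hQ
  set Sr : Λ → ℤ := fun l => k5_bin r (k5_S f (c l) t) with hSr
  set Y : Λ → Fin j → ℤ := fun l => k5_vbin r (k5_y (c l) t) with hY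
  set M0 : ℝ := 3 * K + j * K * (2 * K) with hM0
  have M00 : 0 ≤ M0 := by positivity
  -- the support count
  choose Z hZ1 hZ2 using fun a : ℝ => hT.supp r 1 a hr hr1 le_rfl
  set N : ℕ := ⌈2 * M0⌉₊ + 1 with hN
  set U : Finset ℤ := (Finset.range N).biUnion fun i => Z (-M0 + (i : ℝ) * 1) with hU
  have hmem : ∀ ω, Q.p ω ≠ 0 → Sr ω ∈ U := by
    intro ω hω
    have hG : ω ∈ G := hAG ω ((ent_cnd_supp P A hA).1 hω).1
    have hS := k5_ei_S_abs K0.le (hc ω) hT.fb hT.t0 hT.t1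
    rw [abs_le] at hS
    obtain ⟨i, hi, hi1, hi2⟩ := k5_ei_cover (q := 1) (lo := -M0) (L := 2 * M0) (x := k5_S f (c ω) t)
      one_pos hS.1 (by linarith [hS.2])
    rw [hU, Finset.mem_biUnion]
    exact ⟨i, hi, hZ2 _ ω hG hi1 hi2⟩
  have h2 : Q.ent Sr ≤ Real.log U.card := ent_le_log_card Q Sr U hmem
  have hUpos : 0 < U.card := by
    obtain ⟨ω, hω⟩ := ent_exists_supp Q
    exact Finset.card_pos.2 ⟨_, hmem ω hω⟩
  have rd0 : 0 < (1 / r) ^ d := Real.rpow_pos_of_pos (by positivity) d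
  have hUc : (U.card : ℝ) ≤ (8 + 4 * (j : ℝ)) * K ^ 2 * (K * (1 / r) ^ d) := by
    have a1 : U.card ≤ ∑ i ∈ Finset.range N, (Z (-M0 + (i : ℝ) * 1)).card := Finset.card_biUnion_le
    have a2 : (U.card : ℝ) ≤ ∑ i ∈ Finset.range N, ((Z (-M0 + (i : ℝ) * 1)).card : ℝ) := by exact_mod_cast a1
    have a3 : ∑ i ∈ Finset.range N, ((Z (-M0 + (i : ℝ) * 1)).card : ℝ) ≤ (N : ℝ) * (K * (1 / r) ^ d) := by
      have := Finset.sum_le_card_nsmul (Finset.range N) (fun i => ((Z (-M0 + (i : ℝ) * 1)).card : ℝ))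
        (K * (1 / r) ^ d) fun i _ => hZ1 _
      rwa [Finset.card_range, nsmul_eq_mul] at this
    have a4 : (N : ℝ) ≤ (8 + 4 * (j : ℝ)) * K ^ 2 := by
      rw [hN]; push_cast
      have := Nat.ceil_lt_add_one (a := 2 * M0) (by positivity)
      have k2 : K ≤ K ^ 2 := by nlinarith
      have k3 : 1 ≤ K ^ 2 := by nlinarith
      rw [hM0] at this ⊢
      nlinarith
    exact a2.trans (a3.trans (mul_le_mul_of_nonneg_right a4 (by positivity)))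
  have h3 : Real.log U.card ≤ Real.log (8 + 4 * (j : ℝ)) + 3 * Real.log K + d * Real.log (1 / r) := by
    refine (Real.log_le_log (by exact_mod_cast hUpos) hUc).trans (le_of_eq ?_)
    rw [Real.log_mul (by positivity) (by positivity), Real.log_mul (by positivity) (by positivity),
      Real.log_mul K0.ne' rd0.ne', Real.log_pow, Real.log_rpow (by positivity)]
    push_cast; ring
  have h4 : Q.entC Y Sr = Q.ent (fun l => (Sr l, Y l)) - Q.ent Sr := by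
    unfold FLaw.entC
    rw [ent_pair_comm]; rfl
  rw [h4]
  nlinarith [mul_nonneg l1 lK]

/-- **L-252-S5-E5**  Lemma 5.3 (5.entropy-independence): `I_Q(S_q ; l_r | S_r) ≤ err` for `q ≤ r`, `r ∈ Rs`.
PROOF.  `I(S_q; B | S_r) = H(S_q | S_r) - H(S_q | B, S_r)` (`ent_miC_eq`), `B := l_r`.
(i) `H_Q(S_q | S_r) ≤ log (K (r/q)^d)` : `ent_entC_le_log_nval`, `NVal` from `supp` with `a := k r` (`⌊S/r⌋ = k ⟹ k r ≤ S ≤ k r + r`).
(ii) `H_Q(S_q | B) ≥ d log (r/q) - log c₀ - log (1/P(A))` by `k5_ent_denom` with `κ := c₀ (q/r)^d`, `c₀ := 4^j (2 + j K) K` : inside one coefficient bin `B` every `y_b(t) = c.2 0 b + t c.2 1 b` ranges in an interval of length `2 r`, which meets `≤ 2 r / q + 2 ≤ 4 r / q` cells of the mesh `q`;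
for a fixed cell of `y` and a fixed cell of `S`, `x` lies in an interval of length `(1 + j K) q`, covered by `≤ 2 + j K` intervals of length `q`; `bcap` for each of the `≤ (4 r / q)^j (2 + j K)` cubes: `K (q/r)^(j+d) P(B)`.
(iii) `H_Q(S_r | B) ≤ log (5 + 2 j K)` : inside `B`, `S` varies by `≤ (3 + 2 j K) r`.
(iv) `H(S_q | B, S_r) ≥ H(S_q | B) - H(S_r | B)` (chain rule `ent_entC_chain` + `ent_entC_nonneg`).   Add up; the terms `d log (r/q)` cancel.   ~350 l.; prove (ii) as a separate lemma `k5_ent_indep_cap`. -/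
theorem k5_ent_indep (j : ℕ) : ∃ C : ℝ, 1 ≤ C ∧ ∀ (Λ : Type) [Fintype Λ] (P : FLaw Λ) (c : Λ → k5_Co j) (d K ζ : ℝ)
    (Rs : Set ℝ) (t : ℝ) (f : Fin j → ℝ) (G : Set Λ), 0 ≤ d → 1 ≤ K → (∀ l, ‖c l‖ ≤ K) →
    k5_Tm j d K ζ Rs (k5_pm P) c t f G → ∀ A : Λ → Prop, (∀ l, A l → l ∈ G) → 0 < P.pr A →
    ∀ q r : ℝ, ζ ≤ q → q ≤ r → r ≤ 1 → r ∈ Rs →
    (P.cnd A).miC (fun l => k5_bin q (k5_S f (c l) t)) (fun l => k5_cbin r (c l)) (fun l => k5_bin r (k5_S f (c l) t))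
      ≤ C * (1 + Real.log K) + Real.log (1 / P.pr A) := by
  have l1 : 0 ≤ Real.log (4 ^ j * (3 + 2 * (j : ℝ))) := Real.log_nonneg (by
    have : (1 : ℝ) ≤ 4 ^ j := one_le_pow₀ (by norm_num)
    have h2 : (1 : ℝ) ≤ 3 + 2 * (j : ℝ) := by have := Nat.cast_nonneg (α := ℝ) j; linarith
    nlinarith)
  have l2 : 0 ≤ Real.log (8 + 4 * (j : ℝ)) := Real.log_nonneg (by
    have := Nat.cast_nonneg (α := ℝ) j; linarith)
  refine ⟨4 + Real.log (4 ^ j * (3 + 2 * (j : ℝ))) + Real.log (8 + 4 * (j : ℝ)), by linarith, ?_⟩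
  intro Λ _ P c d K ζ Rs t f G hd hK _ hT A hAG hA q r hq hqr hr1 hr
  have q0 : 0 < q := lt_of_lt_of_le hT.z0 hq
  have r0 : 0 < r := lt_of_lt_of_le q0 hqr
  have K0 : 0 < K := by linarith
  have j0 : (0 : ℝ) ≤ j := Nat.cast_nonneg j
  have lK : 0 ≤ Real.log K := Real.log_nonneg hK
  set Q := P.cnd A with hQ
  set Sq : Λ → ℤ := fun l => k5_bin q (k5_S f (c l) t) with hSq
  set Sr : Λ → ℤ := fun l => k5_bin r (k5_S f (c l) t) with hSr
  set B : Λ → (Fin 3 → ℤ) × (Fin 2 → Fin j → ℤ) := fun l => k5_cbin r (c l) with hB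
  have rq0 : 0 < r / q := div_pos r0 q0
  have qr0 : 0 < q / r := div_pos q0 r0
  -- (i)
  have i1 : Q.entC Sq Sr ≤ Real.log (K * (r / q) ^ d) := by
    refine ent_entC_le_log_nval Q _ _ fun ω₀ => ?_
    obtain ⟨Z, hZ1, hZ2⟩ := hT.supp q r ((Sr ω₀ : ℝ) * r) hq hqr hr1
    refine ⟨Z, hZ1, fun ω hω _ h => ?_⟩
    have hb := k5_ei_bin_bd r0 h
    exact hZ2 ω (hAG ω ((ent_cnd_supp P A hA).1 hω).1) hb.1 hb.2
  -- (ii)
  set κ : ℝ := 4 ^ j * (3 + 2 * j * K) * K * (q / r) ^ d with hκ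
  have κ0 : 0 < κ := by
    have := Real.rpow_pos_of_pos qr0 d
    positivity
  have i2 : Real.log (1 / κ) - Real.log (1 / P.pr A) ≤ Q.entC Sq B :=
    k5_ent_denom P A hA Sq B κ κ0 fun z b =>
      k5_ent_indep_cap P c d K ζ Rs t f G hK hT A hAG q r hq hqr hr z b
  -- (iii)
  have i3 : Q.entC Sr B ≤ Real.log (8 + 4 * j * K) :=
    k5_ei_Sr_nval Q c K t f hK hT.t0 hT.t1 hT.fb r r0
  -- (iv)
  have i4 : Q.entC Sq B - Q.entC Sr B ≤ Q.entC Sq (FLaw.pair B Sr) := by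
    have h1 := ent_entC_chain Q Sr Sq B
    have h2 : Q.entC Sq B ≤ Q.entC (FLaw.pair Sr Sq) B :=
      ent_entC_mono Q (FLaw.pair Sr Sq) Sq B fun ω ω' _ _ h _ => congrArg Prod.snd h
    have h3 : Q.entC Sq (FLaw.pair Sr B) = Q.entC Sq (FLaw.pair B Sr) := by
      refine ent_entC_congr Q _ _ _ _ (fun ω ω' _ _ => ?_) fun _ _ _ _ _ => Iff.rfl
      simp only [FLaw.pair, Prod.mk.injEq]
      exact and_comm
    linarith
  rw [ent_miC_eq]
  -- logarithms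
  have g1 : Real.log (K * (r / q) ^ d) = Real.log K + d * Real.log (r / q) := by
    rw [Real.log_mul K0.ne' (Real.rpow_pos_of_pos rq0 d).ne', Real.log_rpow rq0]
  have g2 : Real.log (1 / κ) = - (Real.log (4 ^ j * (3 + 2 * j * K)) + Real.log K + d * Real.log (q / r)) := by
    rw [one_div, Real.log_inv, hκ, Real.log_mul (by positivity) (Real.rpow_pos_of_pos qr0 d).ne',
      Real.log_mul (by positivity) K0.ne', Real.log_rpow qr0]
  have g3 : Real.log (q / r) = - Real.log (r / q) := by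
    rw [← Real.log_inv, inv_div]
  have g4 : Real.log (4 ^ j * (3 + 2 * j * K)) ≤ Real.log (4 ^ j * (3 + 2 * (j : ℝ))) + Real.log K := by
    rw [← Real.log_mul (by positivity) K0.ne']
    refine Real.log_le_log (by positivity) ?_
    have : (0 : ℝ) < 4 ^ j := by positivity
    have h5 : 3 + 2 * (j : ℝ) * K ≤ (3 + 2 * (j : ℝ)) * K := by nlinarith
    calc (4 : ℝ) ^ j * (3 + 2 * j * K) ≤ 4 ^ j * ((3 + 2 * (j : ℝ)) * K) :=
          mul_le_mul_of_nonneg_left h5 this.le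
      _ = 4 ^ j * (3 + 2 * (j : ℝ)) * K := by ring
  have g5 : Real.log (8 + 4 * j * K) ≤ Real.log (8 + 4 * (j : ℝ)) + Real.log K := by
    rw [← Real.log_mul (by positivity) K0.ne']
    refine Real.log_le_log (by positivity) ?_
    nlinarith
  rw [g1] at i1
  rw [g2, g3] at i2
  nlinarith [mul_nonneg l1 lK, mul_nonneg l2 lK]

theorem k5_ei_sup_attained {e : Fin j → ℝ} (he : ‖e‖ = 1) : ∃ b, |e b| = 1 := by
  by_contra hcon
  push Not at hcon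
  have h1 : ∀ b, ‖e b‖ < 1 := fun b =>
    lt_of_le_of_ne ((norm_le_pi_norm e b).trans he.le) (hcon b)
  have := (pi_norm_lt_iff (x := e) one_pos).2 h1
  linarith

/-- the cells of the coordinates `≠ b₀` -/
noncomputable def k5_ei_oth (q : ℝ) (b₀ : Fin j) (v : Fin j → ℝ) : Fin j → ℤ :=
  Function.update (k5_vbin q v) b₀ 0

theorem k5_ei_oth_ent {Λ : Type} [Fintype Λ] (Q : FLaw Λ) (c : Λ → k5_Co j) (K t q : ℝ) (hK : 1 ≤ K)
    (hc : ∀ l, ‖c l‖ ≤ K) (t0 : 0 ≤ t) (t1 : t ≤ 1) (q0 : 0 < q) (q1 : q ≤ 1) (b₀ : Fin j) :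
    Q.ent (fun l => k5_ei_oth q b₀ (k5_y (c l) t)) ≤ ((j - 1 : ℕ) : ℝ) * Real.log (6 * K / q) := by
  classical
  set I : Finset (Fin j → ℤ) := Fintype.piFinset fun b =>
    if b = b₀ then {0} else Finset.Icc ⌊(-(2 * K)) / q⌋ ⌊(2 * K) / q⌋ with hI
  have hmem : ∀ ω, Q.p ω ≠ 0 → k5_ei_oth q b₀ (k5_y (c ω) t) ∈ I := by
    intro ω _
    rw [hI, Fintype.mem_piFinset]
    intro b
    by_cases hb : b = b₀
    · subst hb; simp [k5_ei_oth]
    · rw [if_neg hb]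
      have h := k5_ei_y_abs (hc ω) t0 t1 b
      rw [abs_le] at h
      have : k5_ei_oth q b₀ (k5_y (c ω) t) b = k5_bin q (k5_y (c ω) t b) := by
        simp [k5_ei_oth, Function.update_of_ne hb, k5_vbin, k5_bin]
      rw [this]
      exact k5_ei_bin_Icc q0 h.1 h.2
  have h1 := ent_le_log_card Q _ I hmem
  have hpos : 0 < I.card := by
    obtain ⟨ω, hω⟩ := ent_exists_supp Q
    exact Finset.card_pos.2 ⟨_, hmem ω hω⟩
  have Kq : 1 ≤ K / q := by rw [le_div_iff₀ q0]; linarith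
  have hcard : (I.card : ℝ) ≤ (6 * K / q) ^ (j - 1) := by
    rw [hI, Fintype.card_piFinset]
    push_cast
    rw [← Finset.mul_prod_erase Finset.univ _ (Finset.mem_univ b₀)]
    simp only [if_true, Finset.card_singleton, Nat.cast_one, one_mul]
    have hce : (Finset.univ.erase b₀).card = j - 1 := by
      rw [Finset.card_erase_of_mem (Finset.mem_univ _), Finset.card_univ, Fintype.card_fin]
    rw [← hce, ← Finset.prod_const]
    refine Finset.prod_le_prod (fun _ _ => Nat.cast_nonneg _) fun b hb => ?_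
    rw [if_neg (Finset.ne_of_mem_erase hb)]
    refine (k5_ei_card_Icc q0 (by linarith)).trans ?_
    have : (2 * K - -(2 * K)) / q = 4 * (K / q) := by ring
    rw [this]
    have : 6 * K / q = 6 * (K / q) := by ring
    rw [this]; linarith
  refine h1.trans ((Real.log_le_log (by exact_mod_cast hpos) hcard).trans (le_of_eq ?_))
  rw [Real.log_pow]


theorem k5_ei_same_cell {q s s' : ℝ} (q0 : 0 < q) (h : k5_bin q s = k5_bin q s') : |s - s'| ≤ q := by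
  have h1 := k5_ei_bin_bd q0 h
  have h2 := k5_ei_bin_bd (s := s') q0 rfl
  rw [abs_le]
  constructor <;> linarith [h1.1, h1.2, h2.1, h2.2]

theorem k5_ei_dot_split (e v : Fin j → ℝ) (b₀ : Fin j) :
    e ⬝ᵥ v = e b₀ * v b₀ + e ⬝ᵥ Function.update v b₀ 0 := by
  have h : v = Pi.single b₀ (v b₀) + Function.update v b₀ 0 := by
    funext b
    by_cases hb : b = b₀
    · subst hb; simp
    · simp [Function.update_of_ne hb, Pi.single_eq_of_ne hb]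
  conv_lhs => rw [h]
  rw [dotProduct_add, dotProduct_single]

theorem k5_ei_last_nval {Λ : Type} [Fintype Λ] (Q : FLaw Λ) (c : Λ → k5_Co j) (t q r : ℝ)
    (q0 : 0 < q) (hqr : q ≤ r) (e : Fin j → ℝ) (he : ‖e‖ = 1) (b₀ : Fin j) (hb₀ : |e b₀| = 1) :
    Q.entC (fun l => k5_bin q (k5_y (c l) t b₀))
      (FLaw.pair (fun l => k5_ei_oth q b₀ (k5_y (c l) t)) (fun l => k5_bin r (e ⬝ᵥ k5_y (c l) t)))
      ≤ Real.log ((2 * (j : ℝ) + 4) * (r / q)) := by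
  have r0 : 0 < r := lt_of_lt_of_le q0 hqr
  have j0 : (0 : ℝ) ≤ j := Nat.cast_nonneg j
  have rq1 : 1 ≤ r / q := by rw [le_div_iff₀ q0]; linarith
  refine ent_entC_le_log_nval Q _ _ fun ω₀ => ?_
  set y0 : ℝ := k5_y (c ω₀) t b₀ with hy0
  set M : ℝ := ((j : ℝ) + 1) * r with hM
  have M0 : 0 ≤ M := by positivity
  refine ⟨Finset.Icc ⌊(y0 - M) / q⌋ ⌊(y0 + M) / q⌋, ?_, fun ω _ _ hω => ?_⟩
  · refine (k5_ei_card_Icc q0 (by linarith)).trans ?_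
    have : (y0 + M - (y0 - M)) / q = 2 * ((j : ℝ) + 1) * (r / q) := by
      rw [hM]; field_simp; ring
    rw [this]; nlinarith
  · simp only [FLaw.pair, Prod.mk.injEq] at hω
    obtain ⟨hO, hW⟩ := hω
    set Δ : Fin j → ℝ := k5_y (c ω) t - k5_y (c ω₀) t with hΔ
    have h1 : |e ⬝ᵥ Δ| ≤ r := by
      rw [hΔ, dotProduct_sub]
      exact k5_ei_same_cell r0 hW
    have h2 : |e ⬝ᵥ Function.update Δ b₀ 0| ≤ j * 1 * q := by
      refine k5_ei_dot zero_le_one he.le fun b => ?_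
      by_cases hb : b = b₀
      · subst hb; simp [q0.le]
      · rw [Function.update_of_ne hb, hΔ, Pi.sub_apply]
        refine k5_ei_same_cell q0 ?_
        have := congrFun hO b
        simpa [k5_ei_oth, Function.update_of_ne hb, k5_vbin, k5_bin] using this
    have h3 := k5_ei_dot_split e Δ b₀
    have h4 : |Δ b₀| ≤ M := by
      have : |Δ b₀| = |e b₀ * Δ b₀| := by rw [abs_mul, hb₀, one_mul]
      rw [this]
      have e5 : e b₀ * Δ b₀ = e ⬝ᵥ Δ - e ⬝ᵥ Function.update Δ b₀ 0 := by linarith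
      rw [e5]
      refine (abs_sub _ _).trans ?_
      rw [hM]; nlinarith
    rw [hΔ, Pi.sub_apply, abs_le] at h4
    exact k5_ei_bin_Icc q0 (by linarith [h4.1]) (by linarith [h4.2])

theorem k5_ei_eqns_cite : True := by
  have := @k5_ei_oth.eq_1
  trivial

/-- **L-252-S5-E6**  Lemma 5.3 (5.projection-entropy): a scalar cannot determine a tangential projection.
PROOF.  `H(y_q | S_q) ≤ H((e y)_r | S_q) + H(y_q | (e y)_r, S_q)` (`ent_entC_pair_le_add` / chain rule + monotonicity), `H(y_q | S_q) ≥ j log (1/q) - err` (`k5_ent_tang` at the scale `q`), and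
`H(y_q | (e y)_r, S_q) ≤ H(y_q | (e y)_r) ≤ log N`, `N := (5 K / q)^(j-1) (j + 3) r / q` (`ent_entC_le_log_nval`): choose `b₀` with `|e b₀| = 1` (sup norm `= 1`, `Finite`; `j ≥ 1` because `‖e‖ = 1`).   For fixed cells of the other `j - 1` coordinates
(each has `≤ 4 K / q + 1 ≤ 5 K / q` cells since `|y_b| ≤ 2 K`, `q ≤ 1 ≤ K`) and a fixed cell of `e ⬝ᵥ y` of width `r`, `y_b₀ = ± (e ⬝ᵥ y - ∑_{b ≠ b₀} e b y b)` lies in an interval of length `r + (j - 1) q ≤ j r`, which meets `≤ j r / q + 2 ≤ (j + 2) r / q` cells.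
`j log (1/q) - log N = log (1/r) - (j - 1) log (5 K) - log (j + 3)`.   ~300 l. -/
theorem k5_ent_proj (j : ℕ) : ∃ C : ℝ, 1 ≤ C ∧ ∀ (Λ : Type) [Fintype Λ] (P : FLaw Λ) (c : Λ → k5_Co j) (d K ζ : ℝ)
    (Rs : Set ℝ) (t : ℝ) (f : Fin j → ℝ) (G : Set Λ), 0 ≤ d → 1 ≤ K → (∀ l, ‖c l‖ ≤ K) →
    k5_Tm j d K ζ Rs (k5_pm P) c t f G → ∀ A : Λ → Prop, (∀ l, A l → l ∈ G) → 0 < P.pr A →
    ∀ e : Fin j → ℝ, ‖e‖ = 1 → ∀ q r : ℝ, ζ ≤ q → q ≤ r → r ≤ 1 →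
    Real.log (1 / r) - (C * (1 + Real.log K) + Real.log (1 / P.pr A))
      ≤ (P.cnd A).entC (fun l => k5_bin r (e ⬝ᵥ k5_y (c l) t)) (fun l => k5_bin q (k5_S f (c l) t)) := by
  obtain ⟨C1, hC1, H1⟩ := k5_ent_tang j
  have j0 : (0 : ℝ) ≤ j := Nat.cast_nonneg j
  have l1 : 0 ≤ Real.log (2 * (j : ℝ) + 4) := Real.log_nonneg (by linarith)
  have l6 : 0 ≤ Real.log 6 := Real.log_nonneg (by norm_num)
  refine ⟨C1 + j * (1 + Real.log 6) + Real.log (2 * (j : ℝ) + 4), by nlinarith, ?_⟩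
  intro Λ _ P c d K ζ Rs t f G hd hK hc hT A hAG hA e he q r hq hqr hr1
  have q0 : 0 < q := lt_of_lt_of_le hT.z0 hq
  have r0 : 0 < r := lt_of_lt_of_le q0 hqr
  have K0 : 0 < K := by linarith
  have lK : 0 ≤ Real.log K := Real.log_nonneg hK
  have h1 := H1 Λ P c d K ζ Rs t f G hd hK hc hT A hAG hA q hq (hqr.trans hr1)
  obtain ⟨b₀, hb₀⟩ := k5_ei_sup_attained he
  have j1 : 1 ≤ j := by have := b₀.2; omega
  set Q := P.cnd A with hQ
  set Sq : Λ → ℤ := fun l => k5_bin q (k5_S f (c l) t) with hSq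
  set W : Λ → ℤ := fun l => k5_bin r (e ⬝ᵥ k5_y (c l) t) with hW
  set Yq : Λ → Fin j → ℤ := fun l => k5_vbin q (k5_y (c l) t) with hYq
  set O : Λ → Fin j → ℤ := fun l => k5_ei_oth q b₀ (k5_y (c l) t) with hO
  set Yb : Λ → ℤ := fun l => k5_bin q (k5_y (c l) t b₀) with hYb
  have a : Q.entC Yq Sq ≤ Q.entC (FLaw.pair W Yq) Sq :=
    ent_entC_mono Q (FLaw.pair W Yq) Yq Sq fun ω ω' _ _ h _ => congrArg Prod.snd h
  have b := ent_entC_chain Q W Yq Sq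
  have c' : Q.entC Yq (FLaw.pair W Sq) ≤ Q.entC Yq W := ent_entC_pair_le Q Yq W Sq
  have d' : Q.entC Yq W ≤ Q.entC (FLaw.pair O Yb) W := by
    refine ent_entC_mono Q (FLaw.pair O Yb) Yq W fun ω ω' _ _ h _ => ?_
    simp only [FLaw.pair, Prod.mk.injEq] at h
    funext b
    by_cases hb : b = b₀
    · subst hb; exact h.2
    · have := congrFun h.1 b
      simpa [hO, k5_ei_oth, Function.update_of_ne hb] using this
  have e' := ent_entC_chain Q O Yb W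
  have f' : Q.entC O W ≤ Q.ent O := ent_entC_le Q O W
  have g' : Q.entC Yb (FLaw.pair O W) ≤ Real.log ((2 * (j : ℝ) + 4) * (r / q)) :=
    k5_ei_last_nval Q c t q r q0 hqr e he b₀ hb₀
  have o' : Q.ent O ≤ ((j - 1 : ℕ) : ℝ) * Real.log (6 * K / q) :=
    k5_ei_oth_ent Q c K t q hK hc hT.t0 hT.t1 q0 (hqr.trans hr1) b₀
  have cj : ((j - 1 : ℕ) : ℝ) = (j : ℝ) - 1 := by rw [Nat.cast_sub j1]; simp
  have g1 : Real.log (6 * K / q) = Real.log 6 + Real.log K + Real.log (1 / q) := by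
    rw [one_div, Real.log_inv, Real.log_div (by positivity) q0.ne', Real.log_mul (by norm_num) K0.ne']
    ring
  have g2 : Real.log ((2 * (j : ℝ) + 4) * (r / q)) = Real.log (2 * (j : ℝ) + 4) - Real.log (1 / r) + Real.log (1 / q) := by
    rw [one_div, one_div, Real.log_inv, Real.log_inv, Real.log_mul (by positivity) (by positivity),
      Real.log_div r0.ne' q0.ne']
    ring
  rw [cj, g1] at o'
  rw [g2] at g'
  have j1' : (1 : ℝ) ≤ j := by exact_mod_cast j1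
  nlinarith [mul_nonneg l1 lK, mul_nonneg l6 lK, mul_nonneg j0 lK, mul_nonneg j0 l6,
    mul_nonneg (mul_nonneg j0 l6) lK]

/-- inside a coefficient bin `x'(t)` lies in an interval of length `3 r` -/
theorem k5_ei_xD_rng {r t : ℝ} (hr : 0 < r) (t0 : 0 ≤ t) (t1 : t ≤ 1) {c : k5_Co j}
    {B : (Fin 3 → ℤ) × (Fin 2 → Fin j → ℤ)} (h : k5_cbin r c = B) :
    (B.1 1 : ℝ) * r + 2 * t * (B.1 2 * r) ≤ k5_xD 1 c t ∧
      k5_xD 1 c t ≤ (B.1 1 : ℝ) * r + 2 * t * (B.1 2 * r) + 3 * r := by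
  have h1 := k5_ei_cb1 hr h 1
  have h2 := k5_ei_cb1 hr h 2
  have e : k5_xD 1 c t = c.1 1 + 2 * t * c.1 2 := rfl
  rw [e]
  constructor
  · nlinarith [mul_le_mul_of_nonneg_left h2.1 t0]
  · nlinarith [mul_le_mul_of_nonneg_left h2.2 t0, mul_le_mul_of_nonneg_right t1 hr.le]

/-- inside a coefficient bin the first jet meets few cells of the mesh `r` -/
theorem k5_ei_J_nval {Λ : Type} [Fintype Λ] (Q : FLaw Λ) (c : Λ → k5_Co j) (K : ℝ) (t : ℝ) (g f : Fin j → ℝ)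
    (hK : 1 ≤ K) (t0 : 0 ≤ t) (t1 : t ≤ 1) (hg : ‖g‖ ≤ K) (hf : ‖f‖ ≤ K) (r : ℝ) (r0 : 0 < r) :
    Q.entC (fun l => k5_bin r (k5_J 1 g f (c l) t)) (fun l => k5_cbin r (c l)) ≤ Real.log (8 + 6 * j * K) := by
  have K0 : 0 ≤ K := by linarith
  refine ent_entC_le_log_nval Q _ _ fun ω₀ => ?_
  set S0 : ℝ := k5_J 1 g f (c ω₀) t with hS0
  set M : ℝ := (3 + 3 * (j : ℝ) * K) * r with hM
  have M0 : 0 ≤ M := by positivity
  refine ⟨Finset.Icc ⌊(S0 - M) / r⌋ ⌊(S0 + M) / r⌋, ?_, fun ω _ _ hω => ?_⟩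
  · refine (k5_ei_card_Icc r0 (by linarith)).trans ?_
    have : (S0 + M - (S0 - M)) / r = 2 * (3 + 3 * (j : ℝ) * K) := by
      rw [hM]; field_simp; ring
    rw [this]; linarith
  · have hx := k5_ei_xD_rng r0 t0 t1 (c := c ω) (B := k5_cbin r (c ω₀)) hω
    have hx0 := k5_ei_xD_rng r0 t0 t1 (c := c ω₀) (B := k5_cbin r (c ω₀)) rfl
    have hdot : |g ⬝ᵥ (k5_y (c ω) t - k5_y (c ω₀) t)| ≤ j * K * (2 * r) := by
      refine k5_ei_dot K0 hg fun b => ?_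
      have hy := k5_ei_y_rng r0 t0 t1 (c := c ω) (B := k5_cbin r (c ω₀)) hω b
      have hy0 := k5_ei_y_rng r0 t0 t1 (c := c ω₀) (B := k5_cbin r (c ω₀)) rfl b
      rw [Pi.sub_apply, abs_le]
      constructor <;> linarith [hy.1, hy.2, hy0.1, hy0.2]
    have hdot2 : |f ⬝ᵥ (k5_yd (c ω) - k5_yd (c ω₀))| ≤ j * K * r := by
      refine k5_ei_dot K0 hf fun b => ?_
      have hy := k5_ei_cb2 r0 (c := c ω) (B := k5_cbin r (c ω₀)) hω 1 b
      have hy0 := k5_ei_cb2 r0 (c := c ω₀) (B := k5_cbin r (c ω₀)) rfl 1 b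
      rw [Pi.sub_apply, abs_le]
      unfold k5_yd
      constructor <;> linarith [hy.1, hy.2, hy0.1, hy0.2]
    rw [dotProduct_sub, abs_le] at hdot hdot2
    have e1 : k5_J 1 g f (c ω) t = k5_xD 1 (c ω) t - g ⬝ᵥ k5_y (c ω) t - f ⬝ᵥ k5_yd (c ω) := by
      unfold k5_J; simp
    have e2 : S0 = k5_xD 1 (c ω₀) t - g ⬝ᵥ k5_y (c ω₀) t - f ⬝ᵥ k5_yd (c ω₀) := by
      rw [hS0]; unfold k5_J; simp
    refine k5_ei_bin_Icc r0 ?_ ?_
    · rw [e1, e2, hM]; nlinarith [hx.1, hx.2, hx0.1, hx0.2, hdot.1, hdot.2, hdot2.1, hdot2.2]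
    · rw [e1, e2, hM]; nlinarith [hx.1, hx.2, hx0.1, hx0.2, hdot.1, hdot.2, hdot2.1, hdot2.2]

/-- **L-252-S5-E7**  the leaf of the tree: the deterministic cover of `J_1` gives (5.first-jet-entropy) on every event.
PROOF.  `tm`, `rb` (`i = 0` : `tm.fb`; `i = 1` : hypothesis) are immediate.   `her` (only `i = 1`): `k5_common_info` for `Q = P.cnd A` with `Z := (J_1)_r`, `A := S_Hst`, `B := l_r`, `C := S_r` :
`H(Z | S_Hst) ≤ log (4 K)` (`ent_entC_le_log_nval`: an interval `[b - wd, b + wd]`, `wd ≤ r`, meets `≤ 4` cells of the mesh `r`; `≤ K` intervals);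
`H(Z | l_r) ≤ log (5 + 3 j K)` (inside a coefficient bin `J_1 = x' - Φ 0 ⬝ᵥ y' - Φ 1 ⬝ᵥ y(t)` varies by `≤ (3 + 3 j K) r`);   `I(S_Hst ; l_r | S_r) ≤ err` (`k5_ent_indep` with `q := Hst ≤ wd ≤ r`).   ~250 l. -/
theorem k5_node_leaf (j : ℕ) : ∃ C : ℝ, 1 ≤ C ∧ ∀ (Λ : Type) [Fintype Λ] (P : FLaw Λ) (c : Λ → k5_Co j) (d K ζ : ℝ)
    (Rs : Set ℝ) (t : ℝ) (Φ : ℕ → Fin j → ℝ) (G : Set Λ) (Hst wd : ℝ), 0 ≤ d → 1 ≤ K → (∀ l, ‖c l‖ ≤ K) →
    k5_Tm j d K ζ Rs (k5_pm P) c t (Φ 0) G → ‖Φ 1‖ ≤ K → ζ ≤ Hst → Hst ≤ wd →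
    (∀ z : ℤ, ∃ Z : Finset ℝ, (Z.card : ℝ) ≤ K ∧ ∀ l ∈ G, k5_bin Hst (k5_S (Φ 0) (c l) t) = z →
      ∃ b ∈ Z, |k5_J 1 (Φ 1) (Φ 0) (c l) t - b| ≤ wd) →
    k5_Node P c d K ζ Rs t 1 Φ G wd C := by
  obtain ⟨C1, hC1, H1⟩ := k5_ent_indep j
  have j0 : (0 : ℝ) ≤ j := Nat.cast_nonneg j
  have l1 : 0 ≤ Real.log (8 + 6 * (j : ℝ)) := Real.log_nonneg (by linarith)
  have l4 : 0 ≤ Real.log 4 := Real.log_nonneg (by norm_num)
  refine ⟨C1 + 2 + Real.log 4 + Real.log (8 + 6 * (j : ℝ)), by linarith, ?_⟩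
  intro Λ _ P c d K ζ Rs t Φ G Hst wd hd hK hc hT hΦ1 hH hHw hcov
  have K0 : 0 < K := by linarith
  have lK : 0 ≤ Real.log K := Real.log_nonneg hK
  refine ⟨hT, fun i hi => ?_, ?_⟩
  · interval_cases i
    · exact hT.fb
    · exact hΦ1
  intro A hAG hA i hi1 hi2 r hr hwr hr1
  obtain rfl : i = 1 := le_antisymm hi2 hi1
  have H0 : 0 < Hst := lt_of_lt_of_le hT.z0 hH
  have w0 : 0 < wd := lt_of_lt_of_le H0 hHw
  have r0 : 0 < r := lt_of_lt_of_le w0 hwr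
  have lA : 0 ≤ Real.log (1 / P.pr A) := by
    refine Real.log_nonneg ?_
    rw [le_div_iff₀ hA]; linarith [ent_pr_le_one P A]
  have h1 := H1 Λ P c d K ζ Rs t (Φ 0) G hd hK hc hT A hAG hA Hst r hH (hHw.trans hwr) hr1 hr
  set Q := P.cnd A with hQ
  have hci := k5_common_info Q (fun l => k5_bin r (k5_J 1 (Φ 1) (Φ (1 - 1)) (c l) t))
    (fun l => k5_bin Hst (k5_S (Φ 0) (c l) t)) (fun l => k5_cbin r (c l)) (fun l => k5_bin r (k5_S (Φ 0) (c l) t))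
  have h2 : Q.entC (fun l => k5_bin r (k5_J 1 (Φ 1) (Φ (1 - 1)) (c l) t)) (fun l => k5_cbin r (c l))
      ≤ Real.log (8 + 6 * j * K) :=
    k5_ei_J_nval Q c K t (Φ 1) (Φ (1 - 1)) hK hT.t0 hT.t1 hΦ1 (by simpa using hT.fb) r r0
  have h3 : Q.entC (fun l => k5_bin r (k5_J 1 (Φ 1) (Φ (1 - 1)) (c l) t)) (fun l => k5_bin Hst (k5_S (Φ 0) (c l) t))
      ≤ Real.log (4 * K) := by
    refine ent_entC_le_log_nval Q _ _ fun ω₀ => ?_
    obtain ⟨Z, hZ1, hZ2⟩ := hcov (k5_bin Hst (k5_S (Φ 0) (c ω₀) t))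
    refine ⟨Z.biUnion fun b => Finset.Icc ⌊(b - wd) / r⌋ ⌊(b + wd) / r⌋, ?_, fun ω hω _ h => ?_⟩
    · have a1 : ((Z.biUnion fun b => Finset.Icc ⌊(b - wd) / r⌋ ⌊(b + wd) / r⌋).card : ℝ)
          ≤ ∑ b ∈ Z, ((Finset.Icc ⌊(b - wd) / r⌋ ⌊(b + wd) / r⌋).card : ℝ) := by
        exact_mod_cast Finset.card_biUnion_le
      have a2 : ∑ b ∈ Z, ((Finset.Icc ⌊(b - wd) / r⌋ ⌊(b + wd) / r⌋).card : ℝ) ≤ (Z.card : ℝ) * 4 := by
        have := Finset.sum_le_card_nsmul Z (fun b => ((Finset.Icc ⌊(b - wd) / r⌋ ⌊(b + wd) / r⌋).card : ℝ)) 4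
          fun b _ => by
            refine (k5_ei_card_Icc r0 (by linarith)).trans ?_
            have e : (b + wd - (b - wd)) / r = 2 * (wd / r) := by ring
            have : wd / r ≤ 1 := by rw [div_le_iff₀ r0]; linarith
            rw [e]; linarith
        rwa [nsmul_eq_mul] at this
      linarith
    · obtain ⟨b, hb, hb2⟩ := hZ2 ω (hAG ω ((ent_cnd_supp P A hA).1 hω).1) h
      rw [Finset.mem_biUnion]
      rw [abs_le] at hb2
      exact ⟨b, hb, k5_ei_bin_Icc r0 (by linarith [hb2.1]) (by linarith [hb2.2])⟩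
  have g1 : Real.log (4 * K) = Real.log 4 + Real.log K := Real.log_mul (by norm_num) K0.ne'
  have g2 : Real.log (8 + 6 * j * K) ≤ Real.log (8 + 6 * (j : ℝ)) + Real.log K := by
    rw [← Real.log_mul (by positivity) K0.ne']
    refine Real.log_le_log (by positivity) ?_
    nlinarith
  rw [g1] at h3
  nlinarith [mul_nonneg l1 lK, mul_nonneg l4 lK, mul_nonneg l1 lA, mul_nonneg l4 lA,
    mul_nonneg (by linarith : (0:ℝ) ≤ C1 - 1) lA]

end Claimed.Agent.R252
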