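import Claimed.Agent.R252.S5.Contract
import Claimed.Agent.R252.Fit.FjMain

/-!
# Row 252, Sec. 5: THE UNCONDITIONAL EXITS      (architect helper55; prefix `k5_`)

The hypothesis `k5_FJ d θ` of `S5/Contract.lean` is discharged by `fit_fj` (unit FIT, helper9).
* `k5_fj_exists`  : `∃ θ ∈ (0,1], k5_FJ d θ`
* `k5_jets`       : Proposition 5.6 (one polynomial per `h`-block), no hypothesis
* `k5_jets_inc`   : Proposition 5.6, the paper's wording, no hypothesis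
-/

set_option autoImplicit false

namespace Claimed.Agent.R252

open MeasureTheory Set
open scoped BigOperators

/-- `k5_FJ d θ` is monotone in the exponent -/
theorem k5_FJ_mono {d θ θ' : ℝ} (h : k5_FJ d θ) (hθ : θ' ≤ θ) : k5_FJ d θ' := by
  intro ε hε
  obtain ⟨η, p₀, hη, hp₀, H⟩ := h ε hε
  refine ⟨η, min p₀ 1, hη, lt_min hp₀ one_pos, ?_⟩
  intro p K hp hpp hK hKp Λ _ ν _ z v g U φ L mz mv mg mU mφ mL h1 h2 h3 h4 h5 h6 h7 h8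
  obtain ⟨c0, c1, hc0, hvol⟩ := H p K hp (lt_of_lt_of_le hpp (min_le_left _ _)) hK hKp Λ ν z v g U φ L
    mz mv mg mU mφ mL h1 h2 h3 h4 h5 h6 h7 h8
  refine ⟨c0, c1, hc0, hvol.trans ?_⟩
  have hp1 : p ≤ 1 := (lt_of_lt_of_le hpp (min_le_right _ _)).le
  have hpow : p ^ θ ≤ p ^ θ' := Real.rpow_le_rpow_of_exponent_ge hp hp1 hθ
  refine measureReal_mono (fun u hu => ⟨hu.1, hu.2.trans hpow⟩) ?_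
  refine ne_top_of_le_ne_top (measure_Icc_lt_top (a := (0 : ℝ)) (b := 1)).ne (measure_mono ?_)
  rintro u ⟨hu, -⟩
  have hne : (k5_sec U u).Nonempty := by
    by_contra hcon
    rw [Set.not_nonempty_iff_eq_empty] at hcon
    rw [hcon] at hu
    simp at hu
  obtain ⟨l, hl⟩ := hne
  exact ⟨(h1 l u hl).1, (h1 l u hl).2.1⟩

/-- the first-jet fit holds with some exponent `θ ∈ (0, 1]` -/
theorem k5_fj_exists (d : ℝ) (hd0 : 0 ≤ d) (hd : d < 1) : ∃ θ : ℝ, 0 < θ ∧ θ ≤ 1 ∧ k5_FJ d θ := by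
  obtain ⟨θ, hθ, h⟩ := fit_fj d hd0 hd
  exact ⟨min θ 1, lt_min hθ one_pos, min_le_right _ _, k5_FJ_mono h (min_le_left _ _)⟩

/-- **Proposition 5.6** (higher-jet polynomial fitting), unconditional. -/
theorem k5_jets (j M : ℕ) (d : ℝ) (hM : 2 ≤ M) (hd0 : 0 ≤ d) (hd : d < 1) :
    ∃ Zx : ℝ, 0 < Zx ∧ ∀ ε : ℝ, 0 < ε → ∃ (η : ℝ) (k₀ : ℕ), 0 < η ∧ ∀ (kh : ℕ) (K ζ : ℝ), k₀ ≤ kh → 1 ≤ K →
      K ≤ ((1 / 2 : ℝ) ^ kh) ^ (-η) → ζ ≤ ((1 / 2 : ℝ) ^ kh) ^ Zx →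
      ∀ (Λ : Type) [MeasurableSpace Λ] (ν : Measure Λ) (c : Λ → k5_Co j) (E : Set (Λ × ℝ)) (F : ℝ → Fin j → ℝ),
      k5_Snd j d K ζ ν c E F → 1 / K ≤ k5_mass ν E →
      ∃ W : Set ℝ, MeasurableSet W ∧ ((1 / 2 : ℝ) ^ kh) ^ ε ≤ k5_mass ν (k5_rt E W) ∧
        ∀ b : ℤ, ∃ a : Fin (M + 1) → Fin j → ℝ, (∀ i, ‖a i‖ ≤ ((1 / 2 : ℝ) ^ kh) ^ (-ε)) ∧
          ∀ v ∈ W, ⌊v * 2 ^ kh⌋ = b →
            ‖F v - ∑ i : Fin (M + 1), v ^ (i : ℕ) • a i‖ ≤ ((1 / 2 : ℝ) ^ kh) ^ ((M : ℝ) + 1 / 4) := by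
  obtain ⟨θ, hθ, hθ1, h⟩ := k5_fj_exists d hd0 hd
  exact k5_higher_jets j M d θ hM hd0 hd hθ hθ1 h

/-- **Proposition 5.6**, the paper's wording, unconditional. -/
theorem k5_jets_inc (j M : ℕ) (d : ℝ) (hM : 2 ≤ M) (hd0 : 0 ≤ d) (hd : d < 1) :
    ∃ Zx : ℝ, 0 < Zx ∧ ∀ ε : ℝ, 0 < ε → ∃ (η : ℝ) (k₀ : ℕ), 0 < η ∧ ∀ (kh : ℕ) (K ζ : ℝ), k₀ ≤ kh → 1 ≤ K →
      K ≤ ((1 / 2 : ℝ) ^ kh) ^ (-η) → ζ ≤ ((1 / 2 : ℝ) ^ kh) ^ Zx →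
      ∀ (Λ : Type) [MeasurableSpace Λ] (ν : Measure Λ) (c : Λ → k5_Co j) (E : Set (Λ × ℝ)) (F : ℝ → Fin j → ℝ),
      k5_Snd j d K ζ ν c E F → 1 / K ≤ k5_mass ν E →
      ∃ E' : Set (Λ × ℝ), MeasurableSet E' ∧ E' ⊆ E ∧ ((1 / 2 : ℝ) ^ kh) ^ ε ≤ k5_mass ν E' ∧
        ∀ l t, (l, t) ∈ E' → ∃ a : Fin (M + 1) → Fin j → ℝ, (∀ i, ‖a i‖ ≤ ((1 / 2 : ℝ) ^ kh) ^ (-ε)) ∧
          ‖F t - ∑ i : Fin (M + 1), t ^ (i : ℕ) • a i‖ ≤ ((1 / 2 : ℝ) ^ kh) ^ ((M : ℝ) + 1 / 4) ∧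
          ((1 / 2 : ℝ) ^ kh) ^ (1 + ε) ≤ volume.real {v | (l, v) ∈ E ∧ ⌊v * 2 ^ kh⌋ = ⌊t * 2 ^ kh⌋ ∧
            ‖F v - ∑ i : Fin (M + 1), v ^ (i : ℕ) • a i‖ ≤ ((1 / 2 : ℝ) ^ kh) ^ ((M : ℝ) + 1 / 4)} := by
  obtain ⟨θ, hθ, hθ1, h⟩ := k5_fj_exists d hd0 hd
  exact k5_higher_jets_inc j M d θ hM hd0 hd hθ hθ1 h

end Claimed.Agent.R252
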