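import Claimed.Agent.R252.S5.PairContract

/-!
# Row 252, Sec. 5: THE FINAL TEST of Proposition 5.6 at fixed times (05 l.1054-1107).   CONTRACT      (architect helper55; prefix `k5_`)

PAPER-FREE.   Finite model.   A node of order `M ≥ 2` at the root `u` (rows `Φ 0 … Φ M`), a further time `t'`, `|t' - u| ≤ h`, with its one-time hypotheses (`k5_Tm`, row value `f'`, labels `G'`).
`Ev := f' - ∑_{i ≤ M} (t'-u)^i / i! • Φ i` (`k5_Ev`).   Claim: `‖Ev‖ ≤ h^(M+1/4)`.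
Plan: suppose `Γ := ‖Ev‖ > h^(M+1/4)`; `e := Ev / Γ`, `r := h^(1/4)`, `q' := min Γ 1 * r ≥ h^(M+1/2) ≥ ζ`, `A := G ∩ G'`, `Q := P.cnd A`, `O₁ := (S(u)_p, (J_i(u)_p)_{1 ≤ i ≤ M})`.
(F1) exact expansion;  (F2) over a fibre of `O₁` the scalar `S(t')` takes `≤ C K^C r^(-d)` cells of the mesh `q'`;  (F3) over a fibre of `(O₁, S(t')_q')` the projection `e ⬝ᵥ y(u)` has oscillation `≤ 2 r`;
(F4) `log (1/r) - err ≤ H_Q((e y(u))_r | S(u)_p) ≤ M L + log (C K^C r^(-d)) + log 4`, contradiction with `d < 1` and the smallness hypothesis.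
RULE: statements are frozen; prove IN PLACE; helper lemmas (prefix `k5_`) directly above the theorem that needs them; earlier statements may be used as black boxes.
-/

set_option autoImplicit false

namespace Claimed.Agent.R252

open MeasureTheory Set
open Claimed.Agent.R255
open scoped BigOperators

variable {j : ℕ}

/-- the error of the Taylor polynomial of the rows at the time `t'` -/
noncomputable def k5_Ev (M : ℕ) (Φ : ℕ → Fin j → ℝ) (f' : Fin j → ℝ) (u t' : ℝ) : Fin j → ℝ :=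
  f' - ∑ i ∈ Finset.range (M + 1), ((t' - u) ^ i / (i.factorial : ℝ)) • Φ i

/-- the observation `O₁` : the `p`-bins of the scalar and of the jets at the root -/
noncomputable def k5_obs1 (M : ℕ) (p u : ℝ) (Φ : ℕ → Fin j → ℝ) (c : k5_Co j) : ℤ × (Fin M → ℤ) :=
  (k5_bin p (k5_S (Φ 0) c u), fun i => k5_bin p (k5_J (i + 1) (Φ (i + 1)) (Φ i) c u))

theorem k5_final_eqns_cite : True := by
  have := @k5_Ev.eq_1
  have := @k5_obs1.eq_1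
  trivial

theorem k5_fe_sum (X α β : ℕ → ℝ) (τ : ℝ) (M : ℕ) :
    ∑ i ∈ Finset.Icc 1 M, (τ ^ i / (i.factorial : ℝ)) * (X i - α i - (i : ℝ) * β (i - 1))
      = ∑ i ∈ Finset.Icc 1 M, (τ ^ i / (i.factorial : ℝ)) * X i
        - ∑ i ∈ Finset.range (M + 1), (τ ^ i / (i.factorial : ℝ)) * (α i + τ * β i) + α 0 + τ ^ (M + 1) / (M.factorial : ℝ) * β M := by
  induction M with
  | zero => simp
  | succ M ih =>
    rw [Finset.sum_Icc_succ_top (by omega), Finset.sum_Icc_succ_top (by omega), Finset.sum_range_succ _ (M + 1), ih]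
    have hf : ((M + 1).factorial : ℝ) = ((M : ℝ) + 1) * (M.factorial : ℝ) := by
      rw [Nat.factorial_succ]
      push_cast
      ring
    have h1 : (M.factorial : ℝ) ≠ 0 := by positivity
    have h2 : ((M : ℝ) + 1) ≠ 0 := by positivity
    rw [hf, Nat.add_sub_cancel]
    push_cast
    field_simp
    ring

theorem k5_fe_taylor (c : k5_Co j) (u t' : ℝ) (M : ℕ) (hM : 2 ≤ M) :
    ∑ i ∈ Finset.Icc 1 M, ((t' - u) ^ i / (i.factorial : ℝ)) * k5_xD i c u = k5_x c t' - k5_x c u := by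
  induction M, hM using Nat.le_induction with
  | base =>
    rw [Finset.sum_Icc_succ_top (by omega), Finset.sum_Icc_succ_top (by omega)]
    simp only [Finset.Icc_eq_empty (by omega : ¬ 1 ≤ 0), Finset.sum_empty]
    simp only [k5_xD, k5_x, Nat.factorial]
    push_cast
    ring
  | succ M hM ih =>
    rw [Finset.sum_Icc_succ_top (by omega), ih]
    obtain ⟨n, rfl⟩ : ∃ n, M = n + 2 := ⟨M - 2, by omega⟩
    simp [k5_xD]

theorem k5_fe_y (c : k5_Co j) (u t' : ℝ) : k5_y c t' = k5_y c u + (t' - u) • k5_yd c := by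
  funext a
  simp only [k5_y, k5_yd, Pi.add_apply, Pi.smul_apply, smul_eq_mul]
  ring

/-- **L-252-S5-F1**  (5.final-jet-expansion), exact.
PROOF.  `τ := t' - u`.   `∑_{i=1}^M τ^i/i! J_i = ∑_{i=1}^M τ^i/i! x^(i)(u) - (∑_{i=1}^M τ^i/i! Φ i) ⬝ᵥ y(u) - τ (∑_{i=0}^{M-1} τ^i/i! Φ i) ⬝ᵥ y'`  (`i τ^i / i! = τ τ^(i-1)/(i-1)!`, reindex `Finset.sum_Icc`/`Finset.range_succ`…).
`x(t') = x(u) + τ x'(u) + τ²/2 x''(u)` and `x^(i) = 0` for `i ≥ 3` (`M ≥ 2`: split the sum `Finset.Icc 1 M = {1, 2} ∪ Icc 3 M`).   `y(t') = y(u) + τ y'`.   With `Pf := ∑_{i ≤ M} τ^i/i! Φ i` :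
`S(Φ 0; u) + ∑ … = x(t') - Pf ⬝ᵥ y(u) - τ (Pf - τ^M/M! Φ M) ⬝ᵥ y' = x(t') - Pf ⬝ᵥ y(t') + τ^(M+1)/M! (Φ M ⬝ᵥ y')`, and `S(f'; t') = x(t') - Pf ⬝ᵥ y(t') - Ev ⬝ᵥ y(t')`.
Advice: prove it first for the scalar-valued sums by induction on `M ≥ 2` (`Finset.sum_Icc_succ_top`, `Finset.sum_range_succ`), the step being a `ring`/`field_simp` identity after `Matrix.dotProduct` linearity (`Matrix.sum_dotProduct`, `Matrix.smul_dotProduct`, `Matrix.sub_dotProduct`).   ~200 l. -/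
theorem k5_final_expand (c : k5_Co j) (u t' : ℝ) (M : ℕ) (hM : 2 ≤ M) (Φ : ℕ → Fin j → ℝ) (f' : Fin j → ℝ) :
    k5_S f' c t' = k5_S (Φ 0) c u
      + ∑ i ∈ Finset.Icc 1 M, ((t' - u) ^ i / (i.factorial : ℝ)) * k5_J i (Φ i) (Φ (i - 1)) c u
      - k5_Ev M Φ f' u t' ⬝ᵥ k5_y c t' - ((t' - u) ^ (M + 1) / (M.factorial : ℝ)) * (Φ M ⬝ᵥ k5_yd c) := by
  have h1 := k5_fe_sum (fun i => k5_xD i c u) (fun i => Φ i ⬝ᵥ k5_y c u) (fun i => Φ i ⬝ᵥ k5_yd c) (t' - u) M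
  have h2 := k5_fe_taylor c u t' M hM
  have h3 : k5_Ev M Φ f' u t' ⬝ᵥ k5_y c t' = f' ⬝ᵥ k5_y c t'
      - ∑ i ∈ Finset.range (M + 1), ((t' - u) ^ i / (i.factorial : ℝ)) * (Φ i ⬝ᵥ k5_y c u + (t' - u) * (Φ i ⬝ᵥ k5_yd c)) := by
    unfold k5_Ev
    rw [sub_dotProduct, sum_dotProduct]
    congr 1
    refine Finset.sum_congr rfl fun i _ => ?_
    rw [smul_dotProduct, k5_fe_y c u t', dotProduct_add, dotProduct_smul, smul_eq_mul, smul_eq_mul]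
  simp only [k5_J]
  rw [h1, h2, h3]
  unfold k5_S
  ring

theorem k5_fo_sum (f : ℕ → ℝ) (M : ℕ) : f 0 + ∑ i ∈ Finset.Icc 1 M, f i = ∑ i ∈ Finset.range (M + 1), f i := by
  induction M with
  | zero => simp
  | succ M ih =>
    rw [Finset.sum_Icc_succ_top (by omega), Finset.sum_range_succ _ (M + 1), ← ih]
    ring

/-- **L-252-S5-F1b**  consequence: over a fibre of `O₁` the quantity `S(t') + Ev ⬝ᵥ y(t')` has oscillation `≤ 3 p + 2 j K² h^(M+1)`.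
PROOF.  `k5_final_expand` for both trajectories; same `p`-cells: `|S(u) - S(u)'| ≤ p`, `|J_i(u) - J_i(u)'| ≤ p`; `∑_{i=0}^M |τ|^i / i! ≤ ∑ 1/i! ≤ 3` (`|τ| ≤ h ≤ 1`; `Real.sum_le_exp_of_nonneg` + `Real.exp_one_lt_d9`, or induction `1/i! ≤ 1/2^(i-1)`);
last term: `|τ|^(M+1)/M! |Φ M ⬝ᵥ y'| ≤ h^(M+1) j K²` (`k5_dot_le`, `k5_sig_le`).   ~120 l. -/
theorem k5_final_osc (c c' : k5_Co j) (u t' h p K : ℝ) (M : ℕ) (hM : 2 ≤ M) (Φ : ℕ → Fin j → ℝ) (f' : Fin j → ℝ)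
    (hK : 1 ≤ K) (hc : ‖c‖ ≤ K) (hc' : ‖c'‖ ≤ K) (hΦ : ‖Φ M‖ ≤ K) (hp : 0 < p) (hh0 : 0 < h) (hh : h ≤ 1)
    (hτ : |t' - u| ≤ h) (hO : k5_obs1 M p u Φ c = k5_obs1 M p u Φ c') :
    |(k5_S f' c t' + k5_Ev M Φ f' u t' ⬝ᵥ k5_y c t') - (k5_S f' c' t' + k5_Ev M Φ f' u t' ⬝ᵥ k5_y c' t')|
      ≤ 3 * p + 2 * j * K ^ 2 * h ^ (M + 1) := by
  have e := k5_final_expand c u t' M hM Φ f'
  have e' := k5_final_expand c' u t' M hM Φ f'
  have hS : |k5_S (Φ 0) c u - k5_S (Φ 0) c' u| ≤ p := k5_pa_bin_close hp (congrArg Prod.fst hO)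
  have hJ : ∀ i ∈ Finset.Icc 1 M, |k5_J i (Φ i) (Φ (i - 1)) c u - k5_J i (Φ i) (Φ (i - 1)) c' u| ≤ p := by
    intro i hi
    obtain ⟨h1, h2⟩ := Finset.mem_Icc.1 hi
    obtain ⟨n, rfl⟩ : ∃ n, i = n + 1 := ⟨i - 1, by omega⟩
    have := congrFun (congrArg Prod.snd hO) ⟨n, by omega⟩
    simp only [k5_obs1] at this
    rw [Nat.add_sub_cancel]
    exact k5_pa_bin_close hp this
  have key : (k5_S f' c t' + k5_Ev M Φ f' u t' ⬝ᵥ k5_y c t') - (k5_S f' c' t' + k5_Ev M Φ f' u t' ⬝ᵥ k5_y c' t')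
      = (k5_S (Φ 0) c u - k5_S (Φ 0) c' u)
        + ∑ i ∈ Finset.Icc 1 M, ((t' - u) ^ i / (i.factorial : ℝ)) * (k5_J i (Φ i) (Φ (i - 1)) c u - k5_J i (Φ i) (Φ (i - 1)) c' u)
        - ((t' - u) ^ (M + 1) / (M.factorial : ℝ)) * (Φ M ⬝ᵥ k5_yd c - Φ M ⬝ᵥ k5_yd c') := by
    rw [e, e']
    simp only [mul_sub, Finset.sum_sub_distrib]
    ring
  rw [key]
  have hτ0 : 0 ≤ |t' - u| := abs_nonneg _
  have hτ1 : |t' - u| ≤ 1 := hτ.trans hh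
  have hK0 : 0 ≤ K := by linarith
  have hsum : |∑ i ∈ Finset.Icc 1 M, ((t' - u) ^ i / (i.factorial : ℝ)) * (k5_J i (Φ i) (Φ (i - 1)) c u - k5_J i (Φ i) (Φ (i - 1)) c' u)|
      ≤ (∑ i ∈ Finset.Icc 1 M, |t' - u| ^ i / (i.factorial : ℝ)) * p := by
    calc _ ≤ ∑ i ∈ Finset.Icc 1 M, |((t' - u) ^ i / (i.factorial : ℝ)) * (k5_J i (Φ i) (Φ (i - 1)) c u - k5_J i (Φ i) (Φ (i - 1)) c' u)| :=
          Finset.abs_sum_le_sum_abs _ _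
      _ ≤ ∑ i ∈ Finset.Icc 1 M, |t' - u| ^ i / (i.factorial : ℝ) * p := Finset.sum_le_sum fun i hi => by
          rw [abs_mul, abs_div, abs_pow, Nat.abs_cast]
          exact mul_le_mul_of_nonneg_left (hJ i hi) (by positivity)
      _ = _ := (Finset.sum_mul _ _ _).symm
  have hexp : 1 + ∑ i ∈ Finset.Icc 1 M, |t' - u| ^ i / (i.factorial : ℝ) ≤ 3 := by
    have h1 := Real.sum_le_exp_of_nonneg hτ0 (M + 1)
    rw [← k5_fo_sum] at h1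
    simp only [pow_zero, Nat.factorial_zero, Nat.cast_one, div_one] at h1
    have h2 : Real.exp |t' - u| ≤ Real.exp 1 := Real.exp_le_exp.2 hτ1
    have h3 := Real.exp_one_lt_d9
    linarith
  have hlast : |((t' - u) ^ (M + 1) / (M.factorial : ℝ)) * (Φ M ⬝ᵥ k5_yd c - Φ M ⬝ᵥ k5_yd c')| ≤ h ^ (M + 1) * (2 * j * K ^ 2) := by
    rw [abs_mul]
    refine mul_le_mul ?_ ?_ (abs_nonneg _) (by positivity)
    · rw [abs_div, abs_pow, Nat.abs_cast]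
      have h1 : (1 : ℝ) ≤ (M.factorial : ℝ) := by exact_mod_cast Nat.succ_le_of_lt (Nat.factorial_pos M)
      calc |t' - u| ^ (M + 1) / (M.factorial : ℝ) ≤ |t' - u| ^ (M + 1) := div_le_self (by positivity) h1
        _ ≤ h ^ (M + 1) := pow_le_pow_left₀ hτ0 hτ _
    · have a1 := k5_dot_le (Φ M) (k5_yd c)
      have a2 := k5_dot_le (Φ M) (k5_yd c')
      have b1 := (k5_sig_le c K 0 hc le_rfl zero_le_one).2.2
      have b2 := (k5_sig_le c' K 0 hc' le_rfl zero_le_one).2.2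
      have hj : (0 : ℝ) ≤ j := Nat.cast_nonneg j
      have c1 : (j : ℝ) * ‖Φ M‖ * ‖k5_yd c‖ ≤ j * K * K :=
        mul_le_mul (mul_le_mul_of_nonneg_left hΦ hj) b1 (norm_nonneg _) (by positivity)
      have c2 : (j : ℝ) * ‖Φ M‖ * ‖k5_yd c'‖ ≤ j * K * K :=
        mul_le_mul (mul_le_mul_of_nonneg_left hΦ hj) b2 (norm_nonneg _) (by positivity)
      have := abs_sub (Φ M ⬝ᵥ k5_yd c) (Φ M ⬝ᵥ k5_yd c')
      nlinarith
  have t1 := abs_sub ((k5_S (Φ 0) c u - k5_S (Φ 0) c' u)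
        + ∑ i ∈ Finset.Icc 1 M, ((t' - u) ^ i / (i.factorial : ℝ)) * (k5_J i (Φ i) (Φ (i - 1)) c u - k5_J i (Φ i) (Φ (i - 1)) c' u))
        (((t' - u) ^ (M + 1) / (M.factorial : ℝ)) * (Φ M ⬝ᵥ k5_yd c - Φ M ⬝ᵥ k5_yd c'))
  have t2 := abs_add_le (k5_S (Φ 0) c u - k5_S (Φ 0) c' u)
        (∑ i ∈ Finset.Icc 1 M, ((t' - u) ^ i / (i.factorial : ℝ)) * (k5_J i (Φ i) (Φ (i - 1)) c u - k5_J i (Φ i) (Φ (i - 1)) c' u))
  have t3 : (∑ i ∈ Finset.Icc 1 M, |t' - u| ^ i / (i.factorial : ℝ)) * p ≤ 2 * p :=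
    mul_le_mul_of_nonneg_right (by linarith) hp.le
  linarith

/-- the norm of the Taylor error is `≤ (M + 2) K` -/
theorem k5_fc_Ev_le (M : ℕ) (Φ : ℕ → Fin j → ℝ) (f' : Fin j → ℝ) (u t' h K : ℝ) (hh : h ≤ 1) (hτ : |t' - u| ≤ h)
    (hf : ‖f'‖ ≤ K) (hΦ : ∀ i ≤ M, ‖Φ i‖ ≤ K) : ‖k5_Ev M Φ f' u t'‖ ≤ ((M : ℝ) + 2) * K := by
  unfold k5_Ev
  have h1 : ‖∑ i ∈ Finset.range (M + 1), ((t' - u) ^ i / (i.factorial : ℝ)) • Φ i‖
      ≤ ∑ _i ∈ Finset.range (M + 1), K := by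
    refine (norm_sum_le _ _).trans (Finset.sum_le_sum fun i hi => ?_)
    rw [norm_smul]
    have hi' : i ≤ M := by
      have := Finset.mem_range.1 hi
      omega
    have h2 : ‖(t' - u) ^ i / (i.factorial : ℝ)‖ ≤ 1 := by
      rw [norm_div, norm_pow, Real.norm_eq_abs, Real.norm_natCast]
      have h3 : |t' - u| ^ i ≤ 1 := pow_le_one₀ (abs_nonneg _) (hτ.trans hh)
      have h4 : (1 : ℝ) ≤ i.factorial := by exact_mod_cast Nat.one_le_iff_ne_zero.2 (Nat.factorial_ne_zero i)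
      rw [div_le_one (by linarith)]
      linarith
    calc ‖(t' - u) ^ i / (i.factorial : ℝ)‖ * ‖Φ i‖ ≤ 1 * K := mul_le_mul h2 (hΦ i hi') (norm_nonneg _) zero_le_one
      _ = K := one_mul K
  rw [Finset.sum_const, Finset.card_range, nsmul_eq_mul] at h1
  have h5 := norm_sub_le f' (∑ i ∈ Finset.range (M + 1), ((t' - u) ^ i / (i.factorial : ℝ)) • Φ i)
  push_cast at h1
  nlinarith

/-- covering count: `X` lies in an interval of length `ℓ`; each window of length `w` carries `≤ N₀` values of `B` -/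
theorem k5_fc_cover {Λ : Type} (X : Λ → ℝ) (B : Λ → ℤ) (F : Λ → Prop) (x₀ ℓ w N₀ : ℝ) (hw : 0 < w) (hℓ : 0 ≤ ℓ)
    (hN : 0 ≤ N₀) (hX : ∀ l, F l → x₀ ≤ X l ∧ X l ≤ x₀ + ℓ)
    (hsupp : ∀ a : ℝ, ∃ Z : Finset ℤ, (Z.card : ℝ) ≤ N₀ ∧ ∀ l, F l → a ≤ X l → X l ≤ a + w → B l ∈ Z) :
    ∃ S : Finset ℤ, (S.card : ℝ) ≤ (ℓ / w + 1) * N₀ ∧ ∀ l, F l → B l ∈ S := by
  classical
  choose Z hZ hZ2 using hsupp
  refine ⟨(Finset.range (⌊ℓ / w⌋₊ + 1)).biUnion fun i => Z (x₀ + i * w), ?_, fun l hl => ?_⟩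
  · have h1 : (((Finset.range (⌊ℓ / w⌋₊ + 1)).biUnion fun i => Z (x₀ + i * w)).card : ℝ)
        ≤ ∑ i ∈ Finset.range (⌊ℓ / w⌋₊ + 1), ((Z (x₀ + i * w)).card : ℝ) := by
      exact_mod_cast Finset.card_biUnion_le
    refine h1.trans ?_
    calc ∑ i ∈ Finset.range (⌊ℓ / w⌋₊ + 1), ((Z (x₀ + i * w)).card : ℝ)
        ≤ ∑ _i ∈ Finset.range (⌊ℓ / w⌋₊ + 1), N₀ := Finset.sum_le_sum fun i _ => hZ _
      _ = ((⌊ℓ / w⌋₊ : ℝ) + 1) * N₀ := by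
          rw [Finset.sum_const, Finset.card_range, nsmul_eq_mul]
          push_cast
          ring
      _ ≤ (ℓ / w + 1) * N₀ := by
          refine mul_le_mul_of_nonneg_right ?_ hN
          have := Nat.floor_le (show 0 ≤ ℓ / w by positivity)
          linarith
  · obtain ⟨h1, h2⟩ := hX l hl
    have h0 : 0 ≤ (X l - x₀) / w := div_nonneg (by linarith) hw.le
    rw [Finset.mem_biUnion]
    refine ⟨⌊(X l - x₀) / w⌋₊, ?_, hZ2 _ l hl ?_ ?_⟩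
    · rw [Finset.mem_range, Nat.lt_succ_iff]
      refine Nat.floor_le_floor ?_
      gcongr
      linarith
    · have := Nat.floor_le h0
      rw [le_div_iff₀ hw] at this
      linarith
    · have := Nat.lt_floor_add_one ((X l - x₀) / w)
      rw [div_lt_iff₀ hw] at this
      nlinarith

/-- the arithmetic of the count -/
theorem k5_fc_arith (a b K Γ Γ' p H R : ℝ) (ha : 0 ≤ a) (hb : 0 ≤ b) (hK : 1 ≤ K) (hΓ0 : 0 < Γ) (hΓ' : Γ' = min Γ 1)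
    (hΓK : Γ ≤ (b + 2) * K) (hp : 0 < p) (hpH : p ≤ H) (hH : H ≤ Γ) (hR : 0 ≤ R) :
    ((3 * p + 2 * a * K ^ 2 * H + 4 * a * K * Γ) / Γ' + 1) * (K * R)
      ≤ ((3 + 6 * a) * (b + 2) + 5) * K ^ ((3 + 6 * a) * (b + 2) + 5) * R := by
  have hK0 : 0 < K := by linarith
  have hab : 0 ≤ a * b := mul_nonneg ha hb
  have hΓ'0 : 0 < Γ' := by
    rw [hΓ']
    exact lt_min hΓ0 one_pos
  have hMK : 1 ≤ (b + 2) * K := by nlinarith
  have hΓΓ' : Γ ≤ (b + 2) * K * Γ' := by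
    rcases le_total Γ 1 with h1 | h1
    · rw [hΓ', min_eq_left h1]
      exact le_mul_of_one_le_left hΓ0.le hMK
    · rw [hΓ', min_eq_right h1, mul_one]
      exact hΓK
  have hKK : K ≤ K ^ 2 := by nlinarith
  have hK21 : 1 ≤ K ^ 2 := by nlinarith
  have hℓΓ : 3 * p + 2 * a * K ^ 2 * H + 4 * a * K * Γ ≤ (3 + 6 * a) * K ^ 2 * Γ := by
    have a1 : 3 * p ≤ 3 * K ^ 2 * Γ := by
      have h1 : p ≤ Γ := hpH.trans hH
      have h2 : Γ ≤ K ^ 2 * Γ := le_mul_of_one_le_left hΓ0.le hK21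
      linarith
    have a2 : 2 * a * K ^ 2 * H ≤ 2 * a * K ^ 2 * Γ := mul_le_mul_of_nonneg_left hH (by positivity)
    have a3 : 4 * a * K * Γ ≤ 4 * a * K ^ 2 * Γ := by
      refine mul_le_mul_of_nonneg_right ?_ hΓ0.le
      exact mul_le_mul_of_nonneg_left hKK (by positivity)
    linarith
  have hℓΓ' : (3 * p + 2 * a * K ^ 2 * H + 4 * a * K * Γ) / Γ' ≤ (3 + 6 * a) * (b + 2) * K ^ 3 := by
    rw [div_le_iff₀ hΓ'0]
    calc 3 * p + 2 * a * K ^ 2 * H + 4 * a * K * Γ ≤ (3 + 6 * a) * K ^ 2 * Γ := hℓΓ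
      _ ≤ (3 + 6 * a) * K ^ 2 * ((b + 2) * K * Γ') := mul_le_mul_of_nonneg_left hΓΓ' (by positivity)
      _ = (3 + 6 * a) * (b + 2) * K ^ 3 * Γ' := by ring
  have b1 : K ^ (4 : ℕ) ≤ K ^ ((3 + 6 * a) * (b + 2) + 5) := by
    rw [← Real.rpow_natCast]
    refine Real.rpow_le_rpow_of_exponent_le hK ?_
    push_cast
    nlinarith
  have b2 : (1 : ℝ) ≤ K ^ 3 := one_le_pow₀ hK
  have b3 : ((3 * p + 2 * a * K ^ 2 * H + 4 * a * K * Γ) / Γ' + 1) * K ≤ ((3 + 6 * a) * (b + 2) + 5) * K ^ (4 : ℕ) := by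
    calc ((3 * p + 2 * a * K ^ 2 * H + 4 * a * K * Γ) / Γ' + 1) * K ≤ ((3 + 6 * a) * (b + 2) * K ^ 3 + K ^ 3) * K :=
          mul_le_mul_of_nonneg_right (by linarith) hK0.le
      _ = ((3 + 6 * a) * (b + 2) + 1) * K ^ (4 : ℕ) := by ring
      _ ≤ ((3 + 6 * a) * (b + 2) + 5) * K ^ (4 : ℕ) :=
          mul_le_mul_of_nonneg_right (by linarith) (by positivity)
  calc ((3 * p + 2 * a * K ^ 2 * H + 4 * a * K * Γ) / Γ' + 1) * (K * R)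
      = ((3 * p + 2 * a * K ^ 2 * H + 4 * a * K * Γ) / Γ' + 1) * K * R := by ring
    _ ≤ ((3 + 6 * a) * (b + 2) + 5) * K ^ (4 : ℕ) * R := mul_le_mul_of_nonneg_right b3 hR
    _ ≤ _ := by
        refine mul_le_mul_of_nonneg_right ?_ hR
        exact mul_le_mul_of_nonneg_left b1 (by positivity)

/-- **L-252-S5-F2**  the count of the scalar at `t'` (05 l.1079-1090).   `Γ = ‖Ev‖ > h^(M+1/4)`, `r = h^(1/4)`, `q' = min Γ 1 * r`.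
PROOF.  `ent_entC_le_log_nval`.   Over a fibre of `O₁` (inside `A`): by `k5_final_osc` and `|Ev ⬝ᵥ y(t')| ≤ 2 j K Γ`, `S(t')` lies in an interval of length `ℓ := 3 p + 2 j K² h^(M+1) + 4 j K Γ ≤ (3 + 6 j K²) Γ` (`p ≤ h^(M+1) ≤ h^(M+1/4) < Γ`).
Cover it by `n := ⌈ℓ / Γ'⌉₊` intervals of length `Γ' := min Γ 1`;  `n ≤ (3 + 6 j K²) max Γ 1 + 1 ≤ C K³` because `Γ ≤ ‖f'‖ + 3 K ≤ 4 K`.   `supp` of the time `t'` with `(q, r) := (q', Γ')` (`ζ ≤ h^(M+1/2) ≤ q'`, `q' ≤ Γ' ≤ 1`): `≤ K (Γ'/q')^d = K r^(-d)` cells each.   ~250 l. -/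
theorem k5_final_count (j M : ℕ) (hM : 2 ≤ M) : ∃ C : ℝ, 1 ≤ C ∧ ∀ (Λ : Type) [Fintype Λ] (P : FLaw Λ) (c : Λ → k5_Co j)
    (d K ζ : ℝ) (Rs : Set ℝ) (u t' : ℝ) (Φ : ℕ → Fin j → ℝ) (f' : Fin j → ℝ) (G' : Set Λ) (h p : ℝ), 0 ≤ d → 1 ≤ K →
    (∀ l, ‖c l‖ ≤ K) → (∀ i ≤ M, ‖Φ i‖ ≤ K) → k5_Tm j d K ζ Rs (k5_pm P) c t' f' G' →
    0 < h → h ≤ 1 → |t' - u| ≤ h → 0 < p → p ≤ h ^ (M + 1) → ζ ≤ h ^ ((M : ℝ) + 1 / 2) →
    h ^ ((M : ℝ) + 1 / 4) < ‖k5_Ev M Φ f' u t'‖ →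
    ∀ A : Λ → Prop, (∀ l, A l → l ∈ G') → 0 < P.pr A →
    (P.cnd A).entC (fun l => k5_bin (min ‖k5_Ev M Φ f' u t'‖ 1 * h ^ (1 / 4 : ℝ)) (k5_S f' (c l) t'))
      (fun l => k5_obs1 M p u Φ (c l)) ≤ Real.log (C * K ^ C * (h ^ (1 / 4 : ℝ)) ^ (-d)) := by
  have hj0 : (0 : ℝ) ≤ j := Nat.cast_nonneg j
  have hM0 : (0 : ℝ) ≤ M := Nat.cast_nonneg M
  refine ⟨(3 + 6 * (j : ℝ)) * ((M : ℝ) + 2) + 5, by nlinarith [mul_nonneg hj0 hM0], ?_⟩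
  intro Λ _ P c d K ζ Rs u t' Φ f' G' h p hd hK hc hΦ hT hh0 hh hτ hp hph hζ hΓ A hAG hA
  obtain ⟨Γ, hΓdef⟩ : ∃ Γ, Γ = ‖k5_Ev M Φ f' u t'‖ := ⟨_, rfl⟩
  obtain ⟨r, hrdef⟩ : ∃ r, r = h ^ (1 / 4 : ℝ) := ⟨_, rfl⟩
  obtain ⟨g, hgdef⟩ : ∃ g, g = h ^ ((M : ℝ) + 1 / 4) := ⟨_, rfl⟩
  obtain ⟨Γ', hΓ'def⟩ : ∃ Γ', Γ' = min Γ 1 := ⟨_, rfl⟩
  rw [← hΓdef, ← hgdef] at hΓ
  rw [← hΓdef, ← hrdef, ← hΓ'def]
  have hK0 : 0 < K := by linarith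
  have hr0 : 0 < r := by
    rw [hrdef]
    exact Real.rpow_pos_of_pos hh0 _
  have hr1 : r ≤ 1 := by
    rw [hrdef]
    exact Real.rpow_le_one hh0.le hh (by norm_num)
  have hg0 : 0 < g := by
    rw [hgdef]
    exact Real.rpow_pos_of_pos hh0 _
  have hg1 : g ≤ 1 := by
    rw [hgdef]
    exact Real.rpow_le_one hh0.le hh (by positivity)
  have hΓ0 : 0 < Γ := hg0.trans hΓ
  have hgΓ' : g ≤ Γ' := by
    rw [hΓ'def]
    exact le_min hΓ.le hg1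
  have hΓ'0 : 0 < Γ' := hg0.trans_le hgΓ'
  have hΓ'1 : Γ' ≤ 1 := by
    rw [hΓ'def]
    exact min_le_right _ _
  have hq : ζ ≤ Γ' * r := by
    have e : h ^ ((M : ℝ) + 1 / 2) = g * r := by
      rw [hgdef, hrdef, ← Real.rpow_add hh0]
      congr 1
      ring
    rw [e] at hζ
    exact hζ.trans (mul_le_mul_of_nonneg_right hgΓ' hr0.le)
  have hqr : Γ' * r ≤ Γ' := mul_le_of_le_one_right hΓ'0.le hr1
  have hrat : (Γ' / (Γ' * r)) ^ d = r ^ (-d) := by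
    have e : Γ' / (Γ' * r) = r⁻¹ := by
      field_simp
    rw [e, Real.inv_rpow hr0.le, Real.rpow_neg hr0.le]
  have hrd : 0 < r ^ (-d) := Real.rpow_pos_of_pos hr0 _
  have hΓK : Γ ≤ ((M : ℝ) + 2) * K := by
    rw [hΓdef]
    exact k5_fc_Ev_le M Φ f' u t' h K hh hτ hT.fb hΦ
  have hhM : h ^ (M + 1) ≤ Γ := by
    have e : h ^ (M + 1) = h ^ ((M : ℝ) + 1) := by
      rw [← Real.rpow_natCast]
      push_cast
      rfl
    rw [e]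
    refine le_trans ?_ hΓ.le
    rw [hgdef]
    exact Real.rpow_le_rpow_of_exponent_ge hh0 hh (by linarith)
  have hhM0 : 0 < h ^ (M + 1) := pow_pos hh0 _
  have hfin := k5_fc_arith j M K Γ Γ' p (h ^ (M + 1)) (r ^ (-d)) hj0 hM0 hK hΓ0 hΓ'def hΓK hp hph hhM hrd.le
  obtain ⟨ℓ, hℓdef⟩ : ∃ ℓ, ℓ = 3 * p + 2 * j * K ^ 2 * h ^ (M + 1) + 4 * j * K * Γ := ⟨_, rfl⟩
  rw [← hℓdef] at hfin
  have hℓ0 : 0 ≤ ℓ := by
    rw [hℓdef]
    positivity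
  -- the oscillation of the scalar over a fibre
  have hosc : ∀ l l', k5_obs1 M p u Φ (c l) = k5_obs1 M p u Φ (c l') →
      |k5_S f' (c l) t' - k5_S f' (c l') t'| ≤ ℓ := by
    intro l l' hO
    have o1 := k5_final_osc (c l) (c l') u t' h p K M hM Φ f' hK (hc l) (hc l') (hΦ M le_rfl) hp hh0 hh hτ hO
    have o2 : ∀ l, |k5_Ev M Φ f' u t' ⬝ᵥ k5_y (c l) t'| ≤ 2 * j * K * Γ := by
      intro l
      refine (k5_dot_le _ _).trans ?_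
      rw [← hΓdef]
      have := (k5_sig_le (c l) K t' (hc l) hT.t0 hT.t1).2.1
      calc (j : ℝ) * Γ * ‖k5_y (c l) t'‖ ≤ (j : ℝ) * Γ * (2 * K) := mul_le_mul_of_nonneg_left this (by positivity)
        _ = 2 * j * K * Γ := by ring
    have o3 := o2 l
    have o4 := o2 l'
    rw [hℓdef]
    rw [abs_le] at o1 o3 o4 ⊢
    constructor <;> linarith [o1.1, o1.2, o3.1, o3.2, o4.1, o4.2]
  refine ent_entC_le_log_nval _ _ _ fun l₀ => ?_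
  classical
  by_cases hne : (Finset.univ.filter fun l => A l ∧ k5_obs1 M p u Φ (c l) = k5_obs1 M p u Φ (c l₀)).Nonempty
  · obtain ⟨l₁, hl₁, hmin⟩ := Finset.exists_min_image _ (fun l => k5_S f' (c l) t') hne
    simp only [Finset.mem_filter, Finset.mem_univ, true_and] at hl₁ hmin
    obtain ⟨S, hS, hS2⟩ := k5_fc_cover (fun l => k5_S f' (c l) t') (fun l => k5_bin (Γ' * r) (k5_S f' (c l) t'))
      (fun l => A l ∧ k5_obs1 M p u Φ (c l) = k5_obs1 M p u Φ (c l₀)) (k5_S f' (c l₁) t') ℓ Γ' (K * r ^ (-d)) hΓ'0 hℓ0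
      (by positivity)
      (fun l hl => ⟨hmin l hl, by
        have := (abs_le.1 (hosc l l₁ (hl.2.trans hl₁.2.symm))).2
        linarith⟩)
      (fun a => by
        obtain ⟨Z, hZ, hZ2⟩ := hT.supp (Γ' * r) Γ' a hq hqr hΓ'1
        rw [hrat] at hZ
        exact ⟨Z, hZ, fun l hl => hZ2 l (hAG l hl.1)⟩)
    exact ⟨S, hS.trans hfin, fun l hl _ hO => hS2 l ⟨((ent_cnd_supp P A hA).1 hl).1, hO⟩⟩
  · refine ⟨∅, ?_, fun l hl _ hO => ?_⟩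
    · simp only [Finset.card_empty, Nat.cast_zero]
      positivity
    · exact absurd ⟨l, by simp [((ent_cnd_supp P A hA).1 hl).1, hO]⟩ hne

theorem k5_fp_arith (j : ℕ) (K s P Γ p q : ℝ) (hK : 1 ≤ K) (hs0 : 0 < s) (hs1 : s ≤ 1) (hP0 : 0 < P) (hΓ : P * s < Γ)
    (hph : p ≤ P * s ^ 4) (hsm : (3 + 4 * j) * K ^ 2 * s ^ 2 ≤ 1) (hq : q ≤ Γ * s) :
    (3 * p + 2 * j * K ^ 2 * (P * s ^ 4)) + q + s ^ 4 * (2 * (j * Γ * K)) ≤ Γ * (2 * s) := by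
  have hj : (0 : ℝ) ≤ j := Nat.cast_nonneg j
  have hK0 : 0 ≤ K := by linarith
  have hΓ0 : 0 < Γ := lt_trans (by positivity) hΓ
  have hKK : K ≤ K ^ 2 := by nlinarith
  have hK2 : 1 ≤ K ^ 2 := by nlinarith
  have hs3 : 0 < s ^ 3 := by positivity
  have a1 : 3 * p + 2 * j * K ^ 2 * (P * s ^ 4) ≤ (3 + 2 * j * K ^ 2) * s ^ 3 * Γ := by
    have x0 : (3 + 2 * j * K ^ 2) * (P * s ^ 4) = 3 * (P * s ^ 4) + 2 * j * K ^ 2 * (P * s ^ 4) := by ring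
    have x1 : 3 * p + 2 * j * K ^ 2 * (P * s ^ 4) ≤ (3 + 2 * j * K ^ 2) * (P * s ^ 4) := by
      rw [x0]
      linarith
    have x2 : P * s ^ 4 = s ^ 3 * (P * s) := by ring
    have x3 : s ^ 3 * (P * s) ≤ s ^ 3 * Γ := mul_le_mul_of_nonneg_left hΓ.le hs3.le
    have x4 : (0 : ℝ) ≤ 3 + 2 * j * K ^ 2 := by positivity
    calc _ ≤ (3 + 2 * j * K ^ 2) * (P * s ^ 4) := x1
      _ = (3 + 2 * j * K ^ 2) * (s ^ 3 * (P * s)) := by rw [x2]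
      _ ≤ (3 + 2 * j * K ^ 2) * (s ^ 3 * Γ) := mul_le_mul_of_nonneg_left x3 x4
      _ = _ := by ring
  have a2 : s ^ 4 * (2 * (j * Γ * K)) ≤ (2 * j * K ^ 2) * s ^ 3 * Γ := by
    have x1 : s ^ 4 ≤ s ^ 3 := by
      have : s ^ 4 = s ^ 3 * s := by ring
      rw [this]
      exact mul_le_of_le_one_right hs3.le hs1
    have x2 : (0 : ℝ) ≤ 2 * (j * Γ * K) := by positivity
    calc s ^ 4 * (2 * (j * Γ * K)) ≤ s ^ 3 * (2 * (j * Γ * K)) := mul_le_mul_of_nonneg_right x1 x2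
      _ = (2 * j * Γ * s ^ 3) * K := by ring
      _ ≤ (2 * j * Γ * s ^ 3) * K ^ 2 := mul_le_mul_of_nonneg_left hKK (by positivity)
      _ = _ := by ring
  have a3 : (3 + 2 * j * K ^ 2) * s ^ 3 * Γ + (2 * j * K ^ 2) * s ^ 3 * Γ ≤ s * Γ := by
    have x1 : (3 + 2 * j * K ^ 2) + 2 * j * K ^ 2 ≤ (3 + 4 * j) * K ^ 2 := by
      have : (3 + 4 * (j : ℝ)) * K ^ 2 = 3 * K ^ 2 + (2 * j * K ^ 2 + 2 * j * K ^ 2) := by ring
      rw [this]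
      linarith
    have x2 : ((3 + 2 * j * K ^ 2) + 2 * j * K ^ 2) * s ^ 2 ≤ 1 :=
      (mul_le_mul_of_nonneg_right x1 (by positivity)).trans hsm
    calc (3 + 2 * j * K ^ 2) * s ^ 3 * Γ + (2 * j * K ^ 2) * s ^ 3 * Γ
        = (((3 + 2 * j * K ^ 2) + 2 * j * K ^ 2) * s ^ 2) * (s * Γ) := by ring
      _ ≤ 1 * (s * Γ) := mul_le_mul_of_nonneg_right x2 (by positivity)
      _ = s * Γ := one_mul _
  have e : Γ * (2 * s) = Γ * s + s * Γ := by ring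
  rw [e]
  linarith

/-- **L-252-S5-F3**  the projection is determined (05 l.1092-1099).   `e = Ev / Γ`.
PROOF.  Two trajectories with the same `O₁` and the same `q'`-cell of `S(t')`:  `|Ev ⬝ᵥ y(t') - Ev ⬝ᵥ y(t')'| ≤ q' + 3 p + 2 j K² h^(M+1)` (`k5_final_osc`), `y(t') = y(u) + (t'-u) y'` so `|Ev ⬝ᵥ (y(t') - y(u))| ≤ j Γ h K`.   Divide by `Γ > h^(M+1/4)` :
`q'/Γ ≤ r`, `(3 p + 2 j K² h^(M+1))/Γ ≤ (3 + 2 j K²) h^(3/4)`, `2 j K h`;  the hypothesis `hsm` makes the sum of the last two `≤ r = h^(1/4)`.   ~150 l. -/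
theorem k5_final_proj (c c' : k5_Co j) (u t' h p K : ℝ) (M : ℕ) (hM : 2 ≤ M) (Φ : ℕ → Fin j → ℝ) (f' : Fin j → ℝ)
    (hK : 1 ≤ K) (hc : ‖c‖ ≤ K) (hc' : ‖c'‖ ≤ K) (hΦ : ‖Φ M‖ ≤ K) (hp : 0 < p) (hph : p ≤ h ^ (M + 1)) (hh0 : 0 < h)
    (hh : h ≤ 1) (hτ : |t' - u| ≤ h) (hΓ : h ^ ((M : ℝ) + 1 / 4) < ‖k5_Ev M Φ f' u t'‖)
    (hsm : (3 + 4 * j) * K ^ 2 * h ^ (1 / 2 : ℝ) ≤ 1) (hO : k5_obs1 M p u Φ c = k5_obs1 M p u Φ c')
    (hS : k5_bin (min ‖k5_Ev M Φ f' u t'‖ 1 * h ^ (1 / 4 : ℝ)) (k5_S f' c t')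
      = k5_bin (min ‖k5_Ev M Φ f' u t'‖ 1 * h ^ (1 / 4 : ℝ)) (k5_S f' c' t')) :
    |(‖k5_Ev M Φ f' u t'‖⁻¹ • k5_Ev M Φ f' u t') ⬝ᵥ k5_y c u - (‖k5_Ev M Φ f' u t'‖⁻¹ • k5_Ev M Φ f' u t') ⬝ᵥ k5_y c' u|
      ≤ 2 * h ^ (1 / 4 : ℝ) := by
  have h1 := k5_final_osc c c' u t' h p K M hM Φ f' hK hc hc' hΦ hp hh0 hh hτ hO
  obtain ⟨Ev, hEv⟩ : ∃ Ev, Ev = k5_Ev M Φ f' u t' := ⟨_, rfl⟩
  rw [← hEv] at h1 hΓ hS ⊢
  obtain ⟨Γ, hΓd⟩ : ∃ Γ, Γ = ‖Ev‖ := ⟨_, rfl⟩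
  rw [← hΓd] at hΓ hS ⊢
  obtain ⟨s, hs⟩ : ∃ s, s = h ^ (1 / 4 : ℝ) := ⟨_, rfl⟩
  have hs0 : 0 < s := by rw [hs]; exact Real.rpow_pos_of_pos hh0 _
  have hs1 : s ≤ 1 := by rw [hs]; exact Real.rpow_le_one hh0.le hh (by norm_num)
  have hs4 : h = s ^ 4 := by
    rw [hs, ← Real.rpow_natCast, ← Real.rpow_mul hh0.le]
    norm_num
  have hs2 : h ^ (1 / 2 : ℝ) = s ^ 2 := by
    rw [hs, ← Real.rpow_natCast, ← Real.rpow_mul hh0.le]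
    norm_num
  have hPs : h ^ ((M : ℝ) + 1 / 4) = h ^ M * s := by rw [Real.rpow_add hh0, Real.rpow_natCast, hs]
  rw [hPs] at hΓ
  rw [hs2] at hsm
  rw [← hs] at hS ⊢
  obtain ⟨P, hP⟩ : ∃ P, P = h ^ M := ⟨_, rfl⟩
  have hP0 : 0 < P := by rw [hP]; positivity
  have hP1 : h ^ (M + 1) = P * s ^ 4 := by rw [pow_succ, ← hP, ← hs4]
  rw [hP1] at h1 hph
  rw [← hP] at hΓ
  have hΓ0 : 0 < Γ := lt_trans (by positivity) hΓ
  have hq0 : 0 < min Γ 1 * s := mul_pos (lt_min hΓ0 one_pos) hs0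
  have h2 := k5_pa_bin_close hq0 hS
  have hq : min Γ 1 * s ≤ Γ * s := mul_le_mul_of_nonneg_right (min_le_left _ _) hs0.le
  have ey : Ev ⬝ᵥ k5_y c t' = Ev ⬝ᵥ k5_y c u + (t' - u) * (Ev ⬝ᵥ k5_yd c) := by
    rw [k5_fe_y c u t', dotProduct_add, dotProduct_smul, smul_eq_mul]
  have ey' : Ev ⬝ᵥ k5_y c' t' = Ev ⬝ᵥ k5_y c' u + (t' - u) * (Ev ⬝ᵥ k5_yd c') := by
    rw [k5_fe_y c' u t', dotProduct_add, dotProduct_smul, smul_eq_mul]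
  have hj : (0 : ℝ) ≤ j := Nat.cast_nonneg j
  have hK0 : 0 ≤ K := by linarith
  have b1 := (k5_sig_le c K 0 hc le_rfl zero_le_one).2.2
  have b2 := (k5_sig_le c' K 0 hc' le_rfl zero_le_one).2.2
  have d1 : |Ev ⬝ᵥ k5_yd c| ≤ j * Γ * K :=
    (k5_dot_le Ev (k5_yd c)).trans (by rw [← hΓd]; exact mul_le_mul_of_nonneg_left b1 (by positivity))
  have d2 : |Ev ⬝ᵥ k5_yd c'| ≤ j * Γ * K :=
    (k5_dot_le Ev (k5_yd c')).trans (by rw [← hΓd]; exact mul_le_mul_of_nonneg_left b2 (by positivity))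
  have d3 : |(t' - u) * (Ev ⬝ᵥ k5_yd c - Ev ⬝ᵥ k5_yd c')| ≤ s ^ 4 * (2 * (j * Γ * K)) := by
    rw [abs_mul]
    refine mul_le_mul (by rw [← hs4]; exact hτ) ?_ (abs_nonneg _) (by positivity)
    have := abs_sub (Ev ⬝ᵥ k5_yd c) (Ev ⬝ᵥ k5_yd c')
    linarith
  rw [smul_dotProduct, smul_dotProduct, smul_eq_mul, smul_eq_mul, ← mul_sub, abs_mul, abs_inv, abs_of_pos hΓ0, inv_mul_le_iff₀ hΓ0]
  have hD : |Ev ⬝ᵥ k5_y c u - Ev ⬝ᵥ k5_y c' u| ≤ (3 * p + 2 * j * K ^ 2 * (P * s ^ 4)) + min Γ 1 * s + s ^ 4 * (2 * (j * Γ * K)) := by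
    have e : Ev ⬝ᵥ k5_y c u - Ev ⬝ᵥ k5_y c' u
        = ((k5_S f' c t' + Ev ⬝ᵥ k5_y c t') - (k5_S f' c' t' + Ev ⬝ᵥ k5_y c' t')) - (k5_S f' c t' - k5_S f' c' t')
          - (t' - u) * (Ev ⬝ᵥ k5_yd c - Ev ⬝ᵥ k5_yd c') := by
      rw [ey, ey']
      ring
    rw [e]
    have t1 := abs_sub (((k5_S f' c t' + Ev ⬝ᵥ k5_y c t') - (k5_S f' c' t' + Ev ⬝ᵥ k5_y c' t')) - (k5_S f' c t' - k5_S f' c' t'))
      ((t' - u) * (Ev ⬝ᵥ k5_yd c - Ev ⬝ᵥ k5_yd c'))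
    have t2 := abs_sub ((k5_S f' c t' + Ev ⬝ᵥ k5_y c t') - (k5_S f' c' t' + Ev ⬝ᵥ k5_y c' t')) (k5_S f' c t' - k5_S f' c' t')
    linarith
  refine hD.trans ?_
  exact k5_fp_arith j K s P Γ p (min Γ 1 * s) hK hs0 hs1 hP0 hΓ hph hsm hq

/-- **L-252-S5-F4**  **the final test** (05 l.1054-1107): a node of order `M ≥ 2` at the root `u`, a further labelled time `t'`, `|t' - u| ≤ h` : the Taylor polynomial of the rows fits the row at `t'`.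
PROOF (assembly).  By contradiction `Γ := ‖k5_Ev M Φ f' u t'‖ > h^(M+1/4)` (the claim is `‖k5_Ev …‖ ≤ …` by `k5_Ev.eq_1`).   `A := fun l => l ∈ G ∧ l ∈ G'`, `Q := P.cnd A`, `r := h^(1/4)`, `e := Γ⁻¹ • Ev` (`‖e‖ = 1`), `L := cst (1 + log K + log (1/P(A)))`.
Upper bound: `H_Q((e y(u))_r | S(u)_p) ≤ H((J_i(u)_p)_i | S(u)_p) + H(S(t')_q' | O₁) + H((e y(u))_r | O₁, S(t')_q') ≤ M L + log (C K^C r^(-d)) + log 4`
(`k5_entC_tuple` + `her` at the reading `p`;  `k5_final_count`;  `k5_entC_osc` with `ω := 2 r` from `k5_final_proj`; chain rule `ent_entC_pair_le_add`, `ent_entC_anti`, `ent_entC_congr` to regroup tuples).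
Lower bound: `k5_ent_proj` at the time `u` (`tm` of the node restricted to `A`) with `(q, r) := (p, r)`, `p ≤ h^(M+1) ≤ h^(1/4)`.
So `(1 - d) log (1/r) ≤ C' (1 + log K + log (1/s))`, i.e. `h^(-(1-d)/4) ≤ (e K / s)^C'` (`k5_Y_eq`), contradicting `C (K/s)^C h^((1-d)/4) ≤ 1` for `C > 3^C' …` (make the inequality strict by taking `C` twice as large).   ~300 l. -/
theorem k5_node_final (j M : ℕ) (cst d : ℝ) (hM : 2 ≤ M) (hc : 1 ≤ cst) (hd0 : 0 ≤ d) (hd : d < 1) :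
    ∃ C : ℝ, 1 ≤ C ∧ ∀ (Λ : Type) [Fintype Λ] (P : FLaw Λ) (c : Λ → k5_Co j) (K ζ : ℝ) (Rs : Set ℝ) (u t' : ℝ)
      (Φ : ℕ → Fin j → ℝ) (f' : Fin j → ℝ) (G G' : Set Λ) (ρ h p s : ℝ), 1 ≤ K → (∀ l, ‖c l‖ ≤ K) →
      k5_Node P c d K ζ Rs u M Φ G ρ cst → k5_Tm j d K ζ Rs (k5_pm P) c t' f' G' →
      0 < h → h ≤ 1 → |t' - u| ≤ h → p ∈ Rs → ρ ≤ p → ζ ≤ p → p ≤ h ^ (M + 1) → ζ ≤ h ^ ((M : ℝ) + 1 / 2) →
      0 < s → s ≤ P.pr (fun l => l ∈ G ∧ l ∈ G') → C * (K / s) ^ C * h ^ ((1 - d) / 4) ≤ 1 →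
      ‖f' - ∑ i ∈ Finset.range (M + 1), ((t' - u) ^ i / (i.factorial : ℝ)) • Φ i‖ ≤ h ^ ((M : ℝ) + 1 / 4) := by
  obtain ⟨C₂, hC₂, Hproj⟩ := k5_ent_proj j
  obtain ⟨C₃, hC₃, Hcount⟩ := k5_final_count j M hM
  have hlC₃ : 0 ≤ Real.log C₃ := Real.log_nonneg hC₃
  have hl4 : 0 ≤ Real.log 4 := Real.log_nonneg (by norm_num)
  have hMc : 0 ≤ (M : ℝ) * cst := by positivity
  obtain ⟨a, ha⟩ : ∃ a : ℝ, a = C₂ + 1 + M * cst + C₃ + Real.log C₃ + Real.log 4 := ⟨_, rfl⟩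
  have ha0 : 0 < a := by rw [ha]; linarith
  have hj0 : (0 : ℝ) ≤ (j : ℝ) := Nat.cast_nonneg j
  refine ⟨Real.exp a + a + 3 + 4 * j, ?_, ?_⟩
  · have := Real.add_one_le_exp a
    linarith
  intro Λ _ P c K ζ Rs u t' Φ f' G G' ρ h p s hK hcb N T' hh0 hh1 hτ hpR hρp hζp hph hζh hs hsA hsm
  by_contra hcon
  have hΓ : h ^ ((M : ℝ) + 1 / 4) < ‖k5_Ev M Φ f' u t'‖ := not_le.1 hcon
  obtain ⟨C, hCdef⟩ : ∃ C : ℝ, C = Real.exp a + a + 3 + 4 * j := ⟨_, rfl⟩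
  rw [← hCdef] at hsm
  have hCa : a ≤ C := by rw [hCdef]; linarith [Real.exp_pos a]
  have hC0 : 0 < C := by linarith
  have hClog : a < Real.log C := by
    rw [Real.lt_log_iff_exp_lt hC0, hCdef]; linarith
  -- basic quantities
  have hp0 : 0 < p := N.tm.z0.trans_le hζp
  have hA0 : 0 < P.pr (fun l => l ∈ G ∧ l ∈ G') := hs.trans_le hsA
  have hs1 : s ≤ 1 := hsA.trans (ent_pr_le_one P _)
  have hr0 : 0 < h ^ (1 / 4 : ℝ) := Real.rpow_pos_of_pos hh0 _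
  have hr1 : h ^ (1 / 4 : ℝ) ≤ 1 := Real.rpow_le_one hh0.le hh1 (by norm_num)
  have hpr : p ≤ h ^ (1 / 4 : ℝ) := by
    refine hph.trans ?_
    rw [← Real.rpow_natCast]
    refine Real.rpow_le_rpow_of_exponent_ge hh0 hh1 ?_
    push_cast
    have : (0 : ℝ) ≤ (M : ℝ) := Nat.cast_nonneg M
    linarith
  have hp1 : p ≤ 1 := hpr.trans hr1
  have hΓ0 : 0 < ‖k5_Ev M Φ f' u t'‖ := (Real.rpow_pos_of_pos hh0 _).trans hΓ
  have he1 : ‖‖k5_Ev M Φ f' u t'‖⁻¹ • k5_Ev M Φ f' u t'‖ = 1 := by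
    rw [norm_smul, norm_inv, norm_norm, inv_mul_cancel₀ hΓ0.ne']
  have hKs : 1 ≤ K / s := by rw [le_div_iff₀ hs]; linarith
  -- smallness for `k5_final_proj`
  have hsm' : (3 + 4 * j) * K ^ 2 * h ^ (1 / 2 : ℝ) ≤ 1 := by
    refine le_trans ?_ hsm
    have h1 : h ^ (1 / 2 : ℝ) ≤ h ^ ((1 - d) / 4) :=
      Real.rpow_le_rpow_of_exponent_ge hh0 hh1 (by linarith)
    have h2 : K ^ 2 ≤ (K / s) ^ C := by
      have h3 : K ≤ K / s := by rw [le_div_iff₀ hs]; nlinarith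
      calc K ^ 2 ≤ (K / s) ^ 2 := pow_le_pow_left₀ (by linarith) h3 2
        _ = (K / s) ^ (2 : ℝ) := by rw [← Real.rpow_natCast]; norm_num
        _ ≤ (K / s) ^ C := Real.rpow_le_rpow_of_exponent_le hKs (by rw [hCdef]; linarith [Real.exp_pos a])
    have h4 : (3 + 4 * (j : ℝ)) ≤ C := by rw [hCdef]; linarith [Real.exp_pos a]
    have h5 : 0 ≤ h ^ (1 / 2 : ℝ) := Real.rpow_nonneg hh0.le _
    have h6 : 0 ≤ K ^ 2 := by positivity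
    exact mul_le_mul (mul_le_mul h4 h2 h6 hC0.le) h1 h5 (by positivity)
  -- the observations
  set Q := P.cnd (fun l => l ∈ G ∧ l ∈ G') with hQ
  set e := ‖k5_Ev M Φ f' u t'‖⁻¹ • k5_Ev M Φ f' u t' with he
  set q' := min ‖k5_Ev M Φ f' u t'‖ 1 * h ^ (1 / 4 : ℝ) with hq'
  let Sp : Λ → ℤ := fun l => k5_bin p (k5_S (Φ 0) (c l) u)
  let Jt : Λ → Fin M → ℤ := fun l i => k5_bin p (k5_J (i + 1) (Φ (i + 1)) (Φ i) (c l) u)
  let St : Λ → ℤ := fun l => k5_bin q' (k5_S f' (c l) t')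
  let W : Λ → ℤ := fun l => k5_bin (h ^ (1 / 4 : ℝ)) (e ⬝ᵥ k5_y (c l) u)
  -- lower bound
  have hlow := Hproj Λ P c d K ζ Rs u (Φ 0) G hd0 hK hcb N.tm (fun l => l ∈ G ∧ l ∈ G') (fun l hl => hl.1) hA0 e he1
    p (h ^ (1 / 4 : ℝ)) hζp hpr hr1
  -- upper bound
  have hup1 : Q.entC W Sp ≤ Q.entC (FLaw.pair Jt (FLaw.pair St W)) Sp :=
    ent_entC_mono Q _ _ Sp fun ω ω' _ _ hX _ => congrArg (fun x => x.2.2) hX
  have hup2 := ent_entC_chain Q Jt (FLaw.pair St W) Sp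
  have hup3 := ent_entC_chain Q St W (FLaw.pair Jt Sp)
  have hJ : Q.entC Jt Sp ≤ M * (cst * (1 + Real.log K + Real.log (1 / P.pr (fun l => l ∈ G ∧ l ∈ G')))) := by
    refine (k5_entC_tuple Q M (fun i l => Jt l i) Sp).trans ?_
    calc ∑ i : Fin M, Q.entC (fun l => Jt l i) Sp
        ≤ ∑ _i : Fin M, cst * (1 + Real.log K + Real.log (1 / P.pr (fun l => l ∈ G ∧ l ∈ G'))) := by
          refine Finset.sum_le_sum fun i _ => ?_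
          have := N.her (fun l => l ∈ G ∧ l ∈ G') (fun l hl => hl.1) hA0 (i + 1) (by omega) (by omega) p hpR hρp hp1
          simpa using this
      _ = _ := by rw [Finset.sum_const, Finset.card_univ, Fintype.card_fin, nsmul_eq_mul]
  have hS : Q.entC St (FLaw.pair Jt Sp) ≤ Real.log (C₃ * K ^ C₃ * (h ^ (1 / 4 : ℝ)) ^ (-d)) := by
    refine le_trans ?_ (Hcount Λ P c d K ζ Rs u t' Φ f' G' h p hd0 hK hcb N.rb T' hh0 hh1 hτ hp0 hph hζh hΓ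
      (fun l => l ∈ G ∧ l ∈ G') (fun l hl => hl.2) hA0)
    refine ent_entC_anti Q St _ _ fun ω ω' _ _ hX => ?_
    have h1 : Jt ω = Jt ω' := congrArg Prod.fst hX
    have h2 : Sp ω = Sp ω' := congrArg Prod.snd hX
    exact Prod.ext h2 h1
  have hW : Q.entC W (FLaw.pair St (FLaw.pair Jt Sp)) ≤ Real.log 4 := by
    have := k5_entC_osc P (fun l => l ∈ G ∧ l ∈ G') hA0 (FLaw.pair St (FLaw.pair Jt Sp))
      (fun l => e ⬝ᵥ k5_y (c l) u) (2 * h ^ (1 / 4 : ℝ)) (h ^ (1 / 4 : ℝ)) hr0 (by positivity) ?_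
    · have e4 : 2 * h ^ (1 / 4 : ℝ) / h ^ (1 / 4 : ℝ) + 2 = 4 := by
        rw [mul_div_assoc, div_self hr0.ne']; norm_num
      rwa [e4] at this
    · intro l l' _ _ hO
      have h0 : St l = St l' := congrArg Prod.fst hO
      have h1 : Jt l = Jt l' := congrArg (fun x => x.2.1) hO
      have h2 : Sp l = Sp l' := congrArg (fun x => x.2.2) hO
      exact k5_final_proj (c l) (c l') u t' h p K M hM Φ f' hK (hcb l) (hcb l') (N.rb M le_rfl) hp0 hph hh0 hh1 hτ hΓ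
        hsm' (Prod.ext h2 h1) h0
  -- logarithms
  have hlK : 0 ≤ Real.log K := Real.log_nonneg hK
  have hls : 0 ≤ Real.log (1 / s) := Real.log_nonneg (by rw [le_div_iff₀ hs]; linarith)
  have hlA0 : 0 ≤ Real.log (1 / P.pr (fun l => l ∈ G ∧ l ∈ G')) :=
    Real.log_nonneg (by rw [le_div_iff₀ hA0]; linarith [ent_pr_le_one P (fun l => l ∈ G ∧ l ∈ G')])
  have hlA : Real.log (1 / P.pr (fun l => l ∈ G ∧ l ∈ G')) ≤ Real.log (1 / s) :=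
    Real.log_le_log (by positivity) (one_div_le_one_div_of_le hs hsA)
  have hlr : Real.log (h ^ (1 / 4 : ℝ)) = 1 / 4 * Real.log h := Real.log_rpow hh0 _
  have e1 : Real.log (1 / h ^ (1 / 4 : ℝ)) = -(1 / 4 * Real.log h) := by
    rw [one_div, Real.log_inv, hlr]
  have e2 : Real.log (C₃ * K ^ C₃ * (h ^ (1 / 4 : ℝ)) ^ (-d))
      = Real.log C₃ + C₃ * Real.log K + -d * (1 / 4 * Real.log h) := by
    have k0 : 0 < K := by linarith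
    rw [Real.log_mul (by positivity) (Real.rpow_pos_of_pos hr0 _).ne',
      Real.log_mul (by positivity) (Real.rpow_pos_of_pos k0 _).ne', Real.log_rpow k0, Real.log_rpow hr0, hlr]
  have e3 : Real.log C + C * (Real.log K + Real.log (1 / s)) + (1 - d) / 4 * Real.log h ≤ 0 := by
    have k0 : 0 < K := by linarith
    have hpos : 0 < C * (K / s) ^ C * h ^ ((1 - d) / 4) := by positivity
    have := Real.log_nonpos hpos.le hsm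
    rw [Real.log_mul (by positivity) (Real.rpow_pos_of_pos hh0 _).ne',
      Real.log_mul hC0.ne' (Real.rpow_pos_of_pos (by positivity) _).ne', Real.log_rpow (by positivity),
      Real.log_rpow hh0, div_eq_mul_one_div K s, Real.log_mul k0.ne' (by positivity)] at this
    exact this
  rw [e1] at hlow
  rw [e2] at hS
  -- the final arithmetic
  set lK := Real.log K
  set ls := Real.log (1 / s)
  set lA := Real.log (1 / P.pr (fun l => l ∈ G ∧ l ∈ G'))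
  set lh := Real.log h
  have hY : 1 ≤ 1 + lK + ls := by linarith
  have b1 : C₂ * (1 + lK) ≤ C₂ * (1 + lK + ls) := mul_le_mul_of_nonneg_left (by linarith) (by linarith)
  have b2 : (M : ℝ) * (cst * (1 + lK + lA)) ≤ M * cst * (1 + lK + ls) := by
    rw [mul_assoc]
    exact mul_le_mul_of_nonneg_left (mul_le_mul_of_nonneg_left (by linarith) (by linarith)) (Nat.cast_nonneg M)
  have b3 : C₃ * lK ≤ C₃ * (1 + lK + ls) := mul_le_mul_of_nonneg_left (by linarith) (by linarith)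
  have b4 : Real.log C₃ ≤ Real.log C₃ * (1 + lK + ls) := le_mul_of_one_le_right hlC₃ hY
  have b5 : Real.log 4 ≤ Real.log 4 * (1 + lK + ls) := le_mul_of_one_le_right hl4 hY
  have b6 : a * (lK + ls) ≤ C * (lK + ls) := mul_le_mul_of_nonneg_right hCa (by linarith)
  have b7 : a * (1 + lK + ls) = C₂ * (1 + lK + ls) + (1 + lK + ls) + M * cst * (1 + lK + ls) + C₃ * (1 + lK + ls)
      + Real.log C₃ * (1 + lK + ls) + Real.log 4 * (1 + lK + ls) := by rw [ha]; ring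
  have b8 : a * (1 + lK + ls) = a + a * (lK + ls) := by ring
  have b9 : (1 - d) / 4 * lh = 1 / 4 * lh + -d * (1 / 4 * lh) := by ring
  linarith


end Claimed.Agent.R252
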