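import Claimed.Agent.R252.S5.Defs

/-!
# Row 252, Sec. 5: API of the incidence mass `k5_mass ν E = (ν ⊗ dt)(E)`.   CONTRACT      (architect helper55; prefix `k5_`)

PAPER-FREE measure theory (Mathlib only + `Defs.lean`).   `E ⊆ Λ × ℝ` measurable, contained in `Λ × [a, b)`-type slabs, `ν` finite.   Everything in `ℝ` (`Measure.real`, Bochner integrals of bounded nonnegative measurable functions).
Tools: `Measure.prod_apply`, `Measure.prod_apply_symm`, `measurable_measure_prodMk_left`, `measurable_measure_prodMk_right`, `integral_toReal`, `measureReal_def`, `ENNReal.toReal_mono`, `measure_mono`, `Measure.prod_prod`.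
RULE: statements are frozen; prove in place, helper lemmas (prefix `k5_`) directly above the theorem that needs them.
-/

set_option autoImplicit false

namespace Claimed.Agent.R252

open MeasureTheory Set
open scoped BigOperators

variable {Λ : Type} [MeasurableSpace Λ] {ν : Measure Λ} {E E' : Set (Λ × ℝ)}

/-- the labels live in the time slab `T` -/
def k5_In (E : Set (Λ × ℝ)) (T : Set ℝ) : Prop := ∀ l t, (l, t) ∈ E → t ∈ T

theorem k5_meas_sec (hE : MeasurableSet E) (t : ℝ) : MeasurableSet (k5_sec E t) :=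
  measurable_prodMk_right hE

theorem k5_meas_fib (hE : MeasurableSet E) (l : Λ) : MeasurableSet (k5_fib E l) :=
  measurable_prodMk_left hE

theorem k5_meas_rt (hE : MeasurableSet E) {W : Set ℝ} (hW : MeasurableSet W) : MeasurableSet (k5_rt E W) :=
  hE.inter (measurable_snd hW)

theorem k5_measurable_sec [IsFiniteMeasure ν] (hE : MeasurableSet E) : Measurable (fun t => ν.real (k5_sec E t)) :=
  (measurable_measure_prodMk_right hE).ennreal_toReal

theorem k5_measurable_fib (hE : MeasurableSet E) : Measurable (fun l => volume.real (k5_fib E l)) :=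
  (measurable_measure_prodMk_left hE).ennreal_toReal

theorem k5_mass_enn_le {T : Set ℝ} (hI : k5_In E T) : (ν.prod volume) E ≤ ν univ * volume T := by
  rw [← Measure.prod_prod]
  exact measure_mono fun x hx => ⟨mem_univ _, hI x.1 x.2 hx⟩

theorem k5_mass_ne_top [IsFiniteMeasure ν] {T : Set ℝ} (hT : volume T ≠ ⊤) (hI : k5_In E T) : (ν.prod volume) E ≠ ⊤ :=
  ne_top_of_le_ne_top (ENNReal.mul_ne_top (measure_ne_top ν univ) hT) (k5_mass_enn_le hI)

/-- finiteness: `(ν ⊗ dt)(E) ≤ ν(Λ) |T|` -/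
theorem k5_mass_le [IsFiniteMeasure ν] {T : Set ℝ} (hT : volume T ≠ ⊤) (hI : k5_In E T) :
    k5_mass ν E ≤ ν.real univ * volume.real T := by
  unfold k5_mass
  simp only [measureReal_def]
  rw [← ENNReal.toReal_mul]
  exact ENNReal.toReal_mono (ENNReal.mul_ne_top (measure_ne_top ν univ) hT) (k5_mass_enn_le hI)

theorem k5_mass_nonneg : 0 ≤ k5_mass ν E := measureReal_nonneg

theorem k5_mass_mono [IsFiniteMeasure ν] {T : Set ℝ} (hT : volume T ≠ ⊤) (hI : k5_In E' T) (h : E ⊆ E') :
    k5_mass ν E ≤ k5_mass ν E' :=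
  measureReal_mono h (k5_mass_ne_top hT hI)

theorem k5_sec_eq_empty {T : Set ℝ} (hI : k5_In E T) {t : ℝ} (ht : t ∉ T) : k5_sec E t = ∅ := by
  ext l
  simp only [k5_sec, mem_ofPred_eq, mem_empty_iff_false, iff_false]
  exact fun h => ht (hI l t h)

theorem k5_fib_sub {T : Set ℝ} (hI : k5_In E T) (l : Λ) : k5_fib E l ⊆ T := fun t ht => hI l t ht

/-- Tonelli, time first -/
theorem k5_mass_eq_sec [IsFiniteMeasure ν] (hE : MeasurableSet E) {T : Set ℝ} (hTm : MeasurableSet T)
    (hT : volume T ≠ ⊤) (hI : k5_In E T) : k5_mass ν E = ∫ t in T, ν.real (k5_sec E t) := by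
  rw [setIntegral_eq_integral_of_forall_compl_eq_zero (fun t ht => by rw [k5_sec_eq_empty hI ht]; simp)]
  unfold k5_mass
  rw [measureReal_def, Measure.prod_apply_symm hE]
  exact (integral_toReal (measurable_measure_prodMk_right hE).aemeasurable
    (Filter.Eventually.of_forall fun t => measure_lt_top ν _)).symm

/-- Tonelli, trajectory first -/
theorem k5_mass_eq_fib [IsFiniteMeasure ν] (hE : MeasurableSet E) {T : Set ℝ} (hT : volume T ≠ ⊤) (hI : k5_In E T) :
    k5_mass ν E = ∫ l, volume.real (k5_fib E l) ∂ν := by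
  unfold k5_mass
  rw [measureReal_def, Measure.prod_apply hE]
  exact (integral_toReal (measurable_measure_prodMk_left hE).aemeasurable
    (Filter.Eventually.of_forall fun l => lt_of_le_of_lt (measure_mono (k5_fib_sub hI l)) hT.lt_top)).symm

/-- splitting -/
theorem k5_mass_split [IsFiniteMeasure ν] (hE : MeasurableSet E) {T : Set ℝ} (hT : volume T ≠ ⊤) (hI : k5_In E T)
    {S : Set (Λ × ℝ)} (hS : MeasurableSet S) : k5_mass ν E = k5_mass ν (E ∩ S) + k5_mass ν (E \ S) :=
  (measureReal_inter_add_sdiff hS (k5_mass_ne_top hT hI)).symm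

theorem k5_measure_sum {α ι : Type} [MeasurableSpace α] (μ : Measure α) (s : Finset ι) (S : ι → Set α)
    (hS : ∀ i ∈ s, MeasurableSet (S i)) (hd : (s : Set ι).PairwiseDisjoint S) (A : Set α) (hcov : A ⊆ ⋃ i ∈ s, S i) :
    μ A = ∑ i ∈ s, μ (A ∩ S i) := by
  classical
  induction s using Finset.induction_on generalizing A with
  | empty =>
    have : A = ∅ := by
      apply Set.eq_empty_of_subset_empty
      simpa using hcov
    simp [this]
  | insert a s ha ih =>
    rw [Finset.sum_insert ha, ← measure_inter_add_sdiff A (hS a (Finset.mem_insert_self a s))]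
    congr 1
    have hd' : (s : Set ι).PairwiseDisjoint S := hd.subset (by simp)
    rw [ih (fun i hi => hS i (Finset.mem_insert_of_mem hi)) hd' (A \ S a) ?_]
    · refine Finset.sum_congr rfl fun i hi => ?_
      congr 1
      have hne : a ≠ i := fun h => ha (h ▸ hi)
      have hdis : Disjoint (S a) (S i) := hd (by simp) (by simp [hi]) hne
      ext x
      simp only [mem_inter_iff, mem_sdiff]
      constructor
      · rintro ⟨⟨h1, -⟩, h3⟩
        exact ⟨h1, h3⟩
      · rintro ⟨h1, h3⟩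
        exact ⟨⟨h1, fun h2 => Set.disjoint_left.1 hdis h2 h3⟩, h3⟩
    · intro x hx
      have := hcov hx.1
      simp only [Finset.mem_insert, iUnion_iUnion_eq_or_left, mem_union, mem_iUnion, exists_prop] at this
      rcases this with h | h
      · exact absurd h hx.2
      · simpa using h

/-- finite disjoint unions (blocks, groups) -/
theorem k5_mass_sum [IsFiniteMeasure ν] {T : Set ℝ} (hT : volume T ≠ ⊤) (hI : k5_In E T) {ι : Type} (s : Finset ι)
    (S : ι → Set (Λ × ℝ)) (hS : ∀ i ∈ s, MeasurableSet (S i)) (hd : (s : Set ι).PairwiseDisjoint S)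
    (hcov : E ⊆ ⋃ i ∈ s, S i) : k5_mass ν E = ∑ i ∈ s, k5_mass ν (E ∩ S i) := by
  unfold k5_mass
  simp only [measureReal_def]
  rw [k5_measure_sum (ν.prod volume) s S hS hd E hcov, ENNReal.toReal_sum]
  intro i _
  exact ne_top_of_le_ne_top (k5_mass_ne_top hT hI) (measure_mono inter_subset_left)

theorem k5_sec_integrableOn [IsFiniteMeasure ν] (hE : MeasurableSet E) {T : Set ℝ} (hT : volume T ≠ ⊤) :
    IntegrableOn (fun t => ν.real (k5_sec E t)) T volume := by
  refine Measure.integrableOn_of_bounded (M := ν.real univ) hT (k5_measurable_sec hE).aestronglyMeasurable ?_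
  refine Filter.Eventually.of_forall fun t => ?_
  rw [Real.norm_of_nonneg measureReal_nonneg]
  exact measureReal_mono (subset_univ _)

/-- upper bound by the sections -/
theorem k5_mass_le_sec [IsFiniteMeasure ν] (hE : MeasurableSet E) {T : Set ℝ} (hTm : MeasurableSet T)
    (hT : volume T ≠ ⊤) (hI : k5_In E T) {a : ℝ} (h : ∀ t ∈ T, ν.real (k5_sec E t) ≤ a) :
    k5_mass ν E ≤ a * volume.real T := by
  rw [k5_mass_eq_sec hE hTm hT hI]
  have h1 : ∫ t in T, ν.real (k5_sec E t) ≤ ∫ _ in T, a :=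
    setIntegral_mono_on (k5_sec_integrableOn hE hT) (integrableOn_const hT) hTm h
  rw [setIntegral_const, smul_eq_mul, mul_comm] at h1
  exact h1

/-- upper bound by the fibres -/
theorem k5_mass_le_fib [IsFiniteMeasure ν] (hE : MeasurableSet E) {T : Set ℝ} (hT : volume T ≠ ⊤) (hI : k5_In E T)
    {a : ℝ} (h : ∀ l, volume.real (k5_fib E l) ≤ a) : k5_mass ν E ≤ a * ν.real univ := by
  rw [k5_mass_eq_fib hE hT hI]
  have hint : Integrable (fun l => volume.real (k5_fib E l)) ν := by
    refine Integrable.of_bound (k5_measurable_fib hE).aestronglyMeasurable (volume.real T) ?_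
    refine Filter.Eventually.of_forall fun l => ?_
    rw [Real.norm_of_nonneg measureReal_nonneg]
    exact measureReal_mono (k5_fib_sub hI l) hT
  have h1 : ∫ l, volume.real (k5_fib E l) ∂ν ≤ ∫ _, a ∂ν := integral_mono hint (integrable_const a) h
  rw [integral_const, smul_eq_mul, mul_comm] at h1
  exact h1

/-- averaging in time: some section is at least the average -/
theorem k5_exists_sec [IsFiniteMeasure ν] (hE : MeasurableSet E) {T : Set ℝ} (hTm : MeasurableSet T)
    (hT : volume T ≠ ⊤) (hI : k5_In E T) (hpos : 0 < k5_mass ν E) :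
    ∃ t ∈ T, k5_mass ν E ≤ ν.real (k5_sec E t) * volume.real T := by
  have hT0 : volume T ≠ 0 := by
    intro h0
    have := k5_mass_le (ν := ν) hT hI
    rw [measureReal_def (μ := volume) (s := T), h0] at this
    simp at this
    linarith
  obtain ⟨t, ht, hle⟩ := exists_setAverage_le hT0 hT (k5_sec_integrableOn (ν := ν) hE hT)
  refine ⟨t, ht, ?_⟩
  rw [setAverage_eq, smul_eq_mul, ← k5_mass_eq_sec hE hTm hT hI] at hle
  have hV : 0 < volume.real T := ENNReal.toReal_pos hT0 hT
  rw [inv_mul_le_iff₀ hV] at hle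
  linarith

/-- Cauchy-Schwarz in the only form used.   PROOF: `0 ≤ ∫ (g - c)²` with `c = (∫ g)/ν(Λ)` (if `ν(Λ) = 0` both sides vanish); `g` bounded measurable so everything is integrable. -/
theorem k5_cs [IsFiniteMeasure ν] (g : Λ → ℝ) (hg : Measurable g) (B : ℝ) (h0 : ∀ l, 0 ≤ g l) (hB : ∀ l, g l ≤ B) :
    (∫ l, g l ∂ν) ^ 2 ≤ ν.real univ * ∫ l, g l ^ 2 ∂ν := by
  have hgi : Integrable g ν := by
    refine Integrable.of_bound hg.aestronglyMeasurable B (Filter.Eventually.of_forall fun l => ?_)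
    rw [Real.norm_eq_abs, abs_of_nonneg (h0 l)]
    exact hB l
  have hg2i : Integrable (fun l => g l ^ 2) ν := by
    refine Integrable.of_bound (hg.pow_const 2).aestronglyMeasurable (B ^ 2)
      (Filter.Eventually.of_forall fun l => ?_)
    rw [Real.norm_eq_abs, abs_of_nonneg (by positivity)]
    exact pow_le_pow_left₀ (h0 l) (hB l) 2
  have key : ∀ c : ℝ, 0 ≤ (∫ l, g l ^ 2 ∂ν) - 2 * c * (∫ l, g l ∂ν) + c ^ 2 * ν.real univ := by
    intro c
    have h1 : 0 ≤ ∫ l, (g l - c) ^ 2 ∂ν := integral_nonneg fun l => by positivity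
    have h2 : ∫ l, (g l - c) ^ 2 ∂ν
        = (∫ l, g l ^ 2 ∂ν) - 2 * c * (∫ l, g l ∂ν) + c ^ 2 * ν.real univ := by
      have e : (fun l => (g l - c) ^ 2) = fun l => (g l ^ 2 - 2 * c * g l) + c ^ 2 := by
        funext l; ring
      have i1 : Integrable (fun l => g l ^ 2 - 2 * c * g l) ν := hg2i.sub (hgi.const_mul _)
      rw [e, integral_add i1 (integrable_const _),
        integral_sub hg2i (hgi.const_mul _), integral_const_mul, integral_const, smul_eq_mul]
      ring
    rw [← h2]; exact h1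
  rcases eq_or_lt_of_le (measureReal_nonneg (μ := ν) (s := univ)) with hm | hm
  · have hν : ν = 0 := by
      have : ν univ = 0 := by
        rw [measureReal_def] at hm
        rcases (ENNReal.toReal_eq_zero_iff _).1 hm.symm with h | h
        · exact h
        · exact absurd h (measure_ne_top _ _)
      exact Measure.measure_univ_eq_zero.1 this
    subst hν
    simp
  · have := key ((∫ l, g l ∂ν) / ν.real univ)
    have h3 : (∫ l, g l ^ 2 ∂ν) - 2 * ((∫ l, g l ∂ν) / ν.real univ) * (∫ l, g l ∂ν)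
        + ((∫ l, g l ∂ν) / ν.real univ) ^ 2 * ν.real univ
        = (∫ l, g l ^ 2 ∂ν) - (∫ l, g l ∂ν) ^ 2 / ν.real univ := by
      field_simp; ring
    rw [h3] at this
    have h4 : (∫ l, g l ∂ν) ^ 2 / ν.real univ ≤ ∫ l, g l ^ 2 ∂ν := by linarith
    rw [div_le_iff₀ hm] at h4
    linarith

/-- the pair mass: `∫_T (ν ⊗ dt){(l,t) ∈ E : (l,t₀) ∈ E'} dt₀ = ∫ |E_l| |E'_l| dν` -/
theorem k5_pair_mass [IsFiniteMeasure ν] (hE : MeasurableSet E) (hE' : MeasurableSet E') {T : Set ℝ}
    (hTm : MeasurableSet T) (hT : volume T ≠ ⊤) (hI : k5_In E T) (hI' : k5_In E' T) :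
    ∫ t₀ in T, k5_mass ν {x | x ∈ E ∧ (x.1, t₀) ∈ E'} = ∫ l, volume.real (k5_fib E l) * volume.real (k5_fib E' l) ∂ν := by
  -- ENNReal fibre lengths
  set f : Λ → ENNReal := fun l => volume (Prod.mk l ⁻¹' E) with hf
  set f' : Λ → ENNReal := fun l => volume (Prod.mk l ⁻¹' E') with hf'
  have hfm : Measurable f := measurable_measure_prodMk_left hE
  have hfm' : Measurable f' := measurable_measure_prodMk_left hE'
  have hfT : ∀ l, f l ≤ volume T := fun l => measure_mono fun t ht => hI l t ht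
  have hfT' : ∀ l, f' l ≤ volume T := fun l => measure_mono fun t ht => hI' l t ht
  have hS : ∀ t₀ : ℝ, MeasurableSet {x : Λ × ℝ | x ∈ E ∧ (x.1, t₀) ∈ E'} := fun t₀ =>
    hE.inter ((measurable_fst.prodMk measurable_const) hE')
  -- the mass of the pair set
  have hmass : ∀ t₀ : ℝ, (ν.prod volume) {x : Λ × ℝ | x ∈ E ∧ (x.1, t₀) ∈ E'}
      = ∫⁻ l, f l * E'.indicator (fun _ => (1 : ENNReal)) (l, t₀) ∂ν := by
    intro t₀
    rw [Measure.prod_apply (hS t₀)]
    refine lintegral_congr fun l => ?_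
    by_cases h : (l, t₀) ∈ E'
    · have : Prod.mk l ⁻¹' {x : Λ × ℝ | x ∈ E ∧ (x.1, t₀) ∈ E'} = Prod.mk l ⁻¹' E := by
        ext t; simp [h]
      rw [this, indicator_of_mem h, mul_one]
    · have : Prod.mk l ⁻¹' {x : Λ × ℝ | x ∈ E ∧ (x.1, t₀) ∈ E'} = ∅ := by
        ext t; simp [h]
      rw [this, indicator_of_notMem h, mul_zero, measure_empty]
  have hjm : Measurable (fun p : Λ × ℝ => f p.1 * E'.indicator (fun _ => (1 : ENNReal)) p) :=
    (hfm.comp measurable_fst).mul (measurable_const.indicator hE')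
  have hmm : Measurable (fun t₀ : ℝ => (ν.prod volume) {x : Λ × ℝ | x ∈ E ∧ (x.1, t₀) ∈ E'}) := by
    simp_rw [hmass]
    exact hjm.lintegral_prod_left'
  have hfin : ∀ t₀ : ℝ, (ν.prod volume) {x : Λ × ℝ | x ∈ E ∧ (x.1, t₀) ∈ E'} < ⊤ := by
    intro t₀
    refine lt_of_le_of_lt (measure_mono (t := univ ×ˢ T) fun x hx => ⟨mem_univ _, hI x.1 x.2 hx.1⟩) ?_
    rw [Measure.prod_prod]
    exact ENNReal.mul_lt_top (measure_lt_top _ _) (lt_top_iff_ne_top.2 hT)
  have hL : ∫ t₀ in T, k5_mass ν {x | x ∈ E ∧ (x.1, t₀) ∈ E'}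
      = (∫⁻ t₀ in T, (ν.prod volume) {x : Λ × ℝ | x ∈ E ∧ (x.1, t₀) ∈ E'}).toReal := by
    unfold k5_mass
    simp_rw [measureReal_def]
    exact integral_toReal hmm.aemeasurable (Filter.Eventually.of_forall hfin)
  have hR : ∫ l, volume.real (k5_fib E l) * volume.real (k5_fib E' l) ∂ν = (∫⁻ l, f l * f' l ∂ν).toReal := by
    have e : ∀ l, volume.real (k5_fib E l) * volume.real (k5_fib E' l) = (f l * f' l).toReal := by
      intro l
      rw [ENNReal.toReal_mul]; rfl
    simp_rw [e]
    refine integral_toReal (hfm.mul hfm').aemeasurable (Filter.Eventually.of_forall fun l => ?_)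
    exact ENNReal.mul_lt_top (lt_of_le_of_lt (hfT l) (lt_top_iff_ne_top.2 hT))
      (lt_of_le_of_lt (hfT' l) (lt_top_iff_ne_top.2 hT))
  rw [hL, hR]
  congr 1
  simp_rw [hmass]
  rw [lintegral_lintegral_swap]
  · refine lintegral_congr fun l => ?_
    have e2 : (fun t₀ : ℝ => E'.indicator (fun _ => (1 : ENNReal)) (l, t₀))
        = (Prod.mk l ⁻¹' E').indicator (fun _ => (1 : ENNReal)) := by
      funext t₀; rfl
    have hm2 : Measurable (fun t₀ : ℝ => E'.indicator (fun _ => (1 : ENNReal)) (l, t₀)) := by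
      rw [e2]; exact measurable_const.indicator (measurable_prodMk_left hE')
    rw [lintegral_const_mul _ hm2]
    congr 1
    rw [e2, lintegral_indicator (measurable_prodMk_left hE'), lintegral_const, one_mul,
      Measure.restrict_apply MeasurableSet.univ, univ_inter,
      Measure.restrict_apply (measurable_prodMk_left hE')]
    congr 1
    exact inter_eq_left.2 fun t ht => hI' l t ht
  · have : Measurable (fun p : ℝ × Λ => f p.2 * E'.indicator (fun _ => (1 : ENNReal)) (p.2, p.1)) :=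
      hjm.comp measurable_swap
    exact this.aemeasurable

/-- measurability of the pair labels -/
theorem k5_meas_pair (hE : MeasurableSet E) (hE' : MeasurableSet E') (g : ℝ → ℝ) (hg : Measurable g) :
    MeasurableSet {x : Λ × ℝ | x ∈ E ∧ (x.1, g x.2) ∈ E'} :=
  hE.inter ((measurable_fst.prodMk (hg.comp measurable_snd)) hE')

/-- restricted and scaled prior -/
theorem k5_mass_smul_restrict [IsFiniteMeasure ν] (hE : MeasurableSet E) {𝒢 : Set Λ} (h𝒢 : MeasurableSet 𝒢) (a : ℝ)
    (ha : 0 ≤ a) : k5_mass (ENNReal.ofReal a • ν.restrict 𝒢) E = a * k5_mass ν {x | x ∈ E ∧ x.1 ∈ 𝒢} := by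
  unfold k5_mass
  have h1 : (ν.restrict 𝒢).prod (volume : Measure ℝ) = (ν.prod volume).restrict (𝒢 ×ˢ univ) := by
    rw [← Measure.prod_restrict, Measure.restrict_univ]
  have h2 : {x : Λ × ℝ | x ∈ E ∧ x.1 ∈ 𝒢} = E ∩ 𝒢 ×ˢ univ := by
    ext x; simp
  rw [Measure.prod_smul_left, h1, h2, measureReal_def, Measure.smul_apply, smul_eq_mul,
    Measure.restrict_apply hE, ENNReal.toReal_mul, ENNReal.toReal_ofReal ha, measureReal_def]

theorem k5_real_smul_restrict [IsFiniteMeasure ν] {𝒢 S : Set Λ} (hS : MeasurableSet S) (a : ℝ) (ha : 0 ≤ a) :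
    (ENNReal.ofReal a • ν.restrict 𝒢).real S = a * ν.real (S ∩ 𝒢) := by
  rw [measureReal_def, Measure.smul_apply, smul_eq_mul, Measure.restrict_apply hS, ENNReal.toReal_mul,
    ENNReal.toReal_ofReal ha, measureReal_def]

theorem k5_vol_affine_enn (S : Set ℝ) (tI H : ℝ) (hH : 0 < H) :
    volume {u | tI + H * u ∈ S} = ENNReal.ofReal H⁻¹ * volume S := by
  have e : {u | tI + H * u ∈ S} = (fun u => H * u) ⁻¹' ((fun v => tI + v) ⁻¹' S) := rfl
  rw [e, Real.volume_preimage_mul_left hH.ne', measure_preimage_add, abs_of_pos (inv_pos.2 hH)]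

/-- affine change of the time variable `t = tI + H u` -/
theorem k5_mass_affine [IsFiniteMeasure ν] (hE : MeasurableSet E) (tI H : ℝ) (hH : 0 < H) :
    k5_mass ν {x | (x.1, tI + H * x.2) ∈ E} = k5_mass ν E / H := by
  unfold k5_mass
  have hm : Measurable (fun x : Λ × ℝ => (x.1, tI + H * x.2)) :=
    measurable_fst.prodMk ((measurable_snd.const_mul H).const_add tI)
  have hE2 : MeasurableSet {x : Λ × ℝ | (x.1, tI + H * x.2) ∈ E} := hm hE
  rw [measureReal_def, measureReal_def, Measure.prod_apply hE2, Measure.prod_apply hE]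
  have e : ∀ l : Λ, volume (Prod.mk l ⁻¹' {x : Λ × ℝ | (x.1, tI + H * x.2) ∈ E})
      = ENNReal.ofReal H⁻¹ * volume (Prod.mk l ⁻¹' E) := fun l =>
    k5_vol_affine_enn (Prod.mk l ⁻¹' E) tI H hH
  simp_rw [e]
  rw [lintegral_const_mul _ (measurable_measure_prodMk_left hE), ENNReal.toReal_mul,
    ENNReal.toReal_ofReal (inv_pos.2 hH).le]
  field_simp

theorem k5_vol_affine (S : Set ℝ) (tI H : ℝ) (hH : 0 < H) :
    volume.real {u | tI + H * u ∈ S} = volume.real S / H := by
  rw [measureReal_def, k5_vol_affine_enn S tI H hH, ENNReal.toReal_mul,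
    ENNReal.toReal_ofReal (inv_pos.2 hH).le, measureReal_def]
  field_simp

/-- a set of reals of outer measure `> 0` inside an interval contains two points at distance `≥ |S|/2` -/
theorem k5_two_points (S : Set ℝ) (L : ℝ) (hL : 0 < L) (hfin : volume S ≠ ⊤) (hS : L ≤ volume.real S) :
    ∃ s ∈ S, ∃ t ∈ S, L / 2 ≤ t - s := by
  by_contra hcon
  push Not at hcon
  have hne : S.Nonempty := by
    rw [Set.nonempty_iff_ne_empty]
    rintro rfl
    simp at hS
    linarith
  obtain ⟨s0, hs0⟩ := hne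
  have hba : BddAbove S := ⟨s0 + L / 2, fun t ht => by have := hcon s0 hs0 t ht; linarith⟩
  have hbb : BddBelow S := ⟨s0 - L / 2, fun t ht => by have := hcon t ht s0 hs0; linarith⟩
  have hsub : S ⊆ Icc (sInf S) (sSup S) := fun t ht => ⟨csInf_le hbb ht, le_csSup hba ht⟩
  have hlen : sSup S - sInf S ≤ L / 2 := by
    have h1 : sSup S ≤ sInf S + L / 2 := by
      refine csSup_le ⟨s0, hs0⟩ fun t ht => ?_
      have h2 : t - L / 2 ≤ sInf S := by
        refine le_csInf ⟨s0, hs0⟩ fun s hs => ?_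
        have := hcon s hs t ht; linarith
      linarith
    linarith
  have hv : volume.real S ≤ L / 2 := by
    calc volume.real S ≤ volume.real (Icc (sInf S) (sSup S)) :=
          measureReal_mono hsub (by simp)
      _ = max (sSup S - sInf S) 0 := by
          rw [measureReal_def, Real.volume_Icc, ENNReal.toReal_ofReal']
      _ ≤ L / 2 := max_le hlen (by linarith)
  linarith

/-- upper hypotheses survive a restriction of the labels.   PROOF: fieldwise; `measureReal_mono` (finite measure) for `cap`, `bcap`; the denominators of `bcap` do not involve the labels. -/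
theorem k5_snd_mono {Λ : Type} [MeasurableSpace Λ] {j : ℕ} {d K ζ : ℝ} {ν : Measure Λ} {c : Λ → k5_Co j} {E E' : Set (Λ × ℝ)}
    {F : ℝ → Fin j → ℝ} (h : k5_Snd j d K ζ ν c E F) (hE' : MeasurableSet E') (hsub : E' ⊆ E) :
    k5_Snd j d K ζ ν c E' F := by
  haveI := h.prob
  have hsec : ∀ t l, l ∈ k5_sec E' t → l ∈ k5_sec E t := fun t l hl => hsub hl
  refine ⟨h.prob, h.mc, hE', h.mF, fun l t hl => h.tI l t (hsub hl), h.cb, fun t t0 t1 => ?_,
    fun l t l' u hl hl' => h.rowc l t l' u (hsub hl) (hsub hl'),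
    fun l t l' u hl hl' => h.resc l t l' u (hsub hl) (hsub hl')⟩
  have H := h.tm t t0 t1
  refine ⟨H.z0, H.t0, H.t1, H.fb, fun q r a hq hqr hr => ?_, fun q a e hq hq1 => ?_,
    fun r hr q a e B hq hqr => ?_⟩
  · obtain ⟨Z, hZ, hZ2⟩ := H.supp q r a hq hqr hr
    exact ⟨Z, hZ, fun l hl => hZ2 l (hsec t l hl)⟩
  · refine le_trans ?_ (H.cap q a e hq hq1)
    exact measureReal_mono (fun l hl => ⟨hsec t l hl.1, hl.2⟩) (measure_ne_top _ _)
  · refine le_trans ?_ (H.bcap r hr q a e B hq hqr)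
    exact measureReal_mono (fun l hl => ⟨hsec t l hl.1, hl.2⟩) (measure_ne_top _ _)

/-- the slack may be enlarged.   PROOF: fieldwise, all right-hand sides are `K *` (nonnegative). -/
theorem k5_snd_mono_K {Λ : Type} [MeasurableSpace Λ] {j : ℕ} {d K K' ζ : ℝ} {ν : Measure Λ} {c : Λ → k5_Co j} {E : Set (Λ × ℝ)}
    {F : ℝ → Fin j → ℝ} (h : k5_Snd j d K ζ ν c E F) (hK0 : 0 ≤ K) (hK : K ≤ K') : k5_Snd j d K' ζ ν c E F := by
  have hz : ∀ l t, (l, t) ∈ E → 0 < ζ := fun l t hl =>
    (h.tm t (h.tI l t hl).1 (h.tI l t hl).2).z0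
  refine ⟨h.prob, h.mc, h.mE, h.mF, h.tI, fun l => (h.cb l).trans hK, fun t t0 t1 => ?_,
    fun l t l' u hl hl' => (h.rowc l t l' u hl hl').trans ?_,
    fun l t l' u hl hl' => (h.resc l t l' u hl hl').trans ?_⟩
  · have H := h.tm t t0 t1
    refine ⟨H.z0, H.t0, H.t1, H.fb.trans hK, fun q r a hq hqr hr => ?_, fun q a e hq hq1 => ?_,
      fun r hr q a e B hq hqr => ?_⟩
    · obtain ⟨Z, hZ, hZ2⟩ := H.supp q r a hq hqr hr
      have hq0 : 0 < q := lt_of_lt_of_le H.z0 hq
      have hr0 : 0 < r := lt_of_lt_of_le hq0 hqr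
      exact ⟨Z, hZ.trans (mul_le_mul_of_nonneg_right hK (Real.rpow_nonneg (div_pos hr0 hq0).le _)), hZ2⟩
    · have hq0 : 0 < q := lt_of_lt_of_le H.z0 hq
      exact (H.cap q a e hq hq1).trans (mul_le_mul_of_nonneg_right hK (Real.rpow_nonneg hq0.le _))
    · have hq0 : 0 < q := lt_of_lt_of_le H.z0 hq
      have hr0 : 0 < r := lt_of_lt_of_le hq0 hqr
      refine (H.bcap r hr q a e B hq hqr).trans ?_
      exact mul_le_mul_of_nonneg_right
        (mul_le_mul_of_nonneg_right hK (Real.rpow_nonneg (div_pos hq0 hr0).le _)) measureReal_nonneg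
  · have := hz l t hl
    exact mul_le_mul_of_nonneg_right hK (by positivity)
  · have := hz l t hl
    exact mul_le_mul_of_nonneg_right hK (by positivity)

/-- the constant of the first-jet package may be enlarged, the labels restricted -/
theorem k5_fj_mono {Λ : Type} {j : ℕ} {K K' κ : ℝ} {c : Λ → k5_Co j} {E E' : Set (Λ × ℝ)} {F A : ℝ → Fin j → ℝ} {ks : Finset ℕ}
    {Hst wd : ℝ} (h : k5_Fj j K κ c E F A ks Hst wd) (hK : K ≤ K') (hsub : E' ⊆ E) : k5_Fj j K' κ c E' F A ks Hst wd := by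
  refine ⟨h.mA, fun t => (h.Ab t).trans hK, fun k hk l u l' v hl hl' hf => ?_, fun t z => ?_⟩
  · exact (h.taylor k hk l u l' v (hsub hl) (hsub hl') hf).trans
      (mul_le_mul_of_nonneg_right hK (Real.rpow_nonneg (by positivity) _))
  · obtain ⟨Z, hZ, hZ2⟩ := h.cover t z
    exact ⟨Z, hZ.trans hK, fun l hl => hZ2 l (hsub hl)⟩


theorem k5_mass_eqns_cite : True := by
  have := @k5_In.eq_1
  trivial

end Claimed.Agent.R252
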