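import Claimed.Agent.R252.S5.FinalContract
import Claimed.Agent.R252.S5.MassContract

/-!
# Row 252, Sec. 5, HIGHER JETS (Proposition 5.6): CONTRACT      (architect helper55; prefix `k5_`)

Chain:  `k5_tree_fin` (finite model, fixed times: induction over the levels with `k5_node_leaf`, `k5_node_pair`, then `k5_node_final`)
  →  `k5_quot` (finite quotient of `(Λ, ν)` at finitely many times)  →  `k5_tree_gen` (measure model, fixed root `u` and test time `t'`)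
  →  `k5_offset` (choice of ONE offset per level, Cauchy-Schwarz), `k5_root` (one root per `h`-block)  →  `k5_jets_core`  →  exits `k5_higher_jets`, `k5_higher_jets_inc`.
RULE: statements are frozen; prove IN PLACE; helper lemmas (prefix `k5_`) directly above the theorem that needs them; earlier statements (also of the imported files) may be used as black boxes.
-/

set_option autoImplicit false

namespace Claimed.Agent.R252

open MeasureTheory Set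
open Claimed.Agent.R255
open scoped BigOperators

variable {j : ℕ}

/-- **the scale schedule** (5.jet-scale-schedule), (5.jet-floor).   Level `k = 1` is the FINEST pair scale, `k = M - 1` the coarsest;  `qs k ≈ (Hs k)^(1+κ/2)` = the reading requested from the children of a pair of the level `k`;
`p` = the reading of the root jets;  `Hst`, `wd` = fine scalar scale and width of the first-jet cover;  `X` = the largeness absorbed by the margins. -/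
structure k5_Sch (M : ℕ) (d κ ζ h p Hst wd X : ℝ) (Rs : Set ℝ) (Hs qs : ℕ → ℝ) : Prop where
  h0 : 0 < h
  h1 : h ≤ 1
  pR : p ∈ Rs
  pz : ζ ≤ p
  ph : p ≤ h ^ (M + 1)
  zh : ζ ≤ h ^ ((M : ℝ) + 1 / 2)
  zH : ζ ≤ Hst
  Hw : Hst ≤ wd
  w1 : wd ≤ qs 1
  H0 : ∀ k, 1 ≤ k → k ≤ M - 1 → 0 < Hs k ∧ Hs k ≤ 1
  qR : ∀ k, 1 ≤ k → k ≤ M - 1 → qs k ∈ Rs ∧ ζ ≤ qs k
  qlo : ∀ k, 1 ≤ k → k ≤ M - 1 → Hs k ^ (1 + κ / 2) / 2 ≤ qs k
  qhi : ∀ k, 1 ≤ k → k ≤ M - 1 → qs k ≤ Hs k ^ (1 + κ / 2)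
  nxt : ∀ k, 1 ≤ k → k + 1 ≤ M - 1 → Hs k ^ (κ / 4) ≤ qs (k + 1)
  top : Hs (M - 1) ^ (κ / 4) ≤ p
  sm : ∀ k, 1 ≤ k → k ≤ M - 1 → X * Hs k ^ (κ / 4) ≤ 1
  smh : X * h ^ ((1 - d) / 4) ≤ 1

/-- **L-252-S5-T0**  elementary facts on the partner map.   PROOF: `Int.floor_le`, `Int.lt_floor_add_one` for `t / H`; `⌊(H n + θ H)/H⌋ = n` (`Int.floor_eq_iff`). -/
theorem k5_w_facts (H θ t : ℝ) (hH : 0 < H) (hθ0 : 0 ≤ θ) (hθ1 : θ < 1) :
    |k5_w H θ t - t| ≤ H ∧ ⌊k5_w H θ t / H⌋ = ⌊t / H⌋ := by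
  have h1 : (⌊t / H⌋ : ℝ) ≤ t / H := Int.floor_le _
  have h2 : t / H < (⌊t / H⌋ : ℝ) + 1 := Int.lt_floor_add_one _
  rw [le_div_iff₀ hH] at h1
  rw [div_lt_iff₀ hH] at h2
  have h3 : 0 ≤ θ * H := by positivity
  have h4 : θ * H < H := by nlinarith
  constructor
  · unfold k5_w
    rw [abs_le]
    constructor <;> nlinarith
  · have e : k5_w H θ t / H = (⌊t / H⌋ : ℝ) + θ := by
      unfold k5_w; field_simp
    rw [e, Int.floor_eq_iff]
    constructor <;> linarith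

/-- **L-252-S5-T0b**  the tree labels are monotone in the gap constant and in the labels, and commute with a map of the trajectories.   PROOF: induction on `k`. -/
theorem k5_lab_facts {Λ Λ' : Type} (E : Set (Λ × ℝ)) (Hs θs : ℕ → ℝ) (Kg Kg' : ℝ) (hK0 : 0 < Kg) (hK : Kg ≤ Kg')
    (hH : ∀ k, 0 ≤ Hs k) (ρ : Λ' → Λ) (k : ℕ) :
    k5_lab E Hs θs Kg k ⊆ k5_lab E Hs θs Kg' k ∧ k5_lab E Hs θs Kg k ⊆ E ∧
      (∀ l t, (l, t) ∈ k5_lab E Hs θs Kg k → ∀ τ ∈ k5_tt Hs θs k t, (l, τ) ∈ E) ∧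
      ∀ l' t, (l', t) ∈ k5_lab {x : Λ' × ℝ | (ρ x.1, x.2) ∈ E} Hs θs Kg k ↔ (ρ l', t) ∈ k5_lab E Hs θs Kg k := by
  refine ⟨?_, ?_, ?_, ?_⟩
  · induction k with
    | zero => exact Subset.rfl
    | succ k ih =>
      rintro x ⟨h1, h2, h3⟩
      refine ⟨ih h1, ih h2, le_trans ?_ h3⟩
      exact div_le_div_of_nonneg_left (hH _) hK0 hK
  · induction k with
    | zero => exact Subset.rfl
    | succ k ih => exact fun x hx => ih hx.1
  · induction k with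
    | zero =>
      intro l t h τ hτ
      have : τ = t := hτ
      rw [this]; exact h
    | succ k ih =>
      intro l t h τ hτ
      rcases hτ with hτ | hτ
      · exact ih l t h.1 τ hτ
      · exact ih l _ h.2.1 τ hτ
  · induction k with
    | zero => intro l' t; exact Iff.rfl
    | succ k ih =>
      intro l' t
      constructor
      · rintro ⟨h1, h2, h3⟩
        exact ⟨(ih l' t).1 h1, (ih l' _).1 h2, h3⟩
      · rintro ⟨h1, h2, h3⟩
        exact ⟨(ih l' t).2 h1, (ih l' _).2 h2, h3⟩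


/-- a node is monotone in the constant, the reading floor and the constant of the entropy bound -/
theorem k5_node_mono {Λ : Type} [Fintype Λ] {P : FLaw Λ} {c : Λ → k5_Co j} {d K K' ζ : ℝ} {Rs : Set ℝ} {t : ℝ} {m : ℕ}
    {Φ : ℕ → Fin j → ℝ} {G : Set Λ} {ρ ρ' cst cst' : ℝ} (h : k5_Node P c d K ζ Rs t m Φ G ρ cst) (h1 : 1 ≤ K) (hK : K ≤ K')
    (hρ : ρ ≤ ρ') (hc0 : 0 ≤ cst) (hc : cst ≤ cst') : k5_Node P c d K' ζ Rs t m Φ G ρ' cst' := by
  refine ⟨k5_tm_mono P c h.tm hK Subset.rfl, fun i hi => (h.rb i hi).trans hK, fun A hA hpos i hi1 him r hr hρr hr1 => ?_⟩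
  refine (h.her A hA hpos i hi1 him r hr (hρ.trans hρr) hr1).trans ?_
  have l1 : 0 ≤ Real.log K := Real.log_nonneg h1
  have l2 : Real.log K ≤ Real.log K' := Real.log_le_log (by linarith) hK
  have l3 : 0 ≤ Real.log (1 / P.pr A) := Real.log_nonneg (by
    rw [le_div_iff₀ hpos, one_mul]; exact ent_pr_le_one P A)
  calc cst * (1 + Real.log K + Real.log (1 / P.pr A)) ≤ cst' * (1 + Real.log K + Real.log (1 / P.pr A)) :=
        mul_le_mul_of_nonneg_right hc (by linarith)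
    _ ≤ cst' * (1 + Real.log K' + Real.log (1 / P.pr A)) := mul_le_mul_of_nonneg_left (by linarith) (hc0.trans hc)

/-- `C x^C` is monotone in `C ≥ 0` for `x ≥ 1` -/
theorem k5_cst_mono {C C' x : ℝ} (h0 : 0 ≤ C) (hC : C ≤ C') (hx : 1 ≤ x) : C * x ^ C ≤ C' * x ^ C' :=
  mul_le_mul hC (Real.rpow_le_rpow_of_exponent_le hx hC) (Real.rpow_nonneg (by linarith) _) (h0.trans hC)

theorem k5_cst_self {C x : ℝ} (hC : 1 ≤ C) (hx : 1 ≤ x) : x ≤ C * x ^ C := by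
  have h1 : x ≤ x ^ C := by
    conv_lhs => rw [← Real.rpow_one x]
    exact Real.rpow_le_rpow_of_exponent_le hx hC
  have h2 : 0 ≤ x ^ C := Real.rpow_nonneg (by linarith) _
  nlinarith

/-- composition of two constants of the form `C (K/s)^C` -/
theorem k5_cst_comp {Ck Cp K s : ℝ} (hCk : 1 ≤ Ck) (hCp : 1 ≤ Cp) (hK : 1 ≤ K) (hs : 0 < s) (hs1 : s ≤ 1) :
    Cp * (Ck * (K / s) ^ Ck / s) ^ Cp ≤ (Cp * Ck ^ Cp + (Ck + 1) * Cp) * (K / s) ^ (Cp * Ck ^ Cp + (Ck + 1) * Cp) := by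
  have hx : 1 ≤ K / s := by rw [le_div_iff₀ hs]; linarith
  have hx0 : 0 < K / s := by linarith
  have h1 : Ck * (K / s) ^ Ck / s ≤ Ck * (K / s) ^ (Ck + 1) := by
    rw [Real.rpow_add hx0, Real.rpow_one, div_eq_mul_inv, mul_assoc]
    refine mul_le_mul_of_nonneg_left (mul_le_mul_of_nonneg_left ?_ (Real.rpow_nonneg hx0.le _)) (by linarith)
    rw [← one_div]
    exact div_le_div_of_nonneg_right hK hs.le
  have h0 : 0 ≤ Ck * (K / s) ^ Ck / s := by positivity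
  have h2 : (Ck * (K / s) ^ Ck / s) ^ Cp ≤ Ck ^ Cp * (K / s) ^ ((Ck + 1) * Cp) := by
    refine (Real.rpow_le_rpow h0 h1 (by linarith)).trans (le_of_eq ?_)
    rw [Real.mul_rpow (by linarith) (Real.rpow_nonneg hx0.le _), ← Real.rpow_mul hx0.le]
  have hp : 0 ≤ Ck ^ Cp := Real.rpow_nonneg (by linarith) _
  have h3 : (K / s) ^ ((Ck + 1) * Cp) ≤ (K / s) ^ (Cp * Ck ^ Cp + (Ck + 1) * Cp) :=
    Real.rpow_le_rpow_of_exponent_le hx (by nlinarith)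
  calc Cp * (Ck * (K / s) ^ Ck / s) ^ Cp ≤ Cp * (Ck ^ Cp * (K / s) ^ ((Ck + 1) * Cp)) := mul_le_mul_of_nonneg_left h2 (by linarith)
    _ = (Cp * Ck ^ Cp) * (K / s) ^ ((Ck + 1) * Cp) := by ring
    _ ≤ (Cp * Ck ^ Cp + (Ck + 1) * Cp) * (K / s) ^ (Cp * Ck ^ Cp + (Ck + 1) * Cp) :=
        mul_le_mul (by nlinarith) h3 (Real.rpow_nonneg hx0.le _) (by nlinarith)

theorem k5_tree_lab_sub {Λ : Type} (E : Set (Λ × ℝ)) (Hs θs : ℕ → ℝ) (Kg : ℝ) (k : ℕ) : k5_lab E Hs θs Kg k ⊆ E := by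
  induction k with
  | zero => exact Subset.rfl
  | succ k ih => exact fun x hx => ih hx.1

/-- the induction over the levels, with a free largeness `X` -/
theorem k5_tree_node_ind (j M : ℕ) (d κ : ℝ) (hd0 : 0 ≤ d) (hκ : 0 < κ) (hκ1 : κ ≤ 1) (k : ℕ) :
    ∃ C : ℝ, 1 ≤ C ∧ ∀ (Λ : Type) [Fintype Λ] (P : FLaw Λ) (c : Λ → k5_Co j) (K ζ : ℝ) (Rs : Set ℝ)
      (F A : ℝ → Fin j → ℝ) (Lb : Set (Λ × ℝ)) (Hs θs qs : ℕ → ℝ) (h p Hst wd s X : ℝ) (𝕋 : Set ℝ),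
      1 ≤ K → (∀ l, ‖c l‖ ≤ K) →
      (∀ t ∈ 𝕋, k5_Tm j d K ζ Rs (k5_pm P) c t (F t) (k5_sec Lb t)) → (∀ t ∈ 𝕋, ‖A t‖ ≤ K) →
      (∀ t ∈ 𝕋, ∀ z : ℤ, ∃ Z : Finset ℝ, (Z.card : ℝ) ≤ K ∧ ∀ l, (l, t) ∈ Lb → k5_bin Hst (k5_S (F t) (c l) t) = z →
        ∃ b ∈ Z, |k5_J 1 (A t) (F t) (c l) t - b| ≤ wd) →
      (∀ k, 1 ≤ k → k ≤ M - 1 → ∀ t l l', (l, t) ∈ Lb → (l', k5_w (Hs k) (θs k) t) ∈ Lb →
        ‖F (k5_w (Hs k) (θs k) t) - F t - (k5_w (Hs k) (θs k) t - t) • A t‖ ≤ K * Hs k ^ (1 + κ)) →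
      (∀ k, 0 ≤ θs k ∧ θs k < 1) →
      0 < s → C * (K / s) ^ C ≤ X → k5_Sch M d κ ζ h p Hst wd X Rs Hs qs → k ≤ M - 1 →
      ∀ t, k5_tt Hs θs k t ⊆ 𝕋 → s ≤ P.pr (fun l => (l, t) ∈ k5_lab Lb Hs θs K k) →
      k5_Node P c d (C * (K / s) ^ C) ζ Rs t (k + 1) (fun i => k5_row F A Hs θs i t) (k5_sec (k5_lab Lb Hs θs K k) t)
        (if k = 0 then wd else Hs k ^ (κ / 4)) C := by
  induction k with
  | zero =>
    obtain ⟨C0, hC0, hleaf⟩ := k5_node_leaf j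
    refine ⟨C0, hC0, ?_⟩
    intro Λ _ P c K ζ Rs F A Lb Hs θs qs h p Hst wd s X 𝕋 hK hcb htm hA hcov _ _ hs _ hSch _ t htt hpr
    have ht : t ∈ 𝕋 := htt (by simp [k5_tt])
    have hs1 : s ≤ 1 := hpr.trans (ent_pr_le_one P _)
    have hx : 1 ≤ K / s := by rw [le_div_iff₀ hs]; linarith
    have hKx : K ≤ K / s := by rw [le_div_iff₀ hs]; nlinarith
    have hn := hleaf Λ P c d K ζ Rs t (fun i => k5_row F A Hs θs i t) (k5_sec Lb t) Hst wd hd0 hK hcb (htm t ht) (hA t ht)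
      hSch.zH hSch.Hw (fun z => by
        obtain ⟨Z, hZ, hZ2⟩ := hcov t ht z
        exact ⟨Z, hZ, fun l hl => hZ2 l hl⟩)
    exact k5_node_mono hn hK (hKx.trans (k5_cst_self hC0 hx)) le_rfl (by linarith) le_rfl
  | succ k ih =>
    obtain ⟨Ck, hCk, ihk⟩ := ih
    obtain ⟨Cp, hCp, hpair⟩ := k5_node_pair j (k + 1) Ck κ (by omega) hCk hκ hκ1
    have hpw : 0 ≤ Ck ^ Cp := Real.rpow_nonneg (by linarith) _
    refine ⟨Cp * Ck ^ Cp + (Ck + 1) * Cp, by nlinarith, ?_⟩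
    intro Λ _ P c K ζ Rs F A Lb Hs θs qs h p Hst wd s X 𝕋 hK hcb htm hA hcov htay hθ hs hX hSch hkM t htt hpr
    set C' : ℝ := Cp * Ck ^ Cp + (Ck + 1) * Cp with hC'
    have hCkC' : Ck ≤ C' := by nlinarith
    have hCpC' : Cp ≤ C' := by nlinarith
    have hs1 : s ≤ 1 := hpr.trans (ent_pr_le_one P _)
    have hx : 1 ≤ K / s := by rw [le_div_iff₀ hs]; linarith
    have hKx : K ≤ K / s := by rw [le_div_iff₀ hs]; nlinarith
    set Kk : ℝ := Ck * (K / s) ^ Ck with hKk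
    have hKKk : K ≤ Kk := hKx.trans (k5_cst_self hCk hx)
    have hKk1 : 1 ≤ Kk := hK.trans hKKk
    have hKkC' : Kk ≤ C' * (K / s) ^ C' := k5_cst_mono (by linarith) hCkC' hx
    have hK'C' : Cp * (Kk / s) ^ Cp ≤ C' * (K / s) ^ C' := k5_cst_comp hCk hCp hK hs hs1
    set H : ℝ := Hs (k + 1) with hH
    set w : ℝ := k5_w H (θs (k + 1)) t with hw
    obtain ⟨hH0, hH1⟩ := hSch.H0 (k + 1) (by omega) hkM
    -- a labelled trajectory
    obtain ⟨l₀, hl₀, -⟩ := (ent_pr_pos_iff P _).1 (hs.trans_le hpr)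
    have hgap : H / K ≤ |w - t| := hl₀.2.2
    have hsec : k5_sec (k5_lab Lb Hs θs K (k + 1)) t = k5_sec (k5_lab Lb Hs θs K k) t ∩ k5_sec (k5_lab Lb Hs θs K k) w := by
      ext l
      exact ⟨fun hl => ⟨hl.1, hl.2.1⟩, fun hl => ⟨hl.1, hl.2, hgap⟩⟩
    have htt1 : k5_tt Hs θs k t ⊆ 𝕋 := fun τ hτ => htt (Or.inl hτ)
    have htt2 : k5_tt Hs θs k w ⊆ 𝕋 := fun τ hτ => htt (Or.inr hτ)
    have hpr1 : s ≤ P.pr (fun l => (l, t) ∈ k5_lab Lb Hs θs K k) := hpr.trans (ent_pr_mono P fun l _ hl => hl.1)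
    have hpr2 : s ≤ P.pr (fun l => (l, w) ∈ k5_lab Lb Hs θs K k) := hpr.trans (ent_pr_mono P fun l _ hl => hl.2.1)
    have hn1 := ihk Λ P c K ζ Rs F A Lb Hs θs qs h p Hst wd s X 𝕋 hK hcb htm hA hcov htay hθ hs (hKkC'.trans hX) hSch (by omega) t htt1 hpr1
    have hn2 := ihk Λ P c K ζ Rs F A Lb Hs θs qs h p Hst wd s X 𝕋 hK hcb htm hA hcov htay hθ hs (hKkC'.trans hX) hSch (by omega) w htt2 hpr2
    have hwt : |w - t| ≤ H := (k5_w_facts H (θs (k + 1)) t hH0 (hθ _).1 (hθ _).2).1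
    have hρq : (if k = 0 then wd else Hs k ^ (κ / 4)) ≤ qs (k + 1) := by
      split_ifs with hk0
      · subst hk0; exact hSch.w1
      · exact hSch.nxt k (by omega) hkM
    have hHp : 0 ≤ H ^ (κ / 4) := Real.rpow_nonneg hH0.le _
    have hHH : H ^ (κ / 2) = H ^ (κ / 4) * H ^ (κ / 4) := by
      rw [← Real.rpow_add hH0]; congr 1; ring
    have hH41 : H ^ (κ / 4) ≤ 1 := Real.rpow_le_one hH0.le hH1 (by positivity)
    have hsm : X * H ^ (κ / 4) ≤ 1 := hSch.sm (k + 1) (by omega) hkM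
    have hK'0 : 0 ≤ Cp * (Kk / s) ^ Cp := by positivity
    have hK'sm : Cp * (Kk / s) ^ Cp * H ^ (κ / 4) ≤ 1 := (mul_le_mul_of_nonneg_right (hK'C'.trans hX) hHp).trans hsm
    have hn := hpair Λ P c d Kk ζ Rs t w (fun i => k5_row F A Hs θs i t) (fun i => k5_row F A Hs θs i w)
      (k5_sec (k5_lab Lb Hs θs K k) t) (k5_sec (k5_lab Lb Hs θs K k) w) _ H (qs (k + 1)) s hd0 hKk1 (fun l => (hcb l).trans hKKk) hn1 hn2
      hH0 hH1 ((div_le_div_of_nonneg_left hH0.le (by linarith) hKKk).trans hgap) hwt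
      ((htay (k + 1) (by omega) hkM t l₀ l₀ (k5_tree_lab_sub _ _ _ _ _ hl₀.1) (k5_tree_lab_sub _ _ _ _ _ hl₀.2.1)).trans
        (mul_le_mul_of_nonneg_right hKKk (Real.rpow_nonneg hH0.le _)))
      rfl (hSch.qR (k + 1) (by omega) hkM).1 hρq (hSch.qR (k + 1) (by omega) hkM).2 (hSch.qlo (k + 1) (by omega) hkM)
      (hSch.qhi (k + 1) (by omega) hkM) hs (hpr.trans (ent_pr_mono P fun l _ hl => ⟨hl.1, hl.2.1⟩))
      (by rw [hHH, ← mul_assoc]; exact (mul_le_mul_of_nonneg_right hK'sm hHp).trans (by linarith))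
    rw [hsec, if_neg (Nat.succ_ne_zero k)]
    have hK'1 : 1 ≤ Cp * (Kk / s) ^ Cp := by
      have h1 : 1 ≤ Kk / s := by rw [le_div_iff₀ hs]; linarith
      have h2 : 1 ≤ (Kk / s) ^ Cp := Real.one_le_rpow h1 (by linarith)
      nlinarith
    refine k5_node_mono hn hK'1 hK'C' ?_ (by linarith) hCpC'
    rw [hHH, ← mul_assoc]
    calc Cp * (Kk / s) ^ Cp * H ^ (κ / 4) * H ^ (κ / 4) ≤ 1 * H ^ (κ / 4) := mul_le_mul_of_nonneg_right hK'sm hHp
      _ = H ^ (κ / 4) := one_mul _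

/-- **L-252-S5-T1**  **the induction over the levels** (finite model): every root `t` of a tree of height `k ≤ M - 1` with `P(labels) ≥ s` is a node of order `k + 1` with constant `C (K/s)^C` and readings `≥ wd` (`k = 0`) resp. `≥ (Hs k)^(κ/4)` (`k ≥ 1`).
PROOF.  Induction on `k` (statement: `∀ k, ∃ C_k, ∀ data, k ≤ M - 1 → ∀ t, …`; the final `C` = max over `k ≤ M - 1`, the node is monotone in the constant: prove `k5_node_mono` (`K ≤ K'`, `ρ ≤ ρ'`, `cst ≤ cst'`) first).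
`k = 0` : `k5_node_leaf` with `Φ := fun i => k5_row F A Hs θs i t` (`row 0 = F`, `row 1 = A`), `t ∈ 𝕋` since `k5_tt … 0 t = {t}`.
`k → k + 1` : `w := k5_w (Hs (k+1)) (θs (k+1)) t`.   `k5_sec (lab (k+1)) t = k5_sec (lab k) t ∩ k5_sec (lab k) w ∩ {gap}`; it has positive mass, so it is nonempty: the gap condition holds and both sections have mass `≥ s` (`ent_pr_mono`).   Induction hypothesis at `t` and at `w` (`k5_tt (k+1) t = tt k t ∪ tt k w ⊆ 𝕋`).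
`k5_node_pair` with `m := k + 1`, `H := Hs (k+1)`, `q := qs (k+1)`, `K := K_k = C_k (K/s)^(C_k)`: gap `H / K_k ≤ H / K ≤ |w - t|`, `|w - t| ≤ H` (`k5_w_facts`), Taylor hypothesis (some `l` is labelled at `t` and at `w` by `k5_lab_facts`), `row (k+2) t = (w - t)⁻¹ • (row (k+1) w - row (k+1) t)` by definition,
`ρ_k ≤ qs (k+1)` (`Sch.w1` resp. `Sch.nxt`), smallness from `Sch.sm` (`X = C (K/s)^C` dominates `C_pair (K_k / s)^(C_pair)`; `H^(κ/2) ≤ H^(κ/4)`); new reading floor `K_(k+1) H^(κ/2) ≤ H^(κ/4)` again by `Sch.sm`.   ~350 l. -/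
theorem k5_tree_node (j M : ℕ) (d κ : ℝ) (hM : 2 ≤ M) (hd0 : 0 ≤ d) (hd : d < 1) (hκ : 0 < κ) (hκ1 : κ ≤ 1) :
    ∃ C : ℝ, 1 ≤ C ∧ ∀ (Λ : Type) [Fintype Λ] (P : FLaw Λ) (c : Λ → k5_Co j) (K ζ : ℝ) (Rs : Set ℝ)
      (F A : ℝ → Fin j → ℝ) (Lb : Set (Λ × ℝ)) (Hs θs qs : ℕ → ℝ) (h p Hst wd s : ℝ) (𝕋 : Set ℝ),
      1 ≤ K → (∀ l, ‖c l‖ ≤ K) →
      (∀ t ∈ 𝕋, k5_Tm j d K ζ Rs (k5_pm P) c t (F t) (k5_sec Lb t)) → (∀ t ∈ 𝕋, ‖A t‖ ≤ K) →
      (∀ t ∈ 𝕋, ∀ z : ℤ, ∃ Z : Finset ℝ, (Z.card : ℝ) ≤ K ∧ ∀ l, (l, t) ∈ Lb → k5_bin Hst (k5_S (F t) (c l) t) = z →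
        ∃ b ∈ Z, |k5_J 1 (A t) (F t) (c l) t - b| ≤ wd) →
      (∀ k, 1 ≤ k → k ≤ M - 1 → ∀ t l l', (l, t) ∈ Lb → (l', k5_w (Hs k) (θs k) t) ∈ Lb →
        ‖F (k5_w (Hs k) (θs k) t) - F t - (k5_w (Hs k) (θs k) t - t) • A t‖ ≤ K * Hs k ^ (1 + κ)) →
      (∀ k, 0 ≤ θs k ∧ θs k < 1) →
      0 < s → k5_Sch M d κ ζ h p Hst wd (C * (K / s) ^ C) Rs Hs qs →
      ∀ u, k5_tt Hs θs (M - 1) u ⊆ 𝕋 → s ≤ P.pr (fun l => (l, u) ∈ k5_lab Lb Hs θs K (M - 1)) →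
      k5_Node P c d (C * (K / s) ^ C) ζ Rs u M (fun i => k5_row F A Hs θs i u) (k5_sec (k5_lab Lb Hs θs K (M - 1)) u) p C := by
  obtain ⟨C, hC, hind⟩ := k5_tree_node_ind j M d κ hd0 hκ hκ1 (M - 1)
  refine ⟨C, hC, ?_⟩
  intro Λ _ P c K ζ Rs F A Lb Hs θs qs h p Hst wd s 𝕋 hK hcb htm hA hcov htay hθ hs hSch u htt hpr
  have hn := hind Λ P c K ζ Rs F A Lb Hs θs qs h p Hst wd s _ 𝕋 hK hcb htm hA hcov htay hθ hs le_rfl hSch le_rfl u htt hpr
  rw [if_neg (by omega), show M - 1 + 1 = M by omega] at hn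
  have hs1 : s ≤ 1 := hpr.trans (ent_pr_le_one P _)
  have hx : 1 ≤ K / s := by rw [le_div_iff₀ hs]; linarith
  exact k5_node_mono hn (hx.trans (k5_cst_self hC hx)) le_rfl hSch.top (by linarith) le_rfl

theorem k5_tf_sch_mono {M : ℕ} {d κ ζ h p Hst wd X X' : ℝ} {Rs : Set ℝ} {Hs qs : ℕ → ℝ} (H : k5_Sch M d κ ζ h p Hst wd X Rs Hs qs)
    (hX : X' ≤ X) : k5_Sch M d κ ζ h p Hst wd X' Rs Hs qs :=
  { H with
    sm := fun k h1 h2 => (mul_le_mul_of_nonneg_right hX (Real.rpow_nonneg (H.H0 k h1 h2).1.le _)).trans (H.sm k h1 h2)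
    smh := (mul_le_mul_of_nonneg_right hX (Real.rpow_nonneg H.h0.le _)).trans H.smh }

/-- **L-252-S5-T2**  **the tree at fixed times, finite model.**   `𝕋` = the (finite) set of times at which the hypotheses are known.
PROOF.  `k5_tree_node` at the root `u` (its mass is `≥ s` by `ent_pr_mono`), then `k5_node_final` with `K := C₁ (K/s)^(C₁)`, `cst := C₁`, `ρ := p`, `G' := k5_sec Lb t'` (`k5_tm_mono` to enlarge the constant of the time `t'`), scales from `Sch` (`pR, pz, ph, zh, h0, h1`), smallness from `Sch.smh`.   ~120 l. -/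
theorem k5_tree_fin (j M : ℕ) (d κ : ℝ) (hM : 2 ≤ M) (hd0 : 0 ≤ d) (hd : d < 1) (hκ : 0 < κ) (hκ1 : κ ≤ 1) :
    ∃ C : ℝ, 1 ≤ C ∧ ∀ (Λ : Type) [Fintype Λ] (P : FLaw Λ) (c : Λ → k5_Co j) (K ζ : ℝ) (Rs : Set ℝ)
      (F A : ℝ → Fin j → ℝ) (Lb : Set (Λ × ℝ)) (Hs θs qs : ℕ → ℝ) (h p Hst wd s u t' : ℝ) (𝕋 : Set ℝ),
      1 ≤ K → (∀ l, ‖c l‖ ≤ K) →
      (∀ t ∈ 𝕋, k5_Tm j d K ζ Rs (k5_pm P) c t (F t) (k5_sec Lb t)) → (∀ t ∈ 𝕋, ‖A t‖ ≤ K) →
      (∀ t ∈ 𝕋, ∀ z : ℤ, ∃ Z : Finset ℝ, (Z.card : ℝ) ≤ K ∧ ∀ l, (l, t) ∈ Lb → k5_bin Hst (k5_S (F t) (c l) t) = z →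
        ∃ b ∈ Z, |k5_J 1 (A t) (F t) (c l) t - b| ≤ wd) →
      (∀ k, 1 ≤ k → k ≤ M - 1 → ∀ t l l', (l, t) ∈ Lb → (l', k5_w (Hs k) (θs k) t) ∈ Lb →
        ‖F (k5_w (Hs k) (θs k) t) - F t - (k5_w (Hs k) (θs k) t - t) • A t‖ ≤ K * Hs k ^ (1 + κ)) →
      (∀ k, 0 ≤ θs k ∧ θs k < 1) →
      0 < s → k5_Sch M d κ ζ h p Hst wd (C * (K / s) ^ C) Rs Hs qs →
      k5_tt Hs θs (M - 1) u ⊆ 𝕋 → t' ∈ 𝕋 → |t' - u| ≤ h →
      s ≤ P.pr (fun l => (l, u) ∈ k5_lab Lb Hs θs K (M - 1) ∧ (l, t') ∈ Lb) →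
      ‖F t' - ∑ i ∈ Finset.range (M + 1), ((t' - u) ^ i / (i.factorial : ℝ)) • k5_row F A Hs θs i u‖
        ≤ h ^ ((M : ℝ) + 1 / 4) := by
  obtain ⟨C₁, hC₁, H₁⟩ := k5_tree_node j M d κ hM hd0 hd hκ hκ1
  obtain ⟨C₂, hC₂, H₂⟩ := k5_node_final j M C₁ d hM hC₁ hd0 hd
  have hC₁0 : 0 < C₁ := by linarith
  have hC₂0 : 0 < C₂ := by linarith
  have hpw : 1 ≤ C₁ ^ C₂ := Real.one_le_rpow hC₁ hC₂0.le
  refine ⟨C₁ + C₂ * C₁ ^ C₂ + (C₁ + 1) * C₂, by nlinarith, ?_⟩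
  intro Λ _ P c K ζ Rs F A Lb Hs θs qs h p Hst wd s u t' 𝕋 hK hc hTm hA hcov htay hθ hs hSch htt ht' htu hmass
  set C : ℝ := C₁ + C₂ * C₁ ^ C₂ + (C₁ + 1) * C₂ with hC
  have hs1 : s ≤ 1 := hmass.trans (ent_pr_le_one P _)
  set Y : ℝ := K / s with hY
  have hY1 : 1 ≤ Y := by
    rw [hY, le_div_iff₀ hs]
    linarith
  have hY0 : 0 < Y := by linarith
  have hCC₁ : C₁ ≤ C := by
    rw [hC]
    nlinarith
  have hX₁ : C₁ * Y ^ C₁ ≤ C * Y ^ C :=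
    mul_le_mul hCC₁ (Real.rpow_le_rpow_of_exponent_le hY1 hCC₁) (Real.rpow_nonneg hY0.le _) (by linarith)
  have hK' : 1 ≤ C₁ * Y ^ C₁ := by
    have := Real.one_le_rpow hY1 hC₁0.le
    nlinarith
  have hKK' : K ≤ C₁ * Y ^ C₁ := by
    have h1 : K ≤ Y := by
      rw [hY, le_div_iff₀ hs]
      nlinarith
    have h2 : Y ≤ Y ^ C₁ := by
      calc Y = Y ^ (1 : ℝ) := (Real.rpow_one Y).symm
        _ ≤ Y ^ C₁ := Real.rpow_le_rpow_of_exponent_le hY1 hC₁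
    nlinarith
  have hnode := H₁ Λ P c K ζ Rs F A Lb Hs θs qs h p Hst wd s 𝕋 hK hc hTm hA hcov htay hθ hs (k5_tf_sch_mono hSch hX₁) u htt
    (hmass.trans (ent_pr_mono P fun l _ hl => hl.1))
  -- the smallness
  have hX₂ : C₂ * (C₁ * Y ^ C₁ / s) ^ C₂ ≤ C * Y ^ C := by
    have h1 : C₁ * Y ^ C₁ / s ≤ C₁ * Y ^ (C₁ + 1) := by
      rw [Real.rpow_add hY0, Real.rpow_one, div_le_iff₀ hs]
      have h3 : 1 ≤ Y * s := by
        rw [hY, div_mul_cancel₀ _ hs.ne']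
        exact hK
      have h4 : 0 < C₁ * Y ^ C₁ := by positivity
      nlinarith
    have h2 : (C₁ * Y ^ C₁ / s) ^ C₂ ≤ C₁ ^ C₂ * Y ^ ((C₁ + 1) * C₂) := by
      calc (C₁ * Y ^ C₁ / s) ^ C₂ ≤ (C₁ * Y ^ (C₁ + 1)) ^ C₂ := Real.rpow_le_rpow (by positivity) h1 hC₂0.le
        _ = C₁ ^ C₂ * Y ^ ((C₁ + 1) * C₂) := by
          rw [Real.mul_rpow hC₁0.le (Real.rpow_nonneg hY0.le _), ← Real.rpow_mul hY0.le]
    have h5 : (C₁ + 1) * C₂ ≤ C := by
      rw [hC]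
      nlinarith
    have h6 : C₂ * C₁ ^ C₂ ≤ C := by
      rw [hC]
      nlinarith
    calc C₂ * (C₁ * Y ^ C₁ / s) ^ C₂ ≤ C₂ * (C₁ ^ C₂ * Y ^ ((C₁ + 1) * C₂)) := mul_le_mul_of_nonneg_left h2 hC₂0.le
      _ = (C₂ * C₁ ^ C₂) * Y ^ ((C₁ + 1) * C₂) := by ring
      _ ≤ C * Y ^ C := mul_le_mul h6 (Real.rpow_le_rpow_of_exponent_le hY1 h5) (Real.rpow_nonneg hY0.le _) (by linarith)
  refine H₂ Λ P c (C₁ * Y ^ C₁) ζ Rs u t' (fun i => k5_row F A Hs θs i u) (F t') _ (k5_sec Lb t') p h p s hK'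
    (fun l => (hc l).trans hKK') hnode (k5_tm_mono P c (hTm t' ht') hKK' subset_rfl) hSch.h0 hSch.h1 htu hSch.pR le_rfl hSch.pz hSch.ph hSch.zh hs
    hmass ?_
  exact (mul_le_mul_of_nonneg_right hX₂ (Real.rpow_nonneg hSch.h0.le _)).trans hSch.smh

/-- abstract finite quotient of a probability space by a map with finite range and measurable fibres -/
theorem k5_quot_abs {Λ X : Type} [MeasurableSpace Λ] (ν : Measure Λ) [IsProbabilityMeasure ν] (D : Λ → X)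
    (hfin : (range D).Finite) (hm : ∀ x, MeasurableSet (D ⁻¹' {x})) :
    ∃ (Λ' : Type) (_ : Fintype Λ') (P : FLaw Λ') (ρ : Λ' → Λ) (π : Λ → Λ'),
      (∀ l, D (ρ (π l)) = D l) ∧ ∀ Q : Λ' → Prop, P.pr Q = ν.real {l | Q (π l)} := by
  classical
  let _ : Fintype (range D) := hfin.fintype
  have hsum : ∀ Q : range D → Prop,
      (∑ x : range D, if Q x then ν.real (D ⁻¹' {x.1}) else 0)
        = ν.real {l | Q ⟨D l, mem_range_self l⟩} := by
    intro Q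
    rw [← Finset.sum_filter, ← measureReal_biUnion_finset]
    · congr 1
      ext l
      simp only [Finset.mem_filter, Finset.mem_univ, true_and, mem_iUnion, mem_preimage,
        mem_singleton_iff, exists_prop, mem_ofPred_eq]
      constructor
      · rintro ⟨x, hx, hl⟩
        have : x = ⟨D l, mem_range_self l⟩ := Subtype.ext hl.symm
        rwa [← this]
      · intro h
        exact ⟨⟨D l, mem_range_self l⟩, h, rfl⟩
    · intro x _ y _ hxy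
      refine Set.disjoint_left.2 fun l hx hy => hxy ?_
      exact Subtype.ext ((show D l = x.1 from hx).symm.trans (show D l = y.1 from hy))
    · intro x _
      exact hm _
  refine ⟨range D, inferInstance, ⟨fun x => ν.real (D ⁻¹' {x.1}), fun _ => measureReal_nonneg, ?_⟩,
    fun x => x.2.choose, fun l => ⟨D l, mem_range_self l⟩, ?_, ?_⟩
  · have := hsum (fun _ => True)
    simpa using this
  · intro l
    exact (mem_range_self l : D l ∈ range D).choose_spec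
  · intro Q
    rw [← hsum Q]
    unfold FLaw.pr
    refine Finset.sum_congr rfl fun x _ => ?_
    by_cases h : Q x <;> simp [h]

/-- the coefficient bins of a bounded set of coefficients are finitely many -/
theorem k5_quot_cbin_fin (r K : ℝ) :
    {B : (Fin 3 → ℤ) × (Fin 2 → Fin j → ℤ) | ∃ c : k5_Co j, ‖c‖ ≤ K ∧ k5_cbin r c = B}.Finite := by
  have hfl : ∀ x : ℝ, |x| ≤ K → ⌊x / r⌋ ∈ Set.Icc ⌊-(K / |r|)⌋ ⌊K / |r|⌋ := by
    intro x hx
    have h1 : |x / r| ≤ K / |r| := by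
      rw [abs_div]
      exact div_le_div_of_nonneg_right hx (abs_nonneg r)
    have h2 := abs_le.1 h1
    exact ⟨Int.floor_mono h2.1, Int.floor_mono h2.2⟩
  refine Set.Finite.subset
    (Set.Finite.prod (s := Set.pi univ fun _ : Fin 3 => Set.Icc ⌊-(K / |r|)⌋ ⌊K / |r|⌋)
      (t := Set.pi univ fun _ : Fin 2 => Set.pi univ fun _ : Fin j => Set.Icc ⌊-(K / |r|)⌋ ⌊K / |r|⌋)
      (Set.Finite.pi fun _ => Set.finite_Icc _ _)
      (Set.Finite.pi fun _ => Set.Finite.pi fun _ => Set.finite_Icc _ _)) ?_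
  rintro B ⟨c, hc, rfl⟩
  refine ⟨fun i _ => hfl _ ?_, fun i _ a _ => hfl _ ?_⟩
  · exact ((norm_le_pi_norm c.1 i).trans (norm_fst_le c)).trans hc
  · exact (((norm_le_pi_norm (c.2 i) a).trans (norm_le_pi_norm c.2 i)).trans (norm_snd_le c)).trans hc

/-- measurability of the coefficient bin -/
theorem k5_quot_cbin_meas (r : ℝ) : Measurable (k5_cbin (j := j) r) := by
  unfold k5_cbin
  refine Measurable.prodMk ?_ ?_
  · refine measurable_pi_iff.2 fun i => ?_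
    have h : Measurable fun c : k5_Co j => c.1 i := (measurable_pi_apply i).comp measurable_fst
    exact (h.div_const r).floor
  · refine measurable_pi_iff.2 fun i => measurable_pi_iff.2 fun a => ?_
    have h : Measurable fun c : k5_Co j => c.2 i a :=
      (measurable_pi_apply a).comp ((measurable_pi_apply i).comp measurable_snd)
    exact (h.div_const r).floor

/-- same cell of the mesh `z` : distance `< z` -/
theorem k5_quot_floor {z x y : ℝ} (hz : 0 < z) (h : ⌊x / z⌋ = ⌊y / z⌋) : |x - y| ≤ z := by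
  have h1 := Int.floor_le (x / z)
  have h2 := Int.lt_floor_add_one (x / z)
  have h3 := Int.floor_le (y / z)
  have h4 := Int.lt_floor_add_one (y / z)
  rw [h] at h1 h2
  have h5 : |x / z - y / z| ≤ 1 := by
    rw [abs_le]; constructor <;> linarith
  rw [← sub_div, abs_div, abs_of_pos hz, div_le_one hz] at h5
  exact h5

/-- one coordinate: an interval of length `3 q` is covered by three intervals of length `q` -/
theorem k5_quot_three {q a s : ℝ} (h1 : a - q ≤ s) (h2 : s ≤ a + 2 * q) :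
    ∃ k : Fin 3, a + ((k : ℕ) - 1 : ℝ) * q ≤ s ∧ s ≤ a + ((k : ℕ) - 1 : ℝ) * q + q := by
  by_cases c1 : s ≤ a
  · exact ⟨0, by simp; linarith, by simp; linarith⟩
  · by_cases c2 : s ≤ a + q
    · exact ⟨1, by simp; linarith, by simp; linarith⟩
    · exact ⟨2, by norm_num; linarith, by norm_num; linarith⟩

/-- the cube of side `q` around the representative is covered by `3^(j+1)` cubes for the members of the atom -/
theorem k5_quot_cube {ζ q a t : ℝ} {e : Fin j → ℝ} {c c' : k5_Co j} (hζ : 0 < ζ) (hq : ζ ≤ q) (t0 : 0 ≤ t)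
    (t1 : t ≤ 1) (hb : k5_cbin (ζ / 3) c = k5_cbin (ζ / 3) c') (h : k5_InQ q a e c' t) :
    ∃ k : Fin 3 × (Fin j → Fin 3),
      k5_InQ q (a + ((k.1 : ℕ) - 1 : ℝ) * q) (fun b => e b + ((k.2 b : ℕ) - 1 : ℝ) * q) c t := by
  have hz : 0 < ζ / 3 := by positivity
  have hb1 : ∀ i, |c.1 i - c'.1 i| ≤ ζ / 3 := fun i =>
    k5_quot_floor hz (congrFun (congrArg Prod.fst hb) i)
  have hb2 : ∀ i b, |c.2 i b - c'.2 i b| ≤ ζ / 3 := fun i b =>
    k5_quot_floor hz (congrFun (congrFun (congrArg Prod.snd hb) i) b)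
  have hx : |k5_x c t - k5_x c' t| ≤ q := by
    have e1 : k5_x c t - k5_x c' t
        = (c.1 0 - c'.1 0) + t * (c.1 1 - c'.1 1) + t ^ 2 * (c.1 2 - c'.1 2) := by
      unfold k5_x; ring
    have a0 := abs_le.1 (hb1 0)
    have a1 := abs_le.1 (hb1 1)
    have a2 := abs_le.1 (hb1 2)
    have t2 : t ^ 2 ≤ 1 := by nlinarith
    have t20 : 0 ≤ t ^ 2 := by positivity
    rw [e1, abs_le]
    constructor <;> nlinarith
  have hy : ∀ b, |k5_y c t b - k5_y c' t b| ≤ q := by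
    intro b
    have e1 : k5_y c t b - k5_y c' t b = (c.2 0 b - c'.2 0 b) + t * (c.2 1 b - c'.2 1 b) := by
      unfold k5_y; ring
    have a0 := abs_le.1 (hb2 0 b)
    have a1 := abs_le.1 (hb2 1 b)
    rw [e1, abs_le]
    constructor <;> nlinarith
  obtain ⟨hx1, hx2, hyy⟩ := h
  have hx' := abs_le.1 hx
  obtain ⟨k0, hk0⟩ := k5_quot_three (q := q) (a := a) (s := k5_x c t) (by linarith) (by linarith)
  have : ∀ b, ∃ k : Fin 3, e b + ((k : ℕ) - 1 : ℝ) * q ≤ k5_y c t b ∧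
      k5_y c t b ≤ e b + ((k : ℕ) - 1 : ℝ) * q + q := by
    intro b
    have hy' := abs_le.1 (hy b)
    have := hyy b
    exact k5_quot_three (by linarith) (by linarith)
  choose kk hkk using this
  exact ⟨(k0, kk), hk0.1, hk0.2, hkk⟩

/-- **L-252-S5-Q**  **finite quotient at finitely many times.**   `ρ l'` is a representative of the atom `l'`; the atoms fix the labels at the times `τ i`, the coefficient bins at the scales of `Rs` and at a mesh `≤ ζ/3`.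
PROOF.  If `n = 0` take any one-point model (`Λ` is nonempty since `ν` is a probability).   Otherwise `ζ > 0` (`(hT i).z0`).   `ζ₀ := ζ / 3`.   `D l := (k5_cbin ζ₀ (c l), fun r : hRs.toFinset => k5_cbin r (c l), fun i => (l ∈ G i : Prop))` (use `Bool`/`decide` classically or `Set.indicator`-style `Fin n → Prop`); `D` is measurable into a countable discrete type
(`measurable_to_countable'`-style: each fibre is a finite intersection of measurable sets: `Int.floor` is measurable, `hc`, `hG`) and has FINITE range (`‖c l‖ ≤ K` bounds all floors: `Set.Finite.subset` of a product of `Finset.Icc`).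
`Λ' := {x // x ∈ range D ∧ 0 < ν.real (D ⁻¹' {x})}` (a `Fintype` by `Set.Finite.fintype`), `P.p x := ν.real (D ⁻¹' {x})`, `∑ = ν.real univ = 1` (finite disjoint union; null atoms do not count), `ρ x := ` a point of the fibre (`Classical.choose`).
KEY: for every set `𝒮` of values, `P.pr (x ∈ 𝒮) = ν.real (D ⁻¹' 𝒮)`.   A property of `l` that is a function of `D l` holds for `ρ x` iff it holds on the whole atom.   This gives the last claim and `m' {l' | cbin r (c (ρ l')) = B} = ν.real {l | cbin r (c l) = B}` for `r ∈ Rs`.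
`supp` : `ρ x ∈ G i` is an actual labelled trajectory: same `Z`.   `cap`, `bcap` : if `k5_InQ q a e (c (ρ x)) τ` then every `l` of the atom has all coefficients within `ζ₀` of those of `ρ x`, so `|x_l(τ) - x_ρ(τ)| ≤ 3 ζ₀ ≤ q`, `|y_l(τ) - y_ρ(τ)| ≤ 2 ζ₀ ≤ q` : `l` lies in the cube of side `3 q` with corner `(a - q, e - q)`,
which is the union of `3^(j+1)` cubes of side `q`; `measureReal_union_le`/`measureReal_biUnion_finset_le` and `(hT i).cap` / `.bcap`.   ~450 l.; may be split: (1) construction + KEY, (2) the three fields. -/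
theorem k5_quot {Λ : Type} [MeasurableSpace Λ] (ν : Measure Λ) [IsProbabilityMeasure ν] (c : Λ → k5_Co j)
    (hc : Measurable c) (d K ζ : ℝ) (hK : 1 ≤ K) (hd0 : 0 ≤ d) (hcb : ∀ l, ‖c l‖ ≤ K) (Rs : Set ℝ) (hRs : Rs.Finite)
    (n : ℕ) (τ : Fin n → ℝ) (f : Fin n → Fin j → ℝ) (G : Fin n → Set Λ) (hG : ∀ i, MeasurableSet (G i))
    (hT : ∀ i, k5_Tm j d K ζ Rs (fun A => ν.real A) c (τ i) (f i) (G i)) :
    ∃ (Λ' : Type) (_ : Fintype Λ') (P : FLaw Λ') (ρ : Λ' → Λ),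
      (∀ i, k5_Tm j d (3 ^ (j + 1) * K) ζ Rs (k5_pm P) (fun l' => c (ρ l')) (τ i) (f i) (ρ ⁻¹' G i)) ∧
      ∀ I : Finset (Fin n), P.pr (fun l' => ∀ i ∈ I, ρ l' ∈ G i) = ν.real (⋂ i ∈ I, G i) := by
  classical
  have : Finite Rs := hRs.to_subtype
  let D : Λ → ((Fin 3 → ℤ) × (Fin 2 → Fin j → ℤ)) × (Rs → (Fin 3 → ℤ) × (Fin 2 → Fin j → ℤ)) ×
      (Fin n → Prop) :=
    fun l => (k5_cbin (ζ / 3) (c l), fun r => k5_cbin r.1 (c l), fun i => l ∈ G i)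
  have hDm : Measurable D := by
    refine Measurable.prodMk ((k5_quot_cbin_meas _).comp hc) (Measurable.prodMk ?_ ?_)
    · exact measurable_pi_iff.2 fun r => (k5_quot_cbin_meas _).comp hc
    · exact measurable_pi_iff.2 fun i => (hG i).mem
  have hfin : (range D).Finite := by
    refine Set.Finite.subset (Set.Finite.prod (k5_quot_cbin_fin (j := j) (ζ / 3) K)
      (Set.Finite.prod (Set.Finite.pi fun r : Rs => k5_quot_cbin_fin (j := j) r.1 K)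
        (Set.finite_univ (α := Fin n → Prop)))) ?_
    rintro _ ⟨l, rfl⟩
    exact ⟨⟨c l, hcb l, rfl⟩, fun r _ => ⟨c l, hcb l, rfl⟩, mem_univ _⟩
  obtain ⟨Λ', iF, P, ρ, π, hρ, hP⟩ :=
    k5_quot_abs ν D hfin (fun x => hDm (measurableSet_singleton x))
  have h0 : ∀ l, k5_cbin (ζ / 3) (c l) = k5_cbin (ζ / 3) (c (ρ (π l))) :=
    fun l => (congrArg Prod.fst (hρ l)).symm
  have hr : ∀ l, ∀ r ∈ Rs, k5_cbin r (c (ρ (π l))) = k5_cbin r (c l) :=
    fun l r hr => congrFun (congrArg (fun x => x.2.1) (hρ l)) ⟨r, hr⟩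
  have hg : ∀ l i, ρ (π l) ∈ G i ↔ l ∈ G i :=
    fun l i => iff_of_eq (congrFun (congrArg (fun x => x.2.2) (hρ l)) i)
  have hcard : ((Finset.univ : Finset (Fin 3 × (Fin j → Fin 3))).card : ℝ) = 3 ^ (j + 1) := by
    simp [Fintype.card_prod, pow_succ, mul_comm]
  refine ⟨Λ', iF, P, ρ, fun i => ?_, fun I => ?_⟩
  · have T := hT i
    have h3 : (1 : ℝ) ≤ 3 ^ (j + 1) := one_le_pow₀ (by norm_num)
    have hKK : K ≤ 3 ^ (j + 1) * K := by nlinarith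
    refine ⟨T.z0, T.t0, T.t1, T.fb.trans hKK, ?_, ?_, ?_⟩
    · intro q r a hq hqr hr1
      obtain ⟨Z, hZ, hZ'⟩ := T.supp q r a hq hqr hr1
      refine ⟨Z, hZ.trans ?_, fun l' hl' => hZ' (ρ l') hl'⟩
      have : 0 ≤ (r / q) ^ d :=
        Real.rpow_nonneg (div_nonneg (by linarith [T.z0]) (by linarith [T.z0])) d
      exact mul_le_mul_of_nonneg_right hKK this
    · intro q a e hq hq1
      show P.pr _ ≤ _
      rw [hP]
      calc ν.real {l | π l ∈ {l' | l' ∈ ρ ⁻¹' G i ∧ k5_InQ q a e (c (ρ l')) (τ i)}}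
          ≤ ν.real (⋃ k ∈ (Finset.univ : Finset (Fin 3 × (Fin j → Fin 3))),
              {l | l ∈ G i ∧ k5_InQ q (a + ((k.1 : ℕ) - 1 : ℝ) * q)
                (fun b => e b + ((k.2 b : ℕ) - 1 : ℝ) * q) (c l) (τ i)}) := by
            refine measureReal_mono ?_ (measure_ne_top ν _)
            rintro l ⟨hl1, hl2⟩
            obtain ⟨k, hk⟩ := k5_quot_cube T.z0 hq T.t0 T.t1 (h0 l) hl2
            exact mem_biUnion (Finset.mem_univ k) ⟨(hg l i).1 hl1, hk⟩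
        _ ≤ ∑ k : Fin 3 × (Fin j → Fin 3), ν.real {l | l ∈ G i ∧ k5_InQ q (a + ((k.1 : ℕ) - 1 : ℝ) * q)
                (fun b => e b + ((k.2 b : ℕ) - 1 : ℝ) * q) (c l) (τ i)} :=
            measureReal_biUnion_finset_le _ _
        _ ≤ ∑ _k : Fin 3 × (Fin j → Fin 3), K * q ^ ((j : ℝ) + d) :=
            Finset.sum_le_sum fun k _ => T.cap q _ _ hq hq1
        _ = 3 ^ (j + 1) * K * q ^ ((j : ℝ) + d) := by
            rw [Finset.sum_const, nsmul_eq_mul, hcard]; ring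
    · intro r hrR q a e B hq hqr
      show P.pr _ ≤ _ * P.pr _
      rw [hP, hP]
      have hB : {l | π l ∈ {l' | k5_cbin r (c (ρ l')) = B}} = {l | k5_cbin r (c l) = B} := by
        ext l
        show k5_cbin r (c (ρ (π l))) = B ↔ k5_cbin r (c l) = B
        rw [hr l r hrR]
      rw [hB]
      calc ν.real {l | π l ∈ {l' | l' ∈ ρ ⁻¹' G i ∧ k5_cbin r (c (ρ l')) = B ∧ k5_InQ q a e (c (ρ l')) (τ i)}}
          ≤ ν.real (⋃ k ∈ (Finset.univ : Finset (Fin 3 × (Fin j → Fin 3))),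
              {l | l ∈ G i ∧ k5_cbin r (c l) = B ∧ k5_InQ q (a + ((k.1 : ℕ) - 1 : ℝ) * q)
                (fun b => e b + ((k.2 b : ℕ) - 1 : ℝ) * q) (c l) (τ i)}) := by
            refine measureReal_mono ?_ (measure_ne_top ν _)
            rintro l ⟨hl1, hl2, hl3⟩
            obtain ⟨k, hk⟩ := k5_quot_cube T.z0 hq T.t0 T.t1 (h0 l) hl3
            exact mem_biUnion (Finset.mem_univ k) ⟨(hg l i).1 hl1, (hr l r hrR).symm.trans hl2, hk⟩
        _ ≤ ∑ k : Fin 3 × (Fin j → Fin 3), ν.real {l | l ∈ G i ∧ k5_cbin r (c l) = B ∧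
                k5_InQ q (a + ((k.1 : ℕ) - 1 : ℝ) * q)
                (fun b => e b + ((k.2 b : ℕ) - 1 : ℝ) * q) (c l) (τ i)} :=
            measureReal_biUnion_finset_le _ _
        _ ≤ ∑ _k : Fin 3 × (Fin j → Fin 3),
              K * (q / r) ^ ((j : ℝ) + d) * ν.real {l | k5_cbin r (c l) = B} :=
            Finset.sum_le_sum fun k _ => T.bcap r hrR q _ _ B hq hqr
        _ = 3 ^ (j + 1) * K * (q / r) ^ ((j : ℝ) + d) * ν.real {l | k5_cbin r (c l) = B} := by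
            rw [Finset.sum_const, nsmul_eq_mul, hcard]; ring
  · rw [hP]
    congr 1
    ext l
    simp only [mem_ofPred_eq, mem_iInter]
    exact forall₂_congr fun i _ => hg l i

/-- the times of a tree are finitely many -/
theorem k5_tt_finite (Hs θs : ℕ → ℝ) (k : ℕ) : ∀ t, (k5_tt Hs θs k t).Finite := by
  induction k with
  | zero => intro t; exact Set.finite_singleton t
  | succ k ih => intro t; exact (ih t).union (ih _)

/-- if ONE trajectory carries the tree labels at `t`, then the tree labels of any trajectory mean: labelled at all the times of the tree -/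
theorem k5_lab_iff {Λ : Type} (E : Set (Λ × ℝ)) (Hs θs : ℕ → ℝ) (Kg : ℝ) (k : ℕ) :
    ∀ (t : ℝ) (l₀ l : Λ), (l₀, t) ∈ k5_lab E Hs θs Kg k →
      ((l, t) ∈ k5_lab E Hs θs Kg k ↔ ∀ τ ∈ k5_tt Hs θs k t, (l, τ) ∈ E) := by
  induction k with
  | zero =>
    intro t l₀ l _
    show (l, t) ∈ E ↔ ∀ τ ∈ ({t} : Set ℝ), (l, τ) ∈ E
    simp
  | succ k ih =>
    intro t l₀ l h0
    obtain ⟨h1, h2, h3⟩ := h0
    show ((l, t) ∈ k5_lab E Hs θs Kg k ∧ (l, k5_w (Hs (k + 1)) (θs (k + 1)) t) ∈ k5_lab E Hs θs Kg k ∧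
      Hs (k + 1) / Kg ≤ |k5_w (Hs (k + 1)) (θs (k + 1)) t - t|) ↔
      ∀ τ ∈ k5_tt Hs θs k t ∪ k5_tt Hs θs k (k5_w (Hs (k + 1)) (θs (k + 1)) t), (l, τ) ∈ E
    rw [ih t l₀ l h1, ih _ l₀ l h2]
    constructor
    · rintro ⟨a, b, _⟩ τ (hτ | hτ)
      · exact a τ hτ
      · exact b τ hτ
    · intro a
      exact ⟨fun τ hτ => a τ (Or.inl hτ), fun τ hτ => a τ (Or.inr hτ), h3⟩

/-- the schedule is monotone in the largeness and in the set of readings -/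
theorem k5_sch_mono {M : ℕ} {d κ ζ h p Hst wd X X' : ℝ} {Rs Rs' : Set ℝ} {Hs qs : ℕ → ℝ}
    (S : k5_Sch M d κ ζ h p Hst wd X Rs Hs qs) (hX : X' ≤ X) (hp : p ∈ Rs')
    (hq : ∀ k, 1 ≤ k → k ≤ M - 1 → qs k ∈ Rs') : k5_Sch M d κ ζ h p Hst wd X' Rs' Hs qs where
  h0 := S.h0
  h1 := S.h1
  pR := hp
  pz := S.pz
  ph := S.ph
  zh := S.zh
  zH := S.zH
  Hw := S.Hw
  w1 := S.w1
  H0 := S.H0
  qR := fun k h1 h2 => ⟨hq k h1 h2, (S.qR k h1 h2).2⟩
  qlo := S.qlo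
  qhi := S.qhi
  nxt := S.nxt
  top := S.top
  sm := fun k h1 h2 => (mul_le_mul_of_nonneg_right hX
    (Real.rpow_nonneg (S.H0 k h1 h2).1.le _)).trans (S.sm k h1 h2)
  smh := (mul_le_mul_of_nonneg_right hX (Real.rpow_nonneg S.h0.le _)).trans S.smh

/-- absorbing the factor `3^(j+1)` of the quotient in the constant -/
theorem k5_const_absorb (a C₁ : ℝ) (ha : 1 ≤ a) (hC : 1 ≤ C₁) :
    1 ≤ C₁ * a ^ C₁ ∧ ∀ x : ℝ, 1 ≤ x → C₁ * (a * x) ^ C₁ ≤ (C₁ * a ^ C₁) * x ^ (C₁ * a ^ C₁) := by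
  have h1 : 1 ≤ a ^ C₁ := Real.one_le_rpow ha (by linarith)
  refine ⟨by nlinarith, fun x hx => ?_⟩
  rw [Real.mul_rpow (by linarith) (by linarith), ← mul_assoc]
  refine mul_le_mul_of_nonneg_left ?_ (by positivity)
  exact Real.rpow_le_rpow_of_exponent_le hx (by nlinarith)

/-- **the common reduction** of `k5_tree_gen`, `k5_tree_rows`: the finite model at a finite set `𝕋` of times which are all labelled by one trajectory -/
theorem k5_tree_red {Λ : Type} [MeasurableSpace Λ] (ν : Measure Λ) (c : Λ → k5_Co j) (E : Set (Λ × ℝ))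
    (F A : ℝ → Fin j → ℝ) (d κ K ζ : ℝ) (ks : Finset ℕ) (ns : ℕ → ℕ) (θs : ℕ → ℝ) (Hst wd : ℝ) (M : ℕ)
    (hd0 : 0 ≤ d) (hK : 1 ≤ K) (hS : k5_Snd j d K ζ ν c E F) (hF : k5_Fj j K κ c E F A ks Hst wd)
    (hns : ∀ k, 1 ≤ k → k ≤ M - 1 → ns k ∈ ks) (hθ : ∀ k, 0 ≤ θs k ∧ θs k < 1)
    (Rs : Set ℝ) (hRs : Rs.Finite) (hRsD : Rs ⊆ k5_Dy ζ) (𝕋 : Set ℝ) (h𝕋 : 𝕋.Finite) (l₀ : Λ)
    (hl₀ : ∀ τ ∈ 𝕋, (l₀, τ) ∈ E) :
    ∃ (Λ' : Type) (_ : Fintype Λ') (P : FLaw Λ') (ρ : Λ' → Λ),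
      (∀ l', ‖c (ρ l')‖ ≤ 3 ^ (j + 1) * K) ∧
      (∀ t ∈ 𝕋, k5_Tm j d (3 ^ (j + 1) * K) ζ Rs (k5_pm P) (fun l' => c (ρ l')) t (F t)
        (k5_sec {x : Λ' × ℝ | (ρ x.1, x.2) ∈ E} t)) ∧
      (∀ t ∈ 𝕋, ‖A t‖ ≤ 3 ^ (j + 1) * K) ∧
      (∀ t ∈ 𝕋, ∀ z : ℤ, ∃ Z : Finset ℝ, (Z.card : ℝ) ≤ 3 ^ (j + 1) * K ∧
        ∀ l, (l, t) ∈ {x : Λ' × ℝ | (ρ x.1, x.2) ∈ E} → k5_bin Hst (k5_S (F t) (c (ρ l)) t) = z →
          ∃ b ∈ Z, |k5_J 1 (A t) (F t) (c (ρ l)) t - b| ≤ wd) ∧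
      (∀ k, 1 ≤ k → k ≤ M - 1 → ∀ t l l', (l, t) ∈ {x : Λ' × ℝ | (ρ x.1, x.2) ∈ E} →
        (l', k5_w ((1 / 2 : ℝ) ^ ns k) (θs k) t) ∈ {x : Λ' × ℝ | (ρ x.1, x.2) ∈ E} →
        ‖F (k5_w ((1 / 2 : ℝ) ^ ns k) (θs k) t) - F t - (k5_w ((1 / 2 : ℝ) ^ ns k) (θs k) t - t) • A t‖
          ≤ 3 ^ (j + 1) * K * ((1 / 2 : ℝ) ^ ns k) ^ (1 + κ)) ∧
      P.pr (fun l' => ∀ τ ∈ 𝕋, (ρ l', τ) ∈ E) = ν.real {l | ∀ τ ∈ 𝕋, (l, τ) ∈ E} := by
  classical
  have := hS.prob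
  have h3 : (1 : ℝ) ≤ 3 ^ (j + 1) := one_le_pow₀ (by norm_num)
  have hKK : K ≤ 3 ^ (j + 1) * K := by nlinarith
  -- enumeration of the times
  let n := h𝕋.toFinset.card
  let τ : Fin n → ℝ := fun i => (h𝕋.toFinset.equivFin.symm i).1
  have hτ : ∀ i, τ i ∈ 𝕋 := fun i => h𝕋.mem_toFinset.1 (h𝕋.toFinset.equivFin.symm i).2
  have hτs : ∀ t ∈ 𝕋, ∃ i, τ i = t := by
    intro t ht
    refine ⟨h𝕋.toFinset.equivFin ⟨t, h𝕋.mem_toFinset.2 ht⟩, ?_⟩
    simp [τ]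
  have hT : ∀ i, k5_Tm j d K ζ Rs (fun A => ν.real A) c (τ i) (F (τ i)) (k5_sec E (τ i)) := by
    intro i
    have hI := hS.tI l₀ (τ i) (hl₀ _ (hτ i))
    have T := hS.tm (τ i) hI.1 hI.2
    exact ⟨T.z0, T.t0, T.t1, T.fb, T.supp, T.cap, fun r hr => T.bcap r (hRsD hr)⟩
  obtain ⟨Λ', iF, P, ρ, h1, h2⟩ := k5_quot ν c hS.mc d K ζ hK hd0 hS.cb Rs hRs n τ (fun i => F (τ i))
    (fun i => k5_sec E (τ i)) (fun i => k5_meas_sec hS.mE _) hT
  refine ⟨Λ', iF, P, ρ, fun l' => (hS.cb _).trans hKK, ?_, fun t _ => (hF.Ab t).trans hKK, ?_, ?_, ?_⟩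
  · intro t ht
    obtain ⟨i, rfl⟩ := hτs t ht
    exact h1 i
  · intro t _ z
    obtain ⟨Z, hZ, hZ'⟩ := hF.cover t z
    exact ⟨Z, hZ.trans hKK, fun l hl hz => hZ' (ρ l) hl hz⟩
  · intro k hk1 hk2 t l l' hl hl'
    have hH : (0 : ℝ) < (1 / 2 : ℝ) ^ ns k := by positivity
    have hw := (k5_w_facts ((1 / 2 : ℝ) ^ ns k) (θs k) t hH (hθ k).1 (hθ k).2).2
    have hdiv : ∀ x : ℝ, x / (1 / 2 : ℝ) ^ ns k = x * 2 ^ ns k := by
      intro x
      rw [one_div, inv_pow, div_inv_eq_mul]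
    rw [hdiv, hdiv] at hw
    refine (hF.taylor (ns k) (hns k hk1 hk2) (ρ l) t (ρ l') _ hl hl' hw.symm).trans ?_
    exact mul_le_mul_of_nonneg_right hKK (Real.rpow_nonneg hH.le _)
  · have e1 := h2 Finset.univ
    have e2 : (⋂ i ∈ (Finset.univ : Finset (Fin n)), k5_sec E (τ i)) = {l | ∀ τ ∈ 𝕋, (l, τ) ∈ E} := by
      ext l
      simp only [Finset.mem_univ, iInter_true, mem_iInter]
      constructor
      · intro h t ht
        obtain ⟨i, rfl⟩ := hτs t ht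
        exact h i
      · intro h i
        exact h _ (hτ i)
    rw [e2] at e1
    rw [← e1]
    refine ent_pr_congr P fun l' _ => ?_
    constructor
    · intro h i _
      exact h _ (hτ i)
    · intro h t ht
      obtain ⟨i, rfl⟩ := hτs t ht
      exact h i (Finset.mem_univ i)

/-- **L-252-S5-T3**  **the tree at a fixed root, measure model.**
PROOF.  The set in the last hypothesis has positive mass, so it contains some `l₀`: by `k5_lab_facts` all times of `𝕋 := k5_tt … (M-1) u ∪ {t'}` are labelled by `l₀`, hence lie in `[0,1)` (`Snd.tI`).   `𝕋` is finite (induction): enumerate it as `τ : Fin n → ℝ`.   `Rs' := {p} ∪ {qs k | 1 ≤ k ≤ M - 1}` finite, `⊆ k5_Dy ζ`.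
`k5_quot` with `f i := F (τ i)`, `G i := k5_sec E (τ i)` (`k5_meas_sec`), `hT` from `Snd.tm` (restrict `Rs` : `bcap` is assumed for fewer scales).   Apply `k5_tree_fin` to `(Λ', P, c ∘ ρ)`, `Lb := {x | (ρ x.1, x.2) ∈ E}`, `K' := 3^(j+1) K`:
pointwise hypotheses (cover, Taylor: `Fj.taylor` with `k := ns k`, same block by `k5_w_facts`, `t / (1/2)^n = t * 2^n`) hold because `ρ l'` is an actual trajectory;   `P.pr (…) = ν.real (…)` : the event is `∀ i ∈ I, ρ l' ∈ G i` for `I` = all indices, PLUS the gap conditions, which do not depend on `l` and hold (they hold for `l₀`): prove by induction on `k` that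
`(l, t) ∈ lab k ↔ (gaps of the tree at t) ∧ ∀ τ ∈ tt k t, (l, τ) ∈ E`.   `k5_lab_facts` for the change `K → K'` of the gap constant.   `Sch` with `Rs'` and with `X' = C_fin (K'/s)^(C_fin) ≤ C (K/s)^C`.   ~350 l. -/
theorem k5_tree_gen (j M : ℕ) (d κ : ℝ) (hM : 2 ≤ M) (hd0 : 0 ≤ d) (hd : d < 1) (hκ : 0 < κ) (hκ1 : κ ≤ 1) :
    ∃ C : ℝ, 1 ≤ C ∧ ∀ (Λ : Type) [MeasurableSpace Λ] (ν : Measure Λ) (c : Λ → k5_Co j) (E : Set (Λ × ℝ))
      (F A : ℝ → Fin j → ℝ) (K ζ : ℝ) (ks : Finset ℕ) (ns : ℕ → ℕ) (θs qs : ℕ → ℝ) (h p Hst wd s u t' : ℝ),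
      1 ≤ K → k5_Snd j d K ζ ν c E F → k5_Fj j K κ c E F A ks Hst wd →
      (∀ k, 1 ≤ k → k ≤ M - 1 → ns k ∈ ks) → (∀ k, 0 ≤ θs k ∧ θs k < 1) →
      0 < s → k5_Sch M d κ ζ h p Hst wd (C * (K / s) ^ C) (k5_Dy ζ) (fun k => (1 / 2 : ℝ) ^ ns k) qs →
      |t' - u| ≤ h →
      s ≤ ν.real {l | (l, u) ∈ k5_lab E (fun k => (1 / 2 : ℝ) ^ ns k) θs K (M - 1) ∧ (l, t') ∈ E} →
      ‖F t' - ∑ i ∈ Finset.range (M + 1),
          ((t' - u) ^ i / (i.factorial : ℝ)) • k5_row F A (fun k => (1 / 2 : ℝ) ^ ns k) θs i u‖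
        ≤ h ^ ((M : ℝ) + 1 / 4) := by
  obtain ⟨C₁, hC₁, H⟩ := k5_tree_fin j M d κ hM hd0 hd hκ hκ1
  have h3 : (1 : ℝ) ≤ 3 ^ (j + 1) := one_le_pow₀ (by norm_num)
  obtain ⟨hC, habs⟩ := k5_const_absorb (3 ^ (j + 1)) C₁ h3 hC₁
  refine ⟨C₁ * (3 ^ (j + 1)) ^ C₁, hC, ?_⟩
  intro Λ _ ν c E F A K ζ ks ns θs qs h p Hst wd s u t' hK hS hF hns hθ hs hSch htu hmass
  have := hS.prob
  have hKK : K ≤ 3 ^ (j + 1) * K := by nlinarith
  have hH0 : ∀ k, (0 : ℝ) ≤ (1 / 2 : ℝ) ^ ns k := fun k => by positivity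
  have hne : {l | (l, u) ∈ k5_lab E (fun k => (1 / 2 : ℝ) ^ ns k) θs K (M - 1) ∧ (l, t') ∈ E}.Nonempty := by
    by_contra hcon
    rw [Set.not_nonempty_iff_eq_empty] at hcon
    rw [hcon, measureReal_empty] at hmass
    linarith
  obtain ⟨l₀, hl₀u, hl₀t⟩ := hne
  have hiff := fun l => k5_lab_iff E (fun k => (1 / 2 : ℝ) ^ ns k) θs K (M - 1) u l₀ l hl₀u
  have h𝕋 : (k5_tt (fun k => (1 / 2 : ℝ) ^ ns k) θs (M - 1) u ∪ {t'}).Finite :=
    (k5_tt_finite _ θs (M - 1) u).union (Set.finite_singleton t')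
  have hall : ∀ l, ((l, u) ∈ k5_lab E (fun k => (1 / 2 : ℝ) ^ ns k) θs K (M - 1) ∧ (l, t') ∈ E) ↔
      ∀ τ ∈ k5_tt (fun k => (1 / 2 : ℝ) ^ ns k) θs (M - 1) u ∪ {t'}, (l, τ) ∈ E := by
    intro l
    rw [hiff l]
    constructor
    · rintro ⟨a, b⟩ τ (hτ | hτ)
      · exact a τ hτ
      · rw [mem_singleton_iff.1 hτ]; exact b
    · intro a
      exact ⟨fun τ hτ => a τ (Or.inl hτ), a t' (Or.inr rfl)⟩
  have hRs : (insert p (qs '' (Finset.Icc 1 (M - 1) : Set ℕ))).Finite :=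
    ((Finset.finite_toSet _).image qs).insert p
  have hRsD : insert p (qs '' (Finset.Icc 1 (M - 1) : Set ℕ)) ⊆ k5_Dy ζ := by
    rintro r (rfl | ⟨k, hk, rfl⟩)
    · exact hSch.pR
    · have := Finset.mem_Icc.1 (Finset.mem_coe.1 hk)
      exact (hSch.qR k this.1 this.2).1
  obtain ⟨Λ', iF, P, ρ, r1, r2, r3, r4, r5, r6⟩ := k5_tree_red ν c E F A d κ K ζ ks ns θs Hst wd M hd0 hK hS
    hF hns hθ _ hRs hRsD _ h𝕋 l₀ ((hall l₀).1 ⟨hl₀u, hl₀t⟩)
  have hs1 : s ≤ 1 := hmass.trans measureReal_le_one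
  have hx : 1 ≤ K / s := by rw [le_div_iff₀ hs]; linarith
  have hSch' : k5_Sch M d κ ζ h p Hst wd (C₁ * (3 ^ (j + 1) * K / s) ^ C₁)
      (insert p (qs '' (Finset.Icc 1 (M - 1) : Set ℕ))) (fun k => (1 / 2 : ℝ) ^ ns k) qs := by
    refine k5_sch_mono hSch ?_ (mem_insert _ _)
      (fun k h1 h2 => mem_insert_of_mem _ ⟨k, Finset.mem_coe.2 (Finset.mem_Icc.2 ⟨h1, h2⟩), rfl⟩)
    rw [mul_div_assoc]
    exact habs _ hx
  refine H Λ' P (fun l' => c (ρ l')) (3 ^ (j + 1) * K) ζ _ F A {x | (ρ x.1, x.2) ∈ E} _ θs qs h p Hst wd s u t'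
    _ (hK.trans hKK) r1 r2 r3 r4 r5 hθ hs hSch' subset_union_left (Or.inr rfl) htu ?_
  have e1 : {l | (l, u) ∈ k5_lab E (fun k => (1 / 2 : ℝ) ^ ns k) θs K (M - 1) ∧ (l, t') ∈ E}
      = {l | ∀ τ ∈ k5_tt (fun k => (1 / 2 : ℝ) ^ ns k) θs (M - 1) u ∪ {t'}, (l, τ) ∈ E} := by
    ext l; exact hall l
  rw [e1, ← r6] at hmass
  refine hmass.trans (ent_pr_mono P fun l' _ hl' => ?_)
  have h1 := (hall (ρ l')).2 hl'
  have f1 := (k5_lab_facts E (fun k => (1 / 2 : ℝ) ^ ns k) θs K (3 ^ (j + 1) * K) (by linarith) hKK hH0 ρ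
    (M - 1)).1 h1.1
  have f2 := (k5_lab_facts E (fun k => (1 / 2 : ℝ) ^ ns k) θs (3 ^ (j + 1) * K) (3 ^ (j + 1) * K)
    (by linarith) le_rfl hH0 ρ (M - 1)).2.2.2 l' u
  exact ⟨f2.2 f1, h1.2⟩

/-! ### helpers of `k5_offset`, `k5_root` (blocks of length `1/n`)      (helper200) -/

/-- bounded measurable functions are integrable for a finite measure -/
theorem k5_blk_int {α : Type} [MeasurableSpace α] {μ : Measure α} [IsFiniteMeasure μ] {f : α → ℝ} (hf : Measurable f) (B : ℝ)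
    (h0 : ∀ x, 0 ≤ f x) (hB : ∀ x, f x ≤ B) : Integrable f μ :=
  Integrable.of_bound hf.aestronglyMeasurable B (Filter.Eventually.of_forall fun x => by
    rw [Real.norm_eq_abs, abs_of_nonneg (h0 x)]; exact hB x)

/-- the block of a time -/
theorem k5_blk_mem (n : ℕ) (hn : 0 < n) (t : ℝ) (a : ℤ) : t ∈ Ico ((a : ℝ) / n) (((a : ℝ) + 1) / n) ↔ ⌊t * n⌋ = a := by
  have hn' : (0 : ℝ) < n := Nat.cast_pos.2 hn
  rw [Int.floor_eq_iff, mem_Ico, div_le_iff₀ hn', lt_div_iff₀ hn']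

theorem k5_blk_disj (n : ℕ) (hn : 0 < n) (s : Set ℕ) {Λ : Type} :
    s.PairwiseDisjoint fun a : ℕ => {x : Λ × ℝ | x.2 ∈ Ico ((a : ℝ) / n) (((a : ℝ) + 1) / n)} := by
  intro a _ b _ hab
  refine Set.disjoint_left.2 fun x hx hx' => hab ?_
  have h1 := (k5_blk_mem n hn x.2 (a : ℤ)).1 (by simpa using hx)
  have h2 := (k5_blk_mem n hn x.2 (b : ℤ)).1 (by simpa using hx')
  exact_mod_cast h1.symm.trans h2

theorem k5_blk_cover (n : ℕ) (hn : 0 < n) {t : ℝ} (h0 : 0 ≤ t) (h1 : t < 1) :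
    ∃ a ∈ Finset.range n, t ∈ Ico ((a : ℝ) / n) (((a : ℝ) + 1) / n) := by
  have hn' : (0 : ℝ) < n := Nat.cast_pos.2 hn
  have hf0 : 0 ≤ ⌊t * n⌋ := Int.floor_nonneg.2 (by positivity)
  obtain ⟨a, ha⟩ := Int.eq_ofNat_of_zero_le hf0
  refine ⟨a, ?_, ?_⟩
  · rw [Finset.mem_range]
    have h2 : ((⌊t * n⌋ : ℤ) : ℝ) ≤ t * n := Int.floor_le _
    rw [ha] at h2
    have h3 : t * n < n := by nlinarith
    have h4 : (a : ℝ) < n := by
      have : ((a : ℤ) : ℝ) = (a : ℝ) := by simp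
      linarith
    exact_mod_cast h4
  · have := (k5_blk_mem n hn t (a : ℤ)).2 ha
    simpa using this

section blk

variable {Λ : Type} [MeasurableSpace Λ] (ν : Measure Λ) [IsProbabilityMeasure ν] (E : Set (Λ × ℝ))

omit [MeasurableSpace Λ] in
theorem k5_blk_In (hI : ∀ l t, (l, t) ∈ E → 0 ≤ t ∧ t < 1) : k5_In E (Ico 0 1) := fun l t h => hI l t h

omit [MeasurableSpace Λ] in
theorem k5_blk_InW (W : Set ℝ) : k5_In (k5_rt E W) W := fun _ _ h => h.2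

/-- the mass is the sum of the masses in the blocks -/
theorem k5_blk_mass (hI : ∀ l t, (l, t) ∈ E → 0 ≤ t ∧ t < 1) (n : ℕ) (hn : 0 < n) :
    k5_mass ν E = ∑ a ∈ Finset.range n, k5_mass ν (k5_rt E (Ico ((a : ℝ) / n) (((a : ℝ) + 1) / n))) := by
  refine k5_mass_sum (T := Ico 0 1) (by simp) (k5_blk_In E hI) (Finset.range n)
    (fun a : ℕ => {x : Λ × ℝ | x.2 ∈ Ico ((a : ℝ) / n) (((a : ℝ) + 1) / n)}) (fun a _ => measurable_snd measurableSet_Ico)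
    (k5_blk_disj n hn _) ?_
  intro x hx
  obtain ⟨a, ha, h⟩ := k5_blk_cover n hn (hI x.1 x.2 hx).1 (hI x.1 x.2 hx).2
  exact Set.mem_biUnion (by exact_mod_cast ha) h

omit [MeasurableSpace Λ] in
theorem k5_blk_fib_le (W : Set ℝ) (hI : ∀ l t, (l, t) ∈ E → 0 ≤ t ∧ t < 1) (l : Λ) : volume.real (k5_fib (k5_rt E W) l) ≤ 1 := by
  have h : k5_fib (k5_rt E W) l ⊆ Ico 0 1 := fun t ht => hI l t ht.1
  refine (measureReal_mono h (by simp)).trans (le_of_eq ?_)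
  rw [Real.volume_real_Ico_of_le zero_le_one, sub_zero]

/-- **Cauchy-Schwarz on the blocks of length `1/n`** -/
theorem k5_blk_cs (hE : MeasurableSet E) (hI : ∀ l t, (l, t) ∈ E → 0 ≤ t ∧ t < 1) (n : ℕ) (hn : 0 < n) :
    k5_mass ν E ^ 2 ≤ n * ∑ a ∈ Finset.range n, ∫ l, volume.real (k5_fib (k5_rt E (Ico ((a : ℝ) / n) (((a : ℝ) + 1) / n))) l) ^ 2 ∂ν := by
  set x : ℕ → Λ → ℝ := fun a l => volume.real (k5_fib (k5_rt E (Ico ((a : ℝ) / n) (((a : ℝ) + 1) / n))) l) with hx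
  have hxm : ∀ a, Measurable (x a) := fun a => k5_measurable_fib (k5_meas_rt hE measurableSet_Ico)
  have hx0 : ∀ a l, 0 ≤ x a l := fun a l => measureReal_nonneg
  have hx1 : ∀ a l, x a l ≤ 1 := fun a l => k5_blk_fib_le E _ hI l
  have hxi : ∀ a, Integrable (x a) ν := fun a => k5_blk_int (hxm a) 1 (hx0 a) (hx1 a)
  have hx2i : ∀ a, Integrable (fun l => x a l ^ 2) ν := fun a =>
    k5_blk_int ((hxm a).pow_const 2) 1 (fun l => sq_nonneg _) (fun l => pow_le_one₀ (hx0 a l) (hx1 a l))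
  have hgm : Measurable fun l => ∑ a ∈ Finset.range n, x a l := Finset.measurable_fun_sum _ fun a _ => hxm a
  have hg0 : ∀ l, 0 ≤ ∑ a ∈ Finset.range n, x a l := fun l => Finset.sum_nonneg fun a _ => hx0 a l
  have hg1 : ∀ l, ∑ a ∈ Finset.range n, x a l ≤ n := fun l => by
    refine (Finset.sum_le_sum fun a _ => hx1 a l).trans (le_of_eq ?_)
    simp
  have h1 := k5_cs (ν := ν) (fun l => ∑ a ∈ Finset.range n, x a l) hgm n hg0 hg1
  rw [probReal_univ, one_mul] at h1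
  have h2 : ∫ l, ∑ a ∈ Finset.range n, x a l ∂ν = k5_mass ν E := by
    rw [integral_finsetSum _ fun a _ => hxi a, k5_blk_mass ν E hI n hn]
    refine Finset.sum_congr rfl fun a _ => ?_
    exact (k5_mass_eq_fib (T := Ico ((a : ℝ) / n) (((a : ℝ) + 1) / n)) (k5_meas_rt hE measurableSet_Ico) (by simp) (k5_blk_InW E _)).symm
  rw [h2] at h1
  refine h1.trans ?_
  have h3 : ∫ l, (∑ a ∈ Finset.range n, x a l) ^ 2 ∂ν ≤ ∫ l, (n : ℝ) * ∑ a ∈ Finset.range n, x a l ^ 2 ∂ν := by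
    refine integral_mono (k5_blk_int (hgm.pow_const 2) ((n : ℝ) ^ 2) (fun l => sq_nonneg _) fun l => pow_le_pow_left₀ (hg0 l) (hg1 l) 2)
      ((integrable_finsetSum _ fun a _ => hx2i a).const_mul _) fun l => ?_
    have := sq_sum_le_card_mul_sum_sq (s := Finset.range n) (f := fun a => x a l)
    simpa using this
  refine h3.trans (le_of_eq ?_)
  rw [integral_const_mul, integral_finsetSum _ fun a _ => hx2i a]

/-- measurability of the pair mass in the second time -/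
theorem k5_blk_pair_meas {E E' : Set (Λ × ℝ)} (hE : MeasurableSet E) (hE' : MeasurableSet E') :
    Measurable fun t₀ : ℝ => k5_mass ν {x | x ∈ E ∧ (x.1, t₀) ∈ E'} := by
  have hS : MeasurableSet {p : ℝ × (Λ × ℝ) | p.2 ∈ E ∧ (p.2.1, p.1) ∈ E'} :=
    (measurable_snd hE).inter ((measurable_snd.fst.prodMk measurable_fst) hE')
  exact (measurable_measure_prodMk_left (ν := ν.prod volume) hS).ennreal_toReal

theorem k5_blk_mass_le_one {E : Set (Λ × ℝ)} (hI : ∀ l t, (l, t) ∈ E → 0 ≤ t ∧ t < 1) : k5_mass ν E ≤ 1 := by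
  refine (k5_mass_le (T := Ico 0 1) (by simp) (k5_blk_In E hI)).trans (le_of_eq ?_)
  rw [probReal_univ, Real.volume_real_Ico_of_le zero_le_one]
  norm_num

/-- the partner of a time of the block `a` -/
theorem k5_blk_w (n : ℕ) (hn : 0 < n) (θ : ℝ) (a : ℕ) {t : ℝ} (ht : t ∈ Ico ((a : ℝ) / n) (((a : ℝ) + 1) / n)) :
    k5_w (1 / n) θ t = (a : ℝ) / n + 1 / n * θ := by
  have hn' : (0 : ℝ) < n := Nat.cast_pos.2 hn
  have h1 : ⌊t * n⌋ = (a : ℤ) := (k5_blk_mem n hn t (a : ℤ)).1 (by simpa using ht)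
  have h2 : t / (1 / (n : ℝ)) = t * n := by field_simp
  unfold k5_w
  rw [h2, h1]
  push_cast
  ring

theorem k5_blk_w_mem (n : ℕ) (hn : 0 < n) {θ : ℝ} (h0 : 0 ≤ θ) (h1 : θ < 1) (a : ℕ) :
    (a : ℝ) / n + 1 / n * θ ∈ Ico ((a : ℝ) / n) (((a : ℝ) + 1) / n) := by
  have hn' : (0 : ℝ) < n := Nat.cast_pos.2 hn
  have e : (a : ℝ) / n + 1 / n * θ = ((a : ℝ) + θ) / n := by ring
  rw [e]
  exact ⟨div_le_div_of_nonneg_right (by linarith) hn'.le, div_lt_div_of_pos_right (by linarith) hn'⟩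

theorem k5_w_measurable (H θ : ℝ) : Measurable (k5_w H θ) := by
  unfold k5_w
  fun_prop

/-- change of variable on a block -/
theorem k5_blk_cov (n : ℕ) (hn : 0 < n) (a : ℕ) (f : ℝ → ℝ) :
    ∫ θ in Ico (0 : ℝ) 1, f ((a : ℝ) / n + 1 / n * θ) = n * ∫ t in Ico ((a : ℝ) / n) (((a : ℝ) + 1) / n), f t := by
  have hn' : (0 : ℝ) < n := Nat.cast_pos.2 hn
  have hle : (a : ℝ) / n ≤ ((a : ℝ) + 1) / n := div_le_div_of_nonneg_right (by linarith) hn'.le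
  rw [integral_Ico_eq_integral_Ioc, integral_Ico_eq_integral_Ioc, ← intervalIntegral.integral_of_le zero_le_one,
    ← intervalIntegral.integral_of_le hle]
  have h := intervalIntegral.smul_integral_comp_add_mul (a := 0) (b := 1) f (1 / (n : ℝ)) ((a : ℝ) / n)
  have e1 : (a : ℝ) / n + 1 / n * 0 = (a : ℝ) / n := by ring
  have e2 : (a : ℝ) / n + 1 / n * 1 = ((a : ℝ) + 1) / n := by ring
  rw [e1, e2] at h
  rw [← h, smul_eq_mul, ← mul_assoc]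
  have e3 : (n : ℝ) * (1 / n) = 1 := by field_simp
  rw [e3, one_mul]

theorem k5_offset_pf (hE : MeasurableSet E) (hI : ∀ l t, (l, t) ∈ E → 0 ≤ t ∧ t < 1) (n : ℕ) (hn : 0 < n) (Kg : ℝ) (hK : 1 ≤ Kg) :
    ∃ θ : ℝ, 0 ≤ θ ∧ θ < 1 ∧
      k5_mass ν E ^ 2 - 2 / Kg ≤ k5_mass ν {x | x ∈ E ∧ (x.1, k5_w (1 / n) θ x.2) ∈ E ∧
        (1 / n : ℝ) / Kg ≤ |k5_w (1 / n) θ x.2 - x.2|} := by
  have hn' : (0 : ℝ) < n := Nat.cast_pos.2 hn
  have hKg : 0 < Kg := by linarith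
  -- the pair labels
  set Eθ : ℝ → Set (Λ × ℝ) := fun θ => {x | x ∈ E ∧ (x.1, k5_w (1 / n) θ x.2) ∈ E} with hEθ
  have hEθm : ∀ θ, MeasurableSet (Eθ θ) := fun θ => k5_meas_pair hE hE _ (k5_w_measurable _ _)
  have hEθI : ∀ θ l t, (l, t) ∈ Eθ θ → 0 ≤ t ∧ t < 1 := fun θ l t h => hI l t h.1
  set Ea : ℕ → Set (Λ × ℝ) := fun a => k5_rt E (Ico ((a : ℝ) / n) (((a : ℝ) + 1) / n)) with hEa
  have hEam : ∀ a, MeasurableSet (Ea a) := fun a => k5_meas_rt hE measurableSet_Ico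
  set Gf : ℕ → ℝ → ℝ := fun a t₀ => k5_mass ν {x | x ∈ Ea a ∧ (x.1, t₀) ∈ Ea a} with hGf
  have hGm : ∀ a, Measurable (Gf a) := fun a => k5_blk_pair_meas ν (hEam a) (hEam a)
  have hG0 : ∀ a t₀, 0 ≤ Gf a t₀ := fun a t₀ => k5_mass_nonneg
  have hG1 : ∀ a t₀, Gf a t₀ ≤ 1 := fun a t₀ => k5_blk_mass_le_one ν fun l t h => hI l t h.1.1
  -- step 1
  have st1 : ∀ θ ∈ Ico (0 : ℝ) 1, k5_mass ν (Eθ θ) = ∑ a ∈ Finset.range n, Gf a ((a : ℝ) / n + 1 / n * θ) := by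
    intro θ hθ
    rw [k5_blk_mass ν (Eθ θ) (hEθI θ) n hn]
    refine Finset.sum_congr rfl fun a _ => ?_
    congr 1
    ext x
    constructor
    · rintro ⟨⟨h1, h2⟩, h3⟩
      rw [k5_blk_w n hn θ a h3] at h2
      exact ⟨⟨h1, h3⟩, ⟨h2, k5_blk_w_mem n hn hθ.1 hθ.2 a⟩⟩
    · rintro ⟨⟨h1, h3⟩, ⟨h2, -⟩⟩
      refine ⟨⟨h1, ?_⟩, h3⟩
      rw [k5_blk_w n hn θ a h3]
      exact h2
  have hGi : ∀ a, Integrable (fun θ => Gf a ((a : ℝ) / n + 1 / n * θ)) (volume.restrict (Ico (0 : ℝ) 1)) := fun a =>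
    k5_blk_int ((hGm a).comp (by fun_prop)) 1 (fun θ => hG0 a _) fun θ => hG1 a _
  -- the integral over the offsets
  have st2 : k5_mass ν E ^ 2 ≤ ∫ θ in Ico (0 : ℝ) 1, k5_mass ν (Eθ θ) := by
    rw [setIntegral_congr_fun measurableSet_Ico st1, integral_finsetSum _ fun a _ => hGi a]
    refine (k5_blk_cs ν E hE hI n hn).trans (le_of_eq ?_)
    rw [Finset.mul_sum]
    refine Finset.sum_congr rfl fun a _ => ?_
    rw [k5_blk_cov n hn a (Gf a)]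
    congr 1
    rw [k5_pair_mass (hEam a) (hEam a) measurableSet_Ico (by simp) (k5_blk_InW E _) (k5_blk_InW E _)]
    refine integral_congr_ae (Filter.Eventually.of_forall fun l => ?_)
    exact sq _
  have hint : IntegrableOn (fun θ => k5_mass ν (Eθ θ)) (Ico (0 : ℝ) 1) volume :=
    IntegrableOn.congr_fun (integrable_finsetSum _ fun a _ => hGi a) (fun θ hθ => (st1 θ hθ).symm) measurableSet_Ico
  obtain ⟨θ, hθ, hav⟩ := exists_setAverage_le (μ := volume) (s := Ico (0 : ℝ) 1) (by simp) (by simp) hint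
  rw [setAverage_eq, Real.volume_real_Ico_of_le zero_le_one, sub_zero, inv_one, one_smul] at hav
  refine ⟨θ, hθ.1, hθ.2, ?_⟩
  -- the gap
  have hS : MeasurableSet {x : Λ × ℝ | (1 / n : ℝ) / Kg ≤ |k5_w (1 / n) θ x.2 - x.2|} :=
    measurableSet_le measurable_const (((k5_w_measurable _ _).comp measurable_snd).sub measurable_snd).abs
  have hsp := k5_mass_split (ν := ν) (hEθm θ) (T := Ico 0 1) (by simp) (k5_blk_In _ (hEθI θ)) hS
  have e1 : Eθ θ ∩ {x : Λ × ℝ | (1 / n : ℝ) / Kg ≤ |k5_w (1 / n) θ x.2 - x.2|}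
      = {x | x ∈ E ∧ (x.1, k5_w (1 / n) θ x.2) ∈ E ∧ (1 / n : ℝ) / Kg ≤ |k5_w (1 / n) θ x.2 - x.2|} := by
    ext x
    exact and_assoc
  rw [e1] at hsp
  set Tb : Set ℝ := ⋃ a ∈ Finset.range n, Ioo ((a : ℝ) / n + 1 / n * θ - 1 / n / Kg) ((a : ℝ) / n + 1 / n * θ + 1 / n / Kg) with hTb
  have hTbfin : volume Tb ≠ ⊤ :=
    ((measure_biUnion_finset_le _ _).trans_lt (ENNReal.sum_lt_top.2 fun a _ => by simp)).ne
  have hTbIn : k5_In (Eθ θ \ {x : Λ × ℝ | (1 / n : ℝ) / Kg ≤ |k5_w (1 / n) θ x.2 - x.2|}) Tb := by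
    intro l t h
    obtain ⟨a, ha, hta⟩ := k5_blk_cover n hn (hI l t h.1.1).1 (hI l t h.1.1).2
    have h2 : ¬ ((1 / n : ℝ) / Kg ≤ |k5_w (1 / n) θ t - t|) := h.2
    rw [k5_blk_w n hn θ a hta, not_le, abs_lt] at h2
    refine Set.mem_biUnion (by exact_mod_cast ha) ⟨by linarith [h2.2], by linarith [h2.1]⟩
  have hTbv : volume.real Tb ≤ 2 / Kg := by
    refine (measureReal_biUnion_finset_le _ _).trans (le_of_eq ?_)
    have hpos : 0 ≤ 1 / (n : ℝ) / Kg := by positivity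
    rw [Finset.sum_congr rfl fun a _ => Real.volume_real_Ioo_of_le (by linarith)]
    have e2 : ∀ a ∈ Finset.range n, ((a : ℝ) / n + 1 / n * θ + 1 / n / Kg - ((a : ℝ) / n + 1 / n * θ - 1 / n / Kg)) = 2 * (1 / n / Kg) :=
      fun a _ => by ring
    rw [Finset.sum_congr rfl e2, Finset.sum_const, Finset.card_range, nsmul_eq_mul]
    field_simp
  have hbad := k5_mass_le (ν := ν) hTbfin hTbIn
  rw [probReal_univ, one_mul] at hbad
  linarith

theorem k5_blk_vol (n : ℕ) (hn : 0 < n) (a : ℕ) : volume.real (Ico ((a : ℝ) / n) (((a : ℝ) + 1) / n)) = 1 / n := by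
  have hn' : (0 : ℝ) < n := Nat.cast_pos.2 hn
  rw [Real.volume_real_Ico_of_le (div_le_div_of_nonneg_right (by linarith) hn'.le)]
  ring

theorem k5_blk_vol_ne (n : ℕ) (hn : 0 < n) (a : ℕ) : volume (Ico ((a : ℝ) / n) (((a : ℝ) + 1) / n)) ≠ 0 := by
  have hn' : (0 : ℝ) < n := Nat.cast_pos.2 hn
  rw [Real.volume_Ico]
  refine (ENNReal.ofReal_pos.2 ?_).ne'
  have : ((a : ℝ) + 1) / n - (a : ℝ) / n = 1 / n := by ring
  rw [this]
  positivity

theorem k5_root_pf (E₁ : Set (Λ × ℝ)) (hE : MeasurableSet E) (hE₁ : MeasurableSet E₁) (hsub : E₁ ⊆ E)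
    (hI : ∀ l t, (l, t) ∈ E → 0 ≤ t ∧ t < 1) (n : ℕ) (hn : 0 < n) :
    ∃ (u : ℤ → ℝ) (W : Set ℝ), MeasurableSet W ∧ (∀ a, ⌊u a * n⌋ = a) ∧
      (∀ t ∈ W, k5_mass ν E₁ ^ 2 / 4 ≤ ν.real {l | (l, u ⌊t * n⌋) ∈ E₁ ∧ (l, t) ∈ E}) ∧
      k5_mass ν E₁ ^ 2 / 2 ≤ k5_mass ν (k5_rt E W) := by
  have hn' : (0 : ℝ) < n := Nat.cast_pos.2 hn
  have hI₁ : ∀ l t, (l, t) ∈ E₁ → 0 ≤ t ∧ t < 1 := fun l t h => hI l t (hsub h)
  set δ : ℝ := k5_mass ν E₁ with hδ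
  set B : ℕ → Set ℝ := fun a => Ico ((a : ℝ) / n) (((a : ℝ) + 1) / n) with hB
  have hBm : ∀ a, MeasurableSet (B a) := fun a => measurableSet_Ico
  have hBfin : ∀ a, volume (B a) ≠ ⊤ := fun a => by simp [hB]
  have hEam : ∀ a, MeasurableSet (k5_rt E (B a)) := fun a => k5_meas_rt hE (hBm a)
  have hE1am : ∀ a, MeasurableSet (k5_rt E₁ (B a)) := fun a => k5_meas_rt hE₁ (hBm a)
  -- the choice of the roots
  have key : ∀ a : ℕ, ∃ u ∈ B a, (n : ℝ) * ∫ l, volume.real (k5_fib (k5_rt E₁ (B a)) l) ^ 2 ∂ν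
      ≤ k5_mass ν {x | x ∈ k5_rt E (B a) ∧ (x.1, u) ∈ k5_rt E₁ (B a)} := by
    intro a
    have hgm : Measurable fun t₀ : ℝ => k5_mass ν {x | x ∈ k5_rt E (B a) ∧ (x.1, t₀) ∈ k5_rt E₁ (B a)} :=
      k5_blk_pair_meas ν (hEam a) (hE1am a)
    have hgi : IntegrableOn (fun t₀ : ℝ => k5_mass ν {x | x ∈ k5_rt E (B a) ∧ (x.1, t₀) ∈ k5_rt E₁ (B a)}) (B a) volume := by
      have : IsFiniteMeasure (volume.restrict (B a)) := ⟨by rw [Measure.restrict_apply_univ]; exact (hBfin a).lt_top⟩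
      exact k5_blk_int hgm 1 (fun _ => k5_mass_nonneg) fun _ => k5_blk_mass_le_one ν fun l t h => hI l t h.1.1
    obtain ⟨u, hu, hav⟩ := exists_setAverage_le (k5_blk_vol_ne n hn a) (hBfin a) hgi
    refine ⟨u, hu, le_trans ?_ hav⟩
    rw [setAverage_eq, k5_blk_vol n hn a, one_div, inv_inv, smul_eq_mul]
    refine mul_le_mul_of_nonneg_left ?_ hn'.le
    rw [k5_pair_mass (hEam a) (hE1am a) (hBm a) (hBfin a) (k5_blk_InW E _) (k5_blk_InW E₁ _)]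
    have m1 : Measurable fun l => volume.real (k5_fib (k5_rt E₁ (B a)) l) := k5_measurable_fib (hE1am a)
    have m2 : Measurable fun l => volume.real (k5_fib (k5_rt E (B a)) l) := k5_measurable_fib (hEam a)
    refine integral_mono (k5_blk_int (m1.pow_const 2) 1 (fun l => sq_nonneg _)
      fun l => pow_le_one₀ measureReal_nonneg (k5_blk_fib_le E₁ _ hI₁ l))
      (k5_blk_int (m2.mul m1) 1 (fun l => mul_nonneg measureReal_nonneg measureReal_nonneg)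
        fun l => mul_le_one₀ (k5_blk_fib_le E _ hI l) measureReal_nonneg (k5_blk_fib_le E₁ _ hI₁ l)) fun l => ?_
    have hle : volume.real (k5_fib (k5_rt E₁ (B a)) l) ≤ volume.real (k5_fib (k5_rt E (B a)) l) := by
      refine measureReal_mono (fun t ht => ⟨hsub ht.1, ht.2⟩) ?_
      exact ne_top_of_le_ne_top (hBfin a) (measure_mono fun t ht => ht.2)
    show volume.real (k5_fib (k5_rt E₁ (B a)) l) ^ 2 ≤ _
    rw [sq]
    exact mul_le_mul_of_nonneg_right hle measureReal_nonneg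
  choose uN huB hu using key
  -- the good times
  set Fa : ℕ → Set (Λ × ℝ) := fun a => {x | x ∈ E ∧ (x.1, uN a) ∈ E₁} with hFa
  have hFam : ∀ a, MeasurableSet (Fa a) := fun a => k5_meas_pair hE hE₁ (fun _ => uN a) measurable_const
  set Wa : ℕ → Set ℝ := fun a => {t | δ ^ 2 / 4 ≤ ν.real (k5_sec (Fa a) t)} with hWa
  have hWam : ∀ a, MeasurableSet (Wa a) := fun a => measurableSet_le measurable_const (k5_measurable_sec (hFam a))
  set W : Set ℝ := ⋃ a ∈ Finset.range n, B a ∩ Wa a with hW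
  have hWm : MeasurableSet W := Finset.measurableSet_biUnion _ fun a _ => (hBm a).inter (hWam a)
  have hfl : ∀ (a : ℕ) t, t ∈ B a → ⌊t * n⌋ = (a : ℤ) := fun a t ht => (k5_blk_mem n hn t (a : ℤ)).1 (by simpa [hB] using ht)
  refine ⟨fun z => if 0 ≤ z then uN z.toNat else (z : ℝ) / n, W, hWm, ?_, ?_, ?_⟩
  · intro z
    by_cases hz : 0 ≤ z
    · simp only [if_pos hz]
      rw [hfl z.toNat _ (huB z.toNat)]
      exact Int.toNat_of_nonneg hz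
    · simp only [if_neg hz]
      rw [div_mul_cancel₀ _ hn'.ne']
      exact Int.floor_intCast z
  · intro t ht
    obtain ⟨a, -, hta, htW⟩ : ∃ a ∈ Finset.range n, t ∈ B a ∧ t ∈ Wa a := by
      obtain ⟨a, ha, h⟩ := Set.mem_iUnion₂.1 ht
      exact ⟨a, ha, h.1, h.2⟩
    rw [hfl a t hta]
    simp only [Int.natCast_nonneg, if_true, Int.toNat_natCast]
    refine le_trans htW (le_of_eq ?_)
    congr 1
    ext l
    exact and_comm
  · -- the mass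
    have h1 : δ ^ 2 ≤ ∑ a ∈ Finset.range n, k5_mass ν {x | x ∈ k5_rt E (B a) ∧ (x.1, uN a) ∈ k5_rt E₁ (B a)} := by
      refine (k5_blk_cs ν E₁ hE₁ hI₁ n hn).trans ?_
      rw [Finset.mul_sum]
      exact Finset.sum_le_sum fun a _ => hu a
    have h2 : ∀ a ∈ Finset.range n, k5_mass ν {x | x ∈ k5_rt E (B a) ∧ (x.1, uN a) ∈ k5_rt E₁ (B a)}
        ≤ k5_mass ν (k5_rt (k5_rt E W) (B a)) + δ ^ 2 / 4 * (1 / n) := by
      intro a ha
      have hPm : MeasurableSet {x | x ∈ k5_rt E (B a) ∧ (x.1, uN a) ∈ k5_rt E₁ (B a)} :=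
        k5_meas_pair (hEam a) (hE1am a) (fun _ => uN a) measurable_const
      have hPI : k5_In {x | x ∈ k5_rt E (B a) ∧ (x.1, uN a) ∈ k5_rt E₁ (B a)} (B a) := fun l t h => h.1.2
      have hS : MeasurableSet {x : Λ × ℝ | x.2 ∈ Wa a} := measurable_snd (hWam a)
      rw [k5_mass_split (ν := ν) hPm (hBfin a) hPI hS]
      refine add_le_add ?_ ?_
      · refine k5_mass_mono (T := B a) (hBfin a) (k5_blk_InW _ _) ?_
        rintro x ⟨⟨⟨h1, h2⟩, -⟩, h3⟩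
        exact ⟨⟨h1, Set.mem_biUnion (by exact_mod_cast ha) ⟨h2, h3⟩⟩, h2⟩
      · rw [← k5_blk_vol n hn a]
        refine k5_mass_le_sec (hPm.diff hS) (hBm a) (hBfin a) (fun l t h => hPI l t h.1) fun t _ => ?_
        by_cases htW : t ∈ Wa a
        · have : k5_sec ({x | x ∈ k5_rt E (B a) ∧ (x.1, uN a) ∈ k5_rt E₁ (B a)} \ {x : Λ × ℝ | x.2 ∈ Wa a}) t = ∅ := by
            refine Set.eq_empty_of_forall_notMem fun l hl => ?_
            exact hl.2 htW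
          rw [this, measureReal_empty]
          positivity
        · have h3 : ν.real (k5_sec (Fa a) t) < δ ^ 2 / 4 := not_le.1 htW
          refine le_trans (measureReal_mono ?_ (measure_ne_top _ _)) h3.le
          rintro l ⟨⟨⟨q1, -⟩, ⟨q2, -⟩⟩, -⟩
          exact ⟨q1, q2⟩
    have h3 : k5_mass ν (k5_rt E W) = ∑ a ∈ Finset.range n, k5_mass ν (k5_rt (k5_rt E W) (B a)) :=
      k5_blk_mass ν (k5_rt E W) (fun l t h => hI l t h.1) n hn
    have h4 := h1.trans (Finset.sum_le_sum h2)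
    rw [Finset.sum_add_distrib, ← h3, Finset.sum_const, Finset.card_range, nsmul_eq_mul] at h4
    have e : (n : ℝ) * (δ ^ 2 / 4 * (1 / n)) = δ ^ 2 / 4 := by field_simp
    rw [e] at h4
    nlinarith [sq_nonneg δ]

end blk

/-- **L-252-S5-O1**  **choice of an offset** (replaces the independent time tree and Jensen, 05 l.860-893): Cauchy-Schwarz on the blocks of length `1/n`.
PROOF.  `H := 1/n`, blocks `B_a := [a H, (a+1) H)`, `a < n`.   `E_θ := {x ∈ E | (x.1, k5_w H θ x.2) ∈ E}` (measurable: `k5_meas_pair`, `k5_w H θ` is measurable).   CLAIM `∫_{θ ∈ [0,1)} k5_mass ν E_θ dθ = ∫ ∑_a |E_l ∩ B_a|² / H dν(l)`: for fixed `l` and `a`, `∫_θ |{t ∈ E_l ∩ B_a : a H + θ H ∈ E_l}| dθ = |E_l ∩ B_a| · |{θ ∈ [0,1) : a H + θ H ∈ E_l}| = |E_l ∩ B_a|² / H` (`k5_vol_affine`); Tonelli.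
Cauchy-Schwarz twice: `∑_a x_a² ≥ (∑_a x_a)² / n` (`sq_sum_le_card_mul_sum_sq`) so the integrand is `≥ |E_l|²` (as `n H = 1`), and `∫ |E_l|² dν ≥ (∫ |E_l| dν)² = mass²` (`k5_cs`, `ν` probability, `k5_mass_eq_fib`).
So some `θ ∈ [0,1)` has `k5_mass ν E_θ ≥ mass²` (otherwise the integral over `[0,1)` would be smaller).   Gap: `{t ∈ [0,1) : |k5_w H θ t - t| < H / Kg}` has measure `≤ 2 / Kg` (in each block an interval of length `≤ 2 H / Kg`; `n` blocks), so by `k5_mass_le_sec` (sections `≤ 1`) the removed mass is `≤ 2 / Kg`; `k5_mass_split`.   ~400 l.; may be split (claim / gap). -/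
theorem k5_offset {Λ : Type} [MeasurableSpace Λ] (ν : Measure Λ) [IsProbabilityMeasure ν] (E : Set (Λ × ℝ))
    (hE : MeasurableSet E) (hI : ∀ l t, (l, t) ∈ E → 0 ≤ t ∧ t < 1) (n : ℕ) (hn : 0 < n) (Kg : ℝ) (hK : 1 ≤ Kg) :
    ∃ θ : ℝ, 0 ≤ θ ∧ θ < 1 ∧
      k5_mass ν E ^ 2 - 2 / Kg ≤ k5_mass ν {x | x ∈ E ∧ (x.1, k5_w (1 / n) θ x.2) ∈ E ∧
        (1 / n : ℝ) / Kg ≤ |k5_w (1 / n) θ x.2 - x.2|} :=
  k5_offset_pf ν E hE hI n hn Kg hK

/-- **L-252-S5-O2a**  measurability of the tree labels.   PROOF: induction on `k`; `k5_meas_pair`; `k5_w H θ` is measurable (`Int.measurable_floor`/`measurable_floor`…, `Measurable.const_mul`), the gap condition is the preimage under `Prod.snd` of a measurable set of times. -/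
theorem k5_lab_meas {Λ : Type} [MeasurableSpace Λ] (E : Set (Λ × ℝ)) (hE : MeasurableSet E) (Hs θs : ℕ → ℝ) (Kg : ℝ)
    (k : ℕ) : MeasurableSet (k5_lab E Hs θs Kg k) := by
  induction k with
  | zero => exact hE
  | succ k ih =>
    have hw := k5_w_measurable (Hs (k + 1)) (θs (k + 1))
    have h1 := k5_meas_pair ih ih _ hw
    have h2 : MeasurableSet {t : ℝ | Hs (k + 1) / Kg ≤ |k5_w (Hs (k + 1)) (θs (k + 1)) t - t|} :=
      measurableSet_le measurable_const ((hw.sub measurable_id).abs)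
    have e : k5_lab E Hs θs Kg (k + 1)
        = {x : Λ × ℝ | x ∈ k5_lab E Hs θs Kg k ∧ (x.1, k5_w (Hs (k + 1)) (θs (k + 1)) x.2) ∈ k5_lab E Hs θs Kg k}
          ∩ Prod.snd ⁻¹' {t : ℝ | Hs (k + 1) / Kg ≤ |k5_w (Hs (k + 1)) (θs (k + 1)) t - t|} := by
      ext x
      constructor
      · rintro ⟨a, b, c⟩; exact ⟨⟨a, b⟩, c⟩
      · rintro ⟨⟨a, b⟩, c⟩; exact ⟨a, b, c⟩
    rw [e]
    exact h1.inter (measurable_snd h2)

/-- **L-252-S5-O2b**  measurability of the rows.   PROOF: induction `i = 0, 1, k + 2` (strong); composition with the measurable `k5_w`; `Measurable.smul`, `Measurable.inv`, `Measurable.sub`. -/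
theorem k5_row_meas (F A : ℝ → Fin j → ℝ) (hF : Measurable F) (hA : Measurable A) (Hs θs : ℕ → ℝ) (i : ℕ) :
    Measurable (k5_row F A Hs θs i) := by
  cases i with
  | zero => exact hF
  | succ i =>
    induction i with
    | zero => exact hA
    | succ k ih =>
      have hw := k5_w_measurable (Hs (k + 1)) (θs (k + 1))
      show Measurable (fun t => (k5_w (Hs (k + 1)) (θs (k + 1)) t - t)⁻¹ •
        (k5_row F A Hs θs (k + 1) (k5_w (Hs (k + 1)) (θs (k + 1)) t) - k5_row F A Hs θs (k + 1) t))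
      exact ((hw.sub measurable_id).inv).smul ((ih.comp hw).sub ih)

theorem k5_lab_congr {Λ : Type} (E : Set (Λ × ℝ)) (Hs θs θs' : ℕ → ℝ) (Kg : ℝ) (k : ℕ) (h : ∀ i, 1 ≤ i → i ≤ k → θs i = θs' i) :
    k5_lab E Hs θs Kg k = k5_lab E Hs θs' Kg k := by
  induction k with
  | zero => rfl
  | succ k ih =>
    have e := ih (fun i h1 h2 => h i h1 (by omega))
    have e2 := h (k + 1) (by omega) le_rfl
    simp only [k5_lab, e, e2]

theorem k5_lab_sub {Λ : Type} (E : Set (Λ × ℝ)) (Hs θs : ℕ → ℝ) (Kg : ℝ) (k : ℕ) : k5_lab E Hs θs Kg k ⊆ E := by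
  induction k with
  | zero => exact subset_rfl
  | succ k ih => exact fun x hx => ih hx.1

/-- **L-252-S5-O3**  **all offsets**: `m` applications of `k5_offset`, level `1` first.
PROOF.  Induction on `m`, claim `2 (δ/2)^(2^m) ≤ mass (lab m)` for suitable `θs` (the levels `> m` are irrelevant: `k5_lab … m` depends only on `θs 1 … θs m`; use `Function.update` and a congruence lemma).   Step: `k5_offset` for `E := lab m` (`k5_lab_meas`; times in `[0,1)` since `lab m ⊆ E`), `n := 2^(ns (m+1))` (`1 / (2^k : ℕ) = (1/2)^k`):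
`mass (lab (m+1)) ≥ (2 (δ/2)^(2^m))² - 2/Kg = 4 (δ/2)^(2^(m+1)) - 2/Kg ≥ 2 (δ/2)^(2^(m+1))` because `Kg ≥ (2/δ)^(2^(m+1))`.   State the induction for all `m' ≤ m` with the fixed `Kg`.   ~200 l. -/
theorem k5_offsets {Λ : Type} [MeasurableSpace Λ] (ν : Measure Λ) [IsProbabilityMeasure ν] (E : Set (Λ × ℝ))
    (hE : MeasurableSet E) (hI : ∀ l t, (l, t) ∈ E → 0 ≤ t ∧ t < 1) (ns : ℕ → ℕ) (m : ℕ) (δ Kg : ℝ) (hδ : 0 < δ)
    (hδ1 : δ ≤ 1) (hm : δ ≤ k5_mass ν E) (hK : 4 * (2 / δ) ^ (2 ^ m) ≤ Kg) :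
    ∃ θs : ℕ → ℝ, (∀ k, 0 ≤ θs k ∧ θs k < 1) ∧
      (δ / 2) ^ (2 ^ m) ≤ k5_mass ν (k5_lab E (fun k => (1 / 2 : ℝ) ^ ns k) θs Kg m) := by
  have h2δ : 1 ≤ 2 / δ := by
    rw [le_div_iff₀ hδ]
    linarith
  have hpow1 : ∀ n : ℕ, 1 ≤ (2 / δ) ^ n := fun n => one_le_pow₀ h2δ
  have hKg4 : 4 ≤ Kg := by
    have := hpow1 (2 ^ m)
    linarith
  have hKg0 : 0 < Kg := by linarith
  have key : ∀ m' ≤ m, ∃ θs : ℕ → ℝ, (∀ k, 0 ≤ θs k ∧ θs k < 1) ∧
      2 * (δ / 2) ^ (2 ^ m') ≤ k5_mass ν (k5_lab E (fun k => (1 / 2 : ℝ) ^ ns k) θs Kg m') := by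
    intro m'
    induction m' with
    | zero =>
      intro _
      refine ⟨fun _ => 0, fun _ => ⟨le_rfl, one_pos⟩, ?_⟩
      show 2 * (δ / 2) ^ (2 ^ 0) ≤ k5_mass ν E
      rw [pow_zero, pow_one]
      linarith
    | succ m' ih =>
      intro hm'
      obtain ⟨θs, hθ, hmass⟩ := ih (by omega)
      obtain ⟨θ, h0, h1, hθm⟩ := k5_offset ν (k5_lab E (fun k => (1 / 2 : ℝ) ^ ns k) θs Kg m')
        (k5_lab_meas E hE _ θs Kg m') (fun l t hlt => hI l t (k5_lab_sub _ _ _ _ _ hlt)) (2 ^ ns (m' + 1)) (by positivity) Kg (by linarith)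
      refine ⟨Function.update θs (m' + 1) θ, fun k => ?_, ?_⟩
      · by_cases hk : k = m' + 1
        · subst hk
          rw [Function.update_self]
          exact ⟨h0, h1⟩
        · rw [Function.update_of_ne hk]
          exact hθ k
      · have e1 : k5_lab E (fun k => (1 / 2 : ℝ) ^ ns k) (Function.update θs (m' + 1) θ) Kg m'
            = k5_lab E (fun k => (1 / 2 : ℝ) ^ ns k) θs Kg m' :=
          k5_lab_congr _ _ _ _ _ _ (fun i _ hi => Function.update_of_ne (by omega) _ _)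
        have e2 : (1 / ((2 ^ ns (m' + 1) : ℕ) : ℝ)) = (1 / 2 : ℝ) ^ ns (m' + 1) := by
          push_cast
          rw [one_div, one_div, inv_pow]
        rw [e2] at hθm
        have e3 : k5_lab E (fun k => (1 / 2 : ℝ) ^ ns k) (Function.update θs (m' + 1) θ) Kg (m' + 1)
            = {x | x ∈ k5_lab E (fun k => (1 / 2 : ℝ) ^ ns k) θs Kg m' ∧
                (x.1, k5_w ((1 / 2 : ℝ) ^ ns (m' + 1)) θ x.2) ∈ k5_lab E (fun k => (1 / 2 : ℝ) ^ ns k) θs Kg m' ∧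
                (1 / 2 : ℝ) ^ ns (m' + 1) / Kg ≤ |k5_w ((1 / 2 : ℝ) ^ ns (m' + 1)) θ x.2 - x.2|} := by
          simp only [k5_lab, e1, Function.update_self]
        rw [e3]
        refine le_trans ?_ hθm
        set a : ℝ := (δ / 2) ^ (2 ^ m') with ha
        have ha0 : 0 < a := by positivity
        have ea : (δ / 2) ^ (2 ^ (m' + 1)) = a ^ 2 := by
          rw [ha, ← pow_mul, pow_succ]
        have hsq : (2 * a) ^ 2 ≤ k5_mass ν (k5_lab E (fun k => (1 / 2 : ℝ) ^ ns k) θs Kg m') ^ 2 :=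
          pow_le_pow_left₀ (by positivity) hmass 2
        have hKa : 1 / Kg ≤ a ^ 2 := by
          have h3 : (2 / δ) ^ (2 ^ (m' + 1)) ≤ Kg := by
            have h4 : (2 / δ) ^ (2 ^ (m' + 1)) ≤ (2 / δ) ^ (2 ^ m) :=
              pow_le_pow_right₀ h2δ (Nat.pow_le_pow_right (by norm_num) hm')
            have h5 := hpow1 (2 ^ m)
            linarith
          have h6 : a ^ 2 = 1 / (2 / δ) ^ (2 ^ (m' + 1)) := by
            rw [← ea, one_div, ← inv_pow, inv_div]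
          rw [h6]
          exact one_div_le_one_div_of_le (by positivity) h3
        rw [ea]
        have h7 : 2 / Kg = 2 * (1 / Kg) := by ring
        rw [h7]
        nlinarith
  obtain ⟨θs, hθ, hmass⟩ := key m le_rfl
  refine ⟨θs, hθ, le_trans ?_ hmass⟩
  have : 0 < (δ / 2) ^ (2 ^ m) := by positivity
  linarith

/-- **L-252-S5-O4**  **one root per block** (replaces 05 l.1109-1130): `E₁ ⊆ E`, blocks of length `1/n`.
PROOF.  `H := 1/n`, `δ := k5_mass ν E₁`, blocks `B_a`, `0 ≤ a < n`.   For a block put `g_a(u) := k5_mass ν {x | x ∈ E ∧ x.2 ∈ B_a ∧ (x.1, u) ∈ E₁}`.   `∫_{B_a} g_a(u) du = ∫ |E_l ∩ B_a| |E₁_l ∩ B_a| dν ≥ ∫ |E₁_l ∩ B_a|² dν =: H² α_a` (`k5_pair_mass`).   Choose `u a ∈ B_a` with `g_a(u a) ≥ H α_a` (average; if `α_a = 0` any point of `B_a`; for `a ∉ [0, n)` the point `a H`).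
`∑_a H α_a = ∫ ∑_a |E₁_l ∩ B_a|² / H dν ≥ δ²` (Cauchy-Schwarz as in `k5_offset`).   `W := ⋃_a {t ∈ B_a | δ²/4 ≤ ν.real {l | (l, u a) ∈ E₁ ∧ (l, t) ∈ E}}` (measurable: `k5_measurable_sec` for the measurable set `{x | x ∈ E ∧ (x.1, u a) ∈ E₁}`).
`g_a(u a) = ∫_{B_a} ν.real {…} dt ≤ ∫_{B_a ∩ W} + H δ²/4`, and `∫_{B_a ∩ W} ν.real {l | (l, u a) ∈ E₁ ∧ (l,t) ∈ E} dt ≤ k5_mass ν (k5_rt E (W ∩ B_a))`.   Sum over `a` : `mass (rt E W) ≥ δ² - δ²/4`.   ~400 l. -/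
theorem k5_root {Λ : Type} [MeasurableSpace Λ] (ν : Measure Λ) [IsProbabilityMeasure ν] (E E₁ : Set (Λ × ℝ))
    (hE : MeasurableSet E) (hE₁ : MeasurableSet E₁) (hsub : E₁ ⊆ E) (hI : ∀ l t, (l, t) ∈ E → 0 ≤ t ∧ t < 1) (n : ℕ)
    (hn : 0 < n) :
    ∃ (u : ℤ → ℝ) (W : Set ℝ), MeasurableSet W ∧ (∀ a, ⌊u a * n⌋ = a) ∧
      (∀ t ∈ W, k5_mass ν E₁ ^ 2 / 4 ≤ ν.real {l | (l, u ⌊t * n⌋) ∈ E₁ ∧ (l, t) ∈ E}) ∧
      k5_mass ν E₁ ^ 2 / 2 ≤ k5_mass ν (k5_rt E W) :=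
  k5_root_pf ν E E₁ hE hE₁ hsub hI n hn

theorem k5_recentre_sum (g : ℕ → ℝ) (hg : ∀ n, 0 ≤ g n) (N k : ℕ) :
    ∑ i ∈ Finset.range N, (if k ≤ i then g (i - k) else 0) ≤ ∑ n ∈ Finset.range N, g n := by
  rw [← Finset.sum_filter]
  have hinj : Set.InjOn (fun i => i - k) ((Finset.range N).filter (fun i => k ≤ i) : Set ℕ) := by
    intro a ha b hb hab
    simp only [Finset.coe_filter, Finset.mem_range, Set.mem_ofPred_eq] at ha hb
    simp only at hab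
    omega
  rw [← Finset.sum_image (f := g) hinj]
  refine Finset.sum_le_sum_of_subset_of_nonneg ?_ (fun n _ _ => hg n)
  intro n hn
  obtain ⟨i, hi, rfl⟩ := Finset.mem_image.1 hn
  simp only [Finset.mem_filter, Finset.mem_range] at hi ⊢
  omega

theorem k5_recentre_coef (i k : ℕ) (h : k ≤ i) (u : ℝ) (hu : 0 ≤ u) (hu1 : u ≤ 1) :
    ‖(i.choose k : ℝ) * (-u) ^ (i - k) / (i.factorial : ℝ)‖ ≤ 1 / ((i - k).factorial : ℝ) := by
  have e : ((i.choose k : ℝ) * (k.factorial : ℝ) * ((i - k).factorial : ℝ)) = (i.factorial : ℝ) := by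
    exact_mod_cast Nat.choose_mul_factorial_mul_factorial h
  have hc : (0 : ℝ) < (i.choose k : ℝ) := by exact_mod_cast Nat.choose_pos h
  have ha : (1 : ℝ) ≤ (k.factorial : ℝ) := by exact_mod_cast Nat.succ_le_of_lt (Nat.factorial_pos k)
  have hb : (0 : ℝ) < ((i - k).factorial : ℝ) := by exact_mod_cast Nat.factorial_pos _
  have hx0 : 0 ≤ u ^ (i - k) := pow_nonneg hu _
  have hx1 : u ^ (i - k) ≤ 1 := pow_le_one₀ hu hu1
  rw [norm_div, norm_mul, norm_pow, norm_neg, Real.norm_of_nonneg hu, Real.norm_of_nonneg hc.le,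
    Real.norm_of_nonneg (by positivity : (0 : ℝ) ≤ (i.factorial : ℝ)), ← e, div_le_div_iff₀ (by positivity) hb, one_mul]
  have h1 : (i.choose k : ℝ) * u ^ (i - k) ≤ (i.choose k : ℝ) * (k.factorial : ℝ) :=
    mul_le_mul_of_nonneg_left (hx1.trans ha) hc.le
  exact mul_le_mul_of_nonneg_right h1 hb.le

/-- **L-252-S5-O5**  expansion of a Taylor polynomial centred at `u ∈ [0,1]` in ordinary powers.
PROOF.  `(v - u)^i = ∑_{k ≤ i} C(i,k) v^k (-u)^(i-k)` (`sub_eq_add_neg`, `add_pow`);  `a k := ∑_{i = k}^M (C(i,k) (-u)^(i-k) / i!) • Φ i`;  `C(i,k)/i! = 1/(k! (i-k)!)`, so `‖a k‖ ≤ K ∑_{n} 1/n! ≤ 3 K`.   Exchange the sums (`Finset.sum_comm'` / `Finset.sum_sigma'`).   ~150 l. -/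
theorem k5_recentre (M : ℕ) (Φ : ℕ → Fin j → ℝ) (u K : ℝ) (hu : 0 ≤ u) (hu1 : u ≤ 1) (hΦ : ∀ i ≤ M, ‖Φ i‖ ≤ K) :
    ∃ a : Fin (M + 1) → Fin j → ℝ, (∀ i, ‖a i‖ ≤ 3 * K) ∧ ∀ v : ℝ,
      ∑ i ∈ Finset.range (M + 1), ((v - u) ^ i / (i.factorial : ℝ)) • Φ i = ∑ i : Fin (M + 1), v ^ (i : ℕ) • a i := by
  have hK : 0 ≤ K := (norm_nonneg _).trans (hΦ 0 (Nat.zero_le _))
  refine ⟨fun k => ∑ i ∈ Finset.range (M + 1),
    (if (k : ℕ) ≤ i then ((i.choose k : ℝ) * (-u) ^ (i - k) / (i.factorial : ℝ)) else 0) • Φ i, fun k => ?_, fun v => ?_⟩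
  · calc ‖∑ i ∈ Finset.range (M + 1), (if (k : ℕ) ≤ i then ((i.choose k : ℝ) * (-u) ^ (i - k) / (i.factorial : ℝ)) else 0) • Φ i‖
        ≤ ∑ i ∈ Finset.range (M + 1), ‖(if (k : ℕ) ≤ i then ((i.choose k : ℝ) * (-u) ^ (i - k) / (i.factorial : ℝ)) else 0) • Φ i‖ :=
          norm_sum_le _ _
      _ ≤ ∑ i ∈ Finset.range (M + 1), (if (k : ℕ) ≤ i then 1 / ((i - k).factorial : ℝ) else 0) * K := by
          refine Finset.sum_le_sum fun i hi => ?_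
          rw [norm_smul]
          refine mul_le_mul ?_ (hΦ i (Nat.lt_succ_iff.1 (Finset.mem_range.1 hi))) (norm_nonneg _) (by split_ifs <;> positivity)
          split_ifs with h
          · exact k5_recentre_coef i k h u hu hu1
          · simp
      _ = (∑ i ∈ Finset.range (M + 1), (if (k : ℕ) ≤ i then 1 / ((i - k).factorial : ℝ) else 0)) * K := by rw [Finset.sum_mul]
      _ ≤ 3 * K := by
          refine mul_le_mul_of_nonneg_right ?_ hK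
          refine (k5_recentre_sum (fun n => 1 / (n.factorial : ℝ)) (fun n => by positivity) (M + 1) k).trans ?_
          have h1 := Real.sum_le_exp_of_nonneg (zero_le_one : (0 : ℝ) ≤ 1) (M + 1)
          simp only [one_pow] at h1
          have h2 := Real.exp_one_lt_d9
          linarith
  · rw [Fin.sum_univ_eq_sum_range (fun k => v ^ k • ∑ i ∈ Finset.range (M + 1),
      (if k ≤ i then ((i.choose k : ℝ) * (-u) ^ (i - k) / (i.factorial : ℝ)) else 0) • Φ i) (M + 1)]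
    simp_rw [Finset.smul_sum]
    rw [Finset.sum_comm]
    refine Finset.sum_congr rfl fun i hi => ?_
    simp_rw [smul_smul]
    rw [← Finset.sum_smul]
    congr 1
    rw [sub_eq_add_neg, add_pow, Finset.sum_div]
    have hsub : Finset.range (i + 1) ⊆ Finset.range (M + 1) :=
      Finset.range_subset_range.2 (Nat.succ_le_of_lt (Finset.mem_range.1 hi))
    rw [← Finset.sum_subset hsub (fun k _ hk => by
      rw [if_neg (by simpa [Nat.lt_succ_iff] using hk), mul_zero])]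
    refine Finset.sum_congr rfl fun k hk => ?_
    rw [if_pos (Nat.lt_succ_iff.1 (Finset.mem_range.1 hk))]
    ring

/-- **L-252-S5-T4**  bound of the rows at a root with a heavy tree.   PROOF: exactly as `k5_tree_gen` (quotient at the times of the tree) but with `k5_tree_node` and its field `rb`.   Share the reduction with `k5_tree_gen` (one common lemma `k5_tree_red` producing the finite model).   ~100 l. after T3. -/
theorem k5_tree_rows (j M : ℕ) (d κ : ℝ) (hM : 2 ≤ M) (hd0 : 0 ≤ d) (hd : d < 1) (hκ : 0 < κ) (hκ1 : κ ≤ 1) :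
    ∃ C : ℝ, 1 ≤ C ∧ ∀ (Λ : Type) [MeasurableSpace Λ] (ν : Measure Λ) (c : Λ → k5_Co j) (E : Set (Λ × ℝ))
      (F A : ℝ → Fin j → ℝ) (K ζ : ℝ) (ks : Finset ℕ) (ns : ℕ → ℕ) (θs qs : ℕ → ℝ) (h p Hst wd s u : ℝ),
      1 ≤ K → k5_Snd j d K ζ ν c E F → k5_Fj j K κ c E F A ks Hst wd →
      (∀ k, 1 ≤ k → k ≤ M - 1 → ns k ∈ ks) → (∀ k, 0 ≤ θs k ∧ θs k < 1) →
      0 < s → k5_Sch M d κ ζ h p Hst wd (C * (K / s) ^ C) (k5_Dy ζ) (fun k => (1 / 2 : ℝ) ^ ns k) qs →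
      s ≤ ν.real {l | (l, u) ∈ k5_lab E (fun k => (1 / 2 : ℝ) ^ ns k) θs K (M - 1)} →
      ∀ i ≤ M, ‖k5_row F A (fun k => (1 / 2 : ℝ) ^ ns k) θs i u‖ ≤ C * (K / s) ^ C := by
  obtain ⟨C₁, hC₁, H⟩ := k5_tree_node j M d κ hM hd0 hd hκ hκ1
  have h3 : (1 : ℝ) ≤ 3 ^ (j + 1) := one_le_pow₀ (by norm_num)
  obtain ⟨hC, habs⟩ := k5_const_absorb (3 ^ (j + 1)) C₁ h3 hC₁
  refine ⟨C₁ * (3 ^ (j + 1)) ^ C₁, hC, ?_⟩
  intro Λ _ ν c E F A K ζ ks ns θs qs h p Hst wd s u hK hS hF hns hθ hs hSch hmass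
  have := hS.prob
  have hKK : K ≤ 3 ^ (j + 1) * K := by nlinarith
  have hH0 : ∀ k, (0 : ℝ) ≤ (1 / 2 : ℝ) ^ ns k := fun k => by positivity
  have hne : {l | (l, u) ∈ k5_lab E (fun k => (1 / 2 : ℝ) ^ ns k) θs K (M - 1)}.Nonempty := by
    by_contra hcon
    rw [Set.not_nonempty_iff_eq_empty] at hcon
    rw [hcon, measureReal_empty] at hmass
    linarith
  obtain ⟨l₀, hl₀u⟩ := hne
  have hiff := fun l => k5_lab_iff E (fun k => (1 / 2 : ℝ) ^ ns k) θs K (M - 1) u l₀ l hl₀u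
  have h𝕋 : (k5_tt (fun k => (1 / 2 : ℝ) ^ ns k) θs (M - 1) u).Finite := k5_tt_finite _ θs (M - 1) u
  have hRs : (insert p (qs '' (Finset.Icc 1 (M - 1) : Set ℕ))).Finite :=
    ((Finset.finite_toSet _).image qs).insert p
  have hRsD : insert p (qs '' (Finset.Icc 1 (M - 1) : Set ℕ)) ⊆ k5_Dy ζ := by
    rintro r (rfl | ⟨k, hk, rfl⟩)
    · exact hSch.pR
    · have := Finset.mem_Icc.1 (Finset.mem_coe.1 hk)
      exact (hSch.qR k this.1 this.2).1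
  obtain ⟨Λ', iF, P, ρ, r1, r2, r3, r4, r5, r6⟩ := k5_tree_red ν c E F A d κ K ζ ks ns θs Hst wd M hd0 hK hS
    hF hns hθ _ hRs hRsD _ h𝕋 l₀ ((hiff l₀).1 hl₀u)
  have hs1 : s ≤ 1 := hmass.trans measureReal_le_one
  have hx : 1 ≤ K / s := by rw [le_div_iff₀ hs]; linarith
  have hXX : C₁ * (3 ^ (j + 1) * K / s) ^ C₁
      ≤ C₁ * (3 ^ (j + 1)) ^ C₁ * (K / s) ^ (C₁ * (3 ^ (j + 1)) ^ C₁) := by
    rw [mul_div_assoc]
    exact habs _ hx
  have hSch' : k5_Sch M d κ ζ h p Hst wd (C₁ * (3 ^ (j + 1) * K / s) ^ C₁)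
      (insert p (qs '' (Finset.Icc 1 (M - 1) : Set ℕ))) (fun k => (1 / 2 : ℝ) ^ ns k) qs :=
    k5_sch_mono hSch hXX (mem_insert _ _)
      (fun k h1 h2 => mem_insert_of_mem _ ⟨k, Finset.mem_coe.2 (Finset.mem_Icc.2 ⟨h1, h2⟩), rfl⟩)
  have hN := H Λ' P (fun l' => c (ρ l')) (3 ^ (j + 1) * K) ζ _ F A {x | (ρ x.1, x.2) ∈ E} _ θs qs h p Hst wd s
    _ (hK.trans hKK) r1 r2 r3 r4 r5 hθ hs hSch' u subset_rfl ?_
  · intro i hi
    exact (hN.rb i hi).trans hXX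
  have e1 : {l | (l, u) ∈ k5_lab E (fun k => (1 / 2 : ℝ) ^ ns k) θs K (M - 1)}
      = {l | ∀ τ ∈ k5_tt (fun k => (1 / 2 : ℝ) ^ ns k) θs (M - 1) u, (l, τ) ∈ E} := by
    ext l; exact hiff l
  rw [e1, ← r6] at hmass
  refine hmass.trans (ent_pr_mono P fun l' _ hl' => ?_)
  have h1 := (hiff (ρ l')).2 hl'
  have f1 := (k5_lab_facts E (fun k => (1 / 2 : ℝ) ^ ns k) θs K (3 ^ (j + 1) * K) (by linarith) hKK hH0 ρ
    (M - 1)).1 h1
  have f2 := (k5_lab_facts E (fun k => (1 / 2 : ℝ) ^ ns k) θs (3 ^ (j + 1) * K) (3 ^ (j + 1) * K)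
    (by linarith) le_rfl hH0 ρ (M - 1)).2.2.2 l' u
  exact f2.2 f1

theorem k5_core_le {A e C x : ℝ} (hA0 : 0 ≤ A) (hA : A ≤ C) (he : e ≤ C) (hx : 1 ≤ x) : A * x ^ e ≤ C * x ^ C :=
  mul_le_mul hA (Real.rpow_le_rpow_of_exponent_le hx he) (Real.rpow_nonneg (by linarith) _) (hA0.trans hA)

/-- the constants of the glue: `Kg = max K (4 (2/δ)^N)`, `s = ((δ/2)^N)²/4` -/
theorem k5_core_cst (N : ℕ) (hN : 1 ≤ N) {C₁ K δ : ℝ} (hC₁ : 1 ≤ C₁) (hK : 1 ≤ K) (hδ : 0 < δ) (hδ1 : δ ≤ 1) :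
    C₁ * (max K (4 * (2 / δ) ^ N) / (((δ / 2) ^ N) ^ 2 / 4)) ^ C₁ ≤ (C₁ * (16 * 8 ^ N) ^ C₁) * (K / δ) ^ (3 * (N : ℝ) * C₁) := by
  have hx : 1 ≤ K / δ := by rw [le_div_iff₀ hδ]; linarith
  have hx0 : 0 < K / δ := by linarith
  have hy : 1 ≤ (2 / δ) ^ N := one_le_pow₀ (by rw [le_div_iff₀ hδ]; linarith)
  have h1 : max K (4 * (2 / δ) ^ N) ≤ K * (4 * (2 / δ) ^ N) := max_le (by nlinarith) (by nlinarith)
  have hs : 0 < ((δ / 2) ^ N) ^ 2 / 4 := by positivity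
  have h2 : max K (4 * (2 / δ) ^ N) / (((δ / 2) ^ N) ^ 2 / 4) ≤ 16 * 8 ^ N * (K / δ) ^ (3 * N) := by
    rw [div_le_iff₀ hs]
    refine h1.trans ?_
    have e1 : 16 * 8 ^ N * (K / δ) ^ (3 * N) * (((δ / 2) ^ N) ^ 2 / 4) = K ^ (3 * N) * (4 * (2 / δ) ^ N) := by
      have e8 : (8 : ℝ) ^ N = (2 ^ N) ^ 3 := by rw [← pow_mul, mul_comm, pow_mul]; norm_num
      have ed : δ ^ (3 * N) = (δ ^ N) ^ 3 := by rw [← pow_mul, mul_comm]
      rw [e8]
      simp only [div_pow]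
      rw [ed]
      have hd : δ ^ N ≠ 0 := by positivity
      have h2n : (2 : ℝ) ^ N ≠ 0 := by positivity
      generalize δ ^ N = D at *
      generalize (2 : ℝ) ^ N = T at *
      generalize K ^ (3 * N) = Q at *
      field_simp
      ring
    rw [e1]
    refine mul_le_mul_of_nonneg_right ?_ (by positivity)
    exact le_self_pow₀ hK (by omega)
  have h0 : 0 ≤ max K (4 * (2 / δ) ^ N) / (((δ / 2) ^ N) ^ 2 / 4) := by positivity
  have h3 := Real.rpow_le_rpow h0 h2 (by linarith : (0 : ℝ) ≤ C₁)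
  rw [Real.mul_rpow (by positivity) (by positivity), ← Real.rpow_natCast (K / δ), ← Real.rpow_mul hx0.le] at h3
  push_cast at h3
  calc _ ≤ C₁ * ((16 * 8 ^ N) ^ C₁ * (K / δ) ^ (3 * (N : ℝ) * C₁)) := mul_le_mul_of_nonneg_left h3 (by linarith)
    _ = _ := by ring

/-- **L-252-S5-T5**  **Proposition 5.6, core form**: from scalar-normal data with a first-jet package and a schedule to ONE polynomial per `h`-block, `h = (1/2)^kh`.   `δ` = density of the labels.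
PROOF (glue).  `Kg := max K (4 (2/δ)^(2^(M-1)))`; enlarge the slack of `Snd` and `Fj` to `Kg` (`k5_snd_mono_K` is in `FitContract.lean`: copy the 20 lines or prove `k5_Fj`/`k5_Snd` monotonicity locally).   `k5_offsets` (`m := M - 1`): `θs`, `E₁ := k5_lab E … θs Kg (M-1)`, `δ₁ := (δ/2)^(2^(M-1)) ≤ mass E₁`.
`k5_root` with `n := 2^kh` : roots `u b`, times `W`, `mass (rt E W) ≥ δ₁²/2`.   For a block `b` : if no `v ∈ W` lies in it take `a := 0`; otherwise `s := δ₁²/4 ≤ ν.real {l | (l, u b) ∈ E₁ ∧ (l, v) ∈ E}`, so `k5_tree_rows` bounds the rows at `u b`, `k5_recentre` gives `a`, and `k5_tree_gen` (`|v - u b| ≤ h`: same block) gives the fit.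
`u b ∈ [0,1]` because it is labelled.   All constants are `C (K/δ)^C`.   ~300 l. -/
theorem k5_jets_core (j M : ℕ) (d κ : ℝ) (hM : 2 ≤ M) (hd0 : 0 ≤ d) (hd : d < 1) (hκ : 0 < κ) (hκ1 : κ ≤ 1) :
    ∃ C : ℝ, 1 ≤ C ∧ ∀ (Λ : Type) [MeasurableSpace Λ] (ν : Measure Λ) (c : Λ → k5_Co j) (E : Set (Λ × ℝ))
      (F A : ℝ → Fin j → ℝ) (K ζ δ : ℝ) (ks : Finset ℕ) (ns : ℕ → ℕ) (qs : ℕ → ℝ) (kh : ℕ) (p Hst wd : ℝ),
      1 ≤ K → k5_Snd j d K ζ ν c E F → k5_Fj j K κ c E F A ks Hst wd →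
      (∀ k, 1 ≤ k → k ≤ M - 1 → ns k ∈ ks) → 0 < δ → δ ≤ 1 → δ ≤ k5_mass ν E →
      k5_Sch M d κ ζ ((1 / 2 : ℝ) ^ kh) p Hst wd (C * (K / δ) ^ C) (k5_Dy ζ) (fun k => (1 / 2 : ℝ) ^ ns k) qs →
      ∃ W : Set ℝ, MeasurableSet W ∧ 1 / (C * (1 / δ) ^ C) ≤ k5_mass ν (k5_rt E W) ∧
        ∀ b : ℤ, ∃ a : Fin (M + 1) → Fin j → ℝ, (∀ i, ‖a i‖ ≤ C * (K / δ) ^ C) ∧
          ∀ v ∈ W, ⌊v * 2 ^ kh⌋ = b → ‖F v - ∑ i : Fin (M + 1), v ^ (i : ℕ) • a i‖ ≤ ((1 / 2 : ℝ) ^ kh) ^ ((M : ℝ) + 1 / 4) := by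
  obtain ⟨Cg, hCg, hgen⟩ := k5_tree_gen j M d κ hM hd0 hd hκ hκ1
  obtain ⟨Cr, hCr, hrows⟩ := k5_tree_rows j M d κ hM hd0 hd hκ hκ1
  set N : ℕ := 2 ^ (M - 1) with hN
  have hN1 : 1 ≤ N := Nat.one_le_two_pow
  have hNr : (1 : ℝ) ≤ N := by exact_mod_cast hN1
  have hDg : 0 ≤ ((16 : ℝ) * 8 ^ N) ^ Cg := Real.rpow_nonneg (by positivity) _
  have hDr : 0 ≤ ((16 : ℝ) * 8 ^ N) ^ Cr := Real.rpow_nonneg (by positivity) _
  have h4N : (0 : ℝ) ≤ 4 ^ N := by positivity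
  set C : ℝ := Cg * (16 * 8 ^ N) ^ Cg + 3 * (Cr * (16 * 8 ^ N) ^ Cr) + 3 * (N : ℝ) * Cg + 3 * (N : ℝ) * Cr + 2 * 4 ^ N + 2 * (N : ℝ) with hC
  have hp1 : 0 ≤ Cg * (16 * 8 ^ N) ^ Cg := by positivity
  have hp2 : 0 ≤ Cr * (16 * 8 ^ N) ^ Cr := by positivity
  have hp3 : 0 ≤ 3 * (N : ℝ) * Cg := by positivity
  have hp4 : 0 ≤ 3 * (N : ℝ) * Cr := by positivity
  refine ⟨C, by linarith, ?_⟩
  intro Λ _ ν c E F A K ζ δ ks ns qs kh p Hst wd hK hS hFj hns hδ hδ1 hm hSch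
  have := hS.prob
  have hx : 1 ≤ K / δ := by rw [le_div_iff₀ hδ]; linarith
  set Kg : ℝ := max K (4 * (2 / δ) ^ N) with hKg
  have hKKg : K ≤ Kg := le_max_left _ _
  have hKg1 : 1 ≤ Kg := hK.trans hKKg
  have hSg : k5_Snd j d Kg ζ ν c E F := k5_snd_mono_K hS (by linarith) hKKg
  have hFg : k5_Fj j Kg κ c E F A ks Hst wd := k5_fj_mono hFj hKKg Subset.rfl
  obtain ⟨θs, hθ, hoff⟩ := k5_offsets ν E hS.mE hS.tI ns (M - 1) δ Kg hδ hδ1 hm (le_max_right _ _)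
  set E₁ : Set (Λ × ℝ) := k5_lab E (fun k => (1 / 2 : ℝ) ^ ns k) θs Kg (M - 1) with hE₁
  have hE₁m : MeasurableSet E₁ := k5_lab_meas E hS.mE _ θs Kg (M - 1)
  have hE₁s : E₁ ⊆ E := k5_lab_sub _ _ _ _ _
  obtain ⟨u, W, hWm, hu, hW, hmass⟩ := k5_root ν E E₁ hS.mE hE₁m hE₁s hS.tI (2 ^ kh) (by positivity)
  have hcast : (((2 ^ kh : ℕ) : ℕ) : ℝ) = (2 : ℝ) ^ kh := by push_cast; rfl
  rw [hcast] at hu hW
  set δ₁ : ℝ := (δ / 2) ^ N with hδ₁
  have hδ₁0 : 0 < δ₁ := by positivity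
  have hsq : δ₁ ^ 2 ≤ k5_mass ν E₁ ^ 2 := pow_le_pow_left₀ hδ₁0.le hoff 2
  set s : ℝ := δ₁ ^ 2 / 4 with hs
  have hs0 : 0 < s := by positivity
  have hXg : Cg * (Kg / s) ^ Cg ≤ C * (K / δ) ^ C :=
    (k5_core_cst N hN1 hCg hK hδ hδ1).trans (k5_core_le hp1 (by linarith) (by linarith) hx)
  have hXr : 3 * (Cr * (Kg / s) ^ Cr) ≤ C * (K / δ) ^ C := by
    refine (mul_le_mul_of_nonneg_left (k5_core_cst N hN1 hCr hK hδ hδ1) (by norm_num)).trans ?_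
    rw [← mul_assoc]
    exact k5_core_le (by positivity) (by linarith) (by linarith) hx
  have hXr' : Cr * (Kg / s) ^ Cr ≤ C * (K / δ) ^ C := by
    have : 0 ≤ Cr * (Kg / s) ^ Cr := by positivity
    linarith
  have hSchg := k5_sch_mono hSch hXg hSch.pR fun k h1 h2 => (hSch.qR k h1 h2).1
  have hSchr := k5_sch_mono hSch hXr' hSch.pR fun k h1 h2 => (hSch.qR k h1 h2).1
  refine ⟨W, hWm, ?_, fun b => ?_⟩
  · -- the mass
    refine le_trans ?_ hmass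
    refine le_trans ?_ (div_le_div_of_nonneg_right hsq (by norm_num))
    have hy : 1 ≤ 1 / δ := by rw [le_div_iff₀ hδ]; linarith
    have h1 : 2 * 4 ^ N * (1 / δ) ^ (2 * (N : ℝ)) ≤ C * (1 / δ) ^ C := k5_core_le (by positivity) (by linarith) (by linarith) hy
    have e : δ₁ ^ 2 / 2 = 1 / (2 * 4 ^ N * (1 / δ) ^ (2 * (N : ℝ))) := by
      have e1 : (1 / δ) ^ (2 * (N : ℝ)) = ((1 / δ) ^ N) ^ 2 := by
        rw [← pow_mul, ← Real.rpow_natCast]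
        congr 1
        push_cast
        ring
      have e4 : (4 : ℝ) ^ N = (2 ^ N) ^ 2 := by rw [← pow_mul, mul_comm, pow_mul]; norm_num
      rw [e1, e4, hδ₁]
      simp only [div_pow, one_pow]
      have hd : δ ^ N ≠ 0 := by positivity
      have h2n : (2 : ℝ) ^ N ≠ 0 := by positivity
      field_simp
    rw [e]
    exact one_div_le_one_div_of_le (by positivity) h1
  · by_cases hb : ∃ v ∈ W, ⌊v * 2 ^ kh⌋ = b
    · obtain ⟨v₀, hv₀, hv₀b⟩ := hb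
      have hkey : ∀ v ∈ W, ⌊v * 2 ^ kh⌋ = b → s ≤ ν.real {l | (l, u b) ∈ E₁ ∧ (l, v) ∈ E} := by
        intro v hv hvb
        have h1 := hW v hv
        rw [hvb] at h1
        exact (div_le_div_of_nonneg_right hsq (by norm_num)).trans h1
      -- the root is labelled
      have hne : ({l | (l, u b) ∈ E₁ ∧ (l, v₀) ∈ E} : Set Λ).Nonempty := by
        by_contra hcon
        rw [Set.not_nonempty_iff_eq_empty] at hcon
        have h1 := hkey v₀ hv₀ hv₀b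
        rw [hcon, measureReal_empty] at h1
        linarith
      obtain ⟨l₀, hl₀, -⟩ := hne
      obtain ⟨hu0, hu1⟩ := hS.tI l₀ (u b) (hE₁s hl₀)
      have hrow := hrows Λ ν c E F A Kg ζ ks ns θs qs ((1 / 2 : ℝ) ^ kh) p Hst wd s (u b) hKg1 hSg hFg hns hθ hs0 hSchr
        ((hkey v₀ hv₀ hv₀b).trans (measureReal_mono (fun l hl => hl.1) (measure_ne_top _ _)))
      obtain ⟨a, ha, hexp⟩ := k5_recentre M (fun i => k5_row F A (fun k => (1 / 2 : ℝ) ^ ns k) θs i (u b)) (u b) _ hu0 hu1.le hrow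
      refine ⟨a, fun i => (ha i).trans hXr, fun v hv hvb => ?_⟩
      rw [← hexp v]
      refine hgen Λ ν c E F A Kg ζ ks ns θs qs ((1 / 2 : ℝ) ^ kh) p Hst wd s (u b) v hKg1 hSg hFg hns hθ hs0 hSchg ?_ (hkey v hv hvb)
      -- same block
      have h2 : (0 : ℝ) < 2 ^ kh := by positivity
      have f1 := Int.floor_le (v * 2 ^ kh)
      have f2 := Int.lt_floor_add_one (v * 2 ^ kh)
      have g1 := Int.floor_le (u b * 2 ^ kh)
      have g2 := Int.lt_floor_add_one (u b * 2 ^ kh)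
      rw [hvb] at f1 f2
      rw [hu b] at g1 g2
      have e : ((1 : ℝ) / 2) ^ kh = 1 / 2 ^ kh := by rw [div_pow, one_pow]
      rw [e, le_div_iff₀ h2, ← abs_of_pos h2, ← abs_mul, abs_le]
      constructor <;> nlinarith
    · refine ⟨0, fun i => ?_, fun v hv hvb => absurd ⟨v, hv, hvb⟩ hb⟩
      simp only [Pi.zero_apply, norm_zero]
      positivity

end Claimed.Agent.R252
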