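import Claimed.Agent.R252.S5.MassContract
import Claimed.Agent.R252.S5.EntContract

/-!
# Row 252, Sec. 5: LOCAL NORMALISATION in a time block and THE LOCAL FIT (05 l.437-634).   CONTRACT      (architect helper55; prefix `k5_`)

Measure model.   Block `I = [tI, tI + H)`, popular time `ts ∈ I`, frozen row `fs = F ts`.   For a trajectory with coefficients `c` :
`B = k5_S fs c tI`,  `Y = k5_y c tI`,  `qq = k5_R fs c tI`  (residual slope frozen at `tI`),  normalised time `u = (t - tI)/H`,  normalised row `φ(u) = (F(tI + H u) - fs)/H` (`k5_lphi`).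
We use `p = H` (the paper: `p = H^(1/4)`).   TOOLKIT (used again in `CoverContract.lean`): `k5_loc_identity`, `k5_loc_near`, `k5_loc_frozen`, `k5_supp_affine`, `k5_box_cap`.
Then the sliced group (`k5_gidx`), its five properties and the assembly `k5_local_fit` with the hypothesis `k5_FJ d θ`.
RULE: statements are frozen; prove IN PLACE; helper lemmas (prefix `k5_`) directly above the theorem that needs them; earlier statements (also of the imported files) may be used as black boxes.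
-/

set_option autoImplicit false

namespace Claimed.Agent.R252

open MeasureTheory Set
open scoped BigOperators

variable {j : ℕ}

/-- the normalised row -/
noncomputable def k5_lphi (F : ℝ → Fin j → ℝ) (fs : Fin j → ℝ) (tI H u : ℝ) : Fin j → ℝ := H⁻¹ • (F (tI + H * u) - fs)

/-- group (`H`-bin of `B`) and slice (`H`-bins of the coordinates `≠ a` of `Y`) of a trajectory -/
noncomputable def k5_gidx (fs : Fin j → ℝ) (tI H : ℝ) (a : Fin j) (c : k5_Co j) : ℤ × (Fin j → ℤ) :=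
  (k5_bin H (k5_S fs c tI), fun b => if b = a then 0 else k5_bin H (k5_y c tI b))

/-- the translated normalised scalar `L^a_l(u)` of (5.sliced-model); `γ` = index of the group/slice -/
noncomputable def k5_lL (F : ℝ → Fin j → ℝ) (fs : Fin j → ℝ) (tI H : ℝ) (a : Fin j) (γ : ℤ × (Fin j → ℤ)) (c : k5_Co j)
    (u : ℝ) : ℝ :=
  (k5_S (F (tI + H * u)) c (tI + H * u) - γ.1 * H) / H
    + ∑ b, if b = a then 0 else k5_lphi F fs tI H u b * (γ.2 b * H)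

theorem k5_local_eqns_cite : True := by
  have := @k5_lphi.eq_1
  have := @k5_gidx.eq_1
  have := @k5_lL.eq_1
  trivial

/-- **L-252-S5-L1**  (5.quadratic-local-error), exact identity.
PROOF.  `t = tI + H u`; `x(t) = x(tI) + H u x'(tI) + H² u² c.1 2`, `y(t) = Y + H u y'`, `F(t) = fs + H φ(u)` (`H ≠ 0`); expand `⬝ᵥ` bilinearly; `field_simp; ring` after reducing the dot products to atoms (`Matrix.add_dotProduct`, `Matrix.smul_dotProduct`, `Matrix.dotProduct_add`, `Matrix.dotProduct_smul`).   ~100 l. -/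
theorem k5_loc_identity (F : ℝ → Fin j → ℝ) (fs : Fin j → ℝ) (tI H u bC : ℝ) (hH : H ≠ 0) (c : k5_Co j) :
    (k5_S (F (tI + H * u)) c (tI + H * u) - bC) / H
      = (k5_S fs c tI - bC) / H + u * k5_R fs c tI - k5_lphi F fs tI H u ⬝ᵥ k5_y c tI
        + H * (u ^ 2 * c.1 2 - u * (k5_lphi F fs tI H u ⬝ᵥ k5_yd c)) := by
  have hy : ∀ s, k5_y c s = c.2 0 + s • c.2 1 := fun s => rfl
  obtain ⟨φ, hφ⟩ : ∃ φ, φ = k5_lphi F fs tI H u := ⟨_, rfl⟩
  have hF : F (tI + H * u) = fs + H • φ := by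
    rw [hφ]
    unfold k5_lphi
    rw [smul_smul, mul_inv_cancel₀ hH, one_smul]
    abel
  rw [← hφ, hF]
  unfold k5_S k5_R k5_xD k5_x k5_yd
  simp only [hy, add_dotProduct, smul_dotProduct, dotProduct_add, dotProduct_smul, smul_eq_mul]
  field_simp
  ring

/-- dot product against the sup norms (local copy) -/
theorem k5_loc_dot_le (f v : Fin j → ℝ) : |f ⬝ᵥ v| ≤ (j : ℝ) * ‖f‖ * ‖v‖ := by
  unfold dotProduct
  calc |∑ b, f b * v b| ≤ ∑ b, |f b * v b| := Finset.abs_sum_le_sum_abs _ _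
    _ ≤ ∑ _b : Fin j, ‖f‖ * ‖v‖ := Finset.sum_le_sum fun b _ => by
        rw [abs_mul]
        exact mul_le_mul (norm_le_pi_norm f b) (norm_le_pi_norm v b) (abs_nonneg _) (norm_nonneg _)
    _ = j * ‖f‖ * ‖v‖ := by rw [Finset.sum_const, Finset.card_univ, Fintype.card_fin, nsmul_eq_mul, mul_assoc]

theorem k5_loc_dot_le' (f v : Fin j → ℝ) {A B : ℝ} (hf : ‖f‖ ≤ A) (hv : ‖v‖ ≤ B) : |f ⬝ᵥ v| ≤ (j : ℝ) * A * B :=
  (k5_loc_dot_le f v).trans (mul_le_mul (mul_le_mul_of_nonneg_left hf (Nat.cast_nonneg j)) hv (norm_nonneg _)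
    (mul_nonneg (Nat.cast_nonneg j) ((norm_nonneg _).trans hf)))

theorem k5_loc_c1 (c : k5_Co j) {K : ℝ} (hc : ‖c‖ ≤ K) (i : Fin 3) : |c.1 i| ≤ K :=
  ((norm_le_pi_norm c.1 i).trans (norm_fst_le c)).trans hc

theorem k5_loc_c2 (c : k5_Co j) {K : ℝ} (hc : ‖c‖ ≤ K) (i : Fin 2) : ‖c.2 i‖ ≤ K :=
  ((norm_le_pi_norm c.2 i).trans (norm_snd_le c)).trans hc

theorem k5_loc_y_eq (c : k5_Co j) (s : ℝ) : k5_y c s = c.2 0 + s • c.2 1 := rfl

theorem k5_loc_y_le (c : k5_Co j) {K t : ℝ} (hc : ‖c‖ ≤ K) (ht : |t| ≤ 1) : ‖k5_y c t‖ ≤ 2 * K := by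
  rw [k5_loc_y_eq]
  have h1 := norm_add_le (c.2 0) (t • c.2 1)
  rw [norm_smul, Real.norm_eq_abs] at h1
  have h2 := k5_loc_c2 c hc 0
  have h3 := k5_loc_c2 c hc 1
  have h4 : |t| * ‖c.2 1‖ ≤ 1 * K := mul_le_mul ht h3 (norm_nonneg _) zero_le_one
  linarith

theorem k5_loc_abs_mul {x y A B : ℝ} (hx : |x| ≤ A) (hy : |y| ≤ B) : |x * y| ≤ A * B := by
  rw [abs_mul]
  exact mul_le_mul hx hy (abs_nonneg _) ((abs_nonneg _).trans hx)

/-- **L-252-S5-L2**  the base scalar is close to the scalar at every time of the block whose row is close to `fs`.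
PROOF.  `S(f; t) - S(fs; tI) = (x(t) - x(tI)) - (f - fs) ⬝ᵥ y(t) - fs ⬝ᵥ (y(t) - y(tI))`; `|x(t) - x(tI)| ≤ 3 K H` (`|t|, |tI| ≤ 1`), `‖y(t)‖ ≤ 2 K`, `‖y(t) - y(tI)‖ ≤ K H`; `|f ⬝ᵥ v| ≤ j ‖f‖ ‖v‖` (prove it locally, 10 lines).   ~100 l. -/
theorem k5_loc_near (c : k5_Co j) (K H tI t : ℝ) (f fs : Fin j → ℝ) (hK : 1 ≤ K) (hc : ‖c‖ ≤ K) (hH : 0 < H)
    (htI : |tI| ≤ 1) (ht0 : 0 ≤ t) (ht1 : t ≤ 1) (htt : |t - tI| ≤ H) (hfs : ‖fs‖ ≤ K) (hf : ‖f - fs‖ ≤ 2 * K * H) :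
    |k5_S f c t - k5_S fs c tI| ≤ (3 + 5 * j) * K ^ 2 * H := by
  have hK0 : 0 ≤ K := by linarith
  have hj : (0 : ℝ) ≤ j := Nat.cast_nonneg j
  have key : k5_S f c t - k5_S fs c tI
      = (t - tI) * (c.1 1 + (t + tI) * c.1 2) + (-((f - fs) ⬝ᵥ k5_y c t) + -((t - tI) * (fs ⬝ᵥ c.2 1))) := by
    unfold k5_S k5_x
    simp only [k5_loc_y_eq, sub_dotProduct, dotProduct_add, dotProduct_smul, smul_eq_mul]
    ring
  rw [key]
  have ht : |t| ≤ 1 := by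
    rw [abs_of_nonneg ht0]
    exact ht1
  have b0 : |c.1 1 + (t + tI) * c.1 2| ≤ 3 * K := by
    have h1 := abs_add_le (c.1 1) ((t + tI) * c.1 2)
    have h2 : |t + tI| ≤ 2 := (abs_add_le t tI).trans (by linarith)
    have h3 := k5_loc_abs_mul h2 (k5_loc_c1 c hc 2)
    have h4 := k5_loc_c1 c hc 1
    linarith
  have b1 := k5_loc_abs_mul htt b0
  have b2 := k5_loc_dot_le' (f - fs) (k5_y c t) hf (k5_loc_y_le c hc ht)
  have b3 := k5_loc_abs_mul htt (k5_loc_dot_le' fs (c.2 1) hfs (k5_loc_c2 c hc 1))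
  have t1 := abs_add_le ((t - tI) * (c.1 1 + (t + tI) * c.1 2))
    (-((f - fs) ⬝ᵥ k5_y c t) + -((t - tI) * (fs ⬝ᵥ c.2 1)))
  have t2 := abs_add_le (-((f - fs) ⬝ᵥ k5_y c t)) (-((t - tI) * (fs ⬝ᵥ c.2 1)))
  rw [abs_neg, abs_neg] at t2
  have hKH : K * H ≤ K ^ 2 * H := by
    have : K ≤ K ^ 2 := by nlinarith
    exact mul_le_mul_of_nonneg_right this hH.le
  nlinarith

/-- **L-252-S5-L3**  (5.frozen-q-comparison): two trajectories labelled at `ts` whose base scalars differ by `≤ H`.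
PROOF.  `Snd.resc` at `(l, ts), (l', ts)` : `|R_l(ts) - R_l'(ts)| ≤ K (|x_l(ts) - x_l'(ts)| + ‖y_l(ts) - y_l'(ts)‖ + ζ)`.   `‖y_l(ts) - y_l'(ts)‖ ≤ ‖Y - Y'‖ + 2 K H`;   `x = S + fs ⬝ᵥ y` so `|x_l(ts) - x_l'(ts)| ≤ |S_l(ts) - S_l'(ts)| + j K ‖y_l(ts) - y_l'(ts)‖`;
`|S_l(ts) - S_l'(ts)| ≤ |B - B'| + 2 (3 + 5 j) K² H` (`k5_loc_near` with `f = fs`);   `R(fs; tI) = R(fs; ts) - 2 (ts - tI) c.1 2`.   `ζ ≤ H`.   ~150 l. -/
theorem k5_loc_frozen (j : ℕ) : ∃ C : ℝ, 1 ≤ C ∧ ∀ (Λ : Type) [MeasurableSpace Λ] (ν : Measure Λ) (c : Λ → k5_Co j)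
    (E : Set (Λ × ℝ)) (F : ℝ → Fin j → ℝ) (d K ζ H tI ts : ℝ) (l l' : Λ), 1 ≤ K → k5_Snd j d K ζ ν c E F → 0 < H → H ≤ 1 →
    ζ ≤ H → |tI| ≤ 1 → tI ≤ ts → ts < tI + H → (l, ts) ∈ E → (l', ts) ∈ E →
    |k5_S (F ts) (c l) tI - k5_S (F ts) (c l') tI| ≤ H →
    |k5_R (F ts) (c l) tI - k5_R (F ts) (c l') tI| ≤ C * K ^ 3 * (‖k5_y (c l) tI - k5_y (c l') tI‖ + H) := by
  refine ⟨14 + 12 * j, by have : (0 : ℝ) ≤ j := Nat.cast_nonneg j; linarith, ?_⟩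
  intro Λ _ ν c E F d K ζ H tI ts l l' hK hS hH hH1 hζ htI hts1 hts2 hl hl' hB
  have hj : (0 : ℝ) ≤ j := Nat.cast_nonneg j
  have hK0 : 0 ≤ K := by linarith
  obtain ⟨ht0, ht1⟩ := hS.tI l ts hl
  have hfs : ‖F ts‖ ≤ K := (hS.tm ts ht0 ht1).fb
  have hcl := hS.cb l
  have hcl' := hS.cb l'
  have htt : |ts - tI| ≤ H := by
    rw [abs_of_nonneg (by linarith)]
    linarith
  have hres := hS.resc l ts l' ts hl hl'
  rw [sub_self, abs_zero, zero_add] at hres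
  obtain ⟨D, hD⟩ : ∃ D : ℝ, D = ‖k5_y (c l) tI - k5_y (c l') tI‖ := ⟨_, rfl⟩
  rw [← hD]
  have hD0 : 0 ≤ D := by
    rw [hD]
    exact norm_nonneg _
  -- the tangential signals at `ts`
  have hy : ‖k5_y (c l) ts - k5_y (c l') ts‖ ≤ D + 2 * K * H := by
    have e : k5_y (c l) ts - k5_y (c l') ts
        = (k5_y (c l) tI - k5_y (c l') tI) + (ts - tI) • ((c l).2 1 - (c l').2 1) := by
      simp only [k5_loc_y_eq]
      module
    rw [e]
    have h1 := norm_add_le (k5_y (c l) tI - k5_y (c l') tI) ((ts - tI) • ((c l).2 1 - (c l').2 1))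
    rw [norm_smul, Real.norm_eq_abs] at h1
    have h2 : ‖(c l).2 1 - (c l').2 1‖ ≤ 2 * K := by
      have := norm_sub_le ((c l).2 1) ((c l').2 1)
      have a1 := k5_loc_c2 (c l) hcl 1
      have a2 := k5_loc_c2 (c l') hcl' 1
      linarith
    have h3 : |ts - tI| * ‖(c l).2 1 - (c l').2 1‖ ≤ H * (2 * K) := mul_le_mul htt h2 (norm_nonneg _) hH.le
    rw [← hD] at h1
    linarith
  -- the scalars at `ts`
  have hz : ‖F ts - F ts‖ ≤ 2 * K * H := by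
    rw [sub_self, norm_zero]
    positivity
  have n1 := k5_loc_near (c l) K H tI ts (F ts) (F ts) hK hcl hH htI ht0 ht1.le htt hfs hz
  have n2 := k5_loc_near (c l') K H tI ts (F ts) (F ts) hK hcl' hH htI ht0 ht1.le htt hfs hz
  have hSS : |k5_S (F ts) (c l) ts - k5_S (F ts) (c l') ts| ≤ H + 2 * ((3 + 5 * j) * K ^ 2 * H) := by
    rw [abs_le] at n1 n2 hB ⊢
    constructor <;> linarith [n1.1, n1.2, n2.1, n2.2, hB.1, hB.2]
  have hx : |k5_x (c l) ts - k5_x (c l') ts| ≤ H + 2 * ((3 + 5 * j) * K ^ 2 * H) + j * K * (D + 2 * K * H) := by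
    have e : k5_x (c l) ts - k5_x (c l') ts
        = (k5_S (F ts) (c l) ts - k5_S (F ts) (c l') ts) + F ts ⬝ᵥ (k5_y (c l) ts - k5_y (c l') ts) := by
      unfold k5_S
      rw [dotProduct_sub]
      ring
    rw [e]
    have h1 := abs_add_le (k5_S (F ts) (c l) ts - k5_S (F ts) (c l') ts) (F ts ⬝ᵥ (k5_y (c l) ts - k5_y (c l') ts))
    have h2 := k5_loc_dot_le' (F ts) _ hfs hy
    linarith
  -- back to `tI`
  have e : k5_R (F ts) (c l) tI - k5_R (F ts) (c l') tI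
      = (k5_R (F ts) (c l) ts - k5_R (F ts) (c l') ts) + (ts - tI) * (2 * ((c l').1 2 - (c l).1 2)) := by
    simp only [k5_R, k5_xD]
    ring
  rw [e]
  have h1 := abs_add_le (k5_R (F ts) (c l) ts - k5_R (F ts) (c l') ts) ((ts - tI) * (2 * ((c l').1 2 - (c l).1 2)))
  have h2 : |2 * ((c l').1 2 - (c l).1 2)| ≤ 4 * K := by
    have a1 := k5_loc_c1 (c l) hcl 2
    have a2 := k5_loc_c1 (c l') hcl' 2
    rw [abs_le] at a1 a2 ⊢
    constructor <;> linarith [a1.1, a1.2, a2.1, a2.2]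
  have h3 := k5_loc_abs_mul htt h2
  have h4 : K * (|k5_x (c l) ts - k5_x (c l') ts| + ‖k5_y (c l) ts - k5_y (c l') ts‖ + ζ)
      ≤ K * (H + 2 * ((3 + 5 * j) * K ^ 2 * H) + j * K * (D + 2 * K * H) + (D + 2 * K * H) + H) :=
    mul_le_mul_of_nonneg_left (by linarith) hK0
  have k1 : K ≤ K ^ 3 := by nlinarith [sq_nonneg K, mul_nonneg hK0 hK0]
  have k2 : K ^ 2 ≤ K ^ 3 := by nlinarith [sq_nonneg K, mul_nonneg hK0 hK0]
  have m1 : K * H ≤ K ^ 3 * H := mul_le_mul_of_nonneg_right k1 hH.le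
  have m2 : K ^ 2 * H ≤ K ^ 3 * H := mul_le_mul_of_nonneg_right k2 hH.le
  have m3 : K * D ≤ K ^ 3 * D := mul_le_mul_of_nonneg_right k1 hD0
  have m4 : K ^ 2 * D ≤ K ^ 3 * D := mul_le_mul_of_nonneg_right k2 hD0
  have m5 : 0 ≤ j * (K ^ 3 * D - K ^ 2 * D) := mul_nonneg hj (by linarith)
  have m6 : 0 ≤ j * (K ^ 3 * D) := by positivity
  have m7 : 0 ≤ K ^ 3 * D := by positivity
  linarith

/-- **L-252-S5-L4**  a support count survives an affine change of the scalar, with a factor `2`.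
PROOF.  `X l = (s l - b)/H`.   `a ≤ X ≤ a + r ⟺ H a + b ≤ s ≤ H a + b + H r`; hypothesis at `(H q, H r, H a + b)` gives `Z₀`.   `X / q = s / (H q) - b / (H q)`, so `⌊X/q⌋ ∈ {k + n, k + n + 1}` with `k = ⌊s/(H q)⌋`, `n = ⌊- b/(H q)⌋` (`Int.floor_add…`: `⌊x⌋ + ⌊y⌋ ≤ ⌊x + y⌋ ≤ ⌊x⌋ + ⌊y⌋ + 1`, `Int.le_floor_add`, `Int.le_floor_add_floor`).
`Z := Z₀.image (· + n) ∪ Z₀.image (· + n + 1)`.   `(H r)/(H q) = r/q`.   ~80 l. -/
theorem k5_supp_affine {Λ : Type} (G : Set Λ) (s : Λ → ℝ) (K d ζ H b : ℝ) (hH : 0 < H)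
    (h : ∀ q r a : ℝ, ζ ≤ q → q ≤ r → r ≤ 1 → ∃ Z : Finset ℤ, (Z.card : ℝ) ≤ K * (r / q) ^ d ∧
      ∀ l ∈ G, a ≤ s l → s l ≤ a + r → k5_bin q (s l) ∈ Z)
    (q r a : ℝ) (hq : ζ ≤ H * q) (hqr : q ≤ r) (hr : H * r ≤ 1) :
    ∃ Z : Finset ℤ, (Z.card : ℝ) ≤ 2 * K * (r / q) ^ d ∧
      ∀ l ∈ G, a ≤ (s l - b) / H → (s l - b) / H ≤ a + r → k5_bin q ((s l - b) / H) ∈ Z := by
  obtain ⟨Z₀, hZ₀, hmem⟩ := h (H * q) (H * r) (H * a + b) hq (mul_le_mul_of_nonneg_left hqr hH.le) hr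
  rw [mul_div_mul_left r q hH.ne'] at hZ₀
  classical
  refine ⟨Z₀.image (· + ⌊-b / (H * q)⌋) ∪ Z₀.image (· + ⌊-b / (H * q)⌋ + 1), ?_, ?_⟩
  · have h1 : ((Z₀.image (· + ⌊-b / (H * q)⌋) ∪ Z₀.image (· + ⌊-b / (H * q)⌋ + 1)).card : ℝ)
        ≤ (Z₀.card : ℝ) + Z₀.card := by
      have g1 := Finset.card_union_le (Z₀.image (· + ⌊-b / (H * q)⌋)) (Z₀.image (· + ⌊-b / (H * q)⌋ + 1))
      have g2 := Finset.card_image_le (s := Z₀) (f := (· + ⌊-b / (H * q)⌋))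
      have g3 := Finset.card_image_le (s := Z₀) (f := (· + ⌊-b / (H * q)⌋ + 1))
      exact_mod_cast g1.trans (add_le_add g2 g3)
    linarith
  · intro l hl h1 h2
    have a1 : H * a + b ≤ s l := by
      rw [le_div_iff₀ hH] at h1
      linarith
    have a2 : s l ≤ H * a + b + H * r := by
      rw [div_le_iff₀ hH] at h2
      linarith
    have h3 := hmem l hl a1 a2
    have e : (s l - b) / H / q = s l / (H * q) + -b / (H * q) := by
      rw [div_div, ← add_div]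
      ring
    have f1 := Int.le_floor_add (s l / (H * q)) (-b / (H * q))
    have f2 := Int.le_floor_add_floor (s l / (H * q)) (-b / (H * q))
    unfold k5_bin at h3 ⊢
    rw [e, Finset.mem_union, Finset.mem_image, Finset.mem_image]
    rcases (show ⌊s l / (H * q) + -b / (H * q)⌋ = ⌊s l / (H * q)⌋ + ⌊-b / (H * q)⌋ ∨
        ⌊s l / (H * q) + -b / (H * q)⌋ = ⌊s l / (H * q)⌋ + ⌊-b / (H * q)⌋ + 1 by omega) with h4 | h4
    · exact Or.inl ⟨_, h3, h4.symm⟩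
    · exact Or.inr ⟨_, h3, h4.symm⟩

/-- one cell of the mesh `q` -/
theorem k5_box_cell {q z L : ℝ} (hq : 0 < q) (hz : 0 ≤ z) (hzL : z ≤ L) :
    ⌊z / q⌋₊ < ⌊L / q⌋₊ + 1 ∧ (⌊z / q⌋₊ : ℝ) * q ≤ z ∧ z ≤ (⌊z / q⌋₊ : ℝ) * q + q := by
  have h0 : 0 ≤ z / q := div_nonneg hz hq.le
  refine ⟨Nat.lt_succ_of_le (Nat.floor_le_floor (div_le_div_of_nonneg_right hzL hq.le)), ?_, ?_⟩
  · have h1 := Nat.floor_le h0
    rwa [le_div_iff₀ hq] at h1
  · have h1 := (Nat.lt_floor_add_one (z / q)).le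
    rw [div_le_iff₀ hq] at h1
    linarith

/-- one coordinate of the shear -/
theorem k5_box_term {f δ q K : ℝ} (hf : |f| ≤ K) (h0 : 0 ≤ δ) (h1 : δ ≤ q) :
    0 ≤ f * δ - q * min f 0 ∧ f * δ - q * min f 0 ≤ K * q := by
  rcases le_total 0 f with h | h
  · rw [min_eq_right h, mul_zero, sub_zero]
    have h2 : f ≤ K := (le_abs_self f).trans hf
    exact ⟨mul_nonneg h h0, mul_le_mul h2 h1 h0 (h.trans h2)⟩
  · rw [min_eq_left h]
    have h2 : -f ≤ K := (neg_le_abs f).trans hf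
    have h3 : 0 ≤ (-f) * (q - δ) := mul_nonneg (by linarith) (by linarith)
    have h4 : (-f) * (q - δ) ≤ K * (q - δ) := mul_le_mul_of_nonneg_right h2 (by linarith)
    have h5 : 0 ≤ K * δ := mul_nonneg (by linarith) h0
    constructor <;> nlinarith

/-- **L-252-S5-L5**  the cap of a sheared box: scalar in an interval of length `α`, `y_b(t)` in intervals of lengths `β b`; mesh `q`.
PROOF.  Cover `[s₀, s₀ + α]` by `⌈α/q⌉₊ ≤ α/q + 1` intervals of length `q`, each `[e b, e b + β b]` by `≤ β b / q + 1` intervals; for one product cell, `x = S + f ⬝ᵥ y` lies in an interval of length `(1 + j K) q`, covered by `≤ 2 + j K` intervals of length `q`.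
So the set is contained in a finite union of sets `{l ∈ G | k5_InQ q a' e' (c l) t}`, indexed by `Fin n₀ × (∀ b, Fin (n b)) × Fin n₁`; `measureReal_biUnion_finset_le` (or `measureReal_iUnion_fintype_le`), `hT.cap`; `Fintype.card_pi`, `Finset.prod_le_prod`.   ~250 l. -/
theorem k5_box_cap {Λ : Type} [MeasurableSpace Λ] (ν : Measure Λ) [IsFiniteMeasure ν] (c : Λ → k5_Co j) (d K ζ : ℝ)
    (Rs : Set ℝ) (t : ℝ) (f : Fin j → ℝ) (G : Set Λ) (hK : 1 ≤ K) (hT : k5_Tm j d K ζ Rs (fun A => ν.real A) c t f G)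
    (q α s₀ : ℝ) (β e : Fin j → ℝ) (hq : ζ ≤ q) (hq1 : q ≤ 1) (hα : 0 ≤ α) (hβ : ∀ b, 0 ≤ β b) :
    ν.real {l | l ∈ G ∧ s₀ ≤ k5_S f (c l) t ∧ k5_S f (c l) t ≤ s₀ + α ∧ ∀ b, e b ≤ k5_y (c l) t b ∧ k5_y (c l) t b ≤ e b + β b}
      ≤ (α / q + 1) * (∏ b, (β b / q + 1)) * (2 + j * K) * K * q ^ ((j : ℝ) + d) := by
  classical
  have hq0 : 0 < q := hT.z0.trans_le hq
  have hj : (0 : ℝ) ≤ j := Nat.cast_nonneg j
  have hK0 : 0 ≤ K := by linarith
  obtain ⟨e', he'⟩ : ∃ e' : (Fin j → ℕ) → Fin j → ℝ, ∀ k b, e' k b = e b + k b * q := ⟨fun k b => e b + k b * q, fun _ _ => rfl⟩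
  obtain ⟨bs, hbs⟩ : ∃ bs : ℕ → (Fin j → ℕ) → ℝ, ∀ i k, bs i k = s₀ + i * q + f ⬝ᵥ e' k + q * ∑ b, min (f b) 0 :=
    ⟨fun i k => s₀ + i * q + f ⬝ᵥ e' k + q * ∑ b, min (f b) 0, fun _ _ => rfl⟩
  obtain ⟨I, hI⟩ : ∃ I : Finset (ℕ × (Fin j → ℕ) × ℕ), I = Finset.range (⌊α / q⌋₊ + 1) ×ˢ
      (Fintype.piFinset fun b => Finset.range (⌊β b / q⌋₊ + 1)) ×ˢ Finset.range (⌊((1 + j * K) * q) / q⌋₊ + 1) := ⟨_, rfl⟩
  have hsub : {l | l ∈ G ∧ s₀ ≤ k5_S f (c l) t ∧ k5_S f (c l) t ≤ s₀ + α ∧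
        ∀ b, e b ≤ k5_y (c l) t b ∧ k5_y (c l) t b ≤ e b + β b}
      ⊆ ⋃ p ∈ I, {l | l ∈ G ∧ k5_InQ q (bs p.1 p.2.1 + p.2.2 * q) (e' p.2.1) (c l) t} := by
    rintro l ⟨hG, hs1, hs2, hyb⟩
    obtain ⟨i1, i2, i3⟩ := k5_box_cell hq0 (sub_nonneg.2 hs1) (show k5_S f (c l) t - s₀ ≤ α by linarith)
    have hk := fun b => k5_box_cell hq0 (sub_nonneg.2 (hyb b).1)
      (show k5_y (c l) t b - e b ≤ β b by linarith [(hyb b).2])
    obtain ⟨i, hi⟩ : ∃ i : ℕ, i = ⌊(k5_S f (c l) t - s₀) / q⌋₊ := ⟨_, rfl⟩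
    obtain ⟨k, hkd⟩ : ∃ k : Fin j → ℕ, k = fun b => ⌊(k5_y (c l) t b - e b) / q⌋₊ := ⟨_, rfl⟩
    rw [← hi] at i1 i2 i3
    have hk' : ∀ b, k b < ⌊β b / q⌋₊ + 1 ∧ (k b : ℝ) * q ≤ k5_y (c l) t b - e b ∧
        k5_y (c l) t b - e b ≤ (k b : ℝ) * q + q := by
      intro b
      rw [hkd]
      exact hk b
    have hz : k5_x (c l) t - bs i k = (k5_S f (c l) t - s₀ - i * q)
        + ∑ b, (f b * (k5_y (c l) t b - e' k b) - q * min (f b) 0) := by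
      rw [hbs, Finset.sum_sub_distrib, ← Finset.mul_sum]
      simp only [mul_sub, Finset.sum_sub_distrib]
      unfold k5_S dotProduct
      ring
    have hterm : ∀ b, 0 ≤ f b * (k5_y (c l) t b - e' k b) - q * min (f b) 0 ∧
        f b * (k5_y (c l) t b - e' k b) - q * min (f b) 0 ≤ K * q := by
      intro b
      refine k5_box_term ((norm_le_pi_norm f b).trans hT.fb) ?_ ?_
      · rw [he']
        linarith [(hk' b).2.1]
      · rw [he']
        linarith [(hk' b).2.2]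
    have hs0 : 0 ≤ ∑ b, (f b * (k5_y (c l) t b - e' k b) - q * min (f b) 0) :=
      Finset.sum_nonneg fun b _ => (hterm b).1
    have hs1' : ∑ b, (f b * (k5_y (c l) t b - e' k b) - q * min (f b) 0) ≤ j * (K * q) := by
      have h1 := Finset.sum_le_card_nsmul (Finset.univ : Finset (Fin j)) _ _ fun b _ => (hterm b).2
      rwa [Finset.card_univ, Fintype.card_fin, nsmul_eq_mul] at h1
    obtain ⟨r1, r2, r3⟩ := k5_box_cell hq0 (show 0 ≤ k5_x (c l) t - bs i k by rw [hz]; linarith)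
      (show k5_x (c l) t - bs i k ≤ (1 + j * K) * q by rw [hz]; linarith)
    refine Set.mem_biUnion (x := (i, k, ⌊(k5_x (c l) t - bs i k) / q⌋₊)) ?_ ?_
    · rw [hI]
      simp only [Finset.coe_product, Set.mem_prod, Finset.mem_coe, Finset.mem_range, Fintype.mem_piFinset]
      exact ⟨i1, fun b => (hk' b).1, r1⟩
    · refine ⟨hG, ?_, ?_, fun b => ?_⟩
      · show bs i k + (⌊(k5_x (c l) t - bs i k) / q⌋₊ : ℝ) * q ≤ k5_x (c l) t
        linarith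
      · show k5_x (c l) t ≤ bs i k + (⌊(k5_x (c l) t - bs i k) / q⌋₊ : ℝ) * q + q
        linarith
      · show e' k b ≤ k5_y (c l) t b ∧ k5_y (c l) t b ≤ e' k b + q
        rw [he']
        exact ⟨by linarith [(hk' b).2.1], by linarith [(hk' b).2.2]⟩
  have hcard : (I.card : ℝ) ≤ (α / q + 1) * (∏ b, (β b / q + 1)) * (2 + j * K) := by
    rw [hI, Finset.card_product, Finset.card_product, Fintype.card_piFinset]
    simp only [Finset.card_range]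
    push_cast
    have c1 : ((⌊α / q⌋₊ : ℝ) + 1) ≤ α / q + 1 := by
      have := Nat.floor_le (div_nonneg hα hq0.le)
      linarith
    have c2 : ∏ b, ((⌊β b / q⌋₊ : ℝ) + 1) ≤ ∏ b, (β b / q + 1) := by
      refine Finset.prod_le_prod (fun b _ => by positivity) fun b _ => ?_
      have := Nat.floor_le (div_nonneg (hβ b) hq0.le)
      linarith
    have c3 : ((⌊((1 + j * K) * q) / q⌋₊ : ℝ) + 1) ≤ 2 + j * K := by
      rw [mul_div_cancel_right₀ _ hq0.ne']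
      have := Nat.floor_le (show 0 ≤ 1 + j * K by positivity)
      linarith
    have p2 : 0 ≤ ∏ b, ((⌊β b / q⌋₊ : ℝ) + 1) := Finset.prod_nonneg fun b _ => by positivity
    have p2' : 0 ≤ ∏ b, (β b / q + 1) := p2.trans c2
    have p1 : 0 ≤ α / q + 1 := by positivity
    calc ((⌊α / q⌋₊ : ℝ) + 1) * ((∏ b, ((⌊β b / q⌋₊ : ℝ) + 1)) * ((⌊((1 + j * K) * q) / q⌋₊ : ℝ) + 1))
        ≤ (α / q + 1) * ((∏ b, (β b / q + 1)) * (2 + j * K)) :=
          mul_le_mul c1 (mul_le_mul c2 c3 (by positivity) p2') (mul_nonneg p2 (by positivity)) p1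
      _ = (α / q + 1) * (∏ b, (β b / q + 1)) * (2 + j * K) := by ring
  have hpos : 0 ≤ K * q ^ ((j : ℝ) + d) := mul_nonneg hK0 (Real.rpow_nonneg hq0.le _)
  calc ν.real {l | l ∈ G ∧ s₀ ≤ k5_S f (c l) t ∧ k5_S f (c l) t ≤ s₀ + α ∧
        ∀ b, e b ≤ k5_y (c l) t b ∧ k5_y (c l) t b ≤ e b + β b}
      ≤ ν.real (⋃ p ∈ I, {l | l ∈ G ∧ k5_InQ q (bs p.1 p.2.1 + p.2.2 * q) (e' p.2.1) (c l) t}) :=
        measureReal_mono hsub (measure_ne_top ν _)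
    _ ≤ ∑ p ∈ I, ν.real {l | l ∈ G ∧ k5_InQ q (bs p.1 p.2.1 + p.2.2 * q) (e' p.2.1) (c l) t} :=
        measureReal_biUnion_finset_le _ _
    _ ≤ I.card • (K * q ^ ((j : ℝ) + d)) :=
        Finset.sum_le_card_nsmul _ _ _ fun p _ => hT.cap q _ _ hq hq1
    _ = (I.card : ℝ) * (K * q ^ ((j : ℝ) + d)) := nsmul_eq_mul _ _
    _ ≤ (α / q + 1) * (∏ b, (β b / q + 1)) * (2 + j * K) * (K * q ^ ((j : ℝ) + d)) :=
        mul_le_mul_of_nonneg_right hcard hpos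
    _ = (α / q + 1) * (∏ b, (β b / q + 1)) * (2 + j * K) * K * q ^ ((j : ℝ) + d) := by ring

/-- **L-252-S5-L6**  (5.sliced-model): the translated scalar of a trajectory of the group/slice `γ` is `z + u g - φ_a(u) v + O(K² H)`.
PROOF.  `k5_loc_identity` with `bC := γ.1 H`.   `φ ⬝ᵥ Y = φ_a Y_a + ∑_{b ≠ a} φ_b Y_b` (`Finset.sum_ite`/`Finset.sum_erase`), and `|Y_b - γ.2 b H| ≤ H` for `b ≠ a` (same cell: `hγ`).   `‖φ‖ ≤ Kφ`.   Remainder `H (u² c.1 2 - u φ ⬝ᵥ y')`, `|u| ≤ 1`.   ~150 l. -/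
theorem k5_loc_model (F : ℝ → Fin j → ℝ) (fs : Fin j → ℝ) (tI H u K Kφ : ℝ) (a : Fin j) (γ : ℤ × (Fin j → ℤ)) (c : k5_Co j)
    (hH : 0 < H) (hK : 1 ≤ K) (hc : ‖c‖ ≤ K) (hu0 : 0 ≤ u) (hu1 : u ≤ 1) (hφ : ‖k5_lphi F fs tI H u‖ ≤ Kφ)
    (hγ : k5_gidx fs tI H a c = γ) :
    |k5_lL F fs tI H a γ c u
        - ((k5_S fs c tI - γ.1 * H) / H + u * k5_R fs c tI - k5_lphi F fs tI H u a * k5_y c tI a)|
      ≤ (1 + 2 * j) * K * (1 + Kφ) * H := by
  have hid := k5_loc_identity F fs tI H u (γ.1 * H) hH.ne' c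
  set φ : Fin j → ℝ := k5_lphi F fs tI H u with hφd
  have Kφ0 : 0 ≤ Kφ := (norm_nonneg _).trans hφ
  have K0 : 0 ≤ K := by linarith
  have j0 : (0 : ℝ) ≤ j := Nat.cast_nonneg j
  set w : Fin j → ℝ := fun b => if b = a then 0 else k5_y c tI b - γ.2 b * H with hw
  have hwb : ∀ b, |w b| ≤ H := by
    intro b
    by_cases hb : b = a
    · simp [hw, hb, hH.le]
    · simp only [hw, if_neg hb]
      have h1 : k5_bin H (k5_y c tI b) = γ.2 b := by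
        rw [← hγ]; simp [k5_gidx, hb]
      have h2 := k5_ei_bin_bd hH h1
      rw [abs_le]; constructor <;> linarith [h2.1, h2.2]
  have h1 : |φ ⬝ᵥ w| ≤ j * Kφ * H := k5_ei_dot Kφ0 hφ hwb
  have h2 : |φ ⬝ᵥ k5_yd c| ≤ j * Kφ * K := k5_ei_dot Kφ0 hφ fun b => k5_ei_c2 hc 1 b
  have h3 : |c.1 2| ≤ K := k5_ei_c1 hc 2
  have e1 : (∑ b, if b = a then 0 else φ b * (γ.2 b * H)) - φ ⬝ᵥ k5_y c tI + φ a * k5_y c tI a = - (φ ⬝ᵥ w) := by
    unfold dotProduct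
    have e2 : φ a * k5_y c tI a = ∑ b, if b = a then φ b * k5_y c tI b else 0 := by
      rw [Finset.sum_ite_eq' Finset.univ a]; simp
    rw [e2, ← Finset.sum_sub_distrib, ← Finset.sum_add_distrib, ← Finset.sum_neg_distrib]
    refine Finset.sum_congr rfl fun b _ => ?_
    by_cases hb : b = a
    · simp [hw, hb]
    · simp only [hw, if_neg hb]; ring
  have e3 : k5_lL F fs tI H a γ c u
        - ((k5_S fs c tI - γ.1 * H) / H + u * k5_R fs c tI - φ a * k5_y c tI a)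
      = - (φ ⬝ᵥ w) + H * (u ^ 2 * c.1 2 - u * (φ ⬝ᵥ k5_yd c)) := by
    unfold k5_lL
    rw [hid, ← e1]
    ring
  rw [e3]
  have u2 : u ^ 2 ≤ 1 := by nlinarith
  have u20 : 0 ≤ u ^ 2 := sq_nonneg u
  have h4 : |u ^ 2 * c.1 2 - u * (φ ⬝ᵥ k5_yd c)| ≤ K + j * Kφ * K := by
    refine (abs_sub _ _).trans ?_
    rw [abs_mul, abs_mul, abs_of_nonneg u20, abs_of_nonneg hu0]
    have a1 : u ^ 2 * |c.1 2| ≤ 1 * K := mul_le_mul u2 h3 (abs_nonneg _) zero_le_one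
    have a2 : u * |φ ⬝ᵥ k5_yd c| ≤ 1 * (j * Kφ * K) := mul_le_mul hu1 h2 (abs_nonneg _) zero_le_one
    linarith
  calc |-(φ ⬝ᵥ w) + H * (u ^ 2 * c.1 2 - u * (φ ⬝ᵥ k5_yd c))|
      ≤ |φ ⬝ᵥ w| + H * |u ^ 2 * c.1 2 - u * (φ ⬝ᵥ k5_yd c)| := by
        refine (abs_add_le _ _).trans ?_
        rw [abs_neg, abs_mul, abs_of_pos hH]
    _ ≤ j * Kφ * H + H * (K + j * Kφ * K) := add_le_add h1 (mul_le_mul_of_nonneg_left h4 hH.le)
    _ ≤ (1 + 2 * j) * K * (1 + Kφ) * H := by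
        have b1 : 0 ≤ (j : ℝ) * Kφ * H := by positivity
        have b2 : (j : ℝ) * Kφ * H ≤ (j : ℝ) * Kφ * H * K := by nlinarith
        have b3 : 0 ≤ (j : ℝ) * K * H := by positivity
        have b4 : 0 ≤ K * Kφ * H := by positivity
        nlinarith

/-- the tangential signal moves by `≤ K |t - tI|` -/
theorem k5_lo_y_move {c : k5_Co j} {K H t tI : ℝ} (hc : ‖c‖ ≤ K) (htt : |t - tI| ≤ H) (b : Fin j) :
    |k5_y c t b - k5_y c tI b| ≤ K * H := by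
  have h1 := k5_ei_c2 hc 1 b
  have e : k5_y c t b - k5_y c tI b = (t - tI) * c.2 1 b := by unfold k5_y; ring
  rw [e, abs_mul, mul_comm K H]
  exact mul_le_mul htt h1 (abs_nonneg _) ((abs_nonneg _).trans htt)

theorem k5_lo_gidx1 {fs : Fin j → ℝ} {tI H : ℝ} {a : Fin j} {c : k5_Co j} {γ : ℤ × (Fin j → ℤ)}
    (h : k5_gidx fs tI H a c = γ) : k5_bin H (k5_S fs c tI) = γ.1 := by
  rw [← h]; rfl

theorem k5_lo_gidx2 {fs : Fin j → ℝ} {tI H : ℝ} {a : Fin j} {c : k5_Co j} {γ : ℤ × (Fin j → ℤ)}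
    (h : k5_gidx fs tI H a c = γ) {b : Fin j} (hb : b ≠ a) : k5_bin H (k5_y c tI b) = γ.2 b := by
  rw [← h]; simp [k5_gidx, hb]

theorem k5_lo_prod_one (a : Fin j) (x y : ℝ) :
    ∏ b : Fin j, (if b = a then x else y) = x * y ^ (j - 1) := by
  rw [← Finset.mul_prod_erase Finset.univ _ (Finset.mem_univ a)]
  simp only [if_true]
  congr 1
  have hce : (Finset.univ.erase a).card = j - 1 := by
    rw [Finset.card_erase_of_mem (Finset.mem_univ _), Finset.card_univ, Fintype.card_fin]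
  rw [← hce, ← Finset.prod_const]
  refine Finset.prod_congr rfl fun b hb => ?_
  rw [if_neg (Finset.ne_of_mem_erase hb)]

/-- **L-252-S5-L7**  prior mass of one group/slice: `ν {l labelled at ts, index γ} ≤ C K^C H^(d + j - 1)`.
PROOF.  `k5_box_cap` at the time `ts` (`Snd.tm`), `q := H`.   For `l` of index `γ` : `S_l(ts)` lies within `(3 + 5 j) K² H` of `B_l ∈ [γ.1 H, γ.1 H + H]` (`k5_loc_near`, `f = fs`): `α := (7 + 10 j) K² H`;   `y_b(ts)` within `K H` of `Y_b ∈ [γ.2 b H, γ.2 b H + H]` for `b ≠ a` : `β b := (1 + 2 K) H`;   `β a := 4 K` (`‖y‖ ≤ 2 K`).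
`∏ b (β b / H + 1) ≤ (2 + 2 K)^(j-1) (4 K / H + 1) ≤ (4 K)^(j-1) 5 K / H` (`Finset.prod_ite`/`Finset.prod_erase`…; `Fin j` has the element `a`).   `H^(j+d) / H = H^(d + j - 1)`.   ~200 l. -/
theorem k5_loc_prior (j : ℕ) : ∃ C : ℝ, 1 ≤ C ∧ ∀ (Λ : Type) [MeasurableSpace Λ] (ν : Measure Λ) (c : Λ → k5_Co j)
    (E : Set (Λ × ℝ)) (F : ℝ → Fin j → ℝ) (d K ζ H tI ts : ℝ) (a : Fin j) (γ : ℤ × (Fin j → ℤ)), 0 ≤ d → 1 ≤ K →
    k5_Snd j d K ζ ν c E F → 0 < H → H ≤ 1 → ζ ≤ H → |tI| ≤ 1 → 0 ≤ ts → ts < 1 → tI ≤ ts → ts < tI + H →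
    ν.real {l | (l, ts) ∈ E ∧ k5_gidx (F ts) tI H a (c l) = γ} ≤ C * K ^ C * H ^ (d + j - 1) := by
  have j0 : (0 : ℝ) ≤ j := Nat.cast_nonneg j
  have p4 : (1 : ℝ) ≤ 4 ^ (j - 1) := one_le_pow₀ (by norm_num)
  set C0 : ℝ := (8 + 10 * (j : ℝ)) * 5 * 4 ^ (j - 1) * (2 + j) with hC0
  have hC01 : 1 ≤ C0 := by
    have : (1 : ℝ) ≤ (8 + 10 * (j : ℝ)) * 5 := by nlinarith
    have h2 : (1 : ℝ) ≤ (8 + 10 * (j : ℝ)) * 5 * 4 ^ (j - 1) := by nlinarith
    have h3 : (1 : ℝ) ≤ 2 + j := by linarith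
    rw [hC0]; nlinarith
  refine ⟨C0 + j + 4, by linarith, ?_⟩
  intro Λ _ ν c E F d K ζ H tI ts a γ hd hK hS hH hH1 hζ htI hts0 hts1 hle hlt
  have := hS.prob
  have K0 : 0 < K := by linarith
  have hT := hS.tm ts hts0 hts1
  have htt : |ts - tI| ≤ H := by rw [abs_le]; constructor <;> linarith
  set D : ℝ := (3 + 5 * (j : ℝ)) * K ^ 2 * H with hD
  have K2 : 1 ≤ K ^ 2 := by nlinarith
  have hbox := k5_box_cap ν c d K ζ (k5_Dy ζ) ts (F ts) (k5_sec E ts) hK hT H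
    ((7 + 10 * (j : ℝ)) * K ^ 2 * H) (γ.1 * H - D)
    (fun b => if b = a then 4 * K else (1 + 2 * K) * H)
    (fun b => if b = a then -(2 * K) else γ.2 b * H - K * H) hζ hH1 (by positivity)
    (fun b => by split_ifs <;> positivity)
  have hsub : {l | (l, ts) ∈ E ∧ k5_gidx (F ts) tI H a (c l) = γ} ⊆
      {l | l ∈ k5_sec E ts ∧ γ.1 * H - D ≤ k5_S (F ts) (c l) ts ∧
        k5_S (F ts) (c l) ts ≤ γ.1 * H - D + (7 + 10 * (j : ℝ)) * K ^ 2 * H ∧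
        ∀ b, (if b = a then -(2 * K) else γ.2 b * H - K * H) ≤ k5_y (c l) ts b ∧
          k5_y (c l) ts b ≤ (if b = a then -(2 * K) else γ.2 b * H - K * H)
            + (if b = a then 4 * K else (1 + 2 * K) * H)} := by
    rintro l ⟨hl, hg⟩
    have hn := k5_loc_near (c l) K H tI ts (F ts) (F ts) hK (hS.cb l) hH htI hts0 hts1.le htt hT.fb
      (by rw [sub_self, norm_zero]; positivity)
    rw [abs_le] at hn
    have hB := k5_ei_bin_bd hH (k5_lo_gidx1 hg)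
    refine ⟨hl, by linarith [hn.1, hB.1], ?_, fun b => ?_⟩
    · have : H ≤ K ^ 2 * H := by nlinarith
      rw [hD]
      nlinarith [hn.2, hB.2]
    · by_cases hb : b = a
      · simp only [if_pos hb]
        have := k5_ei_y_abs (hS.cb l) hts0 hts1.le b
        rw [abs_le] at this
        constructor <;> linarith [this.1, this.2]
      · simp only [if_neg hb]
        have h1 := k5_lo_y_move (hS.cb l) htt b
        have h2 := k5_ei_bin_bd hH (k5_lo_gidx2 hg hb)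
        rw [abs_le] at h1
        constructor <;> linarith [h1.1, h1.2, h2.1, h2.2]
  refine (measureReal_mono hsub (measure_ne_top _ _)).trans (hbox.trans ?_)
  have j1 : 1 ≤ j := by have := a.2; omega
  have e1 : ∀ b : Fin j, (if b = a then 4 * K else (1 + 2 * K) * H) / H + 1
      = if b = a then 4 * K / H + 1 else (2 + 2 * K) := by
    intro b; split_ifs
    · rfl
    · field_simp; ring
  simp_rw [e1]
  rw [k5_lo_prod_one]
  have f1 : (7 + 10 * (j : ℝ)) * K ^ 2 * H / H + 1 ≤ (8 + 10 * (j : ℝ)) * K ^ 2 := by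
    have : (7 + 10 * (j : ℝ)) * K ^ 2 * H / H = (7 + 10 * (j : ℝ)) * K ^ 2 := by field_simp
    rw [this]; linarith
  have f2 : 4 * K / H + 1 ≤ 5 * K / H := by
    have : 1 ≤ K / H := by rw [le_div_iff₀ hH]; linarith
    have e : 5 * K / H = 4 * K / H + K / H := by ring
    rw [e]; linarith
  have f3 : (2 + 2 * K) ^ (j - 1) ≤ (4 * K) ^ (j - 1) := pow_le_pow_left₀ (by positivity) (by linarith) _
  have f4 : 2 + (j : ℝ) * K ≤ (2 + j) * K := by nlinarith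
  have Hjd : H ^ ((j : ℝ) + d) = H ^ (d + j - 1) * H := by
    rw [Real.rpow_sub_one hH.ne', add_comm d]; field_simp
  have Hp0 : 0 < H ^ (d + j - 1) := Real.rpow_pos_of_pos hH _
  have KC : K ^ (j + 4) ≤ K ^ (C0 + j + 4) := by
    rw [← Real.rpow_natCast]
    refine Real.rpow_le_rpow_of_exponent_le hK ?_
    push_cast; linarith
  have KC0 : 0 < K ^ (C0 + j + 4) := Real.rpow_pos_of_pos K0 _
  calc ((7 + 10 * (j : ℝ)) * K ^ 2 * H / H + 1) * ((4 * K / H + 1) * (2 + 2 * K) ^ (j - 1)) * (2 + j * K) * K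
        * H ^ ((j : ℝ) + d)
      ≤ ((8 + 10 * (j : ℝ)) * K ^ 2) * ((5 * K / H) * (4 * K) ^ (j - 1)) * ((2 + j) * K) * K * H ^ ((j : ℝ) + d) := by
        gcongr
    _ = C0 * (K ^ 5 * K ^ (j - 1)) * H ^ (d + j - 1) := by
        rw [Hjd, hC0, mul_pow]; field_simp
    _ = C0 * K ^ (j + 4) * H ^ (d + j - 1) := by
        rw [← pow_add]; congr 3; omega
    _ ≤ (C0 + j + 4) * K ^ (C0 + j + 4) * H ^ (d + j - 1) := by
        gcongr
        linarith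

/-- **L-252-S5-L8**  (5.sliced-cap) at `p = H` :  `ν {l of index γ, labelled at t = tI + H u, v_l ∈ [a₁, a₁ + H], L^a_l(u) ∈ [b₁, b₁ + H]} ≤ C K^C H^(j + 2 d)`.
PROOF.  `k5_box_cap` at the time `t`, `q := H²` (`ζ ≤ H³ ≤ H²`).   `L^a = (S_l(t) - γ.1 H)/H + τ(u)` with `τ(u)` independent of `l`, so `S_l(t)` lies in an interval of length `α := H²`.   `y_b(t)` within `K H` of `Y_b`, which lies in an interval of length `H` (slice for `b ≠ a`, the condition on `v` for `b = a`): `β b := (1 + 2 K) H`.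
`(α/q + 1) ∏ (β b / q + 1) ≤ 2 ((1 + 2 K)/H + 1)^j ≤ 2 (4 K / H)^j`;   `(H²)^(j+d) H^(-j) = H^(j + 2 d)`.   ~200 l. -/
theorem k5_loc_cap (j : ℕ) : ∃ C : ℝ, 1 ≤ C ∧ ∀ (Λ : Type) [MeasurableSpace Λ] (ν : Measure Λ) (c : Λ → k5_Co j)
    (E : Set (Λ × ℝ)) (F : ℝ → Fin j → ℝ) (d K ζ H tI u a₁ b₁ : ℝ) (fs : Fin j → ℝ) (a : Fin j) (γ : ℤ × (Fin j → ℤ)),
    0 ≤ d → 1 ≤ K → k5_Snd j d K ζ ν c E F → 0 < H → H ≤ 1 → ζ ≤ H ^ 3 → |tI| ≤ 1 → 0 ≤ u → u ≤ 1 →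
    ν.real {l | (l, tI + H * u) ∈ E ∧ k5_gidx fs tI H a (c l) = γ ∧ a₁ ≤ k5_y (c l) tI a ∧ k5_y (c l) tI a ≤ a₁ + H ∧
      b₁ ≤ k5_lL F fs tI H a γ (c l) u ∧ k5_lL F fs tI H a γ (c l) u ≤ b₁ + H} ≤ C * K ^ C * H ^ ((j : ℝ) + 2 * d) := by
  have j0 : (0 : ℝ) ≤ j := Nat.cast_nonneg j
  have p4 : (1 : ℝ) ≤ 4 ^ j := one_le_pow₀ (by norm_num)
  set C0 : ℝ := 2 * 4 ^ j * (2 + j) with hC0
  have hC01 : 1 ≤ C0 := by
    have h3 : (1 : ℝ) ≤ 2 + j := by linarith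
    rw [hC0]; nlinarith
  refine ⟨C0 + j + 2, by linarith, ?_⟩
  intro Λ _ ν c E F d K ζ H tI u a₁ b₁ fs a γ hd hK hS hH hH1 hζ htI hu0 hu1
  have := hS.prob
  have K0 : 0 < K := by linarith
  have KC0 : 0 < K ^ (C0 + j + 2) := Real.rpow_pos_of_pos K0 _
  have Hp0 : 0 < H ^ ((j : ℝ) + 2 * d) := Real.rpow_pos_of_pos hH _
  set t : ℝ := tI + H * u with ht
  by_cases hne : ∃ l, (l, t) ∈ E
  swap
  · have hemp : {l | (l, t) ∈ E ∧ k5_gidx fs tI H a (c l) = γ ∧ a₁ ≤ k5_y (c l) tI a ∧ k5_y (c l) tI a ≤ a₁ + H ∧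
        b₁ ≤ k5_lL F fs tI H a γ (c l) u ∧ k5_lL F fs tI H a γ (c l) u ≤ b₁ + H} = ∅ := by
      ext l
      simp only [Set.mem_ofPred_eq, mem_empty_iff_false, iff_false]
      exact fun h => hne ⟨l, h.1⟩
    rw [hemp, measureReal_empty]
    positivity
  obtain ⟨l₀, hl₀⟩ := hne
  obtain ⟨ht0, ht1⟩ := hS.tI l₀ t hl₀
  have hT := hS.tm t ht0 ht1
  have htt : |t - tI| ≤ H := by
    have : t - tI = H * u := by rw [ht]; ring
    rw [this, abs_of_nonneg (by positivity)]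
    nlinarith
  have H2 : 0 < H ^ 2 := by positivity
  have hζ2 : ζ ≤ H ^ 2 := hζ.trans (by nlinarith)
  have H21 : H ^ 2 ≤ 1 := by nlinarith
  set τ : ℝ := ∑ b, if b = a then 0 else k5_lphi F fs tI H u b * (γ.2 b * H) with hτ
  have hbox := k5_box_cap ν c d K ζ (k5_Dy ζ) t (F t) (k5_sec E t) hK hT (H ^ 2)
    (H ^ 2) (γ.1 * H + H * (b₁ - τ))
    (fun _ => (1 + 2 * K) * H)
    (fun b => (if b = a then a₁ else γ.2 b * H) - K * H) hζ2 H21 H2.le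
    (fun b => by positivity)
  have hsub : {l | (l, t) ∈ E ∧ k5_gidx fs tI H a (c l) = γ ∧ a₁ ≤ k5_y (c l) tI a ∧ k5_y (c l) tI a ≤ a₁ + H ∧
        b₁ ≤ k5_lL F fs tI H a γ (c l) u ∧ k5_lL F fs tI H a γ (c l) u ≤ b₁ + H} ⊆
      {l | l ∈ k5_sec E t ∧ γ.1 * H + H * (b₁ - τ) ≤ k5_S (F t) (c l) t ∧
        k5_S (F t) (c l) t ≤ γ.1 * H + H * (b₁ - τ) + H ^ 2 ∧
        ∀ b, (if b = a then a₁ else γ.2 b * H) - K * H ≤ k5_y (c l) t b ∧
          k5_y (c l) t b ≤ (if b = a then a₁ else γ.2 b * H) - K * H + (1 + 2 * K) * H} := by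
    rintro l ⟨hl, hg, hv1, hv2, hL1, hL2⟩
    have eL : k5_lL F fs tI H a γ (c l) u = (k5_S (F t) (c l) t - γ.1 * H) / H + τ := rfl
    rw [eL] at hL1 hL2
    have hL1' : b₁ - τ ≤ (k5_S (F t) (c l) t - γ.1 * H) / H := by linarith
    have hL2' : (k5_S (F t) (c l) t - γ.1 * H) / H ≤ b₁ + H - τ := by linarith
    rw [le_div_iff₀ hH] at hL1'
    rw [div_le_iff₀ hH] at hL2'
    refine ⟨hl, by linarith, by nlinarith, fun b => ?_⟩
    have h1 := k5_lo_y_move (hS.cb l) htt b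
    rw [abs_le] at h1
    by_cases hb : b = a
    · subst hb
      simp only [if_true]
      constructor <;> linarith [h1.1, h1.2]
    · simp only [if_neg hb]
      have h2 := k5_ei_bin_bd hH (k5_lo_gidx2 hg hb)
      constructor <;> linarith [h1.1, h1.2, h2.1, h2.2]
  refine (measureReal_mono hsub (measure_ne_top _ _)).trans (hbox.trans ?_)
  rw [Finset.prod_const, Finset.card_univ, Fintype.card_fin]
  have f1 : H ^ 2 / H ^ 2 + 1 = 2 := by rw [div_self H2.ne']; norm_num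
  have f2 : (1 + 2 * K) * H / H ^ 2 + 1 ≤ 4 * K / H := by
    have e : (1 + 2 * K) * H / H ^ 2 = (1 + 2 * K) / H := by field_simp
    have h1 : 1 ≤ 1 / H := by rw [le_div_iff₀ hH]; linarith
    have e2 : 4 * K / H = (1 + 2 * K) / H + (2 * K - 1) * (1 / H) := by ring
    rw [e, e2]
    nlinarith
  have f4 : 2 + (j : ℝ) * K ≤ (2 + j) * K := by nlinarith
  have Hjd : (H ^ 2) ^ ((j : ℝ) + d) = H ^ ((j : ℝ) + 2 * d) * H ^ j := by
    rw [← Real.rpow_natCast H 2, ← Real.rpow_mul hH.le, ← Real.rpow_natCast H j, ← Real.rpow_add hH]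
    congr 1; push_cast; ring
  have KC : K ^ (j + 2) ≤ K ^ (C0 + j + 2) := by
    rw [← Real.rpow_natCast]
    refine Real.rpow_le_rpow_of_exponent_le hK ?_
    push_cast; linarith
  rw [f1]
  calc 2 * ((1 + 2 * K) * H / H ^ 2 + 1) ^ j * (2 + j * K) * K * (H ^ 2) ^ ((j : ℝ) + d)
      ≤ 2 * (4 * K / H) ^ j * ((2 + j) * K) * K * (H ^ 2) ^ ((j : ℝ) + d) := by
        gcongr
    _ = C0 * K ^ (j + 2) * H ^ ((j : ℝ) + 2 * d) := by
        rw [Hjd, hC0, div_pow, mul_pow, pow_add]; field_simp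
    _ ≤ (C0 + j + 2) * K ^ (C0 + j + 2) * H ^ ((j : ℝ) + 2 * d) := by
        gcongr
        linarith

/-- the finite set of occupied group/slice indices -/
theorem k5_lo_indices (j : ℕ) (Λ : Type) [MeasurableSpace Λ] (ν : Measure Λ) (c : Λ → k5_Co j)
    (E : Set (Λ × ℝ)) (F : ℝ → Fin j → ℝ) (d K ζ H tI ts : ℝ) (a : Fin j) (hK : 1 ≤ K)
    (hS : k5_Snd j d K ζ ν c E F) (hH : 0 < H) (hH1 : H ≤ 1) (hζ : ζ ≤ H) (htI : |tI| ≤ 1) (hts0 : 0 ≤ ts)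
    (hts1 : ts < 1) (hle : tI ≤ ts) (hlt : ts < tI + H) :
    ∃ 𝒩 : Finset (ℤ × (Fin j → ℤ)),
      (𝒩.card : ℝ) ≤ ((8 + 4 * (j : ℝ)) * K ^ 2 * (K * (1 / H) ^ d)) * ((9 + 10 * (j : ℝ)) * K ^ 2) * (6 * K / H) ^ (j - 1) ∧
      ∀ l, (l, ts) ∈ E → k5_gidx (F ts) tI H a (c l) ∈ 𝒩 := by
  classical
  have j0 : (0 : ℝ) ≤ j := Nat.cast_nonneg j
  have K0 : 0 < K := by linarith
  have K2 : 1 ≤ K ^ 2 := by nlinarith
  have hT := hS.tm ts hts0 hts1
  have htt : |ts - tI| ≤ H := by rw [abs_le]; constructor <;> linarith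
  set M0 : ℝ := 3 * K + j * K * (2 * K) with hM0
  have M00 : 0 ≤ M0 := by positivity
  set D : ℝ := (3 + 5 * (j : ℝ)) * K ^ 2 * H with hD
  have D0 : 0 ≤ D := by positivity
  choose Z hZ1 hZ2 using fun a' : ℝ => hT.supp H 1 a' hζ hH1 le_rfl
  set N : ℕ := ⌈2 * M0⌉₊ + 1 with hN
  set U : Finset ℤ := (Finset.range N).biUnion fun i => Z (-M0 + (i : ℝ) * 1) with hU
  have hmemU : ∀ l, (l, ts) ∈ E → k5_bin H (k5_S (F ts) (c l) ts) ∈ U := by
    intro l hl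
    have hSa := k5_ei_S_abs K0.le (hS.cb l) hT.fb hts0 hts1.le
    rw [abs_le] at hSa
    obtain ⟨i, hi, hi1, hi2⟩ := k5_ei_cover (q := 1) (lo := -M0) (L := 2 * M0) (x := k5_S (F ts) (c l) ts)
      one_pos hSa.1 (by linarith [hSa.2])
    rw [hU, Finset.mem_biUnion]
    exact ⟨i, hi, hZ2 _ l hl hi1 hi2⟩
  have rd0 : 0 < (1 / H) ^ d := Real.rpow_pos_of_pos (by positivity) d
  have hUc : (U.card : ℝ) ≤ (8 + 4 * (j : ℝ)) * K ^ 2 * (K * (1 / H) ^ d) := by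
    have a1 : U.card ≤ ∑ i ∈ Finset.range N, (Z (-M0 + (i : ℝ) * 1)).card := Finset.card_biUnion_le
    have a2 : (U.card : ℝ) ≤ ∑ i ∈ Finset.range N, ((Z (-M0 + (i : ℝ) * 1)).card : ℝ) := by exact_mod_cast a1
    have a3 : ∑ i ∈ Finset.range N, ((Z (-M0 + (i : ℝ) * 1)).card : ℝ) ≤ (N : ℝ) * (K * (1 / H) ^ d) := by
      have := Finset.sum_le_card_nsmul (Finset.range N) (fun i => ((Z (-M0 + (i : ℝ) * 1)).card : ℝ))
        (K * (1 / H) ^ d) fun i _ => hZ1 _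
      rwa [Finset.card_range, nsmul_eq_mul] at this
    have a4 : (N : ℝ) ≤ (8 + 4 * (j : ℝ)) * K ^ 2 := by
      rw [hN]; push_cast
      have := Nat.ceil_lt_add_one (a := 2 * M0) (by positivity)
      have k2 : K ≤ K ^ 2 := by nlinarith
      rw [hM0] at this ⊢
      nlinarith
    exact a2.trans (a3.trans (mul_le_mul_of_nonneg_right a4 (by positivity)))
  set N1 : Finset ℤ := U.biUnion fun k => Finset.Icc ⌊((k : ℝ) * H - D) / H⌋ ⌊((k : ℝ) * H + H + D) / H⌋ with hN1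
  have hN1c : (N1.card : ℝ) ≤ (U.card : ℝ) * ((9 + 10 * (j : ℝ)) * K ^ 2) := by
    have a1 : (N1.card : ℝ) ≤ ∑ k ∈ U, ((Finset.Icc ⌊((k : ℝ) * H - D) / H⌋ ⌊((k : ℝ) * H + H + D) / H⌋).card : ℝ) := by
      exact_mod_cast Finset.card_biUnion_le
    have a2 := Finset.sum_le_card_nsmul U
      (fun k : ℤ => ((Finset.Icc ⌊((k : ℝ) * H - D) / H⌋ ⌊((k : ℝ) * H + H + D) / H⌋).card : ℝ))
      ((9 + 10 * (j : ℝ)) * K ^ 2) fun k _ => by
        refine (k5_ei_card_Icc hH (by linarith)).trans ?_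
        have e : ((k : ℝ) * H + H + D - ((k : ℝ) * H - D)) / H = 1 + 2 * ((3 + 5 * (j : ℝ)) * K ^ 2) := by
          rw [hD]; field_simp; ring
        rw [e]; nlinarith
    rw [nsmul_eq_mul] at a2
    exact a1.trans a2
  set N2 : Finset (Fin j → ℤ) := Fintype.piFinset fun b =>
    if b = a then {0} else Finset.Icc ⌊(-(2 * K)) / H⌋ ⌊(2 * K) / H⌋ with hN2
  have KH : 1 ≤ K / H := by rw [le_div_iff₀ hH]; linarith
  have hN2c : (N2.card : ℝ) ≤ (6 * K / H) ^ (j - 1) := by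
    rw [hN2, Fintype.card_piFinset]
    push_cast
    rw [← Finset.mul_prod_erase Finset.univ _ (Finset.mem_univ a)]
    simp only [if_true, Finset.card_singleton, Nat.cast_one, one_mul]
    have hce : (Finset.univ.erase a).card = j - 1 := by
      rw [Finset.card_erase_of_mem (Finset.mem_univ _), Finset.card_univ, Fintype.card_fin]
    rw [← hce, ← Finset.prod_const]
    refine Finset.prod_le_prod (fun _ _ => Nat.cast_nonneg _) fun b hb => ?_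
    rw [if_neg (Finset.ne_of_mem_erase hb)]
    refine (k5_ei_card_Icc hH (by linarith)).trans ?_
    have e1 : (2 * K - -(2 * K)) / H = 4 * (K / H) := by ring
    have e2 : 6 * K / H = 6 * (K / H) := by ring
    rw [e1, e2]; linarith
  refine ⟨N1 ×ˢ N2, ?_, fun l hl => ?_⟩
  · rw [Finset.card_product]; push_cast
    have b1 : (N1.card : ℝ) ≤ ((8 + 4 * (j : ℝ)) * K ^ 2 * (K * (1 / H) ^ d)) * ((9 + 10 * (j : ℝ)) * K ^ 2) :=
      hN1c.trans (mul_le_mul_of_nonneg_right hUc (by positivity))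
    exact mul_le_mul b1 hN2c (Nat.cast_nonneg _) (by positivity)
  · rw [Finset.mem_product]
    constructor
    · have hn := k5_loc_near (c l) K H tI ts (F ts) (F ts) hK (hS.cb l) hH htI hts0 hts1.le htt hT.fb
        (by rw [sub_self, norm_zero]; positivity)
      rw [abs_le] at hn
      have hb := k5_ei_bin_bd (s := k5_S (F ts) (c l) ts) hH rfl
      rw [hN1, Finset.mem_biUnion]
      refine ⟨_, hmemU l hl, ?_⟩
      exact k5_ei_bin_Icc hH (by rw [hD]; linarith [hn.1, hn.2, hb.1, hb.2]) (by rw [hD]; linarith [hn.1, hn.2, hb.1, hb.2])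
    · rw [hN2, Fintype.mem_piFinset]
      intro b
      by_cases hb : b = a
      · simp [k5_gidx, hb]
      · rw [if_neg hb]
        have h : |k5_y (c l) tI b| ≤ 2 * K := by
          have h0 := k5_ei_c2 (hS.cb l) 0 b
          have h1 := k5_ei_c2 (hS.cb l) 1 b
          unfold k5_y
          calc |(c l).2 0 b + tI * (c l).2 1 b| ≤ |(c l).2 0 b| + |tI * (c l).2 1 b| := abs_add_le _ _
            _ = |(c l).2 0 b| + |tI| * |(c l).2 1 b| := by rw [abs_mul]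
            _ ≤ K + 1 * K := add_le_add h0 (mul_le_mul htI h1 (abs_nonneg _) zero_le_one)
            _ = 2 * K := by ring
        rw [abs_le] at h
        have e : (k5_gidx (F ts) tI H a (c l)).2 b = k5_bin H (k5_y (c l) tI b) := by
          simp [k5_gidx, hb]
        rw [e]
        exact k5_ei_bin_Icc hH h.1 h.2

/-- **L-252-S5-L9**  a heavy group/slice.   `E₁ := {x ∈ E | x.2 ∈ I ∧ (x.1, ts) ∈ E}`.   The indices occupied by trajectories labelled at `ts` number `≤ N = C K^C H^(-d - (j-1))`, so one of them carries `≥ mass(E₁)/N`.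
PROOF.  Occupied values of `γ.1` : `S_l(ts)` takes `≤ (2 M₀ + 1) K H^(-d)` cells of the mesh `H` (`Snd.tm … supp` with `(q, r) = (H, 1)` on `⌈2 M₀⌉₊` unit intervals, `M₀ = (3 + 2 j) K²`), and `|B_l - S_l(ts)| ≤ (3 + 5 j) K² H` (`k5_loc_near`), so each cell of `S_l(ts)` allows `≤ 2 (3 + 5 j) K² + 2` cells of `B_l`.
Occupied values of `γ.2 b` : `|Y_b| ≤ 2 K` : `≤ 4 K / H + 1` cells (`b ≠ a`), the single value `0` for `b = a`.   This gives a `Finset` `𝒩` of indices with `card ≤ N`.   `k5_mass_sum` over `𝒩` (the sets `{x | k5_gidx … (c x.1) = γ}` are measurable and disjoint) and `Finset.exists_le_of_sum_le`-type pigeonhole.   ~300 l. -/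
theorem k5_loc_group (j : ℕ) : ∃ C : ℝ, 1 ≤ C ∧ ∀ (Λ : Type) [MeasurableSpace Λ] (ν : Measure Λ) (c : Λ → k5_Co j)
    (E : Set (Λ × ℝ)) (F : ℝ → Fin j → ℝ) (d K ζ H tI ts : ℝ) (a : Fin j), 0 ≤ d → 1 ≤ K →
    k5_Snd j d K ζ ν c E F → 0 < H → H ≤ 1 → ζ ≤ H → |tI| ≤ 1 → 0 ≤ ts → ts < 1 → tI ≤ ts → ts < tI + H →
    ∃ γ : ℤ × (Fin j → ℤ), k5_mass ν {x | x ∈ E ∧ x.2 ∈ Ico tI (tI + H) ∧ (x.1, ts) ∈ E} * H ^ (d + j - 1) / (C * K ^ C)
      ≤ k5_mass ν {x | x ∈ E ∧ x.2 ∈ Ico tI (tI + H) ∧ (x.1, ts) ∈ E ∧ k5_gidx (F ts) tI H a (c x.1) = γ} := by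
  have j0 : (0 : ℝ) ≤ j := Nat.cast_nonneg j
  have p6 : (1 : ℝ) ≤ 6 ^ (j - 1) := one_le_pow₀ (by norm_num)
  set C0 : ℝ := (8 + 4 * (j : ℝ)) * (9 + 10 * (j : ℝ)) * 6 ^ (j - 1) with hC0
  have hC01 : 1 ≤ C0 := by
    have : (1 : ℝ) ≤ (8 + 4 * (j : ℝ)) * (9 + 10 * (j : ℝ)) := by nlinarith
    rw [hC0]; nlinarith
  refine ⟨C0 + j + 4, by linarith, ?_⟩
  intro Λ _ ν c E F d K ζ H tI ts a hd hK hS hH hH1 hζ htI hts0 hts1 hle hlt
  have := hS.prob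
  have K0 : 0 < K := by linarith
  have j1 : 1 ≤ j := by have := a.2; omega
  obtain ⟨𝒩, hc𝒩, hm𝒩⟩ := k5_lo_indices j Λ ν c E F d K ζ H tI ts a hK hS hH hH1 hζ htI hts0 hts1 hle hlt
  set E1 : Set (Λ × ℝ) := {x | x ∈ E ∧ x.2 ∈ Ico tI (tI + H) ∧ (x.1, ts) ∈ E} with hE1
  set Eg : ℤ × (Fin j → ℤ) → Set (Λ × ℝ) := fun γ =>
    {x | x ∈ E ∧ x.2 ∈ Ico tI (tI + H) ∧ (x.1, ts) ∈ E ∧ k5_gidx (F ts) tI H a (c x.1) = γ} with hEg
  have KC0 : 0 < K ^ (C0 + j + 4) := Real.rpow_pos_of_pos K0 _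
  have Hp0 : 0 < H ^ (d + j - 1) := Real.rpow_pos_of_pos hH _
  have hcov : E1 = ⋃ γ ∈ 𝒩, Eg γ := by
    ext x
    simp only [hE1, hEg, Set.mem_ofPred_eq, mem_iUnion, exists_prop]
    constructor
    · rintro ⟨h1, h2, h3⟩
      exact ⟨_, hm𝒩 x.1 h3, h1, h2, h3, rfl⟩
    · rintro ⟨γ, _, h1, h2, h3, _⟩
      exact ⟨h1, h2, h3⟩
  have hsum : k5_mass ν E1 ≤ ∑ γ ∈ 𝒩, k5_mass ν (Eg γ) := by
    unfold k5_mass
    rw [hcov]
    exact measureReal_biUnion_finset_le _ _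
  -- the bound of the cardinality
  have hcard : (𝒩.card : ℝ) * H ^ (d + j - 1) ≤ (C0 + j + 4) * K ^ (C0 + j + 4) := by
    have KC : K ^ (j + 4) ≤ K ^ (C0 + j + 4) := by
      rw [← Real.rpow_natCast]
      refine Real.rpow_le_rpow_of_exponent_le hK ?_
      push_cast; linarith
    have e1 : (1 / H) ^ d * (1 / H) ^ (j - 1) * H ^ (d + j - 1) = 1 := by
      rw [← Real.rpow_natCast (1 / H) (j - 1), ← Real.rpow_add (by positivity), one_div, Real.inv_rpow hH.le,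
        Nat.cast_sub j1]
      have : d + ((j : ℝ) - ((1 : ℕ) : ℝ)) = d + j - 1 := by push_cast; ring
      rw [this]
      exact inv_mul_cancel₀ Hp0.ne'
    calc (𝒩.card : ℝ) * H ^ (d + j - 1)
        ≤ (((8 + 4 * (j : ℝ)) * K ^ 2 * (K * (1 / H) ^ d)) * ((9 + 10 * (j : ℝ)) * K ^ 2) * (6 * K / H) ^ (j - 1))
            * H ^ (d + j - 1) := mul_le_mul_of_nonneg_right hc𝒩 Hp0.le
      _ = C0 * (K ^ 5 * K ^ (j - 1)) * ((1 / H) ^ d * (1 / H) ^ (j - 1) * H ^ (d + j - 1)) := by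
          have : (6 * K / H) ^ (j - 1) = 6 ^ (j - 1) * K ^ (j - 1) * (1 / H) ^ (j - 1) := by
            rw [← mul_pow, ← mul_pow]; congr 1; ring
          rw [this, hC0]; ring
      _ = C0 * K ^ (j + 4) := by
          rw [e1, mul_one, ← pow_add]; congr 2; omega
      _ ≤ (C0 + j + 4) * K ^ (C0 + j + 4) := by
          gcongr
          linarith
  by_contra hcon
  push Not at hcon
  have hm0 : 0 ≤ k5_mass ν E1 := k5_mass_nonneg
  rcases Finset.eq_empty_or_nonempty 𝒩 with he | hne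
  · rw [he] at hsum
    simp only [Finset.sum_empty] at hsum
    have hz : k5_mass ν E1 = 0 := le_antisymm hsum hm0
    have := hcon (0, 0)
    rw [hz] at this
    simp only [zero_mul, zero_div] at this
    exact absurd this (not_lt.2 k5_mass_nonneg)
  · have hlt : ∑ γ ∈ 𝒩, k5_mass ν (Eg γ)
        < ∑ _γ ∈ 𝒩, k5_mass ν E1 * H ^ (d + j - 1) / ((C0 + j + 4) * K ^ (C0 + j + 4)) :=
      Finset.sum_lt_sum_of_nonempty hne fun γ _ => hcon γ
    rw [Finset.sum_const, nsmul_eq_mul] at hlt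
    have hden : 0 < (C0 + j + 4) * K ^ (C0 + j + 4) := by positivity
    have : (𝒩.card : ℝ) * (k5_mass ν E1 * H ^ (d + j - 1) / ((C0 + j + 4) * K ^ (C0 + j + 4))) ≤ k5_mass ν E1 := by
      rw [mul_div_assoc', div_le_iff₀ hden]
      calc (𝒩.card : ℝ) * (k5_mass ν E1 * H ^ (d + j - 1)) = k5_mass ν E1 * ((𝒩.card : ℝ) * H ^ (d + j - 1)) := by ring
        _ ≤ k5_mass ν E1 * ((C0 + j + 4) * K ^ (C0 + j + 4)) := mul_le_mul_of_nonneg_left hcard hm0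
    linarith

/-- **a popular time** (Cauchy-Schwarz; used for `u_*`):  some `t₀ ∈ I` has `(ν ⊗ dt){(l,t) ∈ E : t ∈ I, (l,t₀) ∈ E} ≥ mass² / (Kν |I|)`.
**L-252-S5-L10**  PROOF.  `E_I := k5_rt E I`.   `∫_{t₀ ∈ I} k5_mass ν {x ∈ E_I | (x.1, t₀) ∈ E_I} = ∫ |E_l ∩ I|² dν` (`k5_pair_mass`) `≥ (∫ |E_l ∩ I| dν)² / ν(Λ)` (`k5_cs`, `k5_mass_eq_fib`).   If every `t₀ ∈ I` had a value `<` the claimed bound, the integral over `I` (length `H`) would be `< mass²/Kν`.   ~150 l. -/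
theorem k5_popular {Λ : Type} [MeasurableSpace Λ] (ν : Measure Λ) [IsFiniteMeasure ν] (E : Set (Λ × ℝ))
    (hE : MeasurableSet E) (a H Kν : ℝ) (hH : 0 < H) (hν : ν.real univ ≤ Kν) (hKν : 0 < Kν)
    (hpos : 0 < k5_mass ν (k5_rt E (Ico a (a + H)))) :
    ∃ t₀ ∈ Ico a (a + H), (∃ l, (l, t₀) ∈ E) ∧ k5_mass ν (k5_rt E (Ico a (a + H))) ^ 2 / (Kν * H)
      ≤ k5_mass ν {x | x ∈ E ∧ x.2 ∈ Ico a (a + H) ∧ (x.1, t₀) ∈ E} := by
  set I : Set ℝ := Ico a (a + H) with hI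
  set EI : Set (Λ × ℝ) := k5_rt E I with hEI
  set M : ℝ := k5_mass ν EI with hM
  have hIm : MeasurableSet I := measurableSet_Ico
  have hIv : volume.real I = H := by
    rw [hI, measureReal_def, Real.volume_Ico, ENNReal.toReal_ofReal (by linarith)]; ring
  have hIfin : volume I ≠ ⊤ := by rw [hI, Real.volume_Ico]; exact ENNReal.ofReal_ne_top
  have hI0 : volume I ≠ 0 := by
    rw [hI, Real.volume_Ico]
    simp only [ne_eq, ENNReal.ofReal_eq_zero, not_le]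
    linarith
  have hEIm : MeasurableSet EI := k5_meas_rt hE hIm
  have hIn : k5_In EI I := fun l t h => h.2
  set G : ℝ → ℝ := fun t₀ => k5_mass ν {x | x ∈ EI ∧ (x.1, t₀) ∈ EI} with hG
  have hpair : ∫ t₀ in I, G t₀ = ∫ l, volume.real (k5_fib EI l) * volume.real (k5_fib EI l) ∂ν :=
    k5_pair_mass hEIm hEIm hIm hIfin hIn hIn
  have hfibB : ∀ l, volume.real (k5_fib EI l) ≤ H := by
    intro l
    rw [← hIv]
    exact measureReal_mono (fun t ht => hIn l t ht) hIfin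
  have hcs := k5_cs (ν := ν) (fun l => volume.real (k5_fib EI l)) (k5_measurable_fib hEIm) H
    (fun l => measureReal_nonneg) hfibB
  rw [← k5_mass_eq_fib hEIm hIfin hIn] at hcs
  have hQ0 : 0 ≤ ∫ l, volume.real (k5_fib EI l) ^ 2 ∂ν := integral_nonneg fun l => by positivity
  have hint : M ^ 2 / Kν ≤ ∫ t₀ in I, G t₀ := by
    rw [hpair, div_le_iff₀ hKν]
    have e : ∀ l, volume.real (k5_fib EI l) * volume.real (k5_fib EI l) = volume.real (k5_fib EI l) ^ 2 :=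
      fun l => (sq _).symm
    simp_rw [e]
    calc M ^ 2 ≤ ν.real univ * ∫ l, volume.real (k5_fib EI l) ^ 2 ∂ν := hcs
      _ ≤ Kν * ∫ l, volume.real (k5_fib EI l) ^ 2 ∂ν := mul_le_mul_of_nonneg_right hν hQ0
      _ = (∫ l, volume.real (k5_fib EI l) ^ 2 ∂ν) * Kν := mul_comm _ _
  have hMK : 0 < M ^ 2 / Kν := by positivity
  have hGi : IntegrableOn G I volume := by
    by_contra hn
    have : ∫ t₀ in I, G t₀ = 0 := integral_undef hn
    linarith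
  obtain ⟨t₀, ht₀, hav⟩ := exists_setAverage_le hI0 hIfin hGi
  rw [setAverage_eq, hIv, smul_eq_mul] at hav
  have hGt : M ^ 2 / (Kν * H) ≤ G t₀ := by
    refine le_trans ?_ hav
    rw [div_mul_eq_div_div, div_eq_inv_mul (M ^ 2 / Kν) H]
    exact mul_le_mul_of_nonneg_left hint (inv_pos.2 hH).le
  have hset : {x : Λ × ℝ | x ∈ EI ∧ (x.1, t₀) ∈ EI} = {x | x ∈ E ∧ x.2 ∈ I ∧ (x.1, t₀) ∈ E} := by
    ext x
    constructor
    · rintro ⟨h1, h2⟩; exact ⟨h1.1, h1.2, h2.1⟩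
    · rintro ⟨h1, h2, h3⟩; exact ⟨⟨h1, h2⟩, ⟨h3, ht₀⟩⟩
  have hGpos : 0 < G t₀ := lt_of_lt_of_le (by positivity) hGt
  refine ⟨t₀, ht₀, ?_, ?_⟩
  · by_contra hne
    push Not at hne
    have : {x : Λ × ℝ | x ∈ EI ∧ (x.1, t₀) ∈ EI} = ∅ := by
      ext x
      simp only [Set.mem_ofPred_eq, mem_empty_iff_false, iff_false, not_and]
      intro _ h2
      exact hne x.1 h2.1
    have h0 : G t₀ = 0 := by
      simp only [hG, this, k5_mass, measureReal_empty]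
    linarith
  · rw [← hset]; exact hGt

/-! ### helpers of `k5_local_fit` (prefix `k5_lf_`) -/

theorem k5_lf_meas_S {α : Type} [MeasurableSpace α] {f : α → Fin j → ℝ} {c : α → k5_Co j} {t : α → ℝ}
    (hf : Measurable f) (hc : Measurable c) (ht : Measurable t) : Measurable fun x => k5_S (f x) (c x) (t x) := by
  have h1 : ∀ i, Measurable fun x => (c x).1 i := fun i => (measurable_pi_apply i).comp (measurable_fst.comp hc)
  have h2 : ∀ i b, Measurable fun x => (c x).2 i b := fun i b =>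
    (measurable_pi_apply b).comp ((measurable_pi_apply i).comp (measurable_snd.comp hc))
  have h3 : ∀ b, Measurable fun x => f x b := fun b => (measurable_pi_apply b).comp hf
  unfold k5_S k5_x k5_y dotProduct
  exact (((h1 0).add (ht.mul (h1 1))).add ((ht.pow_const 2).mul (h1 2))).sub
    (Finset.measurable_sum _ fun b _ => (h3 b).mul ((h2 0 b).add (ht.mul (h2 1 b))))

theorem k5_lf_meas_R {α : Type} [MeasurableSpace α] {f : α → Fin j → ℝ} {c : α → k5_Co j} {t : α → ℝ}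
    (hf : Measurable f) (hc : Measurable c) (ht : Measurable t) : Measurable fun x => k5_R (f x) (c x) (t x) := by
  have h1 : ∀ i, Measurable fun x => (c x).1 i := fun i => (measurable_pi_apply i).comp (measurable_fst.comp hc)
  have h2 : ∀ i b, Measurable fun x => (c x).2 i b := fun i b =>
    (measurable_pi_apply b).comp ((measurable_pi_apply i).comp (measurable_snd.comp hc))
  have h3 : ∀ b, Measurable fun x => f x b := fun b => (measurable_pi_apply b).comp hf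
  unfold k5_R k5_xD k5_yd dotProduct
  exact ((h1 1).add ((ht.const_mul 2).mul (h1 2))).sub (Finset.measurable_sum _ fun b _ => (h3 b).mul (h2 1 b))

theorem k5_lf_meas_y {α : Type} [MeasurableSpace α] {c : α → k5_Co j} {t : α → ℝ}
    (hc : Measurable c) (ht : Measurable t) (b : Fin j) : Measurable fun x => k5_y (c x) (t x) b := by
  have h2 : ∀ i b, Measurable fun x => (c x).2 i b := fun i b =>
    (measurable_pi_apply b).comp ((measurable_pi_apply i).comp (measurable_snd.comp hc))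
  unfold k5_y
  exact (h2 0 b).add (ht.mul (h2 1 b))

theorem k5_lf_meas_gidx {α : Type} [MeasurableSpace α] {c : α → k5_Co j} (hc : Measurable c) (fs : Fin j → ℝ) (tI H : ℝ) (a : Fin j) :
    Measurable fun x => k5_gidx fs tI H a (c x) := by
  unfold k5_gidx k5_bin
  refine Measurable.prodMk ?_ ?_
  · exact Int.measurable_floor.comp ((k5_lf_meas_S measurable_const hc measurable_const).div_const H)
  · refine measurable_pi_iff.2 fun b => ?_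
    by_cases hb : b = a
    · simp only [hb, if_true]
      exact measurable_const
    · simp only [hb, if_false]
      exact Int.measurable_floor.comp ((k5_lf_meas_y hc measurable_const b).div_const H)

theorem k5_lf_meas_lphi {F : ℝ → Fin j → ℝ} (hF : Measurable F) (fs : Fin j → ℝ) (tI H : ℝ) (b : Fin j) :
    Measurable fun u => k5_lphi F fs tI H u b := by
  have h : Measurable fun u : ℝ => F (tI + H * u) b :=
    (measurable_pi_apply b).comp (hF.comp ((measurable_id.const_mul H).const_add tI))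
  have e : (fun u => k5_lphi F fs tI H u b) = fun u => H⁻¹ * (F (tI + H * u) b - fs b) := by
    funext u
    simp [k5_lphi]
  rw [e]
  exact (h.sub_const _).const_mul _

theorem k5_lf_meas_lL {Λ : Type} [MeasurableSpace Λ] {F : ℝ → Fin j → ℝ} (hF : Measurable F) {c : Λ → k5_Co j} (hc : Measurable c)
    (fs : Fin j → ℝ) (tI H : ℝ) (a : Fin j) (γ : ℤ × (Fin j → ℤ)) :
    Measurable fun x : Λ × ℝ => k5_lL F fs tI H a γ (c x.1) x.2 := by
  have ht : Measurable fun x : Λ × ℝ => tI + H * x.2 := (measurable_snd.const_mul H).const_add tI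
  unfold k5_lL
  refine Measurable.add ?_ ?_
  · exact ((k5_lf_meas_S (hF.comp ht) (hc.comp measurable_fst) ht).sub_const _).div_const _
  · refine Finset.measurable_sum _ fun b _ => ?_
    by_cases hb : b = a
    · simp only [hb, if_true]
      exact measurable_const
    · simp only [hb, if_false]
      exact ((k5_lf_meas_lphi hF fs tI H b).comp measurable_snd).mul_const _

theorem k5_lf_dot (f v : Fin j → ℝ) : |f ⬝ᵥ v| ≤ j * (‖f‖ * ‖v‖) := by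
  unfold dotProduct
  calc |∑ i, f i * v i| ≤ ∑ i, |f i * v i| := Finset.abs_sum_le_sum_abs _ _
    _ ≤ ∑ _i : Fin j, ‖f‖ * ‖v‖ := by
        refine Finset.sum_le_sum fun i _ => ?_
        rw [abs_mul]
        exact mul_le_mul (norm_le_pi_norm f i) (norm_le_pi_norm v i) (abs_nonneg _) (norm_nonneg _)
    _ = j * (‖f‖ * ‖v‖) := by simp

theorem k5_lf_co {c : k5_Co j} {K : ℝ} (hc : ‖c‖ ≤ K) : (∀ i, |c.1 i| ≤ K) ∧ ∀ i b, |c.2 i b| ≤ K := by
  refine ⟨fun i => ?_, fun i b => ?_⟩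
  · exact ((norm_le_pi_norm c.1 i).trans (norm_fst_le c)).trans hc
  · exact (((norm_le_pi_norm (c.2 i) b).trans (norm_le_pi_norm c.2 i)).trans (norm_snd_le c)).trans hc

theorem k5_lf_y_le {c : k5_Co j} {K t : ℝ} (hc : ‖c‖ ≤ K) (ht : |t| ≤ 1) (b : Fin j) : |k5_y c t b| ≤ 2 * K := by
  obtain ⟨-, h2⟩ := k5_lf_co hc
  unfold k5_y
  have hK : 0 ≤ K := (norm_nonneg c).trans hc
  calc |c.2 0 b + t * c.2 1 b| ≤ |c.2 0 b| + |t * c.2 1 b| := abs_add_le _ _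
    _ ≤ K + 1 * K := by
        rw [abs_mul]
        exact add_le_add (h2 0 b) (mul_le_mul ht (h2 1 b) (abs_nonneg _) zero_le_one)
    _ = 2 * K := by ring

theorem k5_lf_R_le {c : k5_Co j} {K t : ℝ} {fs : Fin j → ℝ} (hc : ‖c‖ ≤ K) (hfs : ‖fs‖ ≤ K) (ht : |t| ≤ 1) :
    |k5_R fs c t| ≤ 3 * K + j * K ^ 2 := by
  obtain ⟨h1, h2⟩ := k5_lf_co hc
  have hK : 0 ≤ K := (norm_nonneg c).trans hc
  have hyd : ‖k5_yd c‖ ≤ K := (pi_norm_le_iff_of_nonneg hK).2 fun b => h2 1 b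
  have hd := k5_lf_dot fs (k5_yd c)
  have hd2 : (j : ℝ) * (‖fs‖ * ‖k5_yd c‖) ≤ j * K ^ 2 := by
    rw [sq]
    exact mul_le_mul_of_nonneg_left (mul_le_mul hfs hyd (norm_nonneg _) hK) (Nat.cast_nonneg j)
  have hx : |k5_xD 1 c t| ≤ 3 * K := by
    show |c.1 1 + 2 * t * c.1 2| ≤ 3 * K
    calc |c.1 1 + 2 * t * c.1 2| ≤ |c.1 1| + |2 * t * c.1 2| := abs_add_le _ _
      _ ≤ K + 2 * 1 * K := by
          rw [abs_mul, abs_mul, abs_two]
          exact add_le_add (h1 1) (mul_le_mul (mul_le_mul_of_nonneg_left ht zero_le_two) (h1 2) (abs_nonneg _) (by norm_num))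
      _ = 3 * K := by ring
  unfold k5_R
  calc |k5_xD 1 c t - fs ⬝ᵥ k5_yd c| ≤ |k5_xD 1 c t| + |fs ⬝ᵥ k5_yd c| := abs_sub _ _
    _ ≤ 3 * K + j * K ^ 2 := add_le_add hx (hd.trans hd2)

/-- the facts contained in `k5_gidx = γ` -/
theorem k5_lf_gidx {fs : Fin j → ℝ} {tI H : ℝ} {a : Fin j} {c : k5_Co j} {γ : ℤ × (Fin j → ℤ)} (hH : 0 < H)
    (h : k5_gidx fs tI H a c = γ) :
    ((γ.1 : ℝ) * H ≤ k5_S fs c tI ∧ k5_S fs c tI < (γ.1 : ℝ) * H + H) ∧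
      ∀ b, b ≠ a → ((γ.2 b : ℝ) * H ≤ k5_y c tI b ∧ k5_y c tI b < (γ.2 b : ℝ) * H + H) := by
  have key : ∀ (s : ℝ) (n : ℤ), k5_bin H s = n → (n : ℝ) * H ≤ s ∧ s < (n : ℝ) * H + H := by
    intro s n hn
    unfold k5_bin at hn
    rw [Int.floor_eq_iff, le_div_iff₀ hH, div_lt_iff₀ hH] at hn
    exact ⟨hn.1, by linarith [hn.2]⟩
  refine ⟨key _ _ (congrArg Prod.fst h), fun b hb => key _ _ ?_⟩
  have := congrFun (congrArg Prod.snd h) b
  simpa [k5_gidx, hb] using this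

theorem k5_lf_real_smul_restrict {Λ : Type} [MeasurableSpace Λ] {ν : Measure Λ} {𝒢 : Set Λ} (h𝒢 : MeasurableSet 𝒢) (S : Set Λ) (a : ℝ)
    (ha : 0 ≤ a) : (ENNReal.ofReal a • ν.restrict 𝒢).real S = a * ν.real (S ∩ 𝒢) := by
  rw [measureReal_def, Measure.smul_apply, smul_eq_mul, Measure.restrict_apply' h𝒢, ENNReal.toReal_mul,
    ENNReal.toReal_ofReal ha, measureReal_def]

/-- the normalised row is bounded and Lipschitz above the scale `H` -/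
theorem k5_lf_phi {Λ : Type} [MeasurableSpace Λ] {ν : Measure Λ} {c : Λ → k5_Co j} {E : Set (Λ × ℝ)} {F : ℝ → Fin j → ℝ} {d K ζ H tI ts : ℝ}
    (hS : k5_Snd j d K ζ ν c E F) (hK : 1 ≤ K) (hH : 0 < H) (hH1 : H ≤ 1) (hζ : ζ ≤ H ^ 3) (hts : ts ∈ Ico tI (tI + H)) {l1 : Λ}
    (hl1 : (l1, ts) ∈ E) :
    (∀ l u, (l, tI + H * u) ∈ E → 0 ≤ u → u < 1 → ‖k5_lphi F (F ts) tI H u‖ ≤ 2 * K) ∧
      ∀ l u l' u' (a : Fin j), (l, tI + H * u) ∈ E → (l', tI + H * u') ∈ E →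
        |k5_lphi F (F ts) tI H u a - k5_lphi F (F ts) tI H u' a| ≤ K * (|u - u'| + H) := by
  have hK0 : 0 ≤ K := by linarith
  have hHi : 0 < H⁻¹ := inv_pos.2 hH
  have hζ2 : ζ ≤ H * H := by
    have : H ^ 3 ≤ H * H := by
      have : H ^ 3 = H * H * H := by ring
      rw [this]
      exact mul_le_of_le_one_right (mul_nonneg hH.le hH.le) hH1
    linarith
  have hζ1 : ζ ≤ H := hζ2.trans (mul_le_of_le_one_right hH.le hH1)
  constructor
  · intro l u hl hu0 hu1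
    have h1 := hS.rowc l (tI + H * u) l1 ts hl hl1
    have h2 : |tI + H * u - ts| ≤ H := by
      have e1 : 0 ≤ H * u := mul_nonneg hH.le hu0
      have e2 : H * u < H * 1 := mul_lt_mul_of_pos_left hu1 hH
      rw [abs_le]
      constructor <;> linarith [hts.1, hts.2]
    unfold k5_lphi
    rw [norm_smul, Real.norm_of_nonneg hHi.le]
    calc H⁻¹ * ‖F (tI + H * u) - F ts‖ ≤ H⁻¹ * (K * (H + H)) :=
          mul_le_mul_of_nonneg_left (h1.trans (mul_le_mul_of_nonneg_left (add_le_add h2 hζ1) hK0)) hHi.le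
      _ = 2 * K := by field_simp; ring
  · intro l u l' u' a hl hl'
    have h1 := hS.rowc l (tI + H * u) l' (tI + H * u') hl hl'
    have e : k5_lphi F (F ts) tI H u a - k5_lphi F (F ts) tI H u' a = H⁻¹ * ((F (tI + H * u) - F (tI + H * u')) a) := by
      simp only [k5_lphi, Pi.smul_apply, Pi.sub_apply, smul_eq_mul]
      ring
    have h2 : |tI + H * u - (tI + H * u')| = H * |u - u'| := by
      have : tI + H * u - (tI + H * u') = H * (u - u') := by ring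
      rw [this, abs_mul, abs_of_pos hH]
    rw [e, abs_mul, abs_of_pos hHi]
    calc H⁻¹ * |(F (tI + H * u) - F (tI + H * u')) a| ≤ H⁻¹ * (K * (H * |u - u'| + H * H)) := by
          refine mul_le_mul_of_nonneg_left ?_ hHi.le
          refine (norm_le_pi_norm (F (tI + H * u) - F (tI + H * u')) a).trans (h1.trans ?_)
          rw [h2]
          exact mul_le_mul_of_nonneg_left (by linarith) hK0
      _ = K * (|u - u'| + H) := by field_simp

/-- **the data of `k5_FJ` at one scale** (steps 1-4 of the plan of `k5_local_fit`), slack `C₁ K ^ C₀` -/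
theorem k5_lf_scale (j : ℕ) : ∃ C₀ C₁ : ℝ, 1 ≤ C₀ ∧ 1 ≤ C₁ ∧ ∀ d H K ζ : ℝ, 0 ≤ d → 0 < H → H ≤ 1 → 1 ≤ K → ζ ≤ H ^ 3 →
    ∀ (Λ : Type) [MeasurableSpace Λ] (ν : Measure Λ) (c : Λ → k5_Co j) (E : Set (Λ × ℝ)) (F : ℝ → Fin j → ℝ),
    k5_Snd j d K ζ ν c E F → ∀ (tI : ℝ) (a : Fin j), H / K ≤ k5_mass ν (k5_rt E (Ico tI (tI + H))) →
    ∃ (fs : Fin j → ℝ) (νs : Measure Λ) (z v g : Λ → ℝ) (U : Set (Λ × ℝ)) (L : Λ × ℝ → ℝ), IsFiniteMeasure νs ∧
      Measurable z ∧ Measurable v ∧ Measurable g ∧ MeasurableSet U ∧ Measurable (fun u => k5_lphi F fs tI H u a) ∧ Measurable L ∧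
      (∀ l u, (l, u) ∈ U → 0 ≤ u ∧ u ≤ 1 ∧ |z l| ≤ C₁ * K ^ C₀ ∧ |v l| ≤ C₁ * K ^ C₀ ∧ |g l| ≤ C₁ * K ^ C₀ ∧
        |k5_lphi F fs tI H u a| ≤ C₁ * K ^ C₀) ∧
      (∀ l u, (l, u) ∈ U → |L (l, u) - (z l + u * g l - k5_lphi F fs tI H u a * v l)| ≤ C₁ * K ^ C₀ * H) ∧
      (∀ l u l' u', (l, u) ∈ U → (l', u') ∈ U →
        |k5_lphi F fs tI H u a - k5_lphi F fs tI H u' a| ≤ C₁ * K ^ C₀ * (|u - u'| + H)) ∧
      (∀ l u l' u', (l, u) ∈ U → (l', u') ∈ U → |g l - g l'| ≤ C₁ * K ^ C₀ * (|v l - v l'| + H)) ∧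
      νs.real univ ≤ C₁ * K ^ C₀ ∧ 1 / (C₁ * K ^ C₀) ≤ k5_mass νs U ∧
      (∀ u q r a' : ℝ, H ≤ q → q ≤ r → r ≤ 1 → ∃ Z : Finset ℤ, (Z.card : ℝ) ≤ C₁ * K ^ C₀ * (r / q) ^ d ∧
        ∀ l, (l, u) ∈ U → a' ≤ L (l, u) → L (l, u) ≤ a' + r → k5_bin q (L (l, u)) ∈ Z) ∧
      (∀ u a' b : ℝ, νs.real {l | (l, u) ∈ U ∧ a' ≤ v l ∧ v l ≤ a' + H ∧ b ≤ L (l, u) ∧ L (l, u) ≤ b + H}
        ≤ C₁ * K ^ C₀ * H ^ (1 + d)) ∧
      (∀ u, 0 < νs.real (k5_sec U u) → 0 ≤ u ∧ u < 1 ∧ 0 < ν.real (k5_sec E (tI + H * u))) := by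
  obtain ⟨Cf, hCf, hfr⟩ := k5_loc_frozen j
  obtain ⟨Cp, hCp, hpr⟩ := k5_loc_prior j
  obtain ⟨Cc, hCc, hcap⟩ := k5_loc_cap j
  obtain ⟨Cg, hCg, hgr⟩ := k5_loc_group j
  have hj0 : (0 : ℝ) ≤ j := Nat.cast_nonneg j
  refine ⟨3 + Cp + Cg + Cc, 10 + 10 * j + 2 * Cf + Cp + Cg + Cc, by linarith, by linarith, ?_⟩
  intro d H K ζ hd0 hH hH1 hK hζ Λ _ ν c E F hS tI a hmass
  obtain ⟨C₀, hC₀⟩ : ∃ C₀ : ℝ, C₀ = 3 + Cp + Cg + Cc := ⟨_, rfl⟩
  obtain ⟨C₁, hC₁⟩ : ∃ C₁ : ℝ, C₁ = 10 + 10 * j + 2 * Cf + Cp + Cg + Cc := ⟨_, rfl⟩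
  rw [← hC₀, ← hC₁]
  obtain ⟨Kp, hKp⟩ : ∃ Kp : ℝ, Kp = C₁ * K ^ C₀ := ⟨_, rfl⟩
  rw [← hKp]
  have hK0 : 0 < K := by linarith
  have hC₁0 : 0 ≤ C₁ := by rw [hC₁]; linarith
  have hle : ∀ A e : ℝ, A ≤ C₁ → e ≤ C₀ → A * K ^ e ≤ Kp := by
    intro A e hA he
    rw [hKp]
    have h1 : K ^ e ≤ K ^ C₀ := Real.rpow_le_rpow_of_exponent_le hK he
    have h2 : 0 < K ^ e := Real.rpow_pos_of_pos hK0 _
    calc A * K ^ e ≤ C₁ * K ^ e := mul_le_mul_of_nonneg_right hA h2.le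
      _ ≤ C₁ * K ^ C₀ := mul_le_mul_of_nonneg_left h1 hC₁0
  have hle0 : ∀ A : ℝ, A ≤ C₁ → A ≤ Kp := by
    intro A hA
    have := hle A 0 hA (by rw [hC₀]; linarith)
    rwa [Real.rpow_zero, mul_one] at this
  have hle1 : ∀ A : ℝ, A ≤ C₁ → A * K ≤ Kp := by
    intro A hA
    have := hle A 1 hA (by rw [hC₀]; linarith)
    rwa [Real.rpow_one] at this
  have hle2 : ∀ A : ℝ, A ≤ C₁ → A * K ^ 2 ≤ Kp := by
    intro A hA
    have := hle A 2 hA (by rw [hC₀]; linarith)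
    rwa [Real.rpow_two] at this
  have hle3 : ∀ A : ℝ, A ≤ C₁ → A * K ^ 3 ≤ Kp := by
    intro A hA
    have := hle A 3 hA (by rw [hC₀]; linarith)
    rwa [show (3 : ℝ) = ((3 : ℕ) : ℝ) by norm_num, Real.rpow_natCast] at this
  have hKp0 : 0 < Kp := lt_of_lt_of_le one_pos (hle0 1 (by rw [hC₁]; linarith))
  have := hS.prob
  have hζ2 : ζ ≤ H * H := by
    have : H ^ 3 ≤ H * H := by
      have : H ^ 3 = H * H * H := by ring
      rw [this]
      exact mul_le_of_le_one_right (mul_nonneg hH.le hH.le) hH1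
    linarith
  have hζH : ζ ≤ H := hζ2.trans (mul_le_of_le_one_right hH.le hH1)
  have hmpos : 0 < k5_mass ν (k5_rt E (Ico tI (tI + H))) := lt_of_lt_of_le (div_pos hH hK0) hmass
  have hne : (k5_rt E (Ico tI (tI + H))).Nonempty := by
    by_contra hne
    rw [Set.not_nonempty_iff_eq_empty] at hne
    rw [hne] at hmpos
    simp [k5_mass] at hmpos
  obtain ⟨⟨l0, t0⟩, hl0, ht0⟩ := hne
  have ht0' := hS.tI l0 t0 hl0
  have ht0a : tI ≤ t0 := ht0.1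
  have ht0b : t0 < tI + H := ht0.2
  have htI : |tI| ≤ 1 := by
    rw [abs_le]
    constructor <;> linarith [ht0'.1, ht0'.2]
  obtain ⟨ts, hts, ⟨l1, hl1⟩, hpop⟩ := k5_popular ν E hS.mE tI H 1 hH (le_of_eq probReal_univ) one_pos hmpos
  have hts01 := hS.tI l1 ts hl1
  obtain ⟨γ, hγ⟩ := hgr Λ ν c E F d K ζ H tI ts a hd0 hK hS hH hH1 hζH htI hts01.1 hts01.2 hts.1 hts.2
  obtain ⟨hφ1, hφ2⟩ := k5_lf_phi hS hK hH hH1 hζ hts hl1
  have hfs : ‖F ts‖ ≤ K := (hS.tm ts hts01.1 hts01.2).fb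
  obtain ⟨𝒢, h𝒢⟩ : ∃ 𝒢 : Set Λ, 𝒢 = {l | (l, ts) ∈ E ∧ k5_gidx (F ts) tI H a (c l) = γ} := ⟨_, rfl⟩
  have h𝒢m : MeasurableSet 𝒢 := by
    rw [h𝒢]
    exact (k5_meas_sec hS.mE ts).inter ((k5_lf_meas_gidx hS.mc (F ts) tI H a) (measurableSet_singleton γ))
  obtain ⟨w, hw⟩ : ∃ w : ℝ, w = H ^ (-(d + j - 1)) := ⟨_, rfl⟩
  have hw0 : 0 < w := by rw [hw]; exact Real.rpow_pos_of_pos hH _
  have hwH : w * H ^ (d + j - 1) = 1 := by
    rw [hw, ← Real.rpow_add hH]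
    simp
  obtain ⟨U, hU⟩ : ∃ U : Set (Λ × ℝ), U = {x | (x.1, tI + H * x.2) ∈ E ∧ 0 ≤ x.2 ∧ x.2 < 1 ∧ x.1 ∈ 𝒢} := ⟨_, rfl⟩
  have hUm : ∀ l u, (l, u) ∈ U → (l, tI + H * u) ∈ E ∧ 0 ≤ u ∧ u < 1 ∧ (l, ts) ∈ E ∧ k5_gidx (F ts) tI H a (c l) = γ := by
    intro l u h
    rw [hU, h𝒢] at h
    exact h
  have hmt : Measurable fun x : Λ × ℝ => (x.1, tI + H * x.2) :=
    measurable_fst.prodMk ((measurable_snd.const_mul H).const_add tI)
  have hUmeas : MeasurableSet U := by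
    rw [hU]
    exact (hmt hS.mE).inter ((measurableSet_le measurable_const measurable_snd).inter
      ((measurableSet_lt measurable_snd measurable_const).inter (measurable_fst h𝒢m)))
  refine ⟨F ts, ENNReal.ofReal w • ν.restrict 𝒢, fun l => (k5_S (F ts) (c l) tI - γ.1 * H) / H, fun l => k5_y (c l) tI a,
    fun l => k5_R (F ts) (c l) tI, U, fun x => k5_lL F (F ts) tI H a γ (c x.1) x.2,
    Measure.smul_finite _ ENNReal.ofReal_ne_top,
    ((k5_lf_meas_S measurable_const hS.mc measurable_const).sub_const _).div_const _,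
    k5_lf_meas_y hS.mc measurable_const a, k5_lf_meas_R measurable_const hS.mc measurable_const, hUmeas,
    k5_lf_meas_lphi hS.mF _ _ _ _, k5_lf_meas_lL hS.mF hS.mc _ _ _ _ _, ?_, ?_, ?_, ?_, ?_, ?_, ?_, ?_, ?_⟩
  · -- bounds
    intro l u hlu
    obtain ⟨h1, h2, h3, h4, h5⟩ := hUm l u hlu
    obtain ⟨⟨g1, g2⟩, -⟩ := k5_lf_gidx hH h5
    refine ⟨h2, h3.le, ?_, ?_, ?_, ?_⟩
    · have e1 : 0 ≤ (k5_S (F ts) (c l) tI - γ.1 * H) / H := div_nonneg (by linarith) hH.le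
      have e2 : (k5_S (F ts) (c l) tI - γ.1 * H) / H ≤ 1 := by
        rw [div_le_one hH]; linarith
      rw [abs_of_nonneg e1]
      exact e2.trans (hle0 1 (by rw [hC₁]; linarith))
    · exact (k5_lf_y_le (hS.cb l) htI a).trans (hle1 2 (by rw [hC₁]; linarith))
    · refine (k5_lf_R_le (hS.cb l) hfs htI).trans ?_
      have : 3 * K + j * K ^ 2 ≤ (3 + j) * K ^ 2 := by nlinarith
      exact this.trans (hle2 _ (by rw [hC₁]; linarith))
    · exact ((norm_le_pi_norm _ a).trans (hφ1 l u h1 h2 h3)).trans (hle1 2 (by rw [hC₁]; linarith))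
  · -- the model
    intro l u hlu
    obtain ⟨h1, h2, h3, h4, h5⟩ := hUm l u hlu
    refine (k5_loc_model F (F ts) tI H u K (2 * K) a γ (c l) hH hK (hS.cb l) h2 h3.le (hφ1 l u h1 h2 h3) h5).trans ?_
    refine mul_le_mul_of_nonneg_right ?_ hH.le
    have : (1 + 2 * (j : ℝ)) * K * (1 + 2 * K) ≤ (3 + 6 * j) * K ^ 2 := by
      calc (1 + 2 * (j : ℝ)) * K * (1 + 2 * K) ≤ (1 + 2 * (j : ℝ)) * K * (3 * K) :=
            mul_le_mul_of_nonneg_left (by linarith) (by positivity)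
        _ = (3 + 6 * j) * K ^ 2 := by ring
    exact this.trans (hle2 _ (by rw [hC₁]; linarith))
  · -- Lipschitz row
    intro l u l' u' hlu hlu'
    refine (hφ2 l u l' u' a (hUm l u hlu).1 (hUm l' u' hlu').1).trans ?_
    refine mul_le_mul_of_nonneg_right ?_ (by positivity)
    have := hle1 1 (by rw [hC₁]; linarith)
    linarith
  · -- Lipschitz slope
    intro l u l' u' hlu hlu'
    obtain ⟨-, -, -, h4, h5⟩ := hUm l u hlu
    obtain ⟨-, -, -, h4', h5'⟩ := hUm l' u' hlu'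
    obtain ⟨⟨g1, g2⟩, g3⟩ := k5_lf_gidx hH h5
    obtain ⟨⟨g1', g2'⟩, g3'⟩ := k5_lf_gidx hH h5'
    have hBB : |k5_S (F ts) (c l) tI - k5_S (F ts) (c l') tI| ≤ H := by
      rw [abs_le]; constructor <;> linarith
    have h6 := hfr Λ ν c E F d K ζ H tI ts l l' hK hS hH hH1 hζH htI hts.1 hts.2 h4 h4' hBB
    have hY : ‖k5_y (c l) tI - k5_y (c l') tI‖ ≤ |k5_y (c l) tI a - k5_y (c l') tI a| + H := by
      refine (pi_norm_le_iff_of_nonneg (by positivity)).2 fun b => ?_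
      rw [Pi.sub_apply, Real.norm_eq_abs]
      by_cases hb : b = a
      · rw [hb]; linarith
      · have q1 := g3 b hb
        have q2 := g3' b hb
        have : |k5_y (c l) tI b - k5_y (c l') tI b| ≤ H := by
          rw [abs_le]; constructor <;> linarith [q1.1, q1.2, q2.1, q2.2]
        linarith [abs_nonneg (k5_y (c l) tI a - k5_y (c l') tI a)]
    have hCK : 0 ≤ Cf * K ^ 3 := by positivity
    calc |k5_R (F ts) (c l) tI - k5_R (F ts) (c l') tI| ≤ Cf * K ^ 3 * (‖k5_y (c l) tI - k5_y (c l') tI‖ + H) := h6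
      _ ≤ Cf * K ^ 3 * (2 * (|k5_y (c l) tI a - k5_y (c l') tI a| + H)) := by
          refine mul_le_mul_of_nonneg_left ?_ hCK
          linarith [abs_nonneg (k5_y (c l) tI a - k5_y (c l') tI a)]
      _ = (2 * Cf) * K ^ 3 * (|k5_y (c l) tI a - k5_y (c l') tI a| + H) := by ring
      _ ≤ Kp * (|k5_y (c l) tI a - k5_y (c l') tI a| + H) :=
          mul_le_mul_of_nonneg_right (hle3 _ (by rw [hC₁]; linarith)) (by positivity)
  · -- total prior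
    rw [k5_lf_real_smul_restrict h𝒢m _ _ hw0.le, univ_inter, h𝒢]
    have h1 := hpr Λ ν c E F d K ζ H tI ts a γ hd0 hK hS hH hH1 hζH htI hts01.1 hts01.2 hts.1 hts.2
    calc w * ν.real {l | (l, ts) ∈ E ∧ k5_gidx (F ts) tI H a (c l) = γ} ≤ w * (Cp * K ^ Cp * H ^ (d + j - 1)) :=
          mul_le_mul_of_nonneg_left h1 hw0.le
      _ = Cp * K ^ Cp * (w * H ^ (d + j - 1)) := by ring
      _ = Cp * K ^ Cp := by rw [hwH, mul_one]
      _ ≤ Kp := hle _ _ (by rw [hC₁]; linarith) (by rw [hC₀]; linarith)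
  · -- mass
    rw [k5_mass_smul_restrict hUmeas h𝒢m w hw0.le]
    have hE2m : MeasurableSet {x : Λ × ℝ | x ∈ E ∧ x.2 ∈ Ico tI (tI + H) ∧ (x.1, ts) ∈ E ∧ k5_gidx (F ts) tI H a (c x.1) = γ} := by
      have : {x : Λ × ℝ | x ∈ E ∧ x.2 ∈ Ico tI (tI + H) ∧ (x.1, ts) ∈ E ∧ k5_gidx (F ts) tI H a (c x.1) = γ}
          = E ∩ ((Prod.snd ⁻¹' Ico tI (tI + H)) ∩ (Prod.fst ⁻¹' 𝒢)) := by
        rw [h𝒢]; rfl
      rw [this]
      exact hS.mE.inter ((measurable_snd measurableSet_Ico).inter (measurable_fst h𝒢m))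
    have hset : {x : Λ × ℝ | x ∈ U ∧ x.1 ∈ 𝒢}
        = {x | (x.1, tI + H * x.2) ∈ {x : Λ × ℝ | x ∈ E ∧ x.2 ∈ Ico tI (tI + H) ∧ (x.1, ts) ∈ E ∧ k5_gidx (F ts) tI H a (c x.1) = γ}} := by
      ext x
      rw [hU, h𝒢]
      simp only [mem_ofPred_eq, mem_Ico]
      constructor
      · rintro ⟨⟨h1, h2, h3, h4, h5⟩, -⟩
        exact ⟨h1, ⟨by nlinarith, by nlinarith⟩, h4, h5⟩
      · rintro ⟨h1, ⟨h2, h3⟩, h4, h5⟩
        have q1 : 0 ≤ x.2 := by
          by_contra hneg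
          have : H * x.2 < 0 := mul_neg_of_pos_of_neg hH (not_le.1 hneg)
          linarith
        have q2 : x.2 < 1 := by
          by_contra hge
          have : H * 1 ≤ H * x.2 := mul_le_mul_of_nonneg_left (not_lt.1 hge) hH.le
          linarith
        exact ⟨⟨h1, q1, q2, h4, h5⟩, h4, h5⟩
    rw [hset, k5_mass_affine hE2m tI H hH]
    obtain ⟨m2, hm2⟩ : ∃ m2 : ℝ, m2 = k5_mass ν {x : Λ × ℝ | x ∈ E ∧ x.2 ∈ Ico tI (tI + H) ∧ (x.1, ts) ∈ E ∧ k5_gidx (F ts) tI H a (c x.1) = γ} := ⟨_, rfl⟩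
    obtain ⟨m1, hm1⟩ : ∃ m1 : ℝ, m1 = k5_mass ν {x : Λ × ℝ | x ∈ E ∧ x.2 ∈ Ico tI (tI + H) ∧ (x.1, ts) ∈ E} := ⟨_, rfl⟩
    obtain ⟨m0, hm0⟩ : ∃ m0 : ℝ, m0 = k5_mass ν (k5_rt E (Ico tI (tI + H))) := ⟨_, rfl⟩
    rw [← hm2, ← hm1] at hγ
    rw [← hm1, ← hm0] at hpop
    rw [← hm0] at hmass
    rw [← hm2]
    have hKC : 0 < Cg * K ^ Cg := mul_pos (by linarith) (Real.rpow_pos_of_pos hK0 _)
    have p1 : H / K ^ 2 ≤ m1 := by
      refine le_trans ?_ hpop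
      have : (H / K) ^ 2 ≤ m0 ^ 2 := pow_le_pow_left₀ (div_pos hH hK0).le hmass 2
      calc H / K ^ 2 = (H / K) ^ 2 / (1 * H) := by field_simp
        _ ≤ m0 ^ 2 / (1 * H) := div_le_div_of_nonneg_right this (by positivity)
    have hHd : 0 < H ^ (d + j - 1) := Real.rpow_pos_of_pos hH _
    have p2 : H / K ^ 2 * H ^ (d + j - 1) / (Cg * K ^ Cg) ≤ m2 := by
      refine le_trans ?_ hγ
      exact div_le_div_of_nonneg_right (mul_le_mul_of_nonneg_right p1 hHd.le) hKC.le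
    have p3 : Cg * K ^ Cg * K ^ 2 ≤ Kp := by
      have : Cg * K ^ Cg * K ^ 2 = Cg * K ^ (Cg + 2) := by
        rw [Real.rpow_add hK0, Real.rpow_two, mul_assoc]
      rw [this]
      exact hle _ _ (by rw [hC₁]; linarith) (by rw [hC₀]; linarith)
    calc 1 / Kp ≤ 1 / (Cg * K ^ Cg * K ^ 2) := one_div_le_one_div_of_le (by positivity) p3
      _ = w * ((H / K ^ 2 * H ^ (d + j - 1) / (Cg * K ^ Cg)) / H) := by
          have : w * ((H / K ^ 2 * H ^ (d + j - 1) / (Cg * K ^ Cg)) / H) = (w * H ^ (d + j - 1)) / (Cg * K ^ Cg * K ^ 2) := by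
            field_simp
          rw [this, hwH]
      _ ≤ w * (m2 / H) := mul_le_mul_of_nonneg_left (div_le_div_of_nonneg_right p2 hH.le) hw0.le
  · -- (H2)
    intro u q r a' hq hqr hr
    have hq0 : 0 < q := lt_of_lt_of_le hH hq
    have hrq : 0 ≤ (r / q) ^ d := Real.rpow_nonneg (div_nonneg (hq0.le.trans hqr) hq0.le) _
    by_cases hex : ∃ l, (l, u) ∈ U
    · obtain ⟨l2, hl2⟩ := hex
      have ht01 := hS.tI l2 _ (hUm l2 u hl2).1
      obtain ⟨τ, hτ⟩ : ∃ τ : ℝ, τ = ∑ b, if b = a then 0 else k5_lphi F (F ts) tI H u b * (γ.2 b * H) := ⟨_, rfl⟩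
      obtain ⟨Z, hZ1, hZ2⟩ := k5_supp_affine (k5_sec E (tI + H * u)) (fun l => k5_S (F (tI + H * u)) (c l) (tI + H * u)) K d ζ H
        (γ.1 * H - H * τ) hH (hS.tm _ ht01.1 ht01.2).supp q r a' (hζ2.trans (mul_le_mul_of_nonneg_left hq hH.le)) hqr
        ((mul_le_mul hH1 hr (hq0.le.trans hqr) zero_le_one).trans (by norm_num))
      have hL : ∀ l, k5_lL F (F ts) tI H a γ (c l) u = (k5_S (F (tI + H * u)) (c l) (tI + H * u) - (γ.1 * H - H * τ)) / H := by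
        intro l
        unfold k5_lL
        rw [← hτ]
        field_simp
        ring
      refine ⟨Z, hZ1.trans (mul_le_mul_of_nonneg_right (hle1 2 (by rw [hC₁]; linarith)) hrq), fun l hl h1 h2 => ?_⟩
      simp only [hL] at h1 h2 ⊢
      exact hZ2 l (hUm l u hl).1 h1 h2
    · exact ⟨∅, by simpa using mul_nonneg hKp0.le hrq, fun l hl => absurd ⟨l, hl⟩ hex⟩
  · -- (H3)
    intro u a' b
    rw [k5_lf_real_smul_restrict h𝒢m _ _ hw0.le]
    have hH1d : 0 < H ^ (1 + d) := Real.rpow_pos_of_pos hH _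
    by_cases hu : 0 ≤ u ∧ u ≤ 1
    · have h1 := hcap Λ ν c E F d K ζ H tI u a' b (F ts) a γ hd0 hK hS hH hH1 hζ htI hu.1 hu.2
      have hsub : {l | (l, u) ∈ U ∧ a' ≤ k5_y (c l) tI a ∧ k5_y (c l) tI a ≤ a' + H ∧ b ≤ k5_lL F (F ts) tI H a γ (c l) u ∧
            k5_lL F (F ts) tI H a γ (c l) u ≤ b + H} ∩ 𝒢
          ⊆ {l | (l, tI + H * u) ∈ E ∧ k5_gidx (F ts) tI H a (c l) = γ ∧ a' ≤ k5_y (c l) tI a ∧ k5_y (c l) tI a ≤ a' + H ∧
            b ≤ k5_lL F (F ts) tI H a γ (c l) u ∧ k5_lL F (F ts) tI H a γ (c l) u ≤ b + H} := by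
        rintro l ⟨⟨h1, h2⟩, -⟩
        exact ⟨(hUm l u h1).1, (hUm l u h1).2.2.2.2, h2⟩
      have hexp : w * H ^ ((j : ℝ) + 2 * d) = H ^ (1 + d) := by
        rw [hw, ← Real.rpow_add hH]
        congr 1
        ring
      calc w * ν.real _ ≤ w * (Cc * K ^ Cc * H ^ ((j : ℝ) + 2 * d)) :=
            mul_le_mul_of_nonneg_left ((measureReal_mono hsub).trans h1) hw0.le
        _ = Cc * K ^ Cc * (w * H ^ ((j : ℝ) + 2 * d)) := by ring
        _ = Cc * K ^ Cc * H ^ (1 + d) := by rw [hexp]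
        _ ≤ Kp * H ^ (1 + d) := mul_le_mul_of_nonneg_right (hle _ _ (by rw [hC₁]; linarith) (by rw [hC₀]; linarith)) hH1d.le
    · have hemp : {l | (l, u) ∈ U ∧ a' ≤ k5_y (c l) tI a ∧ k5_y (c l) tI a ≤ a' + H ∧ b ≤ k5_lL F (F ts) tI H a γ (c l) u ∧
            k5_lL F (F ts) tI H a γ (c l) u ≤ b + H} ∩ 𝒢 = ∅ := by
        ext l
        simp only [mem_inter_iff, mem_ofPred_eq, mem_empty_iff_false, iff_false]
        rintro ⟨⟨h1, -⟩, -⟩
        exact hu ⟨(hUm l u h1).2.1, (hUm l u h1).2.2.1.le⟩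
      rw [hemp]
      simpa using mul_nonneg hKp0.le hH1d.le
  · -- activity
    intro u hu
    rw [k5_lf_real_smul_restrict h𝒢m _ _ hw0.le] at hu
    have h1 : 0 < ν.real (k5_sec U u ∩ 𝒢) := by
      by_contra hn
      have : ν.real (k5_sec U u ∩ 𝒢) = 0 := le_antisymm (not_lt.1 hn) measureReal_nonneg
      rw [this, mul_zero] at hu
      exact lt_irrefl _ hu
    have hne2 : (k5_sec U u ∩ 𝒢).Nonempty := by
      by_contra hne2
      rw [Set.not_nonempty_iff_eq_empty] at hne2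
      rw [hne2] at h1
      simp at h1
    obtain ⟨l2, hl2, -⟩ := hne2
    have h2 := hUm l2 u hl2
    refine ⟨h2.2.1, h2.2.2.1, lt_of_lt_of_le h1 (measureReal_mono ?_)⟩
    rintro l ⟨hl, -⟩
    exact (hUm l u hl).1

/-- **L-252-S5-L11**  **the local fit** (05 l.437-634): one block `[tI, tI + H)` of incidence mass `≥ H/K`, one component `a`.
PROOF (assembly).  Given `ε`, take `(η₁, p₀)` from `hFJ (ε/2)`;  `η := η₁ / (2 C₀)` with `C₀` the sum of the exponents below;  `H₀ ≤ min p₀ 1` so small that `C₁ H^(-C₀ η) ≤ H^(-η₁)` and `H^(ε/2) ≤ …`.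
1. labelled times exist in `I`, so `|tI| ≤ 1`.   `k5_popular` (`Kν = 1`): `ts ∈ I` labelled, `mass E₁ ≥ (H/K)²/H = H/K²`.   `fs := F ts`.   2. `k5_loc_group` : `γ`.   `𝒢 := {l | (l, ts) ∈ E ∧ k5_gidx fs tI H a (c l) = γ}` (measurable).
3. DATA for `k5_FJ` at `p := H` : `ν_s := ENNReal.ofReal (H^(-(d + j - 1))) • ν.restrict 𝒢`,  `U := {x | (x.1, tI + H x.2) ∈ E ∧ 0 ≤ x.2 ∧ x.2 < 1 ∧ x.1 ∈ 𝒢}`,  `z l := (k5_S fs (c l) tI - γ.1 H)/H ∈ [0,1]`,  `v l := k5_y (c l) tI a`,  `g l := k5_R fs (c l) tI`,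
`φ u := k5_lphi F fs tI H u a`,  `L x := k5_lL F fs tI H a γ (c x.1) x.2`.   Measurability: compositions of `Snd.mc`, `Snd.mF`, continuous operations.
4. HYPOTHESES with `K' := C₁ K^(C₀)` : bounds (`‖φ(u)‖ ≤ K (H + ζ)/H ≤ 2 K` by `Snd.rowc` between `(l, t)` and `(l, ts)`);  (L) `k5_loc_model`;  (Lip φ) `Snd.rowc`, `ζ/H ≤ H²`;  (Lip g) `k5_loc_frozen` + `‖Y - Y'‖ ≤ max |v - v'| H` inside a slice;
`ν_s univ ≤ K'` : `k5_loc_prior`, `k5_real_smul_restrict`;  mass: `k5_mass_smul_restrict`, `k5_mass_affine` : `mass_{ν_s} U = H^(-(d+j-1)) H⁻¹ mass_ν {…, index γ} ≥ H^(-(d+j)) (H/K²) H^(d+j-1)/(C K^C) = 1/(C K^(C+2))`;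
(H2) `k5_supp_affine` applied to `Snd.tm … supp` at `t = tI + H u` with `b := γ.1 H - H τ(u)`;  (H3) `k5_loc_cap` times `H^(-(d+j-1))` : `H^(j+2d-d-j+1) = H^(1+d)`.
5. CONCLUSION: `c0, c1` with `|φ u - (c0 u + c1)| ≤ H^θ` on a set of `u` of measure `≥ H^(ε/2)`, active for `ν_s`, hence `0 < ν.real (k5_sec E (tI + H u))`.   Back: `F t a = fs a + H φ((t - tI)/H)`; slope `c0`, intercept `fs a + H c1 - c0 tI`; error `H^(1+θ)`; `k5_vol_affine` : measure `≥ H · H^(ε/2)`.   ~450 l. -/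
theorem k5_local_fit (j : ℕ) (d θ ε : ℝ) (hd0 : 0 ≤ d) (hd : d < 1) (hθ : 0 < θ) (hFJ : k5_FJ d θ) (hε : 0 < ε) :
    ∃ η H₀ : ℝ, 0 < η ∧ 0 < H₀ ∧ ∀ H K ζ : ℝ, 0 < H → H < H₀ → 1 ≤ K → K ≤ H ^ (-η) → ζ ≤ H ^ 3 →
      ∀ (Λ : Type) [MeasurableSpace Λ] (ν : Measure Λ) (c : Λ → k5_Co j) (E : Set (Λ × ℝ)) (F : ℝ → Fin j → ℝ),
      k5_Snd j d K ζ ν c E F → ∀ (tI : ℝ) (a : Fin j), H / K ≤ k5_mass ν (k5_rt E (Ico tI (tI + H))) →
      ∃ c0 c1 : ℝ, |c0| ≤ H ^ (-ε) ∧ H ^ (1 + ε) ≤ volume.real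
        {t | t ∈ Ico tI (tI + H) ∧ 0 < ν.real (k5_sec E t) ∧ |F t a - (c0 * t + c1)| ≤ H ^ (1 + θ)} := by
  obtain ⟨η₁, p₀, hη₁, hp₀, hfj⟩ := hFJ ε hε
  obtain ⟨C₀, C₁, hC₀, hC₁, hsc⟩ := k5_lf_scale j
  have hC₀0 : 0 < C₀ := by linarith
  have hC₁0 : 0 < C₁ := by linarith
  refine ⟨η₁ / (2 * C₀), min (min p₀ 1) (C₁ ^ (-(2 / η₁))), by positivity,
    lt_min (lt_min hp₀ one_pos) (Real.rpow_pos_of_pos hC₁0 _), ?_⟩
  intro H K ζ hH hH0 hK hKH hζ Λ _ ν c E F hS tI a hmass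
  have hHp : H < p₀ := lt_of_lt_of_le hH0 ((min_le_left _ _).trans (min_le_left _ _))
  have hH1 : H < 1 := lt_of_lt_of_le hH0 ((min_le_left _ _).trans (min_le_right _ _))
  have hHC : H ≤ C₁ ^ (-(2 / η₁)) := hH0.le.trans (min_le_right _ _)
  obtain ⟨fs, νs, z, v, g, U, L, i1, m1, m2, m3, m4, m5, m6, q1, q2, q3, q4, q5, q6, q7, q8, q9⟩ :=
    hsc d H K ζ hd0 hH hH1.le hK hζ Λ ν c E F hS tI a hmass
  have hK0 : 0 < K := by linarith
  have hKp1 : 1 ≤ C₁ * K ^ C₀ := one_le_mul_of_one_le_of_one_le hC₁ (Real.one_le_rpow hK hC₀0.le)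
  have hKp2 : C₁ * K ^ C₀ ≤ H ^ (-η₁) := by
    have e1 : C₁ ≤ H ^ (-(η₁ / 2)) := by
      have h1 := Real.rpow_le_rpow_of_nonpos hH hHC (by linarith : -(η₁ / 2) ≤ 0)
      rw [← Real.rpow_mul hC₁0.le] at h1
      have e : -(2 / η₁) * -(η₁ / 2) = 1 := by field_simp
      rwa [e, Real.rpow_one] at h1
    have e2 : K ^ C₀ ≤ H ^ (-(η₁ / 2)) := by
      calc K ^ C₀ ≤ (H ^ (-(η₁ / (2 * C₀)))) ^ C₀ := Real.rpow_le_rpow hK0.le hKH hC₀0.le
        _ = H ^ (-(η₁ / 2)) := by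
            rw [← Real.rpow_mul hH.le]
            congr 1
            field_simp
    calc C₁ * K ^ C₀ ≤ H ^ (-(η₁ / 2)) * H ^ (-(η₁ / 2)) :=
          mul_le_mul e1 e2 (Real.rpow_pos_of_pos hK0 _).le (Real.rpow_pos_of_pos hH _).le
      _ = H ^ (-η₁) := by
          rw [← Real.rpow_add hH]
          congr 1
          ring
  obtain ⟨c0, c1, hc0, hvol⟩ := @hfj H (C₁ * K ^ C₀) hH hHp hKp1 hKp2 Λ _ νs i1 z v g U (fun u => k5_lphi F fs tI H u a) L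
    m1 m2 m3 m4 m5 m6 q1 q2 q3 q4 q5 q6 q7 q8
  refine ⟨c0, fs a + H * c1 - c0 * tI, hc0, ?_⟩
  obtain ⟨S, hSdef⟩ : ∃ S : Set ℝ, S = {t | t ∈ Ico tI (tI + H) ∧ 0 < ν.real (k5_sec E t) ∧
      |F t a - (c0 * t + (fs a + H * c1 - c0 * tI))| ≤ H ^ (1 + θ)} := ⟨_, rfl⟩
  rw [← hSdef]
  have hsub : {u | 0 < νs.real (k5_sec U u) ∧ |k5_lphi F fs tI H u a - (c0 * u + c1)| ≤ H ^ θ} ⊆ {u | tI + H * u ∈ S} := by
    rintro u ⟨hu1, hu2⟩
    obtain ⟨r1, r2, r3⟩ := q9 u hu1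
    have s1 : 0 ≤ H * u := mul_nonneg hH.le r1
    have s2 : H * u < H * 1 := mul_lt_mul_of_pos_left r2 hH
    show tI + H * u ∈ S
    rw [hSdef]
    refine ⟨⟨by linarith, by linarith⟩, r3, ?_⟩
    have e : F (tI + H * u) a - (c0 * (tI + H * u) + (fs a + H * c1 - c0 * tI))
        = H * (k5_lphi F fs tI H u a - (c0 * u + c1)) := by
      simp only [k5_lphi, Pi.smul_apply, Pi.sub_apply, smul_eq_mul]
      field_simp
      ring
    rw [e, abs_mul, abs_of_pos hH, Real.rpow_add hH, Real.rpow_one]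
    exact mul_le_mul_of_nonneg_left hu2 hH.le
  have hfin : volume {u | tI + H * u ∈ S} ≠ ⊤ := by
    refine ne_top_of_le_ne_top (measure_Ico_lt_top (a := (0 : ℝ)) (b := 1)).ne (measure_mono ?_)
    intro u hu
    have hu' : tI + H * u ∈ S := hu
    rw [hSdef] at hu'
    obtain ⟨⟨h1, h2⟩, -⟩ := hu'
    constructor
    · by_contra hneg
      have : H * u < 0 := mul_neg_of_pos_of_neg hH (not_le.1 hneg)
      linarith
    · by_contra hge
      have : H * 1 ≤ H * u := mul_le_mul_of_nonneg_left (not_lt.1 hge) hH.le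
      linarith
  have h1 : H ^ ε ≤ volume.real {u | tI + H * u ∈ S} := hvol.trans (measureReal_mono hsub hfin)
  rw [k5_vol_affine S tI H hH, le_div_iff₀ hH] at h1
  rw [Real.rpow_add hH, Real.rpow_one, mul_comm]
  exact h1

end Claimed.Agent.R252
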