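import Claimed.Agent.R252.S5.EntContract

/-!
# Row 252, Sec. 5: ONE PAIR STEP of Proposition 5.6 at fixed times (05 l.911-1013).   CONTRACT      (architect helper55; prefix `k5_`)

PAPER-FREE.   Finite model (`P : FLaw Λ`), two nodes of order `m` at the times `t`, `w` (`k5_Pair`).   Notation: `∇_i := (w - t)⁻¹ • (Ψ i - Φ i)`, `G := Gt ∩ Gw`, `s ≤ P(G)`, `Q = P.cnd A`, `A ⊆ G`.
`𝒥 = k5_obs` = the `q`-bins of `S(w)`, `J_i(t)`, `J_i(w)` (`1 ≤ i ≤ m`).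
Plan:  (D) algebra: `k5_S_expand`, `k5_J_diff`;   (O) `H_Q(𝒥 | S(t)_q) ≤ (2m+1) L + log 4` (`k5_pair_obs`);
(P) `k5_proj_bound`: a row `v` such that `v ⬝ᵥ y(t)` is determined up to `ω` by an observation of small entropy has `‖v‖ ≤ ω Y` (the ONLY use of the projection entropy);
(a) `‖∇_i‖` bounded, (b) `‖∇_i - Φ (i+1)‖ ≲ H^(κ/2)`: `k5_pair_a`, `k5_pair_b`, loop `k5_pair_loop`;   (N) the new jet: `k5_pair_new`;   assembly `k5_node_pair`.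
All constants: `∃ C` depending only on `j, m, cst, κ`; largeness `C (K/s)^C`; smallness hypothesis `C (K/s)^C H^(κ/2) ≤ 1`.
RULE: statements are frozen; prove IN PLACE; helper lemmas (prefix `k5_`) directly above the theorem that needs them; earlier statements may be used as black boxes.
-/

set_option autoImplicit false

namespace Claimed.Agent.R252

open MeasureTheory Set
open Claimed.Agent.R255
open scoped BigOperators

variable {j : ℕ}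

/-- the hypotheses of one pair step -/
structure k5_Pair {Λ : Type} [Fintype Λ] (P : FLaw Λ) (c : Λ → k5_Co j) (d K ζ : ℝ) (Rs : Set ℝ) (t w : ℝ) (m : ℕ)
    (Φ Ψ : ℕ → Fin j → ℝ) (Gt Gw : Set Λ) (ρ cst H κ q : ℝ) : Prop where
  d0 : 0 ≤ d
  K1 : 1 ≤ K
  cb : ∀ l, ‖c l‖ ≤ K
  nt : k5_Node P c d K ζ Rs t m Φ Gt ρ cst
  nw : k5_Node P c d K ζ Rs w m Ψ Gw ρ cst
  H0 : 0 < H
  H1 : H ≤ 1
  gap : H / K ≤ |w - t|
  near : |w - t| ≤ H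
  tay : ‖Ψ 0 - Φ 0 - (w - t) • Φ 1‖ ≤ K * H ^ (1 + κ)
  qR : q ∈ Rs
  ρq : ρ ≤ q
  ζq : ζ ≤ q
  qlo : H ^ (1 + κ / 2) / 2 ≤ q
  qhi : q ≤ H ^ (1 + κ / 2)

/-- the observation `𝒥` -/
noncomputable def k5_obs (m : ℕ) (q t w : ℝ) (Φ Ψ : ℕ → Fin j → ℝ) (c : k5_Co j) : ℤ × (Fin m → ℤ) × (Fin m → ℤ) :=
  (k5_bin q (k5_S (Ψ 0) c w), fun i => k5_bin q (k5_J (i + 1) (Φ (i + 1)) (Φ i) c t),
    fun i => k5_bin q (k5_J (i + 1) (Ψ (i + 1)) (Ψ i) c w))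

/-- `exp (a (1 + log K + log (1/s)))` -/
noncomputable def k5_Y (a K s : ℝ) : ℝ := Real.exp (a * (1 + Real.log K + Real.log (1 / s)))

theorem k5_pair_eqns_cite : True := by
  have := @k5_obs.eq_1
  have := @k5_Y.eq_1
  trivial

/-- **L-252-S5-P0a**  `k5_Y a K s = (e K / s)^a`.   PROOF: `Real.rpow_def_of_pos`, `Real.log_mul`, `Real.log_div`, `Real.log_exp`.   Consequence used everywhere: `k5_Y a K s ≤ 3^a (K/s)^a`. -/
theorem k5_Y_eq (a K s : ℝ) (hK : 0 < K) (hs : 0 < s) : k5_Y a K s = (Real.exp 1 * K / s) ^ a := by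
  unfold k5_Y
  have e1 : Real.log (Real.exp 1 * K / s) = 1 + Real.log K - Real.log s := by
    rw [Real.log_div (by positivity) hs.ne', Real.log_mul (Real.exp_pos 1).ne' hK.ne', Real.log_exp]
  rw [Real.rpow_def_of_pos (by positivity), e1, one_div, Real.log_inv]
  congr 1
  ring

/-- **L-252-S5-P0b**  dot product against the sup norms.   PROOF: `∑ |f b| |v b| ≤ ∑ ‖f‖ ‖v‖` (`norm_le_pi_norm`), `Finset.card_univ`, `Fintype.card_fin`. -/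
theorem k5_dot_le (f v : Fin j → ℝ) : |f ⬝ᵥ v| ≤ (j : ℝ) * ‖f‖ * ‖v‖ := by
  unfold dotProduct
  calc |∑ b, f b * v b| ≤ ∑ b, |f b * v b| := Finset.abs_sum_le_sum_abs _ _
    _ ≤ ∑ _b : Fin j, ‖f‖ * ‖v‖ := Finset.sum_le_sum fun b _ => by
        rw [abs_mul]
        exact mul_le_mul (norm_le_pi_norm f b) (norm_le_pi_norm v b) (abs_nonneg _) (norm_nonneg _)
    _ = j * ‖f‖ * ‖v‖ := by rw [Finset.sum_const, Finset.card_univ, Fintype.card_fin, nsmul_eq_mul, mul_assoc]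

/-- **L-252-S5-P0c**  bounds of the signals for `‖c‖ ≤ K`, `0 ≤ t ≤ 1`.   PROOF: `norm_le_pi_norm`, `Prod` sup norm (`norm_fst_le`, `norm_snd_le`), triangle inequality; cases `i = 0, 1, 2, ≥ 3` for `k5_xD`. -/
theorem k5_sig_le (c : k5_Co j) (K t : ℝ) (hc : ‖c‖ ≤ K) (ht0 : 0 ≤ t) (ht1 : t ≤ 1) :
    (∀ i, |k5_xD i c t| ≤ 3 * K) ∧ ‖k5_y c t‖ ≤ 2 * K ∧ ‖k5_yd c‖ ≤ K := by
  have hK : 0 ≤ K := (norm_nonneg c).trans hc
  have h1 : ∀ i, |c.1 i| ≤ K := fun i => ((norm_le_pi_norm c.1 i).trans (norm_fst_le c)).trans hc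
  have h2 : ∀ i, ‖c.2 i‖ ≤ K := fun i => ((norm_le_pi_norm c.2 i).trans (norm_snd_le c)).trans hc
  have h3 : ∀ i a, |c.2 i a| ≤ K := fun i a => (norm_le_pi_norm (c.2 i) a).trans (h2 i)
  have hmul : ∀ x : ℝ, |x| ≤ K → |t * x| ≤ K := by
    intro x hx
    rw [abs_mul, abs_of_nonneg ht0]
    calc t * |x| ≤ 1 * K := mul_le_mul ht1 hx (abs_nonneg _) zero_le_one
      _ = K := one_mul K
  refine ⟨fun i => ?_, ?_, h2 1⟩
  · match i with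
    | 0 =>
      have e : k5_xD 0 c t = c.1 0 + t * c.1 1 + t * (t * c.1 2) := by
        simp only [k5_xD, k5_x]; ring
      rw [e]
      have a0 := h1 0
      have a1 := hmul _ (h1 1)
      have a2 := hmul _ (hmul _ (h1 2))
      rw [abs_le] at a0 a1 a2 ⊢
      constructor <;> linarith [a0.1, a0.2, a1.1, a1.2, a2.1, a2.2]
    | 1 =>
      have e : k5_xD 1 c t = c.1 1 + 2 * (t * c.1 2) := by
        simp only [k5_xD]; ring
      rw [e]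
      have a1 := h1 1
      have a2 := hmul _ (h1 2)
      rw [abs_le] at a1 a2 ⊢
      constructor <;> linarith [a1.1, a1.2, a2.1, a2.2]
    | 2 =>
      have e : k5_xD 2 c t = 2 * c.1 2 := by
        simp only [k5_xD]
      rw [e]
      have a2 := h1 2
      rw [abs_le] at a2 ⊢
      constructor <;> linarith [a2.1, a2.2]
    | (n + 3) =>
      have e : k5_xD (n + 3) c t = 0 := by
        simp only [k5_xD]
      rw [e, abs_zero]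
      positivity
  · rw [pi_norm_le_iff_of_nonneg (by positivity)]
    intro a
    rw [Real.norm_eq_abs]
    have a0 := h3 0 a
    have a1 := hmul _ (h3 1 a)
    unfold k5_y
    rw [abs_le] at a0 a1 ⊢
    constructor <;> linarith [a0.1, a0.2, a1.1, a1.2]

/-- **L-252-S5-P0d**  a real quantity with oscillation `≤ ω` over the fibres of an observation `O` takes at most `ω / r + 2` bins of the mesh `r` over each fibre.
PROOF.  `NVal`: given `l₀`; if no `l` in the support with `A l`, `O l = O l₀` take `∅`; otherwise fix such an `l₁`, `k₁ := ⌊X l₁ / r⌋`, and take `S := Finset.Icc (k₁ - n) (k₁ + n)`-type window: all `X l` lie in `[X l₁ - ω, X l₁ + ω]`;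
sharper: let the window be the image of the bins; the bins of points of an interval of length `ω'` (here all `X l` lie in an interval of length `ω` : `[inf, sup]`) are `≤ ω / r + 2` consecutive integers.
Simplest: `S := (Finset.univ.filter (fun l => P.p l ≠ 0 ∧ A l ∧ O l = O l₀)).image (fun l => ⌊X l / r⌋)`; its elements lie in `Finset.Icc kmin kmax` with `kmax - kmin ≤ ω / r + 1` (`Int.floor` estimates at the two extremal elements), so `card ≤ kmax - kmin + 1` (`Int.card_Icc`).   ~80 l. -/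
theorem k5_nval_osc {Λ α : Type} [Fintype Λ] (Q : FLaw Λ) (A : Λ → Prop) (O : Λ → α) (X : Λ → ℝ) (ω r : ℝ) (hr : 0 < r)
    (hω : 0 ≤ ω) (h : ∀ l l', A l → A l' → O l = O l' → |X l - X l'| ≤ ω) :
    Q.NVal A (fun l => k5_bin r (X l)) O (ω / r + 2) := by
  classical
  intro l₀
  have hN : 0 ≤ ω / r + 2 := by positivity
  by_cases hne : (Finset.univ.filter fun l => A l ∧ O l = O l₀).Nonempty
  · obtain ⟨l₁, hl₁, hmin⟩ := Finset.exists_min_image _ X hne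
    simp only [Finset.mem_filter, Finset.mem_univ, true_and] at hl₁ hmin
    have hk : ⌊X l₁ / r⌋ ≤ ⌊(X l₁ + ω) / r⌋ := by
      refine Int.floor_le_floor ?_
      gcongr
      linarith
    refine ⟨Finset.Icc ⌊X l₁ / r⌋ ⌊(X l₁ + ω) / r⌋, ?_, fun l _ hA hO => ?_⟩
    · rw [Int.card_Icc]
      have h0 : (0 : ℤ) ≤ ⌊(X l₁ + ω) / r⌋ + 1 - ⌊X l₁ / r⌋ := by omega
      have e : (((⌊(X l₁ + ω) / r⌋ + 1 - ⌊X l₁ / r⌋).toNat : ℕ) : ℝ) = ((⌊(X l₁ + ω) / r⌋ + 1 - ⌊X l₁ / r⌋ : ℤ) : ℝ) := by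
        have := Int.toNat_of_nonneg h0
        exact_mod_cast this
      rw [e]
      push_cast
      have a1 := Int.floor_le ((X l₁ + ω) / r)
      have a2 := Int.lt_floor_add_one (X l₁ / r)
      have a3 : (X l₁ + ω) / r = X l₁ / r + ω / r := add_div _ _ _
      linarith
    · have b1 : X l₁ ≤ X l := hmin l ⟨hA, hO⟩
      have b2 : |X l - X l₁| ≤ ω := h l l₁ hA hl₁.1 (hO.trans hl₁.2.symm)
      have b3 : X l ≤ X l₁ + ω := by have := (abs_le.1 b2).2; linarith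
      rw [Finset.mem_Icc]
      unfold k5_bin
      exact ⟨Int.floor_le_floor (by gcongr), Int.floor_le_floor (by gcongr)⟩
  · refine ⟨∅, by simpa using hN, fun l _ hA hO => ?_⟩
    exact absurd ⟨l, by simp [hA, hO]⟩ hne

/-- **L-252-S5-P0e**  the same as an entropy bound under `P.cnd A`.   PROOF: `ent_entC_le_log_nval` needs `NVal (fun _ => True)`; the support of `P.cnd A` is inside `A` (`ent_cnd_supp`), so `k5_nval_osc` for `Q := P.cnd A` transfers.   ~40 l. -/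
theorem k5_entC_osc {Λ α : Type} [Fintype Λ] (P : FLaw Λ) (A : Λ → Prop) (hA : 0 < P.pr A) (O : Λ → α) (X : Λ → ℝ)
    (ω r : ℝ) (hr : 0 < r) (hω : 0 ≤ ω) (h : ∀ l l', A l → A l' → O l = O l' → |X l - X l'| ≤ ω) :
    (P.cnd A).entC (fun l => k5_bin r (X l)) O ≤ Real.log (ω / r + 2) := by
  refine ent_entC_le_log_nval _ _ _ fun l₀ => ?_
  obtain ⟨S, hS, hS2⟩ := k5_nval_osc (P.cnd A) A O X ω r hr hω h l₀
  exact ⟨S, hS, fun l hl _ hO => hS2 l hl ((ent_cnd_supp P A hA).1 hl).1 hO⟩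

/-- **L-252-S5-P0f**  subadditivity for tuples.   PROOF: induction on `m`; `Fin.consEquiv`/`Fin.cons` : the tuple `(X i)_{i < m+1}` and the pair `(X 0, (X (i+1))_i)` have the same fibres (`ent_entC_congr`), then `ent_entC_pair_le_add`; `Fin.sum_univ_succ`.   `m = 0`: constant observation, `ent_entC_eq_zero` or `ent_entC_le` + `ent_const`.   ~70 l. -/
theorem k5_entC_tuple {Λ α β : Type} [Fintype Λ] (Q : FLaw Λ) (m : ℕ) (X : Fin m → Λ → α) (Y : Λ → β) :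
    Q.entC (fun l i => X i l) Y ≤ ∑ i, Q.entC (X i) Y := by
  induction m with
  | zero =>
    rw [ent_entC_eq_zero Q _ Y fun ω ω' _ _ _ => funext fun i => i.elim0]
    simp
  | succ m ih =>
    have h1 : Q.entC (fun l i => X i l) Y ≤ Q.entC (FLaw.pair (X 0) (fun l (i : Fin m) => X i.succ l)) Y := by
      refine ent_entC_mono Q _ _ Y fun ω ω' _ _ hp _ => ?_
      simp only [FLaw.pair, Prod.mk.injEq] at hp
      funext i
      refine Fin.cases hp.1 (fun i => congrFun hp.2 i) i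
    have h2 := ent_entC_pair_le_add Q (X 0) (fun l (i : Fin m) => X i.succ l) Y
    have h3 := ih (fun i => X i.succ)
    rw [Fin.sum_univ_succ]
    linarith

/-- **L-252-S5-P1**  (5.scalar-first-expansion), exact remainder bound.
PROOF.  With `τ = w - t`, `e = Ψ0 - Φ0 - τ • Φ1` : `S(w) - S(t) - τ J_1(t) = τ² c.1 2 - τ² (Φ1 ⬝ᵥ y') - e ⬝ᵥ y(w)` (unfold everything; `y(w) = y(t) + τ y'`; `dotProduct` is bilinear: `Matrix.add_dotProduct`, `Matrix.smul_dotProduct`, `Matrix.dotProduct_add`, ...; or expand as `Finset.sum` and `ring` termwise).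
Bounds: `|τ| ≤ H ≤ 1`, `H² ≤ H^(1+κ)` (`κ ≤ 1`, `Real.rpow_le_rpow_of_exponent_ge`), `k5_dot_le`, `k5_sig_le`.   ~120 l. -/
theorem k5_S_expand (c : k5_Co j) (K t w H κ : ℝ) (f0 f1 g0 : Fin j → ℝ) (hK : 1 ≤ K) (hc : ‖c‖ ≤ K) (hw0 : 0 ≤ w)
    (hw1 : w ≤ 1) (hH0 : 0 < H) (hH1 : H ≤ 1) (hκ : 0 < κ) (hκ1 : κ ≤ 1) (hn : |w - t| ≤ H) (hf1 : ‖f1‖ ≤ K)
    (htay : ‖g0 - f0 - (w - t) • f1‖ ≤ K * H ^ (1 + κ)) :
    |k5_S g0 c w - (k5_S f0 c t + (w - t) * k5_J 1 f1 f0 c t)| ≤ (1 + 3 * j) * K ^ 2 * H ^ (1 + κ) := by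
  have hy : ∀ s, k5_y c s = c.2 0 + s • c.2 1 := fun s => rfl
  have key : k5_S g0 c w - (k5_S f0 c t + (w - t) * k5_J 1 f1 f0 c t)
      = (w - t) ^ 2 * c.1 2 + (-((w - t) ^ 2 * (f1 ⬝ᵥ k5_yd c)) + -((g0 - f0 - (w - t) • f1) ⬝ᵥ k5_y c w)) := by
    unfold k5_S k5_J k5_xD k5_x k5_yd
    simp only [hy, dotProduct_add, dotProduct_smul, sub_dotProduct, smul_dotProduct, smul_eq_mul]
    push_cast
    ring
  rw [key]
  have hK0 : 0 ≤ K := by linarith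
  obtain ⟨-, hyw, hyd⟩ := k5_sig_le c K w hc hw0 hw1
  have hc2 : |c.1 2| ≤ K := ((norm_le_pi_norm c.1 2).trans (norm_fst_le c)).trans hc
  have hτ2 : (w - t) ^ 2 ≤ H ^ (1 + κ) := by
    have h1 : (w - t) ^ 2 ≤ H ^ 2 := by
      rw [← sq_abs (w - t)]
      exact pow_le_pow_left₀ (abs_nonneg _) hn 2
    have h2 : H ^ (2 : ℝ) ≤ H ^ (1 + κ) := Real.rpow_le_rpow_of_exponent_ge hH0 hH1 (by linarith)
    rw [Real.rpow_two] at h2
    exact h1.trans h2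
  have hP : 0 ≤ H ^ (1 + κ) := (Real.rpow_pos_of_pos hH0 _).le
  have hj : (0 : ℝ) ≤ j := Nat.cast_nonneg j
  have hKK : K ≤ K ^ 2 := by nlinarith
  have b1 : |(w - t) ^ 2 * c.1 2| ≤ H ^ (1 + κ) * K := by
    rw [abs_mul, abs_of_nonneg (sq_nonneg _)]
    exact mul_le_mul hτ2 hc2 (abs_nonneg _) hP
  have b2 : |(w - t) ^ 2 * (f1 ⬝ᵥ k5_yd c)| ≤ H ^ (1 + κ) * (j * K * K) := by
    rw [abs_mul, abs_of_nonneg (sq_nonneg _)]
    refine mul_le_mul hτ2 ((k5_dot_le f1 (k5_yd c)).trans ?_) (abs_nonneg _) hP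
    exact mul_le_mul (mul_le_mul_of_nonneg_left hf1 hj) hyd (norm_nonneg _) (by positivity)
  have b3 : |(g0 - f0 - (w - t) • f1) ⬝ᵥ k5_y c w| ≤ j * (K * H ^ (1 + κ)) * (2 * K) := by
    refine (k5_dot_le _ _).trans ?_
    exact mul_le_mul (mul_le_mul_of_nonneg_left htay hj) hyw (norm_nonneg _) (by positivity)
  have t1 := abs_add_le ((w - t) ^ 2 * c.1 2)
    (-((w - t) ^ 2 * (f1 ⬝ᵥ k5_yd c)) + -((g0 - f0 - (w - t) • f1) ⬝ᵥ k5_y c w))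
  have t2 := abs_add_le (-((w - t) ^ 2 * (f1 ⬝ᵥ k5_yd c))) (-((g0 - f0 - (w - t) • f1) ⬝ᵥ k5_y c w))
  rw [abs_neg, abs_neg] at t2
  have b4 : H ^ (1 + κ) * K ≤ H ^ (1 + κ) * K ^ 2 := mul_le_mul_of_nonneg_left hKK hP
  nlinarith

/-- **L-252-S5-P2**  (5.jet-difference), exact identity (multiplied by `w - t`).
PROOF.  Cases `i = 1`, `i = 2`, `i ≥ 3` for `k5_xD` (`x'(w) - x'(t) = (w - t) x''`, `x'' ` constant, higher derivatives `0`); `y(w) = y(t) + (w - t) y'`; bilinearity of `⬝ᵥ`; `ring`.   ~100 l. -/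
theorem k5_J_diff (c : k5_Co j) (t w : ℝ) (i : ℕ) (hi : 1 ≤ i) (fi fi' gi gi' : Fin j → ℝ) :
    k5_J i gi gi' c w - k5_J i fi fi' c t
      = (w - t) * k5_xD (i + 1) c t - (gi - fi) ⬝ᵥ k5_y c t - (w - t) * (gi ⬝ᵥ k5_yd c) - (i : ℝ) * ((gi' - fi') ⬝ᵥ k5_yd c) := by
  have hy : ∀ s, k5_y c s = c.2 0 + s • c.2 1 := fun s => rfl
  have hx : k5_xD i c w - k5_xD i c t = (w - t) * k5_xD (i + 1) c t := by
    match i, hi with
    | 1, _ =>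
      simp only [k5_xD]
      ring
    | 2, _ =>
      simp only [k5_xD]
      ring
    | (n + 3), _ =>
      simp only [k5_xD]
      ring
  have e : k5_xD i c w = k5_xD i c t + (w - t) * k5_xD (i + 1) c t := by linarith
  unfold k5_J k5_yd
  rw [e]
  simp only [hy, dotProduct_add, dotProduct_smul, sub_dotProduct, smul_eq_mul]
  ring

/-- two reals in the same cell of the mesh `q` -/
theorem k5_bin_close {q a b : ℝ} (hq : 0 < q) (h : k5_bin q a = k5_bin q b) : |a - b| ≤ q := by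
  have h1 := Int.abs_sub_lt_one_of_floor_eq_floor h
  have e : a / q - b / q = (a - b) / q := by ring
  rw [e, abs_div, abs_of_pos hq, div_lt_one hq] at h1
  exact h1.le

/-- **L-252-S5-P3**  the entropy of the observation `𝒥`.
PROOF.  `L := cst (1 + log K + log (1/P(A)))`, `Q := P.cnd A`.   `𝒥 = (S(w)_q, (J_i(t)_q)_i, (J_i(w)_q)_i)`.   By `ent_entC_pair_le_add` and `ent_entC_chain`-type inequalities `H(U, V | Z) ≤ H(U | Z) + H(V | U)`-style: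
`H(𝒥 | S(t)_q) ≤ ∑_i H(J_i(t)_q | S(t)_q) + H(S(w)_q | S(t)_q, J_1(t)_q) + ∑_i H(J_i(w)_q | S(w)_q)`  (`k5_entC_tuple`, `ent_entC_anti`).
First and third sums: `her` of the two nodes at the reading `r := q` (`q ∈ Rs`, `ρ ≤ q ≤ 1`), each term `≤ L`.   Middle term `≤ log 6` : `k5_entC_osc` with `O := (S(t)_q, J_1(t)_q)`, `r := q`, `ω := 4 q` : two trajectories with the same `O` have `|S(t) - S(t)'| ≤ q`, `|J_1(t) - J_1(t)'| ≤ q`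
(same cell of the mesh `q`), so by `k5_S_expand` (twice) `|S(w) - S(w)'| ≤ q + |w - t| q + 2 (1+3j) K² H^(1+κ) ≤ 4 q` (`hsm`, `|w - t| ≤ H ≤ 1`).   ~250 l. -/
theorem k5_pair_obs {Λ : Type} [Fintype Λ] (P : FLaw Λ) (c : Λ → k5_Co j) (d K ζ : ℝ) (Rs : Set ℝ) (t w : ℝ) (m : ℕ)
    (Φ Ψ : ℕ → Fin j → ℝ) (Gt Gw : Set Λ) (ρ cst H κ q : ℝ) (hm : 1 ≤ m) (hc : 1 ≤ cst) (hκ : 0 < κ) (hκ1 : κ ≤ 1)
    (hp : k5_Pair P c d K ζ Rs t w m Φ Ψ Gt Gw ρ cst H κ q) (hsm : (1 + 3 * j) * K ^ 2 * H ^ (1 + κ) ≤ q)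
    (A : Λ → Prop) (hA : ∀ l, A l → l ∈ Gt ∧ l ∈ Gw) (hpos : 0 < P.pr A) :
    (P.cnd A).entC (fun l => k5_obs m q t w Φ Ψ (c l)) (fun l => k5_bin q (k5_S (Φ 0) (c l) t))
      ≤ 2 * m * (cst * (1 + Real.log K + Real.log (1 / P.pr A))) + Real.log 6 := by
  have hH0 := hp.H0
  have hH1 := hp.H1
  have hq0 : 0 < q := lt_of_lt_of_le (by have := Real.rpow_pos_of_pos hH0 (1 + κ / 2); linarith) hp.qlo
  have hq1 : q ≤ 1 := hp.qhi.trans (Real.rpow_le_one hH0.le hH1 (by linarith))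
  obtain ⟨L, hL⟩ : ∃ L : ℝ, L = cst * (1 + Real.log K + Real.log (1 / P.pr A)) := ⟨_, rfl⟩
  rw [← hL]
  obtain ⟨Z, hZ⟩ : ∃ Z : Λ → ℤ, Z = fun l => k5_bin q (k5_S (Φ 0) (c l) t) := ⟨_, rfl⟩
  obtain ⟨U, hU⟩ : ∃ U : Λ → ℤ, U = fun l => k5_bin q (k5_S (Ψ 0) (c l) w) := ⟨_, rfl⟩
  obtain ⟨V, hV⟩ : ∃ V : Fin m → Λ → ℤ,
    V = fun (i : Fin m) l => k5_bin q (k5_J (i + 1) (Φ (i + 1)) (Φ i) (c l) t) := ⟨_, rfl⟩
  obtain ⟨W, hW⟩ : ∃ W : Fin m → Λ → ℤ,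
    W = fun (i : Fin m) l => k5_bin q (k5_J (i + 1) (Ψ (i + 1)) (Ψ i) (c l) w) := ⟨_, rfl⟩
  have hobs : (fun l => k5_obs m q t w Φ Ψ (c l)) = fun l => (U l, (fun i => V i l), fun i => W i l) := by
    rw [hU, hV, hW]
    rfl
  rw [hobs, ← hZ]
  -- reordering
  have h0 : (P.cnd A).entC (fun l => (U l, (fun i => V i l), fun i => W i l)) Z
      ≤ (P.cnd A).entC (FLaw.pair (fun l i => V i l) (FLaw.pair U (fun l i => W i l))) Z := by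
    refine ent_entC_mono _ _ _ Z fun ω ω' _ _ hpq _ => ?_
    simp only [FLaw.pair, Prod.mk.injEq] at hpq
    simp only [Prod.mk.injEq]
    exact ⟨hpq.2.1, hpq.1, hpq.2.2⟩
  have c1 := ent_entC_chain (P.cnd A) (fun l i => V i l) (FLaw.pair U (fun l i => W i l)) Z
  have c2 := ent_entC_chain (P.cnd A) U (fun l i => W i l) (FLaw.pair (fun l i => V i l) Z)
  -- the jets at `t`
  have b1 : (P.cnd A).entC (fun l i => V i l) Z ≤ m * L := by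
    refine (k5_entC_tuple (P.cnd A) m V Z).trans ?_
    have h1 : ∀ i ∈ (Finset.univ : Finset (Fin m)), (P.cnd A).entC (V i) Z ≤ L := by
      intro i _
      have h2 := hp.nt.her A (fun l hl => (hA l hl).1) hpos (i + 1) (by omega) (by omega) q hp.qR hp.ρq hq1
      rw [Nat.add_sub_cancel, ← hL] at h2
      rw [hV, hZ]
      exact h2
    have h3 := Finset.sum_le_card_nsmul _ _ _ h1
    rwa [Finset.card_univ, Fintype.card_fin, nsmul_eq_mul] at h3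
  -- the jets at `w`
  have b3 : (P.cnd A).entC (fun l i => W i l) (FLaw.pair U (FLaw.pair (fun l i => V i l) Z)) ≤ m * L := by
    refine (ent_entC_anti (P.cnd A) _ _ U fun ω ω' _ _ h => congrArg Prod.fst h).trans ?_
    refine (k5_entC_tuple (P.cnd A) m W U).trans ?_
    have h1 : ∀ i ∈ (Finset.univ : Finset (Fin m)), (P.cnd A).entC (W i) U ≤ L := by
      intro i _
      have h2 := hp.nw.her A (fun l hl => (hA l hl).2) hpos (i + 1) (by omega) (by omega) q hp.qR hp.ρq hq1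
      rw [Nat.add_sub_cancel, ← hL] at h2
      rw [hW, hU]
      exact h2
    have h3 := Finset.sum_le_card_nsmul _ _ _ h1
    rwa [Finset.card_univ, Fintype.card_fin, nsmul_eq_mul] at h3
  -- the scalar at `w`
  have b2 : (P.cnd A).entC U (FLaw.pair (fun l i => V i l) Z) ≤ Real.log 6 := by
    refine (ent_entC_anti (P.cnd A) U _ (FLaw.pair Z (V ⟨0, hm⟩)) fun ω ω' _ _ h => ?_).trans ?_
    · simp only [FLaw.pair, Prod.mk.injEq] at h ⊢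
      exact ⟨h.2, congrFun h.1 ⟨0, hm⟩⟩
    · have h1 := k5_entC_osc P A hpos (FLaw.pair Z (V ⟨0, hm⟩)) (fun l => k5_S (Ψ 0) (c l) w) (4 * q) q hq0
        (by linarith) (fun l l' _ _ hO => ?_)
      · have e : 4 * q / q + 2 = 6 := by
          field_simp
          norm_num
        rw [e] at h1
        rw [hU]
        exact h1
      · simp only [FLaw.pair, Prod.mk.injEq] at hO
        rw [hZ, hV] at hO
        have a1 := k5_bin_close hq0 hO.1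
        have a2 : |k5_J 1 (Φ 1) (Φ 0) (c l) t - k5_J 1 (Φ 1) (Φ 0) (c l') t| ≤ q := k5_bin_close hq0 hO.2
        have e1 := (k5_S_expand (c l) K t w H κ (Φ 0) (Φ 1) (Ψ 0) hp.K1 (hp.cb l) hp.nw.tm.t0 hp.nw.tm.t1 hH0 hH1 hκ
          hκ1 hp.near (hp.nt.rb 1 hm) hp.tay).trans hsm
        have e2 := (k5_S_expand (c l') K t w H κ (Φ 0) (Φ 1) (Ψ 0) hp.K1 (hp.cb l') hp.nw.tm.t0 hp.nw.tm.t1 hH0 hH1 hκ
          hκ1 hp.near (hp.nt.rb 1 hm) hp.tay).trans hsm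
        have a3 : |(w - t) * (k5_J 1 (Φ 1) (Φ 0) (c l) t - k5_J 1 (Φ 1) (Φ 0) (c l') t)| ≤ q := by
          rw [abs_mul]
          calc |w - t| * |k5_J 1 (Φ 1) (Φ 0) (c l) t - k5_J 1 (Φ 1) (Φ 0) (c l') t| ≤ 1 * q :=
                mul_le_mul (hp.near.trans hH1) a2 (abs_nonneg _) zero_le_one
            _ = q := one_mul q
        rw [abs_le] at a1 a3 e1 e2 ⊢
        constructor <;> nlinarith [a1.1, a1.2, a3.1, a3.2, e1.1, e1.2, e2.1, e2.2]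
  linarith

/-- **L-252-S5-P4**  THE entropy contradiction.   If `v ⬝ᵥ y(t)` has oscillation `≤ ω` over the fibres of an observation `O` with `H_Q(O | S(t)_q) ≤ L₁`, then `‖v‖ ≤ ω Y`, `Y = exp (L₁ + C (1 + log K) + log (1/P(A)))`, provided `2 q Y ≤ 1`.
PROOF.  `C := C_proj + 2` (`k5_ent_proj`).   `v = 0` trivial.   `e := ‖v‖⁻¹ • v`, `‖e‖ = 1`, `β := ω / ‖v‖`.   If `β ≥ 1` then `‖v‖ ≤ ω ≤ ω Y` (`Y ≥ 1`: all three summands are `≥ 0`; `L₁ ≥ 0` by `ent_entC_nonneg`).   Otherwise `r := max β q ∈ [q, 1]`,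
`H((e y)_r | S_q) ≤ H(O | S_q) + H((e y)_r | O) ≤ L₁ + log (β / r + 2) ≤ L₁ + log 3` (`ent_entC_pair_le_add`-type chain + `k5_entC_osc`), and `≥ log (1/r) - C_proj (1 + log K) - log (1/P(A))`.   So `1/r ≤ Y`, i.e. `r ≥ 1/Y > q`; hence `r = β` and `‖v‖ = ω / β ≤ ω Y`.   ~200 l. -/
theorem k5_proj_bound (j : ℕ) : ∃ C : ℝ, 1 ≤ C ∧ ∀ (Λ α : Type) [Fintype Λ] (P : FLaw Λ) (c : Λ → k5_Co j) (d K ζ : ℝ)
    (Rs : Set ℝ) (t : ℝ) (f : Fin j → ℝ) (G : Set Λ), 0 ≤ d → 1 ≤ K → (∀ l, ‖c l‖ ≤ K) →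
    k5_Tm j d K ζ Rs (k5_pm P) c t f G → ∀ A : Λ → Prop, (∀ l, A l → l ∈ G) → 0 < P.pr A →
    ∀ (O : Λ → α) (v : Fin j → ℝ) (q ω L₁ : ℝ), ζ ≤ q → q ≤ 1 → 0 ≤ ω →
    (P.cnd A).entC O (fun l => k5_bin q (k5_S f (c l) t)) ≤ L₁ →
    (∀ l l', A l → A l' → O l = O l' → |v ⬝ᵥ k5_y (c l) t - v ⬝ᵥ k5_y (c l') t| ≤ ω) →
    2 * q * Real.exp (L₁ + C * (1 + Real.log K) + Real.log (1 / P.pr A)) ≤ 1 →
    ‖v‖ ≤ ω * Real.exp (L₁ + C * (1 + Real.log K) + Real.log (1 / P.pr A)) := by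
  obtain ⟨Cp, hCp1, hCp⟩ := k5_ent_proj j
  refine ⟨Cp + 2, by linarith, ?_⟩
  intro Λ α _ P c d K ζ Rs t f G hd hK hc hTm A hAG hA O v q ω L₁ hζq hq1 hω hL₁ hosc hsm
  set Y : ℝ := Real.exp (L₁ + (Cp + 2) * (1 + Real.log K) + Real.log (1 / P.pr A)) with hY
  have hlogK : 0 ≤ Real.log K := Real.log_nonneg hK
  have hlogA : 0 ≤ Real.log (1 / P.pr A) :=
    Real.log_nonneg (by rw [le_div_iff₀ hA]; simpa using ent_pr_le_one P A)
  have hL0 : 0 ≤ L₁ := le_trans (ent_entC_nonneg _ _ _) hL₁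
  have hY1 : 1 ≤ Y := by
    rw [hY]
    apply Real.one_le_exp
    have : 0 ≤ (Cp + 2) * (1 + Real.log K) := by positivity
    linarith
  have hYpos : 0 < Y := lt_of_lt_of_le one_pos hY1
  have hq0 : 0 < q := lt_of_lt_of_le hTm.z0 hζq
  by_cases hv : v = 0
  · rw [hv, norm_zero]; positivity
  have hnv : 0 < ‖v‖ := norm_pos_iff.mpr hv
  set β : ℝ := ω / ‖v‖ with hβ
  have hβ0 : 0 ≤ β := div_nonneg hω hnv.le
  by_cases hβ1 : 1 ≤ β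
  · have h1 : ‖v‖ ≤ ω := by
      rw [hβ, le_div_iff₀ hnv] at hβ1; linarith
    calc ‖v‖ ≤ ω := h1
      _ = ω * 1 := (mul_one _).symm
      _ ≤ ω * Y := mul_le_mul_of_nonneg_left hY1 hω
  push Not at hβ1
  set r : ℝ := max β q with hr
  have hqr : q ≤ r := le_max_right _ _
  have hβr : β ≤ r := le_max_left _ _
  have hr1 : r ≤ 1 := max_le hβ1.le hq1
  have hr0 : 0 < r := lt_of_lt_of_le hq0 hqr
  set e : Fin j → ℝ := ‖v‖⁻¹ • v with he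
  have hen : ‖e‖ = 1 := by
    rw [he, norm_smul, norm_inv, norm_norm, inv_mul_cancel₀ hnv.ne']
  have hlow := hCp Λ P c d K ζ Rs t f G hd hK hc hTm A hAG hA e hen q r hζq hqr hr1
  set Q := P.cnd A with hQ
  set X : Λ → ℤ := fun l => k5_bin r (e ⬝ᵥ k5_y (c l) t) with hX
  set Z : Λ → ℤ := fun l => k5_bin q (k5_S f (c l) t) with hZ
  have h1 : Q.entC X Z ≤ Q.entC (FLaw.pair O X) Z :=
    ent_entC_mono Q (FLaw.pair O X) X Z (fun a b _ _ hab _ => (Prod.ext_iff.mp hab).2)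
  have h2 : Q.entC (FLaw.pair O X) Z = Q.entC O Z + Q.entC X (FLaw.pair O Z) := ent_entC_chain Q O X Z
  have h3 : Q.entC X (FLaw.pair O Z) ≤ Q.entC X O := ent_entC_pair_le Q X O Z
  have h4 : Q.entC X O ≤ Real.log (β / r + 2) := by
    apply k5_entC_osc P A hA O (fun l => e ⬝ᵥ k5_y (c l) t) β r hr0 hβ0
    intro l l' hl hl' hO
    have := hosc l l' hl hl' hO
    rw [he, smul_dotProduct, smul_dotProduct, smul_eq_mul, smul_eq_mul, ← mul_sub, abs_mul,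
      abs_of_pos (inv_pos.mpr hnv), hβ, div_eq_inv_mul]
    exact mul_le_mul_of_nonneg_left this (inv_pos.mpr hnv).le
  have h5 : Real.log (β / r + 2) ≤ 2 := by
    have hb : β / r ≤ 1 := (div_le_one hr0).mpr hβr
    have hb0 : 0 ≤ β / r := div_nonneg hβ0 hr0.le
    have := Real.log_le_sub_one_of_pos (show 0 < β / r + 2 by linarith)
    linarith
  have h6 : Real.log (1 / r) ≤ L₁ + (Cp + 2) * (1 + Real.log K) + Real.log (1 / P.pr A) := by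
    nlinarith
  have h7 : 1 / r ≤ Y := by
    rw [hY, ← Real.exp_log (show 0 < 1 / r by positivity)]
    exact Real.exp_le_exp.mpr h6
  have h8 : q < r := by
    have ha : 1 ≤ r * Y := by rwa [div_le_iff₀' hr0] at h7
    have hb : 2 * q * Y ≤ 1 := hsm
    have hc' : q * Y < r * Y := by nlinarith [mul_pos hq0 hYpos]
    exact lt_of_mul_lt_mul_right hc' hYpos.le
  have h9 : r = β := by
    rcases max_choice β q with h | h
    · exact h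
    · exact absurd (hr.trans h) (ne_of_gt h8)
  have h10 : ‖v‖ = ω * (1 / r) := by
    rw [h9, hβ]
    have hω' : ω ≠ 0 := by
      intro h0
      rw [h9, hβ, h0, zero_div] at hr0
      exact lt_irrefl _ hr0
    field_simp
  rw [h10]
  exact mul_le_mul_of_nonneg_left h7 hω

/-- constants of the form `C B^C` are monotone -/
theorem k5_pa_cst_le {B C₁ a₁ C : ℝ} (hB : 1 ≤ B) (h0 : 0 ≤ C₁) (h1 : C₁ ≤ C) (h2 : a₁ ≤ C) :
    C₁ * B ^ a₁ ≤ C * B ^ C := by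
  have hB0 : 0 < B := lt_of_lt_of_le one_pos hB
  have := Real.rpow_le_rpow_of_exponent_le hB h2
  exact mul_le_mul h1 this (Real.rpow_nonneg hB0.le _) (h0.trans h1)

/-- two reals in the same cell of the mesh `q` -/
theorem k5_pa_bin_close {q a b : ℝ} (hq : 0 < q) (h : k5_bin q a = k5_bin q b) : |a - b| ≤ q := by
  have h1 : |a / q - b / q| < 1 := Int.abs_sub_lt_one_of_floor_eq_floor h
  rw [← sub_div, abs_div, abs_of_pos hq, div_lt_one hq] at h1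
  exact h1.le

/-- the common core of the steps (a), (b): a row whose product with `y(t)` has oscillation `≤ ω` over the fibres of `𝒥` is `≤ C (K/s)^C ω` -/
theorem k5_pair_core (j m : ℕ) (cst κ : ℝ) (hm : 1 ≤ m) (hc : 1 ≤ cst) (hκ : 0 < κ) (hκ1 : κ ≤ 1) :
    ∃ C : ℝ, 1 ≤ C ∧ ∀ (Λ : Type) [Fintype Λ] (P : FLaw Λ) (c : Λ → k5_Co j) (d K ζ : ℝ) (Rs : Set ℝ) (t w : ℝ)
      (Φ Ψ : ℕ → Fin j → ℝ) (Gt Gw : Set Λ) (ρ H q s : ℝ), k5_Pair P c d K ζ Rs t w m Φ Ψ Gt Gw ρ cst H κ q →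
      0 < s → s ≤ P.pr (fun l => l ∈ Gt ∧ l ∈ Gw) → C * (K / s) ^ C * H ^ (κ / 2) ≤ 1 →
      ∀ (v : Fin j → ℝ) (ω : ℝ), 0 ≤ ω →
      (∀ l l', (l ∈ Gt ∧ l ∈ Gw) → (l' ∈ Gt ∧ l' ∈ Gw) → k5_obs m q t w Φ Ψ (c l) = k5_obs m q t w Φ Ψ (c l') →
        |v ⬝ᵥ k5_y (c l) t - v ⬝ᵥ k5_y (c l') t| ≤ ω) →
      ‖v‖ ≤ C * (K / s) ^ C * ω := by
  obtain ⟨Cb, hCb1, hCb⟩ := k5_proj_bound j
  set a : ℝ := 2 * m * cst + Cb + 6 with ha
  have hm0 : (0 : ℝ) ≤ m := Nat.cast_nonneg m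
  have hj0 : (0 : ℝ) ≤ j := Nat.cast_nonneg j
  have ha0 : 0 ≤ a := by rw [ha]; positivity
  have h3a : 1 ≤ (3 : ℝ) ^ a := Real.one_le_rpow (by norm_num) ha0
  set C : ℝ := (2 * (1 + 3 * j) + 2) * 3 ^ a + a + 2 with hC
  have hC_j : 2 * (1 + 3 * (j : ℝ)) ≤ C := by rw [hC]; nlinarith
  have hC_2 : (2 : ℝ) ≤ C := by rw [hC]; nlinarith
  have hC_3 : 2 * (3 : ℝ) ^ a ≤ C := by rw [hC]; nlinarith
  have hC_a : a ≤ C := by rw [hC]; nlinarith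
  refine ⟨C, by linarith, ?_⟩
  intro Λ _ P c d K ζ Rs t w Φ Ψ Gt Gw ρ H q s hp hs hsP hsm v ω hω hosc
  set A : Λ → Prop := fun l => l ∈ Gt ∧ l ∈ Gw with hA
  have hPA : 0 < P.pr A := lt_of_lt_of_le hs hsP
  have hs1 : s ≤ 1 := hsP.trans (ent_pr_le_one P A)
  have hK := hp.K1
  have hK0 : 0 < K := lt_of_lt_of_le one_pos hK
  have hH0 := hp.H0
  have hH1 := hp.H1
  set B : ℝ := K / s with hB
  have hBK : K ≤ B := by rw [hB, le_div_iff₀ hs]; nlinarith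
  have hB1 : 1 ≤ B := hK.trans hBK
  have hB0 : 0 < B := lt_of_lt_of_le one_pos hB1
  set h2 : ℝ := H ^ (κ / 2) with hh2
  have hh20 : 0 < h2 := Real.rpow_pos_of_pos hH0 _
  have hq0 : 0 < q := lt_of_lt_of_le hp.nt.tm.z0 hp.ζq
  have hqh : q ≤ h2 := hp.qhi.trans (Real.rpow_le_rpow_of_exponent_ge hH0 hH1 (by linarith))
  have hq1 : q ≤ 1 := hp.qhi.trans (Real.rpow_le_one hH0.le hH1 (by linarith))
  -- step 1
  have hsm1 : (1 + 3 * (j : ℝ)) * K ^ 2 * H ^ (1 + κ) ≤ q := by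
    have e1 : H ^ (1 + κ) = H ^ (1 + κ / 2) * h2 := by
      rw [hh2, ← Real.rpow_add hH0]; congr 1; ring
    have e2 : K ^ 2 ≤ B ^ (2 : ℝ) := by
      rw [Real.rpow_two]; exact pow_le_pow_left₀ hK0.le hBK 2
    have e3 : 2 * (1 + 3 * (j : ℝ)) * K ^ 2 ≤ C * B ^ C :=
      le_trans (mul_le_mul_of_nonneg_left e2 (by positivity)) (k5_pa_cst_le hB1 (by positivity) hC_j hC_2)
    have e4 : 2 * (1 + 3 * (j : ℝ)) * K ^ 2 * h2 ≤ 1 :=
      le_trans (mul_le_mul_of_nonneg_right e3 hh20.le) hsm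
    have e5 : 0 ≤ H ^ (1 + κ / 2) / 2 := by positivity
    calc (1 + 3 * (j : ℝ)) * K ^ 2 * H ^ (1 + κ)
        = (2 * (1 + 3 * (j : ℝ)) * K ^ 2 * h2) * (H ^ (1 + κ / 2) / 2) := by rw [e1]; ring
      _ ≤ 1 * (H ^ (1 + κ / 2) / 2) := mul_le_mul_of_nonneg_right e4 e5
      _ ≤ q := by rw [one_mul]; exact hp.qlo
  -- step 2
  have hobs := k5_pair_obs P c d K ζ Rs t w m Φ Ψ Gt Gw ρ cst H κ q hm hc hκ hκ1 hp hsm1 A (fun l hl => hl) hPA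
  set L₁ : ℝ := 2 * m * (cst * (1 + Real.log K + Real.log (1 / P.pr A))) + Real.log 6 with hL₁
  set Y : ℝ := Real.exp (L₁ + Cb * (1 + Real.log K) + Real.log (1 / P.pr A)) with hY
  -- step 3
  have hlogK : 0 ≤ Real.log K := Real.log_nonneg hK
  have hlogA : 0 ≤ Real.log (1 / P.pr A) :=
    Real.log_nonneg (by rw [le_div_iff₀ hPA]; simpa using ent_pr_le_one P A)
  have hlogAs : Real.log (1 / P.pr A) ≤ Real.log (1 / s) :=
    Real.log_le_log (by positivity) (one_div_le_one_div_of_le hs hsP)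
  have hlog6 : Real.log 6 ≤ 5 := by
    have := Real.log_le_sub_one_of_pos (show (0 : ℝ) < 6 by norm_num); linarith
  have hYle : Y ≤ 3 ^ a * B ^ a := by
    have e1 : L₁ + Cb * (1 + Real.log K) + Real.log (1 / P.pr A) ≤ a * (1 + Real.log K + Real.log (1 / s)) := by
      set U : ℝ := 1 + Real.log K + Real.log (1 / s) with hU
      have hU1 : 1 ≤ U := by rw [hU]; linarith
      have f1 : 2 * m * (cst * (1 + Real.log K + Real.log (1 / P.pr A))) ≤ 2 * m * cst * U := by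
        have : 1 + Real.log K + Real.log (1 / P.pr A) ≤ U := by rw [hU]; linarith
        have h' : 0 ≤ 2 * (m : ℝ) * cst := by positivity
        calc 2 * m * (cst * (1 + Real.log K + Real.log (1 / P.pr A)))
            = 2 * m * cst * (1 + Real.log K + Real.log (1 / P.pr A)) := by ring
          _ ≤ _ := mul_le_mul_of_nonneg_left this h'
      have f2 : Cb * (1 + Real.log K) ≤ Cb * U :=
        mul_le_mul_of_nonneg_left (by rw [hU]; linarith) (by linarith)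
      have f3 : Real.log (1 / P.pr A) ≤ U := by rw [hU]; linarith
      rw [hL₁, ha]
      nlinarith
    have e2 : Y ≤ k5_Y a K s := by
      rw [hY, k5_Y]; exact Real.exp_le_exp.mpr e1
    rw [k5_Y_eq a K s hK0 hs] at e2
    have e3 : Real.exp 1 * K / s ≤ 3 * B := by
      rw [hB, mul_div_assoc]
      exact mul_le_mul_of_nonneg_right (by have := Real.exp_one_lt_d9; linarith) hB0.le
    calc Y ≤ (Real.exp 1 * K / s) ^ a := e2
      _ ≤ (3 * B) ^ a := Real.rpow_le_rpow (by positivity) e3 ha0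
      _ = 3 ^ a * B ^ a := Real.mul_rpow (by norm_num) hB0.le
  have hY0 : 0 < Y := Real.exp_pos _
  -- step 4
  have hsm2 : 2 * q * Y ≤ 1 := by
    have e1 : 2 * (3 : ℝ) ^ a * B ^ a ≤ C * B ^ C := k5_pa_cst_le hB1 (by positivity) hC_3 hC_a
    calc 2 * q * Y ≤ 2 * h2 * (3 ^ a * B ^ a) := by
          apply mul_le_mul (by linarith) hYle hY0.le (by positivity)
      _ = (2 * (3 : ℝ) ^ a * B ^ a) * h2 := by ring
      _ ≤ C * B ^ C * h2 := mul_le_mul_of_nonneg_right e1 hh20.le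
      _ ≤ 1 := hsm
  have hfin := hCb Λ _ P c d K ζ Rs t (Φ 0) Gt hp.d0 hK hp.cb hp.nt.tm A (fun l hl => hl.1) hPA
    (fun l => k5_obs m q t w Φ Ψ (c l)) v q ω L₁ hp.ζq hq1 hω hobs hosc hsm2
  have e1 : (3 : ℝ) ^ a * B ^ a ≤ C * B ^ C := k5_pa_cst_le hB1 (by positivity) (by linarith) hC_a
  calc ‖v‖ ≤ ω * Y := hfin
    _ ≤ ω * (C * B ^ C) := mul_le_mul_of_nonneg_left (hYle.trans e1) hω
    _ = C * B ^ C * ω := mul_comm _ _


/-- (5.jet-difference) divided by `w - t` -/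
theorem k5_pa_grad_id (c : k5_Co j) (t w : ℝ) (hτ : w - t ≠ 0) (i : ℕ) (hi : 1 ≤ i) (fi fi' gi gi' : Fin j → ℝ) :
    ((w - t)⁻¹ • (gi - fi)) ⬝ᵥ k5_y c t
      = k5_xD (i + 1) c t - gi ⬝ᵥ k5_yd c - (i : ℝ) * (((w - t)⁻¹ • (gi' - fi')) ⬝ᵥ k5_yd c)
        - (w - t)⁻¹ * (k5_J i gi gi' c w - k5_J i fi fi' c t) := by
  rw [k5_J_diff c t w i hi fi fi' gi gi', smul_dotProduct, smul_dotProduct, smul_eq_mul, smul_eq_mul]
  field_simp
  ring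

/-- the bins of the jets are part of the observation -/
theorem k5_pa_obs_bins {m : ℕ} {q t w : ℝ} {Φ Ψ : ℕ → Fin j → ℝ} {c c' : k5_Co j} (hq : 0 < q)
    (h : k5_obs m q t w Φ Ψ c = k5_obs m q t w Φ Ψ c') (i : ℕ) (hi : i < m) :
    |k5_J (i + 1) (Φ (i + 1)) (Φ i) c t - k5_J (i + 1) (Φ (i + 1)) (Φ i) c' t| ≤ q ∧
    |k5_J (i + 1) (Ψ (i + 1)) (Ψ i) c w - k5_J (i + 1) (Ψ (i + 1)) (Ψ i) c' w| ≤ q := by
  unfold k5_obs at h
  have h1 := congrFun (Prod.ext_iff.mp (Prod.ext_iff.mp h).2).1 ⟨i, hi⟩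
  have h2 := congrFun (Prod.ext_iff.mp (Prod.ext_iff.mp h).2).2 ⟨i, hi⟩
  exact ⟨k5_pa_bin_close hq h1, k5_pa_bin_close hq h2⟩

/-- oscillation of a dot product with the velocity -/
theorem k5_pa_dot_osc (f : Fin j → ℝ) (c c' : k5_Co j) (K F : ℝ) (hc : ‖c‖ ≤ K) (hc' : ‖c'‖ ≤ K) (hf : ‖f‖ ≤ F) :
    |f ⬝ᵥ k5_yd c - f ⬝ᵥ k5_yd c'| ≤ 2 * j * F * K := by
  have hK0 : 0 ≤ K := (norm_nonneg _).trans hc
  have hF0 : 0 ≤ F := (norm_nonneg _).trans hf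
  have h1 := (k5_sig_le c K 0 hc le_rfl zero_le_one).2.2
  have h2 := (k5_sig_le c' K 0 hc' le_rfl zero_le_one).2.2
  have a1 : |f ⬝ᵥ k5_yd c| ≤ j * F * K :=
    (k5_dot_le f _).trans (mul_le_mul (mul_le_mul_of_nonneg_left hf (Nat.cast_nonneg j)) h1 (norm_nonneg _) (by positivity))
  have a2 : |f ⬝ᵥ k5_yd c'| ≤ j * F * K :=
    (k5_dot_le f _).trans (mul_le_mul (mul_le_mul_of_nonneg_left hf (Nat.cast_nonneg j)) h2 (norm_nonneg _) (by positivity))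
  have := abs_sub (f ⬝ᵥ k5_yd c) (f ⬝ᵥ k5_yd c')
  linarith

/-- elementary facts of a pair: `w ≠ t`, `|w - t|⁻¹ ≤ K / H`, `2 q |w - t|⁻¹ ≤ 2 K H^(κ/2)` -/
theorem k5_pa_gap {Λ : Type} [Fintype Λ] {P : FLaw Λ} {c : Λ → k5_Co j} {d K ζ : ℝ} {Rs : Set ℝ} {t w : ℝ} {m : ℕ}
    {Φ Ψ : ℕ → Fin j → ℝ} {Gt Gw : Set Λ} {ρ cst H κ q : ℝ}
    (hp : k5_Pair P c d K ζ Rs t w m Φ Ψ Gt Gw ρ cst H κ q) :
    w - t ≠ 0 ∧ |(w - t)⁻¹| ≤ K / H ∧ |(w - t)⁻¹| * (2 * q) ≤ 2 * K * H ^ (κ / 2) := by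
  have hK0 : 0 < K := lt_of_lt_of_le one_pos hp.K1
  have hH0 := hp.H0
  have h0 : 0 < H / K := div_pos hH0 hK0
  have h1 : 0 < |w - t| := lt_of_lt_of_le h0 hp.gap
  have h2 : |(w - t)⁻¹| ≤ K / H := by
    rw [abs_inv]
    calc |w - t|⁻¹ ≤ (H / K)⁻¹ := inv_anti₀ h0 hp.gap
      _ = K / H := inv_div _ _
  refine ⟨abs_pos.mp h1, h2, ?_⟩
  have hq0 : 0 < q := lt_of_lt_of_le hp.nt.tm.z0 hp.ζq
  have e1 : H ^ (1 + κ / 2) = H * H ^ (κ / 2) := by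
    rw [Real.rpow_add hH0, Real.rpow_one]
  calc |(w - t)⁻¹| * (2 * q) ≤ K / H * (2 * (H * H ^ (κ / 2))) := by
        apply mul_le_mul h2 _ (by positivity) (by positivity)
        rw [← e1]; linarith [hp.qhi]
    _ = 2 * K * H ^ (κ / 2) := by field_simp

/-- arithmetic of the step (a) -/
theorem k5_pa_arith (K X m j : ℝ) (hK : 1 ≤ K) (hX : 0 ≤ X) (hm0 : 0 ≤ m) (hj0 : 0 ≤ j) :
    6 * K + 2 * j * K * K + m * (2 * j * (K + X) * K) + 2 * K ≤ (8 + 2 * j + 2 * m * j) * K ^ 2 * (1 + X) := by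
  have hK0 : 0 < K := lt_of_lt_of_le one_pos hK
  have hKK : K ≤ K ^ 2 := by nlinarith
  have hKX : 0 ≤ K ^ 2 * X := by positivity
  have u1 : 8 * K ≤ 8 * (K ^ 2 * (1 + X)) := by nlinarith
  have h1 : (K + X) * K ≤ K ^ 2 * (1 + X) := by
    have : X * K ≤ K ^ 2 * X := by nlinarith
    nlinarith
  have u2 : 2 * j * K * K ≤ 2 * j * (K ^ 2 * (1 + X)) := by
    have : K * K ≤ K ^ 2 * (1 + X) := by nlinarith
    calc 2 * j * K * K = 2 * j * (K * K) := by ring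
      _ ≤ _ := mul_le_mul_of_nonneg_left this (by positivity)
  have u3 : m * (2 * j * (K + X) * K) ≤ 2 * m * j * (K ^ 2 * (1 + X)) := by
    calc m * (2 * j * (K + X) * K) = 2 * m * j * ((K + X) * K) := by ring
      _ ≤ 2 * m * j * (K ^ 2 * (1 + X)) := mul_le_mul_of_nonneg_left h1 (by positivity)
  calc 6 * K + 2 * j * K * K + m * (2 * j * (K + X) * K) + 2 * K
      = 8 * K + 2 * j * K * K + m * (2 * j * (K + X) * K) := by ring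
    _ ≤ 8 * (K ^ 2 * (1 + X)) + 2 * j * (K ^ 2 * (1 + X)) + 2 * m * j * (K ^ 2 * (1 + X)) := by linarith
    _ = _ := by ring

/-- **L-252-S5-P5**  step (a): `∇_i` is bounded.
PROOF.  `A := G = Gt ∩ Gw`, `O := 𝒥`, `v := ∇_i`, `k5_proj_bound` at the time `t` (`hp.nt.tm` restricted to `G`; `k5_Tm` is monotone in `G`: prove `k5_tm_mono_G` first), `L₁` from `k5_pair_obs`.   By `k5_J_diff` divided by `w - t ≠ 0` :
`∇_i ⬝ᵥ y(t) = x^(i+1)(t) - Ψ i ⬝ᵥ y' - i (∇_(i-1) ⬝ᵥ y') - (J_i(w) - J_i(t)) / (w - t)`.   Oscillation over a fibre of `𝒥`: `6 K` (first term, `k5_sig_le`), `2 j K²`, `2 i j (K + X) K` (`‖∇_(i-1)‖ ≤ ‖Φ i‖ + X ≤ K + X`), `2 q / |w - t| ≤ 2 q K / H ≤ 2 K`.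
`exp (L₁ + ...) ≤ C (K/s)^C` by `k5_Y_eq` and `log (1/P(G)) ≤ log (1/s)`.   The smallness of `k5_proj_bound` and of `k5_pair_obs` follow from `hsm` (`q ≤ H^(1+κ/2) ≤ H^(κ/2)`; `K² H^(1+κ) ≤ 2 q K² H^(κ/2)`).   ~250 l. -/
theorem k5_pair_a (j m : ℕ) (cst κ : ℝ) (hm : 1 ≤ m) (hc : 1 ≤ cst) (hκ : 0 < κ) (hκ1 : κ ≤ 1) :
    ∃ C : ℝ, 1 ≤ C ∧ ∀ (Λ : Type) [Fintype Λ] (P : FLaw Λ) (c : Λ → k5_Co j) (d K ζ : ℝ) (Rs : Set ℝ) (t w : ℝ)
      (Φ Ψ : ℕ → Fin j → ℝ) (Gt Gw : Set Λ) (ρ H q s X : ℝ), k5_Pair P c d K ζ Rs t w m Φ Ψ Gt Gw ρ cst H κ q →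
      0 < s → s ≤ P.pr (fun l => l ∈ Gt ∧ l ∈ Gw) → C * (K / s) ^ C * H ^ (κ / 2) ≤ 1 →
      ∀ i, 1 ≤ i → i ≤ m → 0 ≤ X → ‖(w - t)⁻¹ • (Ψ (i - 1) - Φ (i - 1)) - Φ i‖ ≤ X →
      ‖(w - t)⁻¹ • (Ψ i - Φ i)‖ ≤ C * (K / s) ^ C * (1 + X) := by
  obtain ⟨Cc, hCc1, hCc⟩ := k5_pair_core j m cst κ hm hc hκ hκ1
  have hm0 : (0 : ℝ) ≤ m := Nat.cast_nonneg m
  have hj0 : (0 : ℝ) ≤ j := Nat.cast_nonneg j
  set N : ℝ := 8 + 2 * j + 2 * m * j with hN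
  have hN1 : 1 ≤ N := by rw [hN]; nlinarith [mul_nonneg hm0 hj0]
  set C : ℝ := Cc * N + 2 with hC
  have hCN : Cc ≤ Cc * N := by nlinarith
  refine ⟨C, by rw [hC]; linarith, ?_⟩
  intro Λ _ P c d K ζ Rs t w Φ Ψ Gt Gw ρ H q s X hp hs hsP hsm i hi1 him hX hXi
  have hs1 : s ≤ 1 := hsP.trans (ent_pr_le_one P _)
  have hK := hp.K1
  have hK0 : 0 < K := lt_of_lt_of_le one_pos hK
  have hH0 := hp.H0
  have hH1 := hp.H1
  set B : ℝ := K / s with hB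
  have hBK : K ≤ B := by rw [hB, le_div_iff₀ hs]; nlinarith
  have hB1 : 1 ≤ B := hK.trans hBK
  have hB0 : 0 < B := lt_of_lt_of_le one_pos hB1
  have hh20 : 0 < H ^ (κ / 2) := Real.rpow_pos_of_pos hH0 _
  have hh21 : H ^ (κ / 2) ≤ 1 := Real.rpow_le_one hH0.le hH1 (by linarith)
  have hq0 : 0 < q := lt_of_lt_of_le hp.nt.tm.z0 hp.ζq
  obtain ⟨hτ, hτi, hτq⟩ := k5_pa_gap hp
  have hsm' : Cc * B ^ Cc * H ^ (κ / 2) ≤ 1 :=
    le_trans (mul_le_mul_of_nonneg_right (k5_pa_cst_le hB1 (by linarith) (by rw [hC]; linarith) (by rw [hC]; linarith)) hh20.le) hsm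
  obtain ⟨i', rfl⟩ : ∃ i', i = i' + 1 := ⟨i - 1, by omega⟩
  simp only [Nat.add_sub_cancel] at hXi
  have hi'm : i' < m := by omega
  have hosc : ∀ l l', (l ∈ Gt ∧ l ∈ Gw) → (l' ∈ Gt ∧ l' ∈ Gw) → k5_obs m q t w Φ Ψ (c l) = k5_obs m q t w Φ Ψ (c l') →
      |((w - t)⁻¹ • (Ψ (i' + 1) - Φ (i' + 1))) ⬝ᵥ k5_y (c l) t - ((w - t)⁻¹ • (Ψ (i' + 1) - Φ (i' + 1))) ⬝ᵥ k5_y (c l') t|
        ≤ N * K ^ 2 * (1 + X) := by
    intro l l' _ _ hO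
    obtain ⟨b1, b2⟩ := k5_pa_obs_bins hq0 hO i' hi'm
    rw [k5_pa_grad_id (c l) t w hτ (i' + 1) (by omega) (Φ (i' + 1)) (Φ i') (Ψ (i' + 1)) (Ψ i'),
      k5_pa_grad_id (c l') t w hτ (i' + 1) (by omega) (Φ (i' + 1)) (Φ i') (Ψ (i' + 1)) (Ψ i')]
    have x1 := (k5_sig_le (c l) K t (hp.cb l) hp.nt.tm.t0 hp.nt.tm.t1).1 (i' + 1 + 1)
    have x2 := (k5_sig_le (c l') K t (hp.cb l') hp.nt.tm.t0 hp.nt.tm.t1).1 (i' + 1 + 1)
    have y1 := k5_pa_dot_osc (Ψ (i' + 1)) (c l) (c l') K K (hp.cb l) (hp.cb l') (hp.nw.rb _ him)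
    have hgr : ‖(w - t)⁻¹ • (Ψ i' - Φ i')‖ ≤ K + X := by
      have := norm_add_le ((w - t)⁻¹ • (Ψ i' - Φ i') - Φ (i' + 1)) (Φ (i' + 1))
      rw [sub_add_cancel] at this
      linarith [hp.nt.rb _ him]
    have y2 := k5_pa_dot_osc ((w - t)⁻¹ • (Ψ i' - Φ i')) (c l) (c l') K (K + X) (hp.cb l) (hp.cb l') hgr
    set xa := k5_xD (i' + 1 + 1) (c l) t
    set xb := k5_xD (i' + 1 + 1) (c l') t
    set pa := Ψ (i' + 1) ⬝ᵥ k5_yd (c l)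
    set pb := Ψ (i' + 1) ⬝ᵥ k5_yd (c l')
    set ga := ((w - t)⁻¹ • (Ψ i' - Φ i')) ⬝ᵥ k5_yd (c l)
    set gb := ((w - t)⁻¹ • (Ψ i' - Φ i')) ⬝ᵥ k5_yd (c l')
    set Jwa := k5_J (i' + 1) (Ψ (i' + 1)) (Ψ i') (c l) w
    set Jwb := k5_J (i' + 1) (Ψ (i' + 1)) (Ψ i') (c l') w
    set Jta := k5_J (i' + 1) (Φ (i' + 1)) (Φ i') (c l) t
    set Jtb := k5_J (i' + 1) (Φ (i' + 1)) (Φ i') (c l') t
    have hii : ((i' + 1 : ℕ) : ℝ) ≤ m := by exact_mod_cast him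
    have hii0 : (0 : ℝ) ≤ ((i' + 1 : ℕ) : ℝ) := Nat.cast_nonneg _
    have e : xa - pa - ((i' + 1 : ℕ) : ℝ) * ga - (w - t)⁻¹ * (Jwa - Jta)
        - (xb - pb - ((i' + 1 : ℕ) : ℝ) * gb - (w - t)⁻¹ * (Jwb - Jtb))
        = (xa - xb) - (pa - pb) - ((i' + 1 : ℕ) : ℝ) * (ga - gb) - (w - t)⁻¹ * ((Jwa - Jwb) - (Jta - Jtb)) := by ring
    rw [e]
    have t1 : |xa - xb| ≤ 6 * K := by have := abs_sub xa xb; linarith
    have t3 : |((i' + 1 : ℕ) : ℝ) * (ga - gb)| ≤ m * (2 * j * (K + X) * K) := by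
      rw [abs_mul, abs_of_nonneg hii0]
      exact mul_le_mul hii y2 (abs_nonneg _) hm0
    have t4 : |(w - t)⁻¹ * ((Jwa - Jwb) - (Jta - Jtb))| ≤ 2 * K := by
      rw [abs_mul]
      have : |(Jwa - Jwb) - (Jta - Jtb)| ≤ 2 * q := by
        have := abs_sub (Jwa - Jwb) (Jta - Jtb); linarith
      calc |(w - t)⁻¹| * |(Jwa - Jwb) - (Jta - Jtb)| ≤ |(w - t)⁻¹| * (2 * q) :=
            mul_le_mul_of_nonneg_left this (abs_nonneg _)
        _ ≤ 2 * K * H ^ (κ / 2) := hτq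
        _ ≤ 2 * K * 1 := mul_le_mul_of_nonneg_left hh21 (by positivity)
        _ = 2 * K := mul_one _
    have tri : |(xa - xb) - (pa - pb) - ((i' + 1 : ℕ) : ℝ) * (ga - gb) - (w - t)⁻¹ * ((Jwa - Jwb) - (Jta - Jtb))|
        ≤ |xa - xb| + |pa - pb| + |((i' + 1 : ℕ) : ℝ) * (ga - gb)| + |(w - t)⁻¹ * ((Jwa - Jwb) - (Jta - Jtb))| := by
      have a1 := abs_sub ((xa - xb) - (pa - pb) - ((i' + 1 : ℕ) : ℝ) * (ga - gb)) ((w - t)⁻¹ * ((Jwa - Jwb) - (Jta - Jtb)))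
      have a2 := abs_sub ((xa - xb) - (pa - pb)) (((i' + 1 : ℕ) : ℝ) * (ga - gb))
      have a3 := abs_sub (xa - xb) (pa - pb)
      linarith
    have fin := k5_pa_arith K X m j hK hX hm0 hj0
    rw [hN]
    linarith
  have hω0 : 0 ≤ N * K ^ 2 * (1 + X) := by positivity
  have hfin := hCc Λ P c d K ζ Rs t w Φ Ψ Gt Gw ρ H q s hp hs hsP hsm' _ _ hω0 hosc
  have e2 : K ^ 2 ≤ B ^ (2 : ℝ) := by
    rw [Real.rpow_two]; exact pow_le_pow_left₀ hK0.le hBK 2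
  have e3 : Cc * B ^ Cc * (N * K ^ 2) ≤ C * B ^ C := by
    calc Cc * B ^ Cc * (N * K ^ 2) ≤ Cc * B ^ Cc * (N * B ^ (2 : ℝ)) := by
          apply mul_le_mul_of_nonneg_left (mul_le_mul_of_nonneg_left e2 (by linarith)) (by positivity)
      _ = (Cc * N) * B ^ (Cc + 2) := by rw [Real.rpow_add hB0]; ring
      _ ≤ C * B ^ C := k5_pa_cst_le hB1 (by positivity) (by rw [hC]; linarith) (by rw [hC]; linarith)
  calc ‖(w - t)⁻¹ • (Ψ (i' + 1) - Φ (i' + 1))‖ ≤ Cc * B ^ Cc * (N * K ^ 2 * (1 + X)) := hfin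
    _ = (Cc * B ^ Cc * (N * K ^ 2)) * (1 + X) := by ring
    _ ≤ C * B ^ C * (1 + X) := mul_le_mul_of_nonneg_right e3 (by linarith)

/-- the identity of the step (b) -/
theorem k5_pb_grad_id (c : k5_Co j) (t w : ℝ) (hτ : w - t ≠ 0) (i : ℕ) (hi : 1 ≤ i) (fi fi' gi gi' fn : Fin j → ℝ) :
    ((w - t)⁻¹ • (gi - fi) - fn) ⬝ᵥ k5_y c t
      = k5_J (i + 1) fn fi c t - (w - t)⁻¹ * (k5_J i gi gi' c w - k5_J i fi fi' c t) - (gi - fi) ⬝ᵥ k5_yd c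
        - (i : ℝ) * (((w - t)⁻¹ • (gi' - fi') - fi) ⬝ᵥ k5_yd c) := by
  rw [sub_dotProduct, k5_pa_grad_id c t w hτ i hi fi fi' gi gi', sub_dotProduct, sub_dotProduct]
  unfold k5_J
  push_cast
  ring

/-- arithmetic of the step (b) -/
theorem k5_pb_arith (K X Γ H h2 q m j : ℝ) (hK : 1 ≤ K) (hX : 0 ≤ X) (hΓ : 0 ≤ Γ) (hH : 0 ≤ H) (hh : 0 ≤ h2) (hq : q ≤ h2)
    (hm0 : 0 ≤ m) (hj0 : 0 ≤ j) :
    q + 2 * K * h2 + 2 * j * (H * Γ) * K + m * (2 * j * X * K) ≤ (3 + 2 * j + 2 * m * j) * K * (h2 + Γ * H + X) := by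
  have hK0 : 0 < K := lt_of_lt_of_le one_pos hK
  have hΓH : 0 ≤ Γ * H := mul_nonneg hΓ hH
  have hS : 0 ≤ h2 + Γ * H + X := by linarith
  have u1 : q + 2 * K * h2 ≤ 3 * (K * (h2 + Γ * H + X)) := by
    have a1 : h2 ≤ K * h2 := by nlinarith
    have a2 : K * h2 ≤ K * (h2 + Γ * H + X) := mul_le_mul_of_nonneg_left (by linarith) hK0.le
    linarith
  have u2 : 2 * j * (H * Γ) * K ≤ 2 * j * (K * (h2 + Γ * H + X)) := by
    have a2 : K * (Γ * H) ≤ K * (h2 + Γ * H + X) := mul_le_mul_of_nonneg_left (by linarith) hK0.le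
    calc 2 * j * (H * Γ) * K = 2 * j * (K * (Γ * H)) := by ring
      _ ≤ _ := mul_le_mul_of_nonneg_left a2 (by positivity)
  have u3 : m * (2 * j * X * K) ≤ 2 * m * j * (K * (h2 + Γ * H + X)) := by
    have a2 : K * X ≤ K * (h2 + Γ * H + X) := mul_le_mul_of_nonneg_left (by linarith) hK0.le
    calc m * (2 * j * X * K) = 2 * m * j * (K * X) := by ring
      _ ≤ _ := mul_le_mul_of_nonneg_left a2 (by positivity)
  calc q + 2 * K * h2 + 2 * j * (H * Γ) * K + m * (2 * j * X * K)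
      ≤ 3 * (K * (h2 + Γ * H + X)) + 2 * j * (K * (h2 + Γ * H + X)) + 2 * m * j * (K * (h2 + Γ * H + X)) := by linarith
    _ = _ := by ring

/-- **L-252-S5-P6**  step (b): compatibility `∇_i = Φ (i+1) + O(H^(κ/2))` for `i < m`.
PROOF.  As in `k5_pair_a` with `v := ∇_i - Φ (i+1)` :   `v ⬝ᵥ y(t) = J_(i+1)(t) - (J_i(w) - J_i(t)) / (w - t) - (Ψ i - Φ i) ⬝ᵥ y' - i ((∇_(i-1) - Φ i) ⬝ᵥ y')`  (from `k5_J_diff` and the definition of `k5_J (i+1)`).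
Oscillation over a fibre of `𝒥` : `q` (`J_(i+1)(t)_q` is part of `𝒥` because `i + 1 ≤ m`), `2 q K / H ≤ 2 K H^(κ/2)`, `2 j K Γ H` (`‖Ψ i - Φ i‖ = |w - t| ‖∇_i‖ ≤ H Γ`), `2 i j K X`.   ~250 l. -/
theorem k5_pair_b (j m : ℕ) (cst κ : ℝ) (hm : 1 ≤ m) (hc : 1 ≤ cst) (hκ : 0 < κ) (hκ1 : κ ≤ 1) :
    ∃ C : ℝ, 1 ≤ C ∧ ∀ (Λ : Type) [Fintype Λ] (P : FLaw Λ) (c : Λ → k5_Co j) (d K ζ : ℝ) (Rs : Set ℝ) (t w : ℝ)
      (Φ Ψ : ℕ → Fin j → ℝ) (Gt Gw : Set Λ) (ρ H q s X Γ : ℝ), k5_Pair P c d K ζ Rs t w m Φ Ψ Gt Gw ρ cst H κ q →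
      0 < s → s ≤ P.pr (fun l => l ∈ Gt ∧ l ∈ Gw) → C * (K / s) ^ C * H ^ (κ / 2) ≤ 1 →
      ∀ i, 1 ≤ i → i < m → 0 ≤ X → 0 ≤ Γ → ‖(w - t)⁻¹ • (Ψ (i - 1) - Φ (i - 1)) - Φ i‖ ≤ X →
      ‖(w - t)⁻¹ • (Ψ i - Φ i)‖ ≤ Γ →
      ‖(w - t)⁻¹ • (Ψ i - Φ i) - Φ (i + 1)‖ ≤ C * (K / s) ^ C * (H ^ (κ / 2) + Γ * H + X) := by
  obtain ⟨Cc, hCc1, hCc⟩ := k5_pair_core j m cst κ hm hc hκ hκ1
  have hm0 : (0 : ℝ) ≤ m := Nat.cast_nonneg m
  have hj0 : (0 : ℝ) ≤ j := Nat.cast_nonneg j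
  set N : ℝ := 3 + 2 * j + 2 * m * j with hN
  have hN1 : 1 ≤ N := by rw [hN]; nlinarith [mul_nonneg hm0 hj0]
  set C : ℝ := Cc * N + 1 with hC
  have hCN : Cc ≤ Cc * N := by nlinarith
  refine ⟨C, by rw [hC]; linarith, ?_⟩
  intro Λ _ P c d K ζ Rs t w Φ Ψ Gt Gw ρ H q s X Γ hp hs hsP hsm i hi1 him hX hΓ hXi hΓi
  have hs1 : s ≤ 1 := hsP.trans (ent_pr_le_one P _)
  have hK := hp.K1
  have hK0 : 0 < K := lt_of_lt_of_le one_pos hK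
  have hH0 := hp.H0
  have hH1 := hp.H1
  set B : ℝ := K / s with hB
  have hBK : K ≤ B := by rw [hB, le_div_iff₀ hs]; nlinarith
  have hB1 : 1 ≤ B := hK.trans hBK
  have hB0 : 0 < B := lt_of_lt_of_le one_pos hB1
  have hh20 : 0 < H ^ (κ / 2) := Real.rpow_pos_of_pos hH0 _
  have hq0 : 0 < q := lt_of_lt_of_le hp.nt.tm.z0 hp.ζq
  have hqh : q ≤ H ^ (κ / 2) := hp.qhi.trans (Real.rpow_le_rpow_of_exponent_ge hH0 hH1 (by linarith))
  obtain ⟨hτ, hτi, hτq⟩ := k5_pa_gap hp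
  have hsm' : Cc * B ^ Cc * H ^ (κ / 2) ≤ 1 :=
    le_trans (mul_le_mul_of_nonneg_right (k5_pa_cst_le hB1 (by linarith) (by rw [hC]; linarith) (by rw [hC]; linarith)) hh20.le) hsm
  obtain ⟨i', rfl⟩ : ∃ i', i = i' + 1 := ⟨i - 1, by omega⟩
  simp only [Nat.add_sub_cancel] at hXi
  have hi'm : i' < m := by omega
  have hdiff : ‖Ψ (i' + 1) - Φ (i' + 1)‖ ≤ H * Γ := by
    have e : Ψ (i' + 1) - Φ (i' + 1) = (w - t) • ((w - t)⁻¹ • (Ψ (i' + 1) - Φ (i' + 1))) := by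
      rw [smul_smul, mul_inv_cancel₀ hτ, one_smul]
    rw [e, norm_smul, Real.norm_eq_abs]
    exact mul_le_mul hp.near hΓi (norm_nonneg _) hH0.le
  have hosc : ∀ l l', (l ∈ Gt ∧ l ∈ Gw) → (l' ∈ Gt ∧ l' ∈ Gw) → k5_obs m q t w Φ Ψ (c l) = k5_obs m q t w Φ Ψ (c l') →
      |((w - t)⁻¹ • (Ψ (i' + 1) - Φ (i' + 1)) - Φ (i' + 1 + 1)) ⬝ᵥ k5_y (c l) t
        - ((w - t)⁻¹ • (Ψ (i' + 1) - Φ (i' + 1)) - Φ (i' + 1 + 1)) ⬝ᵥ k5_y (c l') t|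
        ≤ N * K * (H ^ (κ / 2) + Γ * H + X) := by
    intro l l' _ _ hO
    obtain ⟨b1, b2⟩ := k5_pa_obs_bins hq0 hO i' hi'm
    obtain ⟨b3, -⟩ := k5_pa_obs_bins hq0 hO (i' + 1) him
    rw [k5_pb_grad_id (c l) t w hτ (i' + 1) (by omega) (Φ (i' + 1)) (Φ i') (Ψ (i' + 1)) (Ψ i') (Φ (i' + 1 + 1)),
      k5_pb_grad_id (c l') t w hτ (i' + 1) (by omega) (Φ (i' + 1)) (Φ i') (Ψ (i' + 1)) (Ψ i') (Φ (i' + 1 + 1))]
    have y1 := k5_pa_dot_osc (Ψ (i' + 1) - Φ (i' + 1)) (c l) (c l') K (H * Γ) (hp.cb l) (hp.cb l') hdiff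
    have y2 := k5_pa_dot_osc ((w - t)⁻¹ • (Ψ i' - Φ i') - Φ (i' + 1)) (c l) (c l') K X (hp.cb l) (hp.cb l') hXi
    set na := k5_J (i' + 1 + 1) (Φ (i' + 1 + 1)) (Φ (i' + 1)) (c l) t
    set nb := k5_J (i' + 1 + 1) (Φ (i' + 1 + 1)) (Φ (i' + 1)) (c l') t
    set pa := (Ψ (i' + 1) - Φ (i' + 1)) ⬝ᵥ k5_yd (c l)
    set pb := (Ψ (i' + 1) - Φ (i' + 1)) ⬝ᵥ k5_yd (c l')
    set ga := ((w - t)⁻¹ • (Ψ i' - Φ i') - Φ (i' + 1)) ⬝ᵥ k5_yd (c l)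
    set gb := ((w - t)⁻¹ • (Ψ i' - Φ i') - Φ (i' + 1)) ⬝ᵥ k5_yd (c l')
    set Jwa := k5_J (i' + 1) (Ψ (i' + 1)) (Ψ i') (c l) w
    set Jwb := k5_J (i' + 1) (Ψ (i' + 1)) (Ψ i') (c l') w
    set Jta := k5_J (i' + 1) (Φ (i' + 1)) (Φ i') (c l) t
    set Jtb := k5_J (i' + 1) (Φ (i' + 1)) (Φ i') (c l') t
    have hii : ((i' + 1 : ℕ) : ℝ) ≤ m := by exact_mod_cast him.le
    have hii0 : (0 : ℝ) ≤ ((i' + 1 : ℕ) : ℝ) := Nat.cast_nonneg _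
    have e : na - (w - t)⁻¹ * (Jwa - Jta) - pa - ((i' + 1 : ℕ) : ℝ) * ga
        - (nb - (w - t)⁻¹ * (Jwb - Jtb) - pb - ((i' + 1 : ℕ) : ℝ) * gb)
        = (na - nb) - (pa - pb) - ((i' + 1 : ℕ) : ℝ) * (ga - gb) - (w - t)⁻¹ * ((Jwa - Jwb) - (Jta - Jtb)) := by ring
    rw [e]
    have t3 : |((i' + 1 : ℕ) : ℝ) * (ga - gb)| ≤ m * (2 * j * X * K) := by
      rw [abs_mul, abs_of_nonneg hii0]
      exact mul_le_mul hii y2 (abs_nonneg _) hm0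
    have t4 : |(w - t)⁻¹ * ((Jwa - Jwb) - (Jta - Jtb))| ≤ 2 * K * H ^ (κ / 2) := by
      rw [abs_mul]
      have : |(Jwa - Jwb) - (Jta - Jtb)| ≤ 2 * q := by
        have := abs_sub (Jwa - Jwb) (Jta - Jtb); linarith
      exact le_trans (mul_le_mul_of_nonneg_left this (abs_nonneg _)) hτq
    have tri : |(na - nb) - (pa - pb) - ((i' + 1 : ℕ) : ℝ) * (ga - gb) - (w - t)⁻¹ * ((Jwa - Jwb) - (Jta - Jtb))|
        ≤ |na - nb| + |pa - pb| + |((i' + 1 : ℕ) : ℝ) * (ga - gb)| + |(w - t)⁻¹ * ((Jwa - Jwb) - (Jta - Jtb))| := by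
      have a1 := abs_sub ((na - nb) - (pa - pb) - ((i' + 1 : ℕ) : ℝ) * (ga - gb)) ((w - t)⁻¹ * ((Jwa - Jwb) - (Jta - Jtb)))
      have a2 := abs_sub ((na - nb) - (pa - pb)) (((i' + 1 : ℕ) : ℝ) * (ga - gb))
      have a3 := abs_sub (na - nb) (pa - pb)
      linarith
    have fin := k5_pb_arith K X Γ H (H ^ (κ / 2)) q m j hK hX hΓ hH0.le hh20.le hqh hm0 hj0
    rw [hN]
    linarith
  have hω0 : 0 ≤ N * K * (H ^ (κ / 2) + Γ * H + X) := by positivity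
  have hfin := hCc Λ P c d K ζ Rs t w Φ Ψ Gt Gw ρ H q s hp hs hsP hsm' _ _ hω0 hosc
  have e3 : Cc * B ^ Cc * (N * K) ≤ C * B ^ C := by
    calc Cc * B ^ Cc * (N * K) ≤ Cc * B ^ Cc * (N * B ^ (1 : ℝ)) := by
          rw [Real.rpow_one]
          apply mul_le_mul_of_nonneg_left (mul_le_mul_of_nonneg_left hBK (by linarith)) (by positivity)
      _ = (Cc * N) * B ^ (Cc + 1) := by rw [Real.rpow_add hB0]; ring
      _ ≤ C * B ^ C := k5_pa_cst_le hB1 (by positivity) (by rw [hC]; linarith) (by rw [hC]; linarith)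
  calc ‖(w - t)⁻¹ • (Ψ (i' + 1) - Φ (i' + 1)) - Φ (i' + 1 + 1)‖ ≤ Cc * B ^ Cc * (N * K * (H ^ (κ / 2) + Γ * H + X)) := hfin
    _ = (Cc * B ^ Cc * (N * K)) * (H ^ (κ / 2) + Γ * H + X) := by ring
    _ ≤ C * B ^ C * (H ^ (κ / 2) + Γ * H + X) := mul_le_mul_of_nonneg_right e3 (by positivity)

/-- `c ↦ c B^c` is monotone (`B ≥ 1`) -/
theorem k5_loop_mono {B c c' : ℝ} (hB : 1 ≤ B) (hc : 0 ≤ c) (h : c ≤ c') : c * B ^ c ≤ c' * B ^ c' :=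
  mul_le_mul h (Real.rpow_le_rpow_of_exponent_le hB h) (Real.rpow_nonneg (by linarith) _) (hc.trans h)

theorem k5_loop_one_le {B c : ℝ} (hB : 1 ≤ B) (hc : 1 ≤ c) : 1 ≤ c * B ^ c := by
  have h1 : 1 ≤ B ^ c := Real.one_le_rpow hB (by linarith)
  nlinarith

/-- products of `c B^c` are of the same form -/
theorem k5_loop_mul {B a c c' : ℝ} (hB : 1 ≤ B) (ha : 2 ≤ a) (hc : 1 ≤ c) (hc' : 1 ≤ c') :
    a * (c * B ^ c) * (c' * B ^ c') ≤ (a * c * c') * B ^ (a * c * c') := by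
  have hB0 : 0 < B := by linarith
  have e : a * (c * B ^ c) * (c' * B ^ c') = (a * c * c') * B ^ (c + c') := by
    rw [Real.rpow_add hB0]
    ring
  rw [e]
  have h0 : 0 ≤ (c - 1) * (c' - 1) := mul_nonneg (sub_nonneg.2 hc) (sub_nonneg.2 hc')
  have h2 : 0 ≤ (a - 2) * (c * c') := mul_nonneg (sub_nonneg.2 ha) (by positivity)
  have h1 : c + c' ≤ a * c * c' := by nlinarith
  exact mul_le_mul_of_nonneg_left (Real.rpow_le_rpow_of_exponent_le hB h1) (by positivity)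

/-- **L-252-S5-P7**  the loop over `i = 1, …, m`.
PROOF.  Induction on `i` (statement `∀ i, 1 ≤ i → i ≤ m → ∃ C_i …`; take the max of the finitely many constants, or prove `∀ n, ∃ C, ∀ i ≤ n …` by induction on `n`).   `i = 1` : `‖∇_0 - Φ 1‖ = ‖Ψ 0 - Φ 0 - (w-t) Φ 1‖ / |w - t| ≤ K H^(1+κ) K / H = K² H^κ ≤ K² H^(κ/2)`.
Step: `X_i ≤ C_i (K/s)^(C_i) H^(κ/2) ≤ C_i (K/s)^(C_i)`, `Γ_i ≤ C_a (K/s)^(C_a) (1 + X_i)` (`k5_pair_a`), `X_(i+1) ≤ C_b (K/s)^(C_b) (H^(κ/2) + Γ_i H + X_i)` (`k5_pair_b`), `H ≤ H^(κ/2)`; products of `C (K/s)^C` are of the same form (`K / s ≥ 1`, `Real.rpow_add`, `Real.rpow_le_rpow_of_exponent_le`).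
The smallness hypothesis with the final `C` implies the ones of `k5_pair_a/b` (monotonicity in `C`).   ~200 l. -/
theorem k5_pair_loop (j m : ℕ) (cst κ : ℝ) (hm : 1 ≤ m) (hc : 1 ≤ cst) (hκ : 0 < κ) (hκ1 : κ ≤ 1) :
    ∃ C : ℝ, 1 ≤ C ∧ ∀ (Λ : Type) [Fintype Λ] (P : FLaw Λ) (c : Λ → k5_Co j) (d K ζ : ℝ) (Rs : Set ℝ) (t w : ℝ)
      (Φ Ψ : ℕ → Fin j → ℝ) (Gt Gw : Set Λ) (ρ H q s : ℝ), k5_Pair P c d K ζ Rs t w m Φ Ψ Gt Gw ρ cst H κ q →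
      0 < s → s ≤ P.pr (fun l => l ∈ Gt ∧ l ∈ Gw) → C * (K / s) ^ C * H ^ (κ / 2) ≤ 1 →
      ∀ i, 1 ≤ i → i ≤ m → ‖(w - t)⁻¹ • (Ψ (i - 1) - Φ (i - 1)) - Φ i‖ ≤ C * (K / s) ^ C * H ^ (κ / 2) ∧
        ‖(w - t)⁻¹ • (Ψ i - Φ i)‖ ≤ C * (K / s) ^ C := by
  obtain ⟨Ca, hCa, ha⟩ := k5_pair_a j m cst κ hm hc hκ hκ1
  obtain ⟨Cb, hCb, hb⟩ := k5_pair_b j m cst κ hm hc hκ hκ1
  obtain ⟨M, hM⟩ : ∃ M : ℝ, M = 6 * Ca * Cb := ⟨_, rfl⟩
  have hCab : 1 ≤ Ca * Cb := by nlinarith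
  have hM1 : 1 ≤ M := by rw [hM]; nlinarith
  have hCaM : Ca ≤ M := by rw [hM]; nlinarith
  have hCbM : Cb ≤ M := by rw [hM]; nlinarith
  refine ⟨M ^ m, one_le_pow₀ hM1, ?_⟩
  intro Λ _ P c d K ζ Rs t w Φ Ψ Gt Gw ρ H q s hp hs0 hs hsm
  have hK1 := hp.K1
  have hH0 := hp.H0
  have hH1 := hp.H1
  have hs1 : s ≤ 1 := hs.trans (ent_pr_le_one P _)
  obtain ⟨B, hBdef⟩ : ∃ B : ℝ, B = K / s := ⟨_, rfl⟩
  obtain ⟨h, hh⟩ : ∃ h : ℝ, h = H ^ (κ / 2) := ⟨_, rfl⟩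
  rw [← hBdef, ← hh] at hsm ⊢
  have hKB : K ≤ B := by
    rw [hBdef, le_div_iff₀ hs0]
    nlinarith
  have hB : 1 ≤ B := hK1.trans hKB
  have hB0 : 0 < B := by linarith
  have hh0 : 0 < h := by
    rw [hh]
    exact Real.rpow_pos_of_pos hH0 _
  have hh1 : h ≤ 1 := by
    rw [hh]
    exact Real.rpow_le_one hH0.le hH1 (by linarith)
  have hHh : H ≤ h := by
    have h1 := Real.rpow_le_rpow_of_exponent_ge hH0 hH1 (show κ / 2 ≤ 1 by linarith)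
    rw [Real.rpow_one] at h1
    rw [hh]
    exact h1
  have hMm : ∀ i, i ≤ m → M ^ i ≤ M ^ m := fun i hi => pow_le_pow_right₀ hM1 hi
  have hMle : M ≤ M ^ m := by simpa using hMm 1 hm
  have hsa : Ca * B ^ Ca * h ≤ 1 :=
    (mul_le_mul_of_nonneg_right (k5_loop_mono hB (by linarith) (hCaM.trans hMle)) hh0.le).trans hsm
  have hsb : Cb * B ^ Cb * h ≤ 1 :=
    (mul_le_mul_of_nonneg_right (k5_loop_mono hB (by linarith) (hCbM.trans hMle)) hh0.le).trans hsm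
  -- step (a)
  have stepA : ∀ i, 1 ≤ i → i ≤ m → ∀ D : ℝ, 1 ≤ D →
      ‖(w - t)⁻¹ • (Ψ (i - 1) - Φ (i - 1)) - Φ i‖ ≤ D * B ^ D * h →
      ‖(w - t)⁻¹ • (Ψ (i - 1) - Φ (i - 1)) - Φ i‖ ≤ (2 * Ca * D) * B ^ (2 * Ca * D) * h ∧
      ‖(w - t)⁻¹ • (Ψ i - Φ i)‖ ≤ (2 * Ca * D) * B ^ (2 * Ca * D) := by
    intro i hi1 him D hD hX
    have hFD : 1 ≤ D * B ^ D := k5_loop_one_le hB hD
    have hDle : D ≤ 2 * Ca * D := by nlinarith
    refine ⟨hX.trans (mul_le_mul_of_nonneg_right (k5_loop_mono hB (by linarith) hDle) hh0.le), ?_⟩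
    have h1 := ha Λ P c d K ζ Rs t w Φ Ψ Gt Gw ρ H q s (D * B ^ D * h) hp hs0 hs
      (by rw [← hBdef, ← hh]; exact hsa) i hi1 him (by positivity) hX
    rw [← hBdef] at h1
    have h2 : 1 + D * B ^ D * h ≤ 2 * (D * B ^ D) := by nlinarith
    have h3 := k5_loop_mul hB (le_refl 2) hCa hD
    have hFa : 0 ≤ Ca * B ^ Ca := by positivity
    calc ‖(w - t)⁻¹ • (Ψ i - Φ i)‖ ≤ Ca * B ^ Ca * (1 + D * B ^ D * h) := h1
      _ ≤ Ca * B ^ Ca * (2 * (D * B ^ D)) := mul_le_mul_of_nonneg_left h2 hFa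
      _ = 2 * (Ca * B ^ Ca) * (D * B ^ D) := by ring
      _ ≤ (2 * Ca * D) * B ^ (2 * Ca * D) := h3
  -- the induction
  have main : ∀ i, 1 ≤ i → i ≤ m →
      ‖(w - t)⁻¹ • (Ψ (i - 1) - Φ (i - 1)) - Φ i‖ ≤ M ^ i * B ^ (M ^ i) * h ∧
      ‖(w - t)⁻¹ • (Ψ i - Φ i)‖ ≤ M ^ i * B ^ (M ^ i) := by
    intro i hi1
    induction i, hi1 using Nat.le_induction with
    | base =>
      intro _
      have hwt : w - t ≠ 0 := by
        intro h0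
        have h1 := hp.gap
        rw [h0, abs_zero] at h1
        have h2 : 0 < H / K := div_pos hH0 (by linarith)
        linarith
      have hX1 : ‖(w - t)⁻¹ • (Ψ (1 - 1) - Φ (1 - 1)) - Φ 1‖ ≤ (3 * Cb) * B ^ (3 * Cb) * h := by
        have e1 : (w - t)⁻¹ • (Ψ (1 - 1) - Φ (1 - 1)) - Φ 1 = (w - t)⁻¹ • (Ψ 0 - Φ 0 - (w - t) • Φ 1) := by
          rw [smul_sub (w - t)⁻¹ _ ((w - t) • Φ 1), smul_smul, inv_mul_cancel₀ hwt, one_smul]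
        rw [e1, norm_smul, norm_inv, Real.norm_eq_abs]
        have hab : 0 < |w - t| := abs_pos.2 hwt
        have h1 : |w - t|⁻¹ ≤ K / H := by
          rw [inv_le_comm₀ hab (by positivity), inv_div]
          exact hp.gap
        have h2 : H ^ (1 + κ) = H * H ^ κ := by rw [Real.rpow_add hH0, Real.rpow_one]
        have h3 : H ^ κ ≤ h := by
          rw [hh]
          exact Real.rpow_le_rpow_of_exponent_ge hH0 hH1 (by linarith)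
        have h4 : 0 < H ^ κ := Real.rpow_pos_of_pos hH0 _
        have h5 : K ^ 2 ≤ (3 * Cb) * B ^ (3 * Cb) := by
          have g1 : K ^ 2 ≤ B ^ 2 := pow_le_pow_left₀ (by linarith) hKB 2
          have g2 : B ^ (2 : ℝ) ≤ B ^ (3 * Cb) := Real.rpow_le_rpow_of_exponent_le hB (by linarith)
          rw [Real.rpow_two] at g2
          have g3 : 0 ≤ B ^ (3 * Cb) := by positivity
          nlinarith
        calc |w - t|⁻¹ * ‖Ψ 0 - Φ 0 - (w - t) • Φ 1‖ ≤ K / H * (K * H ^ (1 + κ)) :=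
              mul_le_mul h1 hp.tay (norm_nonneg _) (by positivity)
          _ = K ^ 2 * H ^ κ := by
              rw [h2]
              field_simp
          _ ≤ K ^ 2 * h := mul_le_mul_of_nonneg_left h3 (by positivity)
          _ ≤ (3 * Cb) * B ^ (3 * Cb) * h := mul_le_mul_of_nonneg_right h5 hh0.le
      have h6 := stepA 1 le_rfl hm (3 * Cb) (by linarith) hX1
      have e : 2 * Ca * (3 * Cb) = M ^ 1 := by
        rw [hM]
        ring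
      rwa [e] at h6
    | succ i hi1 ih =>
      intro him
      obtain ⟨ihX, ihΓ⟩ := ih (by omega)
      have hMi : 1 ≤ M ^ i := one_le_pow₀ hM1
      have hF : 1 ≤ M ^ i * B ^ (M ^ i) := k5_loop_one_le hB hMi
      have h1 := hb Λ P c d K ζ Rs t w Φ Ψ Gt Gw ρ H q s (M ^ i * B ^ (M ^ i) * h) (M ^ i * B ^ (M ^ i)) hp hs0 hs
        (by rw [← hBdef, ← hh]; exact hsb) i hi1 (by omega) (by positivity) (by positivity) ihX ihΓ
      rw [← hBdef, ← hh] at h1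
      have hX : ‖(w - t)⁻¹ • (Ψ (i + 1 - 1) - Φ (i + 1 - 1)) - Φ (i + 1)‖
          ≤ (3 * Cb * M ^ i) * B ^ (3 * Cb * M ^ i) * h := by
        rw [Nat.add_sub_cancel]
        have h2 : h + M ^ i * B ^ (M ^ i) * H + M ^ i * B ^ (M ^ i) * h ≤ 3 * (M ^ i * B ^ (M ^ i)) * h := by
          have g1 : M ^ i * B ^ (M ^ i) * H ≤ M ^ i * B ^ (M ^ i) * h :=
            mul_le_mul_of_nonneg_left hHh (by linarith)
          have g2 : h ≤ M ^ i * B ^ (M ^ i) * h := le_mul_of_one_le_left hh0.le hF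
          linarith
        have h3 := k5_loop_mul hB (show (2 : ℝ) ≤ 3 by norm_num) hCb hMi
        have hFb : 0 ≤ Cb * B ^ Cb := by positivity
        calc ‖(w - t)⁻¹ • (Ψ i - Φ i) - Φ (i + 1)‖
            ≤ Cb * B ^ Cb * (h + M ^ i * B ^ (M ^ i) * H + M ^ i * B ^ (M ^ i) * h) := h1
          _ ≤ Cb * B ^ Cb * (3 * (M ^ i * B ^ (M ^ i)) * h) := mul_le_mul_of_nonneg_left h2 hFb
          _ = 3 * (Cb * B ^ Cb) * (M ^ i * B ^ (M ^ i)) * h := by ring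
          _ ≤ (3 * Cb * M ^ i) * B ^ (3 * Cb * M ^ i) * h := mul_le_mul_of_nonneg_right h3 hh0.le
      have h6 := stepA (i + 1) (by omega) him (3 * Cb * M ^ i) (by nlinarith) hX
      have e : 2 * Ca * (3 * Cb * M ^ i) = M ^ (i + 1) := by
        rw [hM]
        ring
      rwa [e] at h6
  intro i hi1 him
  obtain ⟨m1, m2⟩ := main i hi1 him
  have hmono := k5_loop_mono hB (by positivity : (0 : ℝ) ≤ M ^ i) (hMm i him)
  exact ⟨m1.trans (mul_le_mul_of_nonneg_right hmono hh0.le), m2.trans hmono⟩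

/-- inside one coefficient bin the signals vary by `3 r`, `2 r`, `r` -/
theorem k5_pn_cbin {r t : ℝ} {c c' : k5_Co j} (hr : 0 < r) (ht0 : 0 ≤ t) (ht1 : t ≤ 1) (h : k5_cbin r c = k5_cbin r c') :
    (∀ i, |k5_xD i c t - k5_xD i c' t| ≤ 3 * r) ∧ ‖k5_y c t - k5_y c' t‖ ≤ 2 * r ∧ ‖k5_yd c - k5_yd c'‖ ≤ r := by
  unfold k5_cbin at h
  have h1 : ∀ i, |c.1 i - c'.1 i| ≤ r := fun i =>
    k5_pa_bin_close hr (congrFun (Prod.ext_iff.mp h).1 i)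
  have h2 : ∀ i a, |c.2 i a - c'.2 i a| ≤ r := fun i a =>
    k5_pa_bin_close hr (congrFun (congrFun (Prod.ext_iff.mp h).2 i) a)
  have ht2 : t ^ 2 ≤ 1 := by nlinarith
  have ht20 : 0 ≤ t ^ 2 := sq_nonneg t
  have mulb : ∀ (u x : ℝ), 0 ≤ u → u ≤ 1 → |x| ≤ r → |u * x| ≤ r := by
    intro u x hu0 hu1 hx
    rw [abs_mul, abs_of_nonneg hu0]
    calc u * |x| ≤ 1 * r := mul_le_mul hu1 hx (abs_nonneg _) zero_le_one
      _ = r := one_mul _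
  refine ⟨?_, ?_, ?_⟩
  · intro i
    match i with
    | 0 =>
      have e : k5_xD 0 c t - k5_xD 0 c' t = (c.1 0 - c'.1 0) + t * (c.1 1 - c'.1 1) + t ^ 2 * (c.1 2 - c'.1 2) := by
        simp only [k5_xD, k5_x]; ring
      rw [e]
      have a1 := abs_add_le ((c.1 0 - c'.1 0) + t * (c.1 1 - c'.1 1)) (t ^ 2 * (c.1 2 - c'.1 2))
      have a2 := abs_add_le (c.1 0 - c'.1 0) (t * (c.1 1 - c'.1 1))
      have b1 := mulb t _ ht0 ht1 (h1 1)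
      have b2 := mulb (t ^ 2) _ ht20 ht2 (h1 2)
      linarith [h1 0]
    | 1 =>
      have e : k5_xD 1 c t - k5_xD 1 c' t = (c.1 1 - c'.1 1) + (t * (c.1 2 - c'.1 2) + t * (c.1 2 - c'.1 2)) := by
        simp only [k5_xD]; ring
      rw [e]
      have a1 := abs_add_le (c.1 1 - c'.1 1) (t * (c.1 2 - c'.1 2) + t * (c.1 2 - c'.1 2))
      have a2 := abs_add_le (t * (c.1 2 - c'.1 2)) (t * (c.1 2 - c'.1 2))
      have b1 := mulb t _ ht0 ht1 (h1 2)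
      linarith [h1 1]
    | 2 =>
      have e : k5_xD 2 c t - k5_xD 2 c' t = (c.1 2 - c'.1 2) + (c.1 2 - c'.1 2) := by
        simp only [k5_xD]; ring
      rw [e]
      have a1 := abs_add_le (c.1 2 - c'.1 2) (c.1 2 - c'.1 2)
      linarith [h1 2]
    | (n + 3) =>
      simp only [k5_xD, sub_self, abs_zero]
      positivity
  · rw [pi_norm_le_iff_of_nonneg (by positivity)]
    intro a
    have e : (k5_y c t - k5_y c' t) a = (c.2 0 a - c'.2 0 a) + t * (c.2 1 a - c'.2 1 a) := by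
      simp only [k5_y, Pi.sub_apply]; ring
    rw [e, Real.norm_eq_abs]
    have a1 := abs_add_le (c.2 0 a - c'.2 0 a) (t * (c.2 1 a - c'.2 1 a))
    have b1 := mulb t _ ht0 ht1 (h2 1 a)
    linarith [h2 0 a]
  · rw [pi_norm_le_iff_of_nonneg hr.le]
    intro a
    simp only [k5_yd, Pi.sub_apply, Real.norm_eq_abs]
    exact h2 1 a

/-- oscillation of a jet inside one coefficient bin -/
theorem k5_pn_jet_cbin {r t Kn : ℝ} {c c' : k5_Co j} (i : ℕ) (g f : Fin j → ℝ) (hr : 0 < r) (ht0 : 0 ≤ t) (ht1 : t ≤ 1)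
    (hg : ‖g‖ ≤ Kn) (hf : ‖f‖ ≤ Kn) (h : k5_cbin r c = k5_cbin r c') :
    |k5_J i g f c t - k5_J i g f c' t| ≤ (3 + (i + 2) * j * Kn) * r := by
  obtain ⟨h1, h2, h3⟩ := k5_pn_cbin hr ht0 ht1 h
  have hKn : 0 ≤ Kn := (norm_nonneg _).trans hg
  have hj0 : (0 : ℝ) ≤ j := Nat.cast_nonneg j
  have hi0 : (0 : ℝ) ≤ i := Nat.cast_nonneg i
  have e : k5_J i g f c t - k5_J i g f c' t
      = (k5_xD i c t - k5_xD i c' t) - g ⬝ᵥ (k5_y c t - k5_y c' t) - (i : ℝ) * (f ⬝ᵥ (k5_yd c - k5_yd c')) := by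
    unfold k5_J
    rw [dotProduct_sub, dotProduct_sub]; ring
  rw [e]
  have d1 : |g ⬝ᵥ (k5_y c t - k5_y c' t)| ≤ j * Kn * (2 * r) :=
    (k5_dot_le g _).trans (mul_le_mul (mul_le_mul_of_nonneg_left hg hj0) h2 (norm_nonneg _) (by positivity))
  have d2 : |f ⬝ᵥ (k5_yd c - k5_yd c')| ≤ j * Kn * r :=
    (k5_dot_le f _).trans (mul_le_mul (mul_le_mul_of_nonneg_left hf hj0) h3 (norm_nonneg _) (by positivity))
  have d3 : |(i : ℝ) * (f ⬝ᵥ (k5_yd c - k5_yd c'))| ≤ i * (j * Kn * r) := by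
    rw [abs_mul, abs_of_nonneg hi0]; exact mul_le_mul_of_nonneg_left d2 hi0
  have a1 := abs_sub ((k5_xD i c t - k5_xD i c' t) - g ⬝ᵥ (k5_y c t - k5_y c' t)) ((i : ℝ) * (f ⬝ᵥ (k5_yd c - k5_yd c')))
  have a2 := abs_sub (k5_xD i c t - k5_xD i c' t) (g ⬝ᵥ (k5_y c t - k5_y c' t))
  have := h1 i
  calc _ ≤ 3 * r + j * Kn * (2 * r) + i * (j * Kn * r) := by linarith
    _ = _ := by ring

/-- oscillation of the new jet over a fibre of the observation -/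
theorem k5_pn_osc {Λ : Type} [Fintype Λ] {P : FLaw Λ} {c : Λ → k5_Co j} {d K ζ : ℝ} {Rs : Set ℝ} {t w : ℝ} {m : ℕ}
    {Φ Ψ : ℕ → Fin j → ℝ} {Gt Gw : Set Λ} {ρ cst H κ q ω : ℝ} (hm : 1 ≤ m)
    (hp : k5_Pair P c d K ζ Rs t w m Φ Ψ Gt Gw ρ cst H κ q) (hΦ : Φ (m + 1) = (w - t)⁻¹ • (Ψ m - Φ m))
    (hω : 2 * K * H ^ (κ / 2) + 2 * j * K * ‖(w - t)⁻¹ • (Ψ m - Φ m)‖ * H
        + 2 * j * m * K * ‖(w - t)⁻¹ • (Ψ (m - 1) - Φ (m - 1)) - Φ m‖ ≤ ω) (l l' : Λ)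
    (hOO : k5_obs m q t w Φ Ψ (c l) = k5_obs m q t w Φ Ψ (c l')) :
    |k5_J (m + 1) (Φ (m + 1)) (Φ m) (c l) t - k5_J (m + 1) (Φ (m + 1)) (Φ m) (c l') t| ≤ ω := by
  have hq0 : 0 < q := lt_of_lt_of_le hp.nt.tm.z0 hp.ζq
  obtain ⟨hτ, hτi, hτq⟩ := k5_pa_gap hp
  obtain ⟨m', rfl⟩ : ∃ m', m = m' + 1 := ⟨m - 1, by omega⟩
  simp only [Nat.add_sub_cancel] at hω
  obtain ⟨b1, b2⟩ := k5_pa_obs_bins hq0 hOO m' (by omega)
  have id1 := k5_pb_grad_id (c l) t w hτ (m' + 1) (by omega) (Φ (m' + 1)) (Φ m') (Ψ (m' + 1)) (Ψ m') (Φ (m' + 1 + 1))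
  have id2 := k5_pb_grad_id (c l') t w hτ (m' + 1) (by omega) (Φ (m' + 1)) (Φ m') (Ψ (m' + 1)) (Ψ m') (Φ (m' + 1 + 1))
  rw [← hΦ, sub_self, zero_dotProduct] at id1 id2
  have hdiff : ‖Ψ (m' + 1) - Φ (m' + 1)‖ ≤ H * ‖(w - t)⁻¹ • (Ψ (m' + 1) - Φ (m' + 1))‖ := by
    have e : Ψ (m' + 1) - Φ (m' + 1) = (w - t) • ((w - t)⁻¹ • (Ψ (m' + 1) - Φ (m' + 1))) := by
      rw [smul_smul, mul_inv_cancel₀ hτ, one_smul]
    conv_lhs => rw [e, norm_smul, Real.norm_eq_abs]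
    exact mul_le_mul_of_nonneg_right hp.near (norm_nonneg _)
  have y1 := k5_pa_dot_osc (Ψ (m' + 1) - Φ (m' + 1)) (c l) (c l') K _ (hp.cb l) (hp.cb l') hdiff
  have y2 := k5_pa_dot_osc ((w - t)⁻¹ • (Ψ m' - Φ m') - Φ (m' + 1)) (c l) (c l') K _ (hp.cb l) (hp.cb l') le_rfl
  set n1 := ‖(w - t)⁻¹ • (Ψ (m' + 1) - Φ (m' + 1))‖
  set n2 := ‖(w - t)⁻¹ • (Ψ m' - Φ m') - Φ (m' + 1)‖
  set na := k5_J (m' + 1 + 1) (Φ (m' + 1 + 1)) (Φ (m' + 1)) (c l) t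
  set nb := k5_J (m' + 1 + 1) (Φ (m' + 1 + 1)) (Φ (m' + 1)) (c l') t
  set pa := (Ψ (m' + 1) - Φ (m' + 1)) ⬝ᵥ k5_yd (c l)
  set pb := (Ψ (m' + 1) - Φ (m' + 1)) ⬝ᵥ k5_yd (c l')
  set ga := ((w - t)⁻¹ • (Ψ m' - Φ m') - Φ (m' + 1)) ⬝ᵥ k5_yd (c l)
  set gb := ((w - t)⁻¹ • (Ψ m' - Φ m') - Φ (m' + 1)) ⬝ᵥ k5_yd (c l')
  set Jwa := k5_J (m' + 1) (Ψ (m' + 1)) (Ψ m') (c l) w
  set Jwb := k5_J (m' + 1) (Ψ (m' + 1)) (Ψ m') (c l') w
  set Jta := k5_J (m' + 1) (Φ (m' + 1)) (Φ m') (c l) t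
  set Jtb := k5_J (m' + 1) (Φ (m' + 1)) (Φ m') (c l') t
  have hii0 : (0 : ℝ) ≤ ((m' + 1 : ℕ) : ℝ) := Nat.cast_nonneg _
  have e : na - nb = (pa - pb) + ((m' + 1 : ℕ) : ℝ) * (ga - gb) + (w - t)⁻¹ * ((Jwa - Jwb) - (Jta - Jtb)) := by
    linear_combination id2 - id1
  show |na - nb| ≤ ω
  rw [e]
  have t3 : |((m' + 1 : ℕ) : ℝ) * (ga - gb)| ≤ ((m' + 1 : ℕ) : ℝ) * (2 * j * n2 * K) := by
    rw [abs_mul, abs_of_nonneg hii0]
    exact mul_le_mul_of_nonneg_left y2 hii0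
  have t4 : |(w - t)⁻¹ * ((Jwa - Jwb) - (Jta - Jtb))| ≤ 2 * K * H ^ (κ / 2) := by
    rw [abs_mul]
    have : |(Jwa - Jwb) - (Jta - Jtb)| ≤ 2 * q := by
      have := abs_sub (Jwa - Jwb) (Jta - Jtb); linarith
    exact le_trans (mul_le_mul_of_nonneg_left this (abs_nonneg _)) hτq
  have a1 := abs_add_le ((pa - pb) + ((m' + 1 : ℕ) : ℝ) * (ga - gb)) ((w - t)⁻¹ * ((Jwa - Jwb) - (Jta - Jtb)))
  have a2 := abs_add_le (pa - pb) (((m' + 1 : ℕ) : ℝ) * (ga - gb))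
  calc _ ≤ 2 * j * (H * n1) * K + ((m' + 1 : ℕ) : ℝ) * (2 * j * n2 * K) + 2 * K * H ^ (κ / 2) := by linarith
    _ = 2 * K * H ^ (κ / 2) + 2 * j * K * n1 * H + 2 * j * ((m' + 1 : ℕ) : ℝ) * K * n2 := by ring
    _ ≤ ω := hω

/-- **L-252-S5-P8**  the new jet on an arbitrary event `A ⊆ G`.   `Kn` = a bound of all rows incl. the new one, `ω` = a bound of `2 K H^(κ/2) + 2 j K ‖∇_m‖ H + 2 j m K ‖∇_(m-1) - Φ m‖`.
PROOF.  `J_(m+1)(t) = (J_m(w) - J_m(t)) / (w - t) + (Ψ m - Φ m) ⬝ᵥ y' + m ((∇_(m-1) - Φ m) ⬝ᵥ y')` (`k5_J_diff`, `hΦ`), so its oscillation over a fibre of `𝒥` is `≤ ω ≤ r` : `H(Z | 𝒥) ≤ log 3`, `Z := (J_(m+1)(t))_r` (`k5_entC_osc`);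
`H(Z | S(t)_q) ≤ H(𝒥 | S(t)_q) + H(Z | 𝒥)` (`k5_pair_obs`);   `H(Z | l_r) ≤ log (5 + 3 (m + 2) j Kn)` (`k5_entC_osc` with `O := l_r`: inside a coefficient bin `x^(m+1)(t)`, `y(t)`, `y'` vary by `3 r`, `2 r`, `r`);
`I(S(t)_q ; l_r | S(t)_r) ≤ err` (`k5_ent_indep`, `q ≤ r`);   `k5_common_info`.   ~250 l. -/
theorem k5_pair_new (j m : ℕ) (cst κ : ℝ) (hm : 1 ≤ m) (hc : 1 ≤ cst) (hκ : 0 < κ) (hκ1 : κ ≤ 1) :
    ∃ C : ℝ, 1 ≤ C ∧ ∀ (Λ : Type) [Fintype Λ] (P : FLaw Λ) (c : Λ → k5_Co j) (d K ζ : ℝ) (Rs : Set ℝ) (t w : ℝ)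
      (Φ Ψ : ℕ → Fin j → ℝ) (Gt Gw : Set Λ) (ρ H q Kn ω : ℝ), k5_Pair P c d K ζ Rs t w m Φ Ψ Gt Gw ρ cst H κ q →
      (1 + 3 * j) * K ^ 2 * H ^ (1 + κ) ≤ q → Φ (m + 1) = (w - t)⁻¹ • (Ψ m - Φ m) → K ≤ Kn → ‖Φ (m + 1)‖ ≤ Kn →
      2 * K * H ^ (κ / 2) + 2 * j * K * ‖(w - t)⁻¹ • (Ψ m - Φ m)‖ * H
        + 2 * j * m * K * ‖(w - t)⁻¹ • (Ψ (m - 1) - Φ (m - 1)) - Φ m‖ ≤ ω →
      ∀ A : Λ → Prop, (∀ l, A l → l ∈ Gt ∧ l ∈ Gw) → 0 < P.pr A → ∀ r ∈ Rs, ω ≤ r → q ≤ r → r ≤ 1 →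
      (P.cnd A).entC (fun l => k5_bin r (k5_J (m + 1) (Φ (m + 1)) (Φ m) (c l) t)) (fun l => k5_bin r (k5_S (Φ 0) (c l) t))
        ≤ C * (1 + Real.log Kn + Real.log (1 / P.pr A)) := by
  obtain ⟨Ci, hCi1, hCi⟩ := k5_ent_indep j
  have hm0 : (0 : ℝ) ≤ m := Nat.cast_nonneg m
  have hj0 : (0 : ℝ) ≤ j := Nat.cast_nonneg j
  set N : ℝ := 5 + (m + 3) * j with hN
  have hN1 : 1 ≤ N := by rw [hN]; nlinarith [mul_nonneg hm0 hj0]
  have hlogN : 0 ≤ Real.log N := Real.log_nonneg hN1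
  set C : ℝ := Real.log N + 2 * m * cst + Ci + 9 with hC
  have hmc : 0 ≤ 2 * (m : ℝ) * cst := by positivity
  refine ⟨C, by rw [hC]; linarith, ?_⟩
  intro Λ _ P c d K ζ Rs t w Φ Ψ Gt Gw ρ H q Kn ω hp hsm hΦ hKn hΦn hω A hAG hPA r hrR hωr hqr hr1
  have hK := hp.K1
  have hK0 : 0 < K := lt_of_lt_of_le one_pos hK
  have hKn1 : 1 ≤ Kn := hK.trans hKn
  have hKn0 : 0 < Kn := lt_of_lt_of_le one_pos hKn1
  have hH0 := hp.H0
  have hq0 : 0 < q := lt_of_lt_of_le hp.nt.tm.z0 hp.ζq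
  have hr0 : 0 < r := lt_of_lt_of_le hq0 hqr
  obtain ⟨hτ, hτi, hτq⟩ := k5_pa_gap hp
  set Q := P.cnd A with hQ
  set Z : Λ → ℤ := fun l => k5_bin r (k5_J (m + 1) (Φ (m + 1)) (Φ m) (c l) t) with hZ
  set Sq : Λ → ℤ := fun l => k5_bin q (k5_S (Φ 0) (c l) t) with hSq
  set Sr : Λ → ℤ := fun l => k5_bin r (k5_S (Φ 0) (c l) t) with hSr
  set Bn : Λ → (Fin 3 → ℤ) × (Fin 2 → Fin j → ℤ) := fun l => k5_cbin r (c l) with hBn
  set O : Λ → ℤ × (Fin m → ℤ) × (Fin m → ℤ) := fun l => k5_obs m q t w Φ Ψ (c l) with hO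
  have hci := k5_common_info Q Z Sq Bn Sr
  have hlogK : 0 ≤ Real.log K := Real.log_nonneg hK
  have hlogKn : Real.log K ≤ Real.log Kn := Real.log_le_log hK0 hKn
  have hlogA : 0 ≤ Real.log (1 / P.pr A) :=
    Real.log_nonneg (by rw [le_div_iff₀ hPA]; simpa using ent_pr_le_one P A)
  -- (3)
  have h3 : Q.miC Sq Bn Sr ≤ Ci * (1 + Real.log K) + Real.log (1 / P.pr A) :=
    hCi Λ P c d K ζ Rs t (Φ 0) Gt hp.d0 hK hp.cb hp.nt.tm A (fun l hl => (hAG l hl).1) hPA q r hp.ζq hqr hr1 hrR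
  -- (2)
  have h2 : Q.entC Z Bn ≤ Real.log N + Real.log Kn := by
    have hΦm : ‖Φ m‖ ≤ Kn := (hp.nt.rb m le_rfl).trans hKn
    have e1 : Q.entC Z Bn ≤ Real.log ((3 + ((m + 1 : ℕ) + 2) * j * Kn) * r / r + 2) := by
      apply k5_entC_osc P A hPA Bn (fun l => k5_J (m + 1) (Φ (m + 1)) (Φ m) (c l) t) _ r hr0 (by positivity)
      intro l l' _ _ hB
      exact k5_pn_jet_cbin (m + 1) _ _ hr0 hp.nt.tm.t0 hp.nt.tm.t1 hΦn hΦm hB
    have e2 : (3 + (((m + 1 : ℕ) : ℝ) + 2) * j * Kn) * r / r + 2 ≤ N * Kn := by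
      rw [mul_div_assoc, div_self hr0.ne', mul_one, hN]
      push_cast
      calc 3 + ((m : ℝ) + 1 + 2) * j * Kn + 2 = 5 + (m + 3) * j * Kn := by ring
        _ ≤ 5 * Kn + (m + 3) * j * Kn := by linarith
        _ = (5 + (m + 3) * j) * Kn := by ring
    calc Q.entC Z Bn ≤ _ := e1
      _ ≤ Real.log (N * Kn) := Real.log_le_log (by positivity) e2
      _ = Real.log N + Real.log Kn := Real.log_mul (by linarith) hKn0.ne'
  -- (1)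
  have h1 : Q.entC Z Sq ≤ 2 * m * (cst * (1 + Real.log K + Real.log (1 / P.pr A))) + Real.log 6 + 2 := by
    have hobs := k5_pair_obs P c d K ζ Rs t w m Φ Ψ Gt Gw ρ cst H κ q hm hc hκ hκ1 hp hsm A hAG hPA
    have a1 : Q.entC Z Sq ≤ Q.entC (FLaw.pair O Z) Sq :=
      ent_entC_mono Q (FLaw.pair O Z) Z Sq (fun a b _ _ hab _ => (Prod.ext_iff.mp hab).2)
    have a2 : Q.entC (FLaw.pair O Z) Sq = Q.entC O Sq + Q.entC Z (FLaw.pair O Sq) := ent_entC_chain Q O Z Sq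
    have a3 : Q.entC Z (FLaw.pair O Sq) ≤ Q.entC Z O := ent_entC_pair_le Q Z O Sq
    have hω0 : 0 ≤ ω := le_trans (by positivity) hω
    have a4 : Q.entC Z O ≤ Real.log (ω / r + 2) := by
      apply k5_entC_osc P A hPA O (fun l => k5_J (m + 1) (Φ (m + 1)) (Φ m) (c l) t) ω r hr0 hω0
      intro l l' _ _ hOO
      exact k5_pn_osc hm hp hΦ hω l l' hOO
    have a5 : Real.log (ω / r + 2) ≤ 2 := by
      have hb : ω / r ≤ 1 := (div_le_one hr0).mpr hωr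
      have hb0 : 0 ≤ ω / r := div_nonneg hω0 hr0.le
      have := Real.log_le_sub_one_of_pos (show 0 < ω / r + 2 by linarith)
      linarith
    linarith
  have hlog6 : Real.log 6 ≤ 5 := by
    have := Real.log_le_sub_one_of_pos (show (0 : ℝ) < 6 by norm_num); linarith
  set U : ℝ := 1 + Real.log Kn + Real.log (1 / P.pr A) with hU
  have hU1 : 1 ≤ U := by rw [hU]; linarith
  have f1 : 2 * m * (cst * (1 + Real.log K + Real.log (1 / P.pr A))) ≤ 2 * m * cst * U := by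
    have : 1 + Real.log K + Real.log (1 / P.pr A) ≤ U := by rw [hU]; linarith
    have h' : 0 ≤ 2 * (m : ℝ) * cst := by positivity
    calc 2 * m * (cst * (1 + Real.log K + Real.log (1 / P.pr A)))
        = 2 * m * cst * (1 + Real.log K + Real.log (1 / P.pr A)) := by ring
      _ ≤ _ := mul_le_mul_of_nonneg_left this h'
  have f2 : Ci * (1 + Real.log K) ≤ Ci * U :=
    mul_le_mul_of_nonneg_left (by rw [hU]; linarith) (by linarith)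
  have f3 : Real.log (1 / P.pr A) + Real.log Kn ≤ U := by rw [hU]; linarith
  have f4 : Real.log N ≤ Real.log N * U := le_mul_of_one_le_right hlogN hU1
  have f5 : (7 : ℝ) ≤ 7 * U := by linarith
  calc Q.entC Z Sr ≤ Q.entC Z Bn + Q.entC Z Sq + Q.miC Sq Bn Sr := hci
    _ ≤ Real.log N * U + 2 * m * cst * U + Ci * U + 7 * U + U := by linarith
    _ ≤ C * U := by
      have : C * U = Real.log N * U + 2 * m * cst * U + Ci * U + 9 * U := by rw [hC]; ring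
      linarith

/-- **L-252-S5-P9a**  monotonicity of the one-time hypotheses.   PROOF: fieldwise; `ent_pr_mono` for the masses; `K ≤ K'` multiplies nonnegative quantities (`Real.rpow_nonneg`, `ent_pr_nonneg`; `q > 0` from `z0`). -/
theorem k5_tm_mono {Λ : Type} [Fintype Λ] (P : FLaw Λ) (c : Λ → k5_Co j) {d K K' ζ : ℝ} {Rs : Set ℝ} {t : ℝ}
    {f : Fin j → ℝ} {G G' : Set Λ} (h : k5_Tm j d K ζ Rs (k5_pm P) c t f G) (hK : K ≤ K') (hG : G' ⊆ G) :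
    k5_Tm j d K' ζ Rs (k5_pm P) c t f G' := by
  refine ⟨h.z0, h.t0, h.t1, h.fb.trans hK, fun q r a hq hqr hr1 => ?_, fun q a e hq hq1 => ?_, fun r hr q a e B hq hqr => ?_⟩
  · obtain ⟨Z, hZ, hZ2⟩ := h.supp q r a hq hqr hr1
    have hq0 : 0 < q := h.z0.trans_le hq
    have hr0 : 0 < r := hq0.trans_le hqr
    refine ⟨Z, hZ.trans ?_, fun l hl => hZ2 l (hG hl)⟩
    exact mul_le_mul_of_nonneg_right hK (Real.rpow_nonneg (by positivity) _)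
  · have hq0 : 0 < q := h.z0.trans_le hq
    calc k5_pm P {l | l ∈ G' ∧ k5_InQ q a e (c l) t} ≤ k5_pm P {l | l ∈ G ∧ k5_InQ q a e (c l) t} :=
          ent_pr_mono P fun l _ hl => ⟨hG hl.1, hl.2⟩
      _ ≤ K * q ^ ((j : ℝ) + d) := h.cap q a e hq hq1
      _ ≤ K' * q ^ ((j : ℝ) + d) := mul_le_mul_of_nonneg_right hK (Real.rpow_nonneg hq0.le _)
  · have hq0 : 0 < q := h.z0.trans_le hq
    have hr0 : 0 < r := hq0.trans_le hqr
    calc k5_pm P {l | l ∈ G' ∧ k5_cbin r (c l) = B ∧ k5_InQ q a e (c l) t}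
        ≤ k5_pm P {l | l ∈ G ∧ k5_cbin r (c l) = B ∧ k5_InQ q a e (c l) t} :=
          ent_pr_mono P fun l _ hl => ⟨hG hl.1, hl.2⟩
      _ ≤ K * (q / r) ^ ((j : ℝ) + d) * k5_pm P {l | k5_cbin r (c l) = B} := h.bcap r hr q a e B hq hqr
      _ ≤ K' * (q / r) ^ ((j : ℝ) + d) * k5_pm P {l | k5_cbin r (c l) = B} := by
          refine mul_le_mul_of_nonneg_right ?_ (ent_pr_nonneg P _)
          exact mul_le_mul_of_nonneg_right hK (Real.rpow_nonneg (by positivity) _)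

/-- the smallness hypothesis of `k5_pair_obs`, `k5_pair_new` from the one of the pair step -/
theorem k5_np_hsm {Λ : Type} [Fintype Λ] {P : FLaw Λ} {c : Λ → k5_Co j} {d K ζ : ℝ} {Rs : Set ℝ} {t w : ℝ} {m : ℕ}
    {Φ Ψ : ℕ → Fin j → ℝ} {Gt Gw : Set Λ} {ρ cst H κ q B C : ℝ}
    (hp : k5_Pair P c d K ζ Rs t w m Φ Ψ Gt Gw ρ cst H κ q) (hBK : K ≤ B) (hC_j : 2 * (1 + 3 * (j : ℝ)) ≤ C)
    (hC_2 : 2 ≤ C) (hsm : C * B ^ C * H ^ (κ / 2) ≤ 1) :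
    (1 + 3 * (j : ℝ)) * K ^ 2 * H ^ (1 + κ) ≤ q := by
  have hK := hp.K1
  have hK0 : 0 < K := lt_of_lt_of_le one_pos hK
  have hH0 := hp.H0
  have hB1 : 1 ≤ B := hK.trans hBK
  have hh20 : 0 < H ^ (κ / 2) := Real.rpow_pos_of_pos hH0 _
  have e1 : H ^ (1 + κ) = H ^ (1 + κ / 2) * H ^ (κ / 2) := by
    rw [← Real.rpow_add hH0]; congr 1; ring
  have e2 : K ^ 2 ≤ B ^ (2 : ℝ) := by
    rw [Real.rpow_two]; exact pow_le_pow_left₀ hK0.le hBK 2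
  have e3 : 2 * (1 + 3 * (j : ℝ)) * K ^ 2 ≤ C * B ^ C :=
    le_trans (mul_le_mul_of_nonneg_left e2 (by positivity)) (k5_pa_cst_le hB1 (by positivity) hC_j hC_2)
  have e4 : 2 * (1 + 3 * (j : ℝ)) * K ^ 2 * H ^ (κ / 2) ≤ 1 :=
    le_trans (mul_le_mul_of_nonneg_right e3 hh20.le) hsm
  have e5 : 0 ≤ H ^ (1 + κ / 2) / 2 := by positivity
  calc (1 + 3 * (j : ℝ)) * K ^ 2 * H ^ (1 + κ)
      = (2 * (1 + 3 * (j : ℝ)) * K ^ 2 * H ^ (κ / 2)) * (H ^ (1 + κ / 2) / 2) := by rw [e1]; ring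
    _ ≤ 1 * (H ^ (1 + κ / 2) / 2) := mul_le_mul_of_nonneg_right e4 e5
    _ ≤ q := by rw [one_mul]; exact hp.qlo

/-- arithmetic of the new reading -/
theorem k5_np_arith (K B Cl h2 H n1 n2 m j : ℝ) (hK : 1 ≤ K) (hBK : K ≤ B) (hCl : 1 ≤ Cl) (hh : 0 ≤ h2) (hH0 : 0 ≤ H)
    (hH : H ≤ h2) (hm0 : 0 ≤ m) (hj0 : 0 ≤ j) (hn10 : 0 ≤ n1) (hn20 : 0 ≤ n2) (hn1 : n1 ≤ Cl * B ^ Cl)
    (hn2 : n2 ≤ Cl * B ^ Cl * h2) :
    2 * K * h2 + 2 * j * K * n1 * H + 2 * j * m * K * n2 ≤ ((2 + 2 * j + 2 * j * m) * Cl) * B ^ (Cl + 1) * h2 := by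
  have hK0 : 0 < K := lt_of_lt_of_le one_pos hK
  have hB1 : 1 ≤ B := hK.trans hBK
  have hB0 : 0 < B := lt_of_lt_of_le one_pos hB1
  have hBC : 1 ≤ B ^ Cl := Real.one_le_rpow hB1 (by linarith)
  set D : ℝ := Cl * B ^ Cl with hD
  have hD1 : 1 ≤ D := by rw [hD]; nlinarith
  have e : B ^ (Cl + 1) = B ^ Cl * B := by rw [Real.rpow_add hB0, Real.rpow_one]
  have hT : 0 ≤ D * B * h2 := by positivity
  have u0 : K * h2 ≤ D * B * h2 := by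
    apply mul_le_mul_of_nonneg_right _ hh
    nlinarith
  have u1 : K * n1 * H ≤ D * B * h2 := by
    calc K * n1 * H ≤ B * D * h2 := mul_le_mul (mul_le_mul hBK hn1 hn10 hB0.le) hH hH0 (by positivity)
      _ = _ := by ring
  have u2 : K * n2 ≤ D * B * h2 := by
    calc K * n2 ≤ B * (D * h2) := mul_le_mul hBK hn2 hn20 hB0.le
      _ = _ := by ring
  calc 2 * K * h2 + 2 * j * K * n1 * H + 2 * j * m * K * n2
      = 2 * (K * h2) + 2 * j * (K * n1 * H) + 2 * j * m * (K * n2) := by ring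
    _ ≤ 2 * (D * B * h2) + 2 * j * (D * B * h2) + 2 * j * m * (D * B * h2) := by
        have a1 := mul_le_mul_of_nonneg_left u1 (show 0 ≤ 2 * j by positivity)
        have a2 := mul_le_mul_of_nonneg_left u2 (show 0 ≤ 2 * j * m by positivity)
        linarith
    _ = _ := by rw [e, hD]; ring

/-- **L-252-S5-P9**  **one pair step** (05 l.911-1013).   Two nodes of order `m` at the times `t`, `w`, `H / K ≤ |w - t| ≤ H`, Taylor estimate with gain `κ`, child readings available at `q ≈ H^(1+κ/2)`,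
`s ≤ P(G_t ∩ G_w)`.   If `(K/s)^C H^(κ/2) ≤ 1` then the divided difference `Φ (m+1) = (Ψ m - Φ m)/(w - t)` is bounded by `K' = C (K/s)^C` and `(t, Φ, G_t ∩ G_w)` is a node of order `m+1` with constant `K'`
and readings `r ≥ K' H^(κ/2)`.
PROOF (assembly).  `hp : k5_Pair …` from the hypotheses.   `C` large (max of the constants of `k5_pair_loop`, `k5_pair_new`, and `cst`).   `K' := C (K/s)^C ≥ K`.   `tm` : `k5_tm_mono`.   `rb` : `i ≤ m` from `nt.rb`, `i = m + 1` from `k5_pair_loop` at `i = m` and `hΦ`.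
`her` : `i ≤ m` : `nt.her` (`A ⊆ Gt`; `ρ ≤ q ≤ H^(κ/2) ≤ ρ'`; `cst (1 + log K + ..) ≤ C (1 + log K' + ..)`);   `i = m + 1` : `k5_pair_new` with `Kn := K'`, `ω := ρ'` (bounds of `k5_pair_loop` at `i = m`; `H ≤ H^(κ/2)`).   ~200 l. -/
theorem k5_node_pair (j m : ℕ) (cst κ : ℝ) (hm : 1 ≤ m) (hc : 1 ≤ cst) (hκ : 0 < κ) (hκ1 : κ ≤ 1) :
    ∃ C : ℝ, 1 ≤ C ∧ ∀ (Λ : Type) [Fintype Λ] (P : FLaw Λ) (c : Λ → k5_Co j) (d K ζ : ℝ) (Rs : Set ℝ) (t w : ℝ)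
      (Φ Ψ : ℕ → Fin j → ℝ) (Gt Gw : Set Λ) (ρ H q s : ℝ), 0 ≤ d → 1 ≤ K → (∀ l, ‖c l‖ ≤ K) →
      k5_Node P c d K ζ Rs t m Φ Gt ρ cst → k5_Node P c d K ζ Rs w m Ψ Gw ρ cst →
      0 < H → H ≤ 1 → H / K ≤ |w - t| → |w - t| ≤ H →
      ‖Ψ 0 - Φ 0 - (w - t) • Φ 1‖ ≤ K * H ^ (1 + κ) →
      Φ (m + 1) = (w - t)⁻¹ • (Ψ m - Φ m) →
      q ∈ Rs → ρ ≤ q → ζ ≤ q → H ^ (1 + κ / 2) / 2 ≤ q → q ≤ H ^ (1 + κ / 2) →
      0 < s → s ≤ P.pr (fun l => l ∈ Gt ∧ l ∈ Gw) → C * (K / s) ^ C * H ^ (κ / 2) ≤ 1 →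
      k5_Node P c d (C * (K / s) ^ C) ζ Rs t (m + 1) Φ (Gt ∩ Gw) (C * (K / s) ^ C * H ^ (κ / 2)) C := by
  obtain ⟨Cl, hCl1, hCl⟩ := k5_pair_loop j m cst κ hm hc hκ hκ1
  obtain ⟨Cn, hCn1, hCn⟩ := k5_pair_new j m cst κ hm hc hκ hκ1
  have hm0 : (0 : ℝ) ≤ m := Nat.cast_nonneg m
  have hj0 : (0 : ℝ) ≤ j := Nat.cast_nonneg j
  have hjm : 0 ≤ 2 * (j : ℝ) * m := by positivity
  set N : ℝ := 2 + 2 * j + 2 * j * m with hN
  have hN2 : 2 ≤ N := by rw [hN]; linarith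
  have hNCl : 2 * Cl ≤ N * Cl := mul_le_mul_of_nonneg_right hN2 (by linarith)
  set C : ℝ := N * Cl + Cn + cst + 2 * (1 + 3 * j) + 2 with hC
  have hC_l : N * Cl ≤ C := by rw [hC]; linarith
  have hC_l1 : Cl + 1 ≤ C := by rw [hC]; linarith
  have hC_n : Cn ≤ C := by rw [hC]; linarith
  have hC_c : cst ≤ C := by rw [hC]; linarith
  have hC_j : 2 * (1 + 3 * (j : ℝ)) ≤ C := by rw [hC]; linarith
  have hC_2 : 2 ≤ C := by rw [hC]; linarith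
  refine ⟨C, by linarith, ?_⟩
  intro Λ _ P c d K ζ Rs t w Φ Ψ Gt Gw ρ H q s hd hK hcb nt nw hH0 hH1 hgap hnear htay hΦ hqR hρq hζq hqlo hqhi hs hsP hsm
  have hp : k5_Pair P c d K ζ Rs t w m Φ Ψ Gt Gw ρ cst H κ q :=
    ⟨hd, hK, hcb, nt, nw, hH0, hH1, hgap, hnear, htay, hqR, hρq, hζq, hqlo, hqhi⟩
  have hs1 : s ≤ 1 := hsP.trans (ent_pr_le_one P _)
  have hK0 : 0 < K := lt_of_lt_of_le one_pos hK
  set B : ℝ := K / s with hB
  have hBK : K ≤ B := by rw [hB, le_div_iff₀ hs]; nlinarith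
  have hB1 : 1 ≤ B := hK.trans hBK
  have hB0 : 0 < B := lt_of_lt_of_le one_pos hB1
  set h2 : ℝ := H ^ (κ / 2) with hh2
  have hh20 : 0 < h2 := Real.rpow_pos_of_pos hH0 _
  have hqh : q ≤ h2 := hqhi.trans (Real.rpow_le_rpow_of_exponent_ge hH0 hH1 (by linarith))
  have hHh : H ≤ h2 := by
    have := Real.rpow_le_rpow_of_exponent_ge hH0 hH1 (show κ / 2 ≤ 1 by linarith)
    rwa [Real.rpow_one] at this
  set K' : ℝ := C * B ^ C with hK'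
  have hKK' : K ≤ K' := by
    have := k5_pa_cst_le (a₁ := 1) hB1 zero_le_one (show (1 : ℝ) ≤ C by linarith) (show (1 : ℝ) ≤ C by linarith)
    rw [Real.rpow_one, one_mul] at this
    exact hBK.trans this
  have hK'1 : 1 ≤ K' := hK.trans hKK'
  have hsml : Cl * B ^ Cl * h2 ≤ 1 :=
    le_trans (mul_le_mul_of_nonneg_right (k5_pa_cst_le hB1 (by linarith) (by linarith) (by linarith)) hh20.le) hsm
  have hloop := hCl Λ P c d K ζ Rs t w Φ Ψ Gt Gw ρ H q s hp hs hsP hsml m hm le_rfl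
  have hlK' : Cl * B ^ Cl ≤ K' := k5_pa_cst_le hB1 (by linarith) (by linarith) (by linarith)
  have hh2ρ : h2 ≤ K' * h2 := le_mul_of_one_le_left hh20.le hK'1
  refine ⟨k5_tm_mono P c nt.tm hKK' Set.inter_subset_left, ?_, ?_⟩
  · intro i hi
    rcases Nat.lt_or_ge i (m + 1) with h | h
    · exact (nt.rb i (by omega)).trans hKK'
    · have : i = m + 1 := by omega
      rw [this, hΦ]
      exact hloop.2.trans hlK'
  · intro A hAG hPA i hi1 him r hrR hρr hr1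
    have hlogA : 0 ≤ Real.log (1 / P.pr A) :=
      Real.log_nonneg (by rw [le_div_iff₀ hPA]; simpa using ent_pr_le_one P A)
    have hlogK : 0 ≤ Real.log K := Real.log_nonneg hK
    have hlogKK : Real.log K ≤ Real.log K' := Real.log_le_log hK0 hKK'
    rcases Nat.lt_or_ge i (m + 1) with h | h
    · have h1 := nt.her A (fun l hl => (hAG l hl).1) hPA i hi1 (by omega) r hrR
        (by linarith) hr1
      refine h1.trans ?_
      exact mul_le_mul hC_c (by linarith) (by linarith) (by linarith)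
    · have hi : i = m + 1 := by omega
      subst hi
      simp only [Nat.add_sub_cancel]
      have hsm1 := k5_np_hsm hp hBK hC_j hC_2 hsm
      have hω : 2 * K * H ^ (κ / 2) + 2 * j * K * ‖(w - t)⁻¹ • (Ψ m - Φ m)‖ * H
          + 2 * j * m * K * ‖(w - t)⁻¹ • (Ψ (m - 1) - Φ (m - 1)) - Φ m‖ ≤ K' * h2 := by
        have a := k5_np_arith K B Cl h2 H _ _ m j hK hBK hCl1 hh20.le hH0.le hHh hm0 hj0 (norm_nonneg _) (norm_nonneg _)
          hloop.2 hloop.1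
        refine a.trans (mul_le_mul_of_nonneg_right ?_ hh20.le)
        exact k5_pa_cst_le hB1 (by positivity) hC_l hC_l1
      have hΦn : ‖Φ (m + 1)‖ ≤ K' := by rw [hΦ]; exact hloop.2.trans hlK'
      have h1 := hCn Λ P c d K ζ Rs t w Φ Ψ Gt Gw ρ H q K' (K' * h2) hp hsm1 hΦ hKK' hΦn hω A
        (fun l hl => hAG l hl) hPA r hrR hρr (by linarith) hr1
      refine h1.trans ?_
      exact mul_le_mul_of_nonneg_right hC_n (by linarith)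


end Claimed.Agent.R252
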